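import Vale.Agent.P011Z.Cl.SpecF
import Vale.Agent.P011Z.FinDefs
import Vale.Agent.P011.H925.Full.DefsA
import Mathlib.LinearAlgebra.Matrix.SpecialLinearGroup

/-!
The rank, the places, and the forms of the special linear groups given by Galois descent.
-/

open TensorProduct Matrix

namespace Vale.Agent.P011Z.Cl

open Vale.Agent.P011.H925.Full (Kv)

/-- The group `H` of points over `L`, embedded in the vector space `M`, has rank zero: every
homomorphism from the multiplicative group which is given by Laurent polynomials is trivial. -/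
def Rk0 (L : Type) {H M : Type} [CommRing L] [Group H] [AddCommMonoid M] [Module L M]
    (j : H → M) : Prop :=
  ∀ (c : Lˣ →* H) (s : Finset ℤ) (e : ℤ → M), (∀ t, j (c t) = ∑ m ∈ s, (t ^ m).1 • e m) → c = 1

/-- Every noncentral normal subgroup is the whole group. -/
def Prj (G : Type) [Group G] : Prop :=
  ∀ N : Subgroup G, N.Normal → ¬ N ≤ Subgroup.center G → N = ⊤

/-- Global fields: number fields and finite extensions of the field of rational functions in one
variable over a finite field. -/
def Glob (k : Type) [Field k] : Prop :=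
  NumberField k ∨ ∃ (E : Type) (_ : Field E) (_ : Finite E) (_ : Algebra (RatFunc E) k),
    FiniteDimensional (RatFunc E) k

/-- The nonarchimedean places, given by their normalized absolute values: the finite set `S`
represents the residue classes, and the nonzero absolute values are the integral powers of the
number of its elements. -/
structure Pl (k : Type) [Field k] where
  abv : AbsoluteValue k ℝ
  nonarch : ∀ x y, abv (x + y) ≤ max (abv x) (abv y)
  normalized : ∃ S : Finset k, (∀ s ∈ S, abv s ≤ 1) ∧
    (∀ x, abv x ≤ 1 → ∃! s, s ∈ S ∧ abv (x - s) < 1) ∧ (∃ x, abv x = S.card) ∧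
    ∀ x, x ≠ 0 → ∃ m : ℤ, abv x = S.card ^ m

variable {n : ℕ}

/-- The matrix `h` is `a r(g) a⁻¹`, or `a r(g)⁻¹ᵀ a⁻¹` if `o` holds. -/
def Rel {R : Type} [CommRing R] (o : Prop) (a : Matrix (Fin n) (Fin n) R) (r : R → R)
    (g h : Matrix (Fin n) (Fin n) R) : Prop :=
  (¬ o → h * a = a * g.map r) ∧ (o → h * a * (g.map r)ᵀ = a)

variable {k F : Type} [Field k] [Field F] [Algebra k F]
  (a : (F ≃ₐ[k] F) → Matrix (Fin n) (Fin n) F) (o : (F ≃ₐ[k] F) → Prop)

/-- The action defines an outer form of the special linear group. -/
def FormA (θ : (F ≃ₐ[k] F) →* MulAut (SpecialLinearGroup (Fin n) F)) : Prop :=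
  (∀ σ, (a σ).det ≠ 0 ∧ ∀ g, Rel (o σ) (a σ) σ g.1 (θ σ g).1) ∧ ∃ σ, o σ

/-- The group of the points of the form over the extension `L` of `k`. -/
def GA (L : Type) [CommRing L] [Algebra k L] : Type :=
  Subgroup.closure {g : SpecialLinearGroup (Fin n) (L ⊗[k] F) |
    ∀ σ, Rel (o σ) ((a σ).map (1 ⊗ₜ ·)) (σ.toLinearMap.lTensor L) g.1 g.1}

noncomputable instance (L : Type) [CommRing L] [Algebra k L] : Group (GA a o L) :=
  Subgroup.toGroup _

/-- The topology of a subspace of the vector space of the matrices. -/
noncomputable instance (L : Type) [CommRing L] [Algebra k L] [TopologicalSpace L] :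
    TopologicalSpace (GA a o L) :=
  .induced (fun g => g.1.1) (moduleTopology L (Matrix (Fin n) (Fin n) (L ⊗[k] F)))

/-- The group `H_A`: the product of the groups of points over the completions at the
nonarchimedean places where the rank is zero. -/
def HG : Type :=
  ∀ v : {v : Pl k // Rk0 (Kv v.abv) fun g : GA a o (Kv v.abv) => g.1.1}, GA a o (Kv v.1.abv)

noncomputable instance : Group (HG a o) := Pi.group

noncomputable instance : TopologicalSpace (HG a o) := Pi.topologicalSpace

end Vale.Agent.P011Z.Cl
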