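import Mathlib
import Vale.Agent.P011Z.Cl.SpecG
import Vale.Agent.P011Z.OutDefs

/-!
Forms of the special linear groups: block A0.
-/

open TensorProduct Matrix Module

noncomputable section

namespace Vale.Agent.P011Z.Cl

open Vale.Agent.P011.H925.Full (Kv GP GK SU Div)

variable {n : ℕ} {k F : Type} [Field k] [Field F] [Algebra k F]
  (a : (F ≃ₐ[k] F) → Matrix (Fin n) (Fin n) F) (o : (F ≃ₐ[k] F) → Prop)

open Classical in
/-- The action on the matrices, by automorphisms and antiautomorphisms. -/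
def thA (σ : F ≃ₐ[k] F) (x : Matrix (Fin n) (Fin n) F) : Matrix (Fin n) (Fin n) F :=
  if o σ then a σ * (x.map σ)ᵀ * (a σ)⁻¹ else a σ * x.map σ * (a σ)⁻¹

/-- The algebra with involution of an outer form. -/
structure Pk {K A : Type} [Field K] [Algebra k K] [StarRing K] [Ring A] [StarRing A] [Algebra k A]
    [Algebra K A] [Algebra K F] (f : A →ₐ[K] Matrix (Fin n) (Fin n) F)
    (P : Matrix (Fin n) (Fin n) F →ₗ[k] A) : Prop where
  fixed : ∀ x : K, star x = x ↔ x ∈ Set.range (algebraMap k K)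
  star_ne : ∃ x : K, star x ≠ x
  central : Algebra.IsCentral K A
  simple : IsSimpleRing A
  rank : finrank K A = n ^ 2
  inj : Function.Injective f
  det : ∀ σ, (a σ).det ≠ 0
  ex : ∃ σ, o σ
  inn : ∀ σ, ¬ o σ → ∀ x, f x * a σ = a σ * (f x).map σ
  dua : ∀ σ, o σ → ∀ x, f (star x) * a σ = a σ * ((f x).map σ)ᵀ
  avg : ∃ (b : F) (S : Finset (F ≃ₐ[k] F)), (∀ σ, σ ∈ S ↔ ¬ o σ) ∧ ∑ σ ∈ S, σ b = 1 ∧
    ∀ y, f (P y) = ∑ σ ∈ S, a σ * (b • y).map σ * (a σ)⁻¹

variable {a o}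

theorem Rel.mul {R : Type} [CommRing R] {o : Prop} {a g g' h h' : Matrix (Fin n) (Fin n) R}
    {r : R →+* R} (h1 : Rel o a r g h) (h2 : Rel o a r g' h') : Rel o a r (g * g') (h * h') := by
  refine ⟨fun ho => ?_, fun ho => ?_⟩
  · rw [Matrix.mul_assoc, h2.1 ho, ← Matrix.mul_assoc, h1.1 ho, Matrix.map_mul, Matrix.mul_assoc]
  · rw [Matrix.map_mul, Matrix.transpose_mul]
    calc _ = h * (h' * a * (g'.map r)ᵀ) * (g.map r)ᵀ := by simp only [Matrix.mul_assoc]
      _ = a := by rw [h2.2 ho, h1.2 ho]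

theorem Rel.one {R : Type} [CommRing R] {o : Prop} {a : Matrix (Fin n) (Fin n) R} {r : R →+* R} :
    Rel o a r 1 1 := by
  refine ⟨fun _ => ?_, fun _ => ?_⟩ <;> simp

theorem Rel.inv {R : Type} [CommRing R] {o : Prop} {a g g' h h' : Matrix (Fin n) (Fin n) R}
    {r : R →+* R} (h1 : Rel o a r g h) (hg : g * g' = 1) (hh : h' * h = 1) : Rel o a r g' h' := by
  have h0 : g.map r * g'.map r = 1 := by rw [← Matrix.map_mul, hg]; simp
  refine ⟨fun ho => ?_, fun ho => ?_⟩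
  · calc _ = h' * (a * g.map r) * g'.map r := by
          rw [Matrix.mul_assoc, Matrix.mul_assoc, h0, Matrix.mul_one]
      _ = _ := by rw [← h1.1 ho, ← Matrix.mul_assoc, hh, Matrix.one_mul]
  · have h3 : (g.map r)ᵀ * (g'.map r)ᵀ = 1 := by
      rw [← Matrix.transpose_mul, mul_eq_one_comm.1 h0, Matrix.transpose_one]
    calc _ = h' * (h * a * (g.map r)ᵀ) * (g'.map r)ᵀ := by rw [h1.2 ho]
      _ = (h' * h) * a * ((g.map r)ᵀ * (g'.map r)ᵀ) := by simp only [Matrix.mul_assoc]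
      _ = a := by rw [hh, h3, Matrix.one_mul, Matrix.mul_one]

/-- The extension of an automorphism as a ring homomorphism. -/
def exL (L : Type) [CommRing L] [Algebra k L] (σ : F ≃ₐ[k] F) : L ⊗[k] F →+* L ⊗[k] F :=
  (Algebra.TensorProduct.map (AlgHom.id k L) (σ : F →ₐ[k] F)).toRingHom

theorem exL_eq (L : Type) [CommRing L] [Algebra k L] (σ : F ≃ₐ[k] F) :
    (σ.toLinearMap.lTensor L : L ⊗[k] F → L ⊗[k] F) = exL L σ := rfl

theorem GA.rel {L : Type} [CommRing L] [Algebra k L] (g : GA a o L) (σ : F ≃ₐ[k] F) :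
    Rel (o σ) ((a σ).map (1 ⊗ₜ ·)) (exL L σ) g.1.1 g.1.1 := by
  obtain ⟨g, hg⟩ := g
  induction hg using Subgroup.closure_induction with
  | mem x hx => exact hx σ
  | one => exact Rel.one
  | mul x y _ _ hx hy => exact hx.mul hy
  | inv x _ hx =>
    exact hx.inv (congrArg Subtype.val (mul_inv_cancel x)) (congrArg Subtype.val (inv_mul_cancel x))

end Vale.Agent.P011Z.Cl

end
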