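import Vale.Agent.P011Z.Cl.A0

/-!
Forms of the special linear groups: block A1.
-/

open TensorProduct Matrix Module

noncomputable section

namespace Vale.Agent.P011Z.Cl

open Vale.Agent.P011.H925.Full (Kv GP GK SU Div)

variable {n : ℕ} {k F : Type} [Field k] [Field F] [Algebra k F]
  {a : (F ≃ₐ[k] F) → Matrix (Fin n) (Fin n) F} {o : (F ≃ₐ[k] F) → Prop}
  {θ : (F ≃ₐ[k] F) →* MulAut (SpecialLinearGroup (Fin n) F)}

namespace A1x

/-- The action as an additive map. -/
def T (a : (F ≃ₐ[k] F) → Matrix (Fin n) (Fin n) F) (o : (F ≃ₐ[k] F) → Prop) (σ : F ≃ₐ[k] F) :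
    Matrix (Fin n) (Fin n) F →+ Matrix (Fin n) (Fin n) F :=
  AddMonoidHom.mk' (thA a o σ) fun x y => by
    unfold thA
    split_ifs <;> simp only [Matrix.map_add _ (map_add σ), transpose_add, mul_add, add_mul]

variable {σ τ : F ≃ₐ[k] F}

theorem T_one (hd : (a σ).det ≠ 0) : T a o σ 1 = 1 := by
  change thA a o σ 1 = 1
  unfold thA
  split_ifs <;> simp [Matrix.mul_nonsing_inv _ hd.isUnit]

theorem T_mul (hd : (a σ).det ≠ 0) (x y : Matrix (Fin n) (Fin n) F) :
    (¬ o σ → T a o σ (x * y) = T a o σ x * T a o σ y) ∧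
      (o σ → T a o σ (x * y) = T a o σ y * T a o σ x) := by
  refine ⟨fun h => ?_, fun h => ?_⟩
  · change thA a o σ _ = thA a o σ _ * thA a o σ _
    simp only [thA, if_neg h, Matrix.map_mul, Matrix.mul_assoc,
      Matrix.nonsing_inv_mul_cancel_left _ _ hd.isUnit]
  · change thA a o σ _ = thA a o σ _ * thA a o σ _
    simp only [thA, if_pos h, Matrix.map_mul, Matrix.transpose_mul, Matrix.mul_assoc,
      Matrix.nonsing_inv_mul_cancel_left _ _ hd.isUnit]

theorem T_inj (hd : (a σ).det ≠ 0) : Function.Injective (T a o σ) := fun x y e => by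
  have h1 : ∀ u v : Matrix (Fin n) (Fin n) F, a σ * u * (a σ)⁻¹ = a σ * v * (a σ)⁻¹ → u = v :=
    fun u v e => by
      have := congrArg (fun z => (a σ)⁻¹ * (z * a σ)) e
      simpa only [Matrix.nonsing_inv_mul_cancel_right _ _ hd.isUnit,
        Matrix.nonsing_inv_mul_cancel_left _ _ hd.isUnit] using this
  have h2 : thA a o σ x = thA a o σ y := e
  unfold thA at h2
  split_ifs at h2
  · exact Matrix.map_injective σ.injective (transpose_injective (h1 _ _ h2))
  · exact Matrix.map_injective σ.injective (h1 _ _ h2)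

theorem T_sl (h : FormA a o θ) (σ : F ≃ₐ[k] F) (g : SpecialLinearGroup (Fin n) F) :
    (¬ o σ → T a o σ g.1 = (θ σ g).1) ∧ (o σ → T a o σ g.1 = (θ σ g⁻¹).1) := by
  obtain ⟨hd, h1⟩ := h.1 σ
  refine ⟨fun c => ?_, fun c => ?_⟩
  · change thA a o σ _ = _
    rw [thA, if_neg c, ← (h1 g).1 c, Matrix.mul_nonsing_inv_cancel_right _ _ hd.isUnit]
  · have h2 : (θ σ g).1 * T a o σ g.1 = 1 := by
      change _ * thA a o σ _ = _
      rw [thA, if_pos c, ← Matrix.mul_assoc, ← Matrix.mul_assoc, (h1 g).2 c,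
        Matrix.mul_nonsing_inv _ hd.isUnit]
    have h3 : (θ σ g⁻¹).1 * (θ σ g).1 = 1 := by
      rw [map_inv]
      exact congrArg Subtype.val (inv_mul_cancel (θ σ g))
    rw [← one_mul (T a o σ g.1), ← h3, mul_assoc, h2, mul_one]

/-- The transvections. -/
def tv {i j : Fin n} (h : i ≠ j) (t : F) : SpecialLinearGroup (Fin n) F :=
  ⟨1 + single i j t, det_transvection_of_ne i j h t⟩

theorem tv_inv {i j : Fin n} (h : i ≠ j) (t : F) : ((tv h t)⁻¹).1 = 1 - single i j t := by
  have : tv h t * tv h (-t) = 1 := Subtype.ext (by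
    change transvection i j t * transvection i j (-t) = 1
    rw [transvection_mul_transvection_same i j h, add_neg_cancel, transvection_zero])
  rw [inv_eq_of_mul_eq_one_right this, sub_eq_add_neg]
  exact congrArg (1 + ·) (single_neg i j t).symm

theorem TT (h : FormA a o θ) (σ τ : F ≃ₐ[k] F) (g : SpecialLinearGroup (Fin n) F) :
    ((o (σ * τ) ↔ ¬ (o σ ↔ o τ)) → T a o σ (T a o τ g.1) = T a o (σ * τ) g.1) ∧
      (¬ (o (σ * τ) ↔ ¬ (o σ ↔ o τ)) → T a o σ (T a o τ g.1) = T a o (σ * τ) (g⁻¹).1) := by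
  have e : ∀ g, θ (σ * τ) g = θ σ (θ τ g) := fun g => by rw [map_mul, MulAut.mul_apply]
  by_cases c1 : o σ <;> by_cases c2 : o τ <;> by_cases c3 : o (σ * τ) <;>
    simp only [c1, c2, c3, (T_sl h σ _).1, (T_sl h σ _).2, (T_sl h τ _).1, (T_sl h τ _).2,
      (T_sl h (σ * τ) _).1, (T_sl h (σ * τ) _).2, e, not_false_iff, map_inv, inv_inv, iff_self,
      not_true, iff_false, iff_true, false_imp_iff, imp_self, and_self]

end A1x

open A1x in
/-- The action on the matrices. -/
theorem FormA.act (hn : 3 ≤ n) (h : FormA a o θ) : (∀ σ τ, o (σ * τ) ↔ ¬ (o σ ↔ o τ)) ∧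
    (∀ σ τ x, thA a o σ (thA a o τ x) = thA a o (σ * τ) x) ∧ ∀ x, thA a o 1 x = x := by
  have hd := fun σ => (h.1 σ).1
  have h1 : ∀ σ τ, o (σ * τ) ↔ ¬ (o σ ↔ o τ) := fun σ τ => by
    by_contra c
    have k : ∀ i j : Fin n, i ≠ j →
        T a o σ (T a o τ (single i j 1)) = -T a o (σ * τ) (single i j 1) := fun i j e => by
      have h2 := (TT h σ τ (tv e 1)).2 c
      rw [tv_inv, tv, map_add, map_add, map_sub, T_one (hd _), T_one (hd _), T_one (hd _),
        sub_eq_add_neg] at h2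
      exact add_left_cancel h2
    obtain ⟨i, j, l, a1, a2, a3⟩ : ∃ i j l : Fin n, i ≠ j ∧ j ≠ l ∧ i ≠ l :=
      ⟨⟨0, by omega⟩, ⟨1, by omega⟩, ⟨2, by omega⟩, by simp, by simp, by simp⟩
    have h2 : T a o σ (T a o τ (single i j 1 * single j l 1)) =
        T a o (σ * τ) (single j l 1 * single i j 1) := by
      by_cases c1 : o σ <;> by_cases c2 : o τ <;> by_cases c3 : o (σ * τ) <;>
        simp only [c1, c2, c3, iff_self, not_true, not_false_iff, iff_false, iff_true] at c <;>
        simp only [c1, c2, c3, (T_mul (hd σ) _ _).1, (T_mul (hd σ) _ _).2, (T_mul (hd τ) _ _).1,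
          (T_mul (hd τ) _ _).2, (T_mul (hd (σ * τ)) _ _).1, (T_mul (hd (σ * τ)) _ _).2,
          not_false_iff, k i j a1, k j l a2, neg_mul_neg]
    rw [single_mul_single_of_ne (h := a3.symm), map_zero, single_mul_single_same, mul_one,
      map_eq_zero_iff _ (T_inj (hd _)), map_eq_zero_iff _ (T_inj (hd _))] at h2
    simpa using congrFun (congrFun h2 i) l
  have h2 : ∀ σ τ x, thA a o σ (thA a o τ x) = thA a o (σ * τ) x := fun σ τ x => by
    let D := (T a o σ).comp (T a o τ) - T a o (σ * τ)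
    have k : ∀ g : SpecialLinearGroup (Fin n) F, D g.1 = 0 := fun g =>
      sub_eq_zero.2 ((TT h σ τ g).1 (h1 σ τ))
    have k1 : D 1 = 0 := k 1
    have k2 : ∀ i j t, i ≠ j → D (single i j t) = 0 := fun i j t e => by
      have := k (tv e t)
      rwa [tv, map_add, k1, zero_add] at this
    refine sub_eq_zero.1 (show D x = 0 from ?_)
    rw [matrix_eq_sum_single x, map_sum]
    refine Finset.sum_eq_zero fun i _ => ?_
    rw [map_sum]
    refine Finset.sum_eq_zero fun j _ => ?_
    by_cases e : i = j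
    · subst e
      have : Nontrivial (Fin n) := Fin.nontrivial_iff_two_le.2 (by omega)
      obtain ⟨j, e⟩ := exists_ne i
      have h3 := k (tv e.symm (x i i) * tv e 1)
      rwa [Matrix.SpecialLinearGroup.coe_mul, tv, tv, add_mul, mul_add, mul_add, one_mul, one_mul, mul_one, single_mul_single_same, mul_one,
        map_add, map_add, map_add, k1, k2 _ _ _ e, k2 _ _ _ e.symm, zero_add, zero_add,
        zero_add] at h3
    · exact k2 _ _ _ e
  exact ⟨h1, h2, fun x => T_inj (o := o) (hd 1) ((h2 1 1 x).trans (by rw [mul_one]; rfl))⟩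

end Vale.Agent.P011Z.Cl

end
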