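import Vale.Agent.P011Z.Cl.A1
import Vale.Agent.P011Z.Cl.A2.A

/-!
Forms of the special linear groups: block A2.
-/

open TensorProduct Matrix Module

noncomputable section

namespace Vale.Agent.P011Z.Cl

open Vale.Agent.P011.H925.Full (Kv GP GK SU Div)

variable {n : ℕ} {k F : Type} [Field k] [Field F] [Algebra k F]
  {a : (F ≃ₐ[k] F) → Matrix (Fin n) (Fin n) F} {o : (F ≃ₐ[k] F) → Prop}
  {θ : (F ≃ₐ[k] F) →* MulAut (SpecialLinearGroup (Fin n) F)}

namespace A2x.Ac

variable (h : Ac a o) {s : F ≃ₐ[k] F} (hs : o s)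
include h hs

theorem sq : ¬ o (s * s) := fun h1 => (h.par s s).1 h1 Iff.rfl

theorem app_eq {σ : F ≃ₐ[k] F} (hσ : o σ) {x : F} (hx : x ∈ h.KK) : σ x = s x := by
  rw [← mul_inv_cancel_left s σ, AlgEquiv.mul_apply, h.mem_KK.1 hx _ (h.quo hs hσ)]

theorem th_eq {σ : F ≃ₐ[k] F} (hσ : o σ) {x : Matrix (Fin n) (Fin n) F} (hx : x ∈ h.AA) :
    thA a o σ x = thA a o s x := by
  rw [← mul_inv_cancel_left s σ, ← h.mul, hx _ (h.quo hs hσ)]

theorem o_mul {τ : F ≃ₐ[k] F} (hτ : ¬ o τ) : o (τ * s) := by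
  rw [h.par]
  tauto

/-- The involution of the centre. -/
@[reducible] def starK : StarRing h.KK where
  star x := ⟨s x, h.mem_KK.2 fun _ hτ => h.app_eq hs (h.o_mul hs hτ) x.2⟩
  star_involutive x := Subtype.ext (h.mem_KK.1 x.2 _ (h.sq hs))
  star_mul x y := Subtype.ext ((map_mul s x.1 y.1).trans (mul_comm _ _))
  star_add x y := Subtype.ext (map_add s x.1 y.1)

/-- The involution of the algebra. -/
@[reducible] def starA : StarRing h.AA where
  star x := ⟨thA a o s x, fun τ hτ => (h.mul τ s x).trans (h.th_eq hs (h.o_mul hs hτ) x.2)⟩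
  star_involutive x := Subtype.ext ((h.mul s s x).trans (x.2 _ (h.sq hs)))
  star_mul x y := Subtype.ext (h.th_anti hs x.1 y.1)
  star_add x y := Subtype.ext (th_add s x.1 y.1)

omit hs in
/-- The projection to the fixed points. -/
def pr {S : Finset (F ≃ₐ[k] F)} (hS : ∀ σ, σ ∈ S ↔ ¬ o σ) (b : F) :
    Matrix (Fin n) (Fin n) F →ₗ[k] h.AA where
  toFun y := h.av hS (b • y)
  map_add' y z := by rw [smul_add, map_add]
  map_smul' t y := Subtype.ext (by
    change ∑ σ ∈ S, thA a o σ (b • t • y) = t • ∑ σ ∈ S, thA a o σ (b • y)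
    rw [Finset.smul_sum]
    refine Finset.sum_congr rfl fun σ _ => ?_
    rw [smul_comm, ← algebraMap_smul F t, th_smul, σ.commutes, algebraMap_smul])

end A2x.Ac

open A2x in
/-- The algebra with involution of an outer form. -/
theorem exists_pk [FiniteDimensional k F] [IsGalois k F] (hn : 3 ≤ n) (h : FormA a o θ) :
    ∃ (K A : Type) (_ : Field K) (_ : Algebra k K) (_ : StarRing K) (_ : Ring A) (_ : StarRing A)
      (_ : Algebra k A) (_ : Algebra K A) (_ : IsScalarTower k K A) (_ : StarModule K A)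
      (_ : Algebra K F) (_ : IsScalarTower k K F) (f : A →ₐ[K] Matrix (Fin n) (Fin n) F)
      (P : Matrix (Fin n) (Fin n) F →ₗ[k] A), Pk a o f P := by
  classical
  have H : Ac a o := ⟨(h.act hn).1, (h.act hn).2.1, (h.act hn).2.2, fun σ => (h.1 σ).1⟩
  obtain ⟨s, hs⟩ := h.2
  have hS : ∀ σ, σ ∈ Finset.univ.filter (fun σ => ¬ o σ) ↔ ¬ o σ := fun σ => by simp
  obtain ⟨b, hb⟩ := H.exists_b hS
  have h0 : 0 < n := by omega
  letI := H.starK hs
  letI := H.starA hs
  refine ⟨H.KK, H.AA, inferInstance, inferInstance, inferInstance, inferInstance, inferInstance,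
    inferInstance, inferInstance, inferInstance,
    ⟨fun c x => Subtype.ext (th_smul s (c : F) x.1)⟩, inferInstance, inferInstance, H.AA.val,
    H.pr hS b, fun x => ⟨fun hx => ?_, ?_⟩, ?_, H.central hS h0, H.simple hS h0, H.rank_AA hS,
    Subtype.val_injective, H.det, h.2, fun σ hσ x => ?_, fun σ hσ x => ?_, b, _, hS, hb,
    fun y => Finset.sum_congr rfl fun σ hσ => th_not ((hS σ).1 hσ) _⟩
  · obtain ⟨t, ht⟩ := (IsGalois.mem_range_algebraMap_iff_fixed (F := k) x.1).2 fun σ => by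
      by_cases hσ : o σ
      · exact (H.app_eq hs hσ x.2).trans (congrArg Subtype.val hx)
      · exact H.mem_KK.1 x.2 σ hσ
    exact ⟨t, Subtype.ext ht⟩
  · rintro ⟨t, rfl⟩
    exact Subtype.ext (s.commutes t)
  · by_contra h1
    push Not at h1
    have h2 : s ∈ H.KK.fixingSubgroup := (IntermediateField.mem_fixingSubgroup_iff _ _).2
      fun x hx => congrArg Subtype.val (h1 ⟨x, hx⟩)
    rw [IntermediateField.fixingSubgroup_fixedField] at h2
    exact h2 hs
  · change x.1 * a σ = a σ * x.1.map σ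
    conv_lhs => rw [← x.2 σ hσ, th_not hσ, Matrix.mul_assoc, H.inv_mul, Matrix.mul_one]
  · change thA a o s x.1 * a σ = a σ * (x.1.map σ)ᵀ
    rw [← H.th_eq hs hσ x.2, th_of hσ, Matrix.mul_assoc, H.inv_mul, Matrix.mul_one]

end Vale.Agent.P011Z.Cl

end
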