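import Vale.Agent.P011Z.Cl.A0

/-!
Forms of the special linear groups: block A3.
-/

open TensorProduct Matrix Module

noncomputable section

namespace Vale.Agent.P011Z.Cl

open Vale.Agent.P011.H925.Full (Kv GP GK SU Div)

variable {n : ℕ} {k F : Type} [Field k] [Field F] [Algebra k F]
  {a : (F ≃ₐ[k] F) → Matrix (Fin n) (Fin n) F} {o : (F ≃ₐ[k] F) → Prop}
  {θ : (F ≃ₐ[k] F) →* MulAut (SpecialLinearGroup (Fin n) F)}
  {K A : Type} [Field K] [Algebra k K] [StarRing K] [Ring A] [StarRing A] [Algebra k A]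
  [Algebra K A] [IsScalarTower k K A] [StarModule K A] [Algebra K F] [IsScalarTower k K F]
  {f : A →ₐ[K] Matrix (Fin n) (Fin n) F} {P : Matrix (Fin n) (Fin n) F →ₗ[k] A}

namespace A3x

theorem ginv (M : Matrix (Fin n) (Fin n) F) : ∃ (V U : Matrix (Fin n) (Fin n) F) (r : ℕ),
    M * (U * V) * M = M ∧ ∀ c : F, (1 + c • (V * M * U)).det = (1 + c) ^ r := by
  obtain ⟨V, U, e, hV, hU, h⟩ := Matrix.exists_rank_normal_form M
  refine ⟨V, U, M.rank, hV.mul_left_cancel (hU.mul_right_cancel ?_), fun c => ?_⟩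
  · calc _ = (V * M * U) * (V * M * U) := by simp only [Matrix.mul_assoc]
      _ = _ := by rw [h, submatrix_mul_equiv, fromBlocks_multiply]; simp
  · rw [h, ← submatrix_one_equiv e]
    refine (det_submatrix_equiv_self e
      (1 + c • fromBlocks (1 : Matrix (Fin M.rank) (Fin M.rank) F) 0 0 0)).trans ?_
    rw [← fromBlocks_one, fromBlocks_smul, fromBlocks_add, smul_zero, smul_zero, smul_zero, add_zero,
      add_zero, add_zero, det_fromBlocks_zero₂₁, det_one, mul_one]
    rw [show (1 : Matrix (Fin M.rank) (Fin M.rank) F) + c • 1 = (1 + c) • 1 by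
      rw [add_smul, one_smul], det_smul, det_one, mul_one, Fintype.card_fin]

theorem det_idem {E : Matrix (Fin n) (Fin n) F} (hE : E * E = E) :
    ∃ r : ℕ, ∀ c : F, (1 + c • E).det = (1 + c) ^ r := by
  obtain ⟨V, U, r, h1, h2⟩ := ginv E
  refine ⟨r, fun c => ?_⟩
  have e1 : c • E = (c • (E * U)) * (V * E) := by
    rw [Matrix.smul_mul, ← Matrix.mul_assoc, Matrix.mul_assoc E, h1]
  rw [e1, det_one_add_mul_comm, Matrix.mul_smul, ← h2, ← Matrix.mul_assoc, Matrix.mul_assoc V, hE]

theorem det_map (σ : F ≃ₐ[k] F) (M : Matrix (Fin n) (Fin n) F) : (M.map σ).det = σ M.det :=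
  ((σ : F →+* F).map_det M).symm

theorem map_mul' (σ : F ≃ₐ[k] F) (M N : Matrix (Fin n) (Fin n) F) :
    (M * N).map σ = M.map σ * N.map σ := Matrix.map_mul (f := (σ : F →+* F))

theorem unit_of {M : Matrix (Fin n) (Fin n) F} (h : M.det ≠ 0) : IsUnit M :=
  (isUnit_iff_isUnit_det M).2 h.isUnit

theorem mem_fix (hθ : FormA a o θ) (g : SpecialLinearGroup (Fin n) F) :
    g ∈ Fix θ ↔ ∀ σ, Rel (o σ) (a σ) σ g.1 g.1 := by
  have e : g ∈ Fix θ ↔ ∀ σ, θ σ g = g := Subgroup.mem_iInf
  refine e.trans (forall_congr' fun σ => ⟨fun h => ?_, fun h => Subtype.ext ?_⟩)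
  · have := (hθ.1 σ).2 g
    rwa [h] at this
  · have h1 := (hθ.1 σ).2 g
    refine (unit_of (hθ.1 σ).1).mul_right_cancel ?_
    by_cases ho : o σ
    · refine (unit_of (M := (g.1.map σ)ᵀ) ?_).mul_right_cancel ((h1.2 ho).trans (h.2 ho).symm)
      rw [det_transpose, det_map, g.2, map_one]
      exact one_ne_zero
    · exact (h1.1 ho).trans (h.1 ho).symm

omit [StarModule K A] [IsScalarTower k K A] [IsScalarTower k K F] in
theorem avg_mul (h : Pk a o f P) {g g' : Matrix (Fin n) (Fin n) F}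
    (hg : ∀ σ, ¬ o σ → g * a σ = a σ * g.map σ) (hg' : ∀ σ, ¬ o σ → g' * a σ = a σ * g'.map σ)
    {y z : Matrix (Fin n) (Fin n) F} (hz : ∀ σ, ¬ o σ → z * a σ = a σ * z.map σ)
    (e : g * y * g' = z) : g * f (P y) * g' = z := by
  obtain ⟨b, S, hS, hb, hP⟩ := h.avg
  rw [hP, Finset.mul_sum, Finset.sum_mul, ← one_smul F z, ← hb, Finset.sum_smul]
  refine Finset.sum_congr rfl fun σ hσ => (unit_of (h.det σ)).mul_right_cancel ?_
  have ho := (hS σ).1 hσ
  have e1 : (b • y).map σ = σ b • y.map σ := by ext; simp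
  rw [Matrix.mul_assoc _ g', hg' σ ho, Matrix.smul_mul, hz σ ho, ← e, map_mul', map_mul', e1]
  simp only [← Matrix.mul_assoc, hg σ ho, Matrix.mul_smul, Matrix.smul_mul,
    nonsing_inv_mul_cancel_right _ _ (h.det σ).isUnit]

omit [StarModule K A] [IsScalarTower k K A] [IsScalarTower k K F] in
theorem det_star (h : Pk a o f P) : ∃ s : F ≃ₐ[k] F, ∀ x, (f (star x)).det = s (f x).det := by
  obtain ⟨s, hs⟩ := h.ex
  refine ⟨s, fun x => mul_right_cancel₀ (h.det s) ?_⟩
  rw [← det_mul, h.dua s hs, det_mul, det_transpose, det_map, mul_comm]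

omit [Algebra k K] [Algebra k A] [IsScalarTower k K A] in
theorem exists_idem {x y : A} {c : K} (hc : c + star c = 1) (hx : star x * x = 0)
    (hy : x * y * x = x) : ∃ e : A, e * e = e ∧ e * star e = 0 ∧ star e * e = 0 ∧ e * x = x := by
  obtain ⟨p, hp⟩ : ∃ p, p = x * y := ⟨_, rfl⟩
  have h0 : p * x = x := by rw [hp, hy]
  have h1 : p * p = p := by rw [hp, ← mul_assoc, hy]
  have h2 : star p * star p = star p := by rw [← star_mul, h1]
  have h3 : star p * x = 0 := by rw [hp, star_mul, mul_assoc, hx, mul_zero]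
  have h4 : star p * p = 0 := by nth_rw 2 [hp]; rw [← mul_assoc, h3, zero_mul]
  have h5 : ∀ z, p * (p * z) = p * z := fun z => by rw [← mul_assoc, h1]
  have h6 : ∀ z, star p * (p * z) = 0 := fun z => by rw [← mul_assoc, h4, zero_mul]
  have hs : star (p - c • (p * star p)) = star p - star c • (p * star p) := by
    rw [star_sub, star_smul, star_mul, star_star]
  refine ⟨p - c • (p * star p), ?_, ?_, ?_, ?_⟩
  · simp [mul_sub, sub_mul, mul_assoc, h1, h4, h5, h6]
  · rw [hs, eq_sub_of_add_eq' hc]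
    simp [mul_sub, sub_mul, mul_assoc, h2, h5, h6, sub_smul]
  · rw [hs]
    simp [mul_sub, sub_mul, mul_assoc, h4, h6]
  · simp [sub_mul, mul_assoc, h0, h3]

/-- The elements of the torus. -/
def lam (e : A) (t u : k) : A := 1 + (t - 1) • e + (u - 1) • star e

theorem lam_mul {e : A} (h1 : e * e = e) (h2 : e * star e = 0) (h3 : star e * e = 0)
    (t u t' u' : k) : lam e t u * lam e t' u' = lam e (t * t') (u * u') := by
  have h4 : star e * star e = star e := by rw [← star_mul, h1]
  simp only [lam, mul_add, add_mul, mul_one, one_mul, smul_mul_assoc, mul_smul_comm, h1, h2, h3, h4,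
    smul_zero]
  module

theorem lam_one (e : A) : lam e (1 : k) 1 = 1 := by simp [lam]

omit [IsScalarTower k K F] in
theorem star_lam (h : Pk a o f P) (e : A) (t u : k) : star (lam e t u) = lam e u t := by
  have h1 : ∀ (c : k) (z : A), star (c • z) = c • star z := fun c z => by
    rw [← algebraMap_smul K c, star_smul, (h.fixed _).2 ⟨c, rfl⟩, algebraMap_smul]
  rw [lam, lam, star_add, star_add, h1, h1, star_star, star_one, add_right_comm]

end A3x

open A3x

set_option linter.unusedSectionVars false in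
/-- The group of rational points is the special unitary group. -/
theorem Pk.gk (h : Pk a o f P) (hθ : FormA a o θ) :
    ∃ e : Fix θ ≃* GK f, ∀ g, f (e g).1.1 = g.1.1 := by
  let φ : GK f →* Fix θ :=
    { toFun := fun x => ⟨⟨f x.1.1, x.2⟩, (mem_fix hθ _).2 fun σ => ⟨fun ho => h.inn σ ho _,
        fun ho => by
          rw [Matrix.mul_assoc, ← h.dua σ ho, ← Matrix.mul_assoc, ← map_mul, x.1.2.2, map_one,
            Matrix.one_mul]⟩⟩
      map_one' := Subtype.ext (Subtype.ext (map_one f))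
      map_mul' := fun x y => Subtype.ext (Subtype.ext (map_mul f _ _)) }
  have hb : Function.Bijective φ := by
    refine ⟨fun x y e => Subtype.ext (Subtype.ext (h.inj (congrArg (·.1.1) e))), fun g => ?_⟩
    have hg := (mem_fix hθ _).1 g.2
    have h1 : f (P g.1.1) = g.1.1 := by
      have h0 : ∀ σ, ¬ o σ → 1 * a σ = a σ * (1 : Matrix (Fin n) (Fin n) F).map σ :=
        fun σ _ => by simp
      simpa using avg_mul h h0 h0 (fun σ ho => (hg σ).1 ho) (y := g.1.1) (by simp)
    obtain ⟨s, hs⟩ := h.ex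
    have h2 : f (P g.1.1) * f (star (P g.1.1)) = 1 := (unit_of (h.det s)).mul_right_cancel <| by
      rw [Matrix.mul_assoc, h.dua s hs, h1, ← Matrix.mul_assoc, (hg s).2 hs, Matrix.one_mul]
    have h3 : (f (P g.1.1)).det = 1 := by rw [h1, g.1.2]
    refine ⟨⟨⟨P g.1.1, h.inj ?_, h.inj ?_⟩, h3⟩,
      Subtype.ext (Subtype.ext h1)⟩
    · rw [map_mul, mul_eq_one_comm.1 h2, map_one]
    · rw [map_mul, h2, map_one]
  exact ⟨(MulEquiv.ofBijective φ hb).symm, fun g =>
    congrArg (·.1.1) ((MulEquiv.ofBijective φ hb).apply_symm_apply g)⟩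

/-- If the rank is zero, the involution is anisotropic. -/
theorem Pk.aniso [Infinite k] (h : Pk a o f P) (hθ : FormA a o θ)
    (hr : Rk0 k fun g : Fix θ => g.1.1) (x : A) (hx : star x * x = 0) : x = 0 := by
  classical
  obtain ⟨V, U, -, h0, -⟩ := ginv (f x)
  have hy : x * P (U * V) * x = x := h.inj <| by
    rw [map_mul, map_mul]
    exact avg_mul h (fun σ ho => h.inn σ ho x) (fun σ ho => h.inn σ ho x)
      (fun σ ho => h.inn σ ho x) h0
  obtain ⟨w, hw⟩ := h.star_ne
  have hc : w / (w - star w) + star (w / (w - star w)) = 1 := by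
    rw [star_div₀, star_sub, star_star, ← neg_sub w, div_neg, ← sub_eq_add_neg, ← sub_div,
      div_self (sub_ne_zero.2 hw.symm)]
  obtain ⟨e, h1, h2, h3, h4⟩ := exists_idem hc hx hy
  obtain ⟨r, hd⟩ := det_idem (E := f e) (by rw [← map_mul, h1])
  obtain ⟨s, hs⟩ := det_star h
  have hf : ∀ (c : k) (z : A), f (c • z) = c • f z := fun c z => by
    rw [← algebraMap_smul K c, map_smul, algebraMap_smul]
  have hd1 : ∀ t : k, (f (lam e t 1)).det = algebraMap k F (t ^ r) := fun t => by
    rw [lam, sub_self, zero_smul, add_zero, map_add, map_one, hf, ← algebraMap_smul F, hd, map_sub,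
      map_one, add_sub_cancel, map_pow]
  have hd2 : ∀ t : kˣ, (f (lam e t.1 (t⁻¹).1)).det = 1 := fun t => by
    rw [← mul_one t.1, ← one_mul (t⁻¹).1, ← lam_mul h1 h2 h3, ← star_lam h e _ 1, map_mul, det_mul,
      hs, hd1, hd1, s.commutes, ← map_mul, ← mul_pow, t.mul_inv, one_pow, map_one]
  let c : kˣ →* GK f :=
    { toFun := fun t => ⟨⟨lam e t.1 (t⁻¹).1, by
          rw [star_lam h, lam_mul h1 h2 h3, t.mul_inv, t.inv_mul, lam_one], by
          rw [star_lam h, lam_mul h1 h2 h3, t.mul_inv, t.inv_mul, lam_one]⟩, hd2 t⟩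
      map_one' := Subtype.ext (Subtype.ext (lam_one e))
      map_mul' := fun t u => Subtype.ext (Subtype.ext ((congrArg (lam e (t * u).1) (by
        rw [mul_inv, Units.val_mul])).trans (lam_mul h1 h2 h3 _ _ _ _).symm)) }
  obtain ⟨φ, hφ⟩ := h.gk hθ
  have h5 := hr (φ.symm.toMonoidHom.comp c) {-1, 0, 1}
    (fun m => if m = 1 then f e else if m = 0 then 1 - f e - f (star e) else f (star e))
    fun t => by
      refine (hφ _).symm.trans ((congrArg (fun z : GK f => f z.1.1)
        (φ.apply_symm_apply (c t))).trans ?_)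
      change f (lam e t.1 (t⁻¹).1) = _
      rw [Finset.sum_insert (by decide), Finset.sum_insert (by decide), Finset.sum_singleton, lam,
        map_add, map_add, map_one, hf, hf]
      simp only [_root_.zpow_neg, zpow_one, zpow_zero, Units.val_one, reduceIte, Int.reduceNeg,
        Int.reduceEq]
      module
  obtain ⟨t, ht⟩ := Infinite.exists_notMem_finset ({0, 1} : Finset k)
  rw [Finset.mem_insert, Finset.mem_singleton, not_or] at ht
  have h6 : c (Units.mk0 t ht.1) = 1 :=
    φ.symm.injective ((DFunLike.congr_fun h5 _).trans (map_one φ.symm).symm)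
  have h7 : lam e t (Units.mk0 t ht.1)⁻¹.1 * e = 1 * e := congrArg (·.1.1 * e) h6
  rw [lam, add_mul, add_mul, smul_mul_assoc, smul_mul_assoc, h1, h3, smul_zero, add_zero,
    add_eq_left, smul_eq_zero_iff_right (sub_ne_zero.2 ht.2)] at h7
  rw [← h4, h7, zero_mul]

end Vale.Agent.P011Z.Cl

end
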