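import Vale.Agent.P011Z.Cl.A0
import Vale.Agent.P011.H738.FBr1

/-!
Forms of the special linear groups: block A4.
-/

open TensorProduct Matrix Module

noncomputable section

namespace Vale.Agent.P011Z.Cl

open Vale.Agent.P011.H925.Full (Kv GP GK SU Div)

variable {n : ℕ} {k F : Type} [Field k] [Field F] [Algebra k F]
  {a : (F ≃ₐ[k] F) → Matrix (Fin n) (Fin n) F} {o : (F ≃ₐ[k] F) → Prop}
  {K A : Type} [Field K] [Algebra k K] [StarRing K] [Ring A] [StarRing A] [Algebra k A]
  [Algebra K A] [IsScalarTower k K A] [StarModule K A] [Algebra K F] [IsScalarTower k K F]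
  {f : A →ₐ[K] Matrix (Fin n) (Fin n) F} {P : Matrix (Fin n) (Fin n) F →ₗ[k] A}

namespace A4x

variable (L : Type) [CommRing L] [Algebra k L]

/-- The extension of the scalars of a matrix. -/
def up : Matrix (Fin n) (Fin n) F →ₐ[k] Matrix (Fin n) (Fin n) (L ⊗[k] F) :=
  (Algebra.TensorProduct.includeRight : F →ₐ[k] L ⊗[k] F).mapMatrix

theorem up_eq (y : Matrix (Fin n) (Fin n) F) : up L y = y.map ((1 : L) ⊗ₜ[k] ·) := rfl

theorem up_tr (y : Matrix (Fin n) (Fin n) F) : up (k := k) L yᵀ = (up L y)ᵀ := rfl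

theorem up_map (σ : F ≃ₐ[k] F) (c : L) (y : Matrix (Fin n) (Fin n) F) :
    (c • up L y).map (exL L σ) = c • up L (y.map σ) := by
  ext i j
  change exL L σ (c • ((1 : L) ⊗ₜ[k] y i j)) = c • ((1 : L) ⊗ₜ[k] σ (y i j))
  rw [smul_tmul', smul_tmul']
  rfl

theorem up_smul (b : F) (y : Matrix (Fin n) (Fin n) F) :
    up (k := k) L (b • y) = ((1 : L) ⊗ₜ[k] b) • up L y := by
  ext i j
  change (1 : L) ⊗ₜ[k] (b * y i j) = (1 : L) ⊗ₜ[k] b * (1 : L) ⊗ₜ[k] y i j
  rw [Algebra.TensorProduct.tmul_mul_tmul, one_mul]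

theorem up_inv {y : Matrix (Fin n) (Fin n) F} (h : y.det ≠ 0) :
    up (k := k) L y * up L y⁻¹ = 1 := by
  rw [← map_mul, mul_nonsing_inv _ h.isUnit, map_one]

theorem ind {p : Matrix (Fin n) (Fin n) (L ⊗[k] F) → Prop} (h0 : p 0)
    (h1 : ∀ x y, p x → p y → p (x + y)) (h2 : ∀ (c : L) y, p (c • up L y))
    (y : Matrix (Fin n) (Fin n) (L ⊗[k] F)) : p y := by
  rw [matrix_eq_sum_single y]
  refine Finset.sum_induction _ p h1 h0 fun i _ => Finset.sum_induction _ p h1 h0 fun j _ => ?_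
  induction y i j using TensorProduct.induction_on with
  | zero => rwa [single_zero]
  | tmul c t =>
    have h3 := h2 c (single i j t)
    have h4 : up (k := k) L (single i j t) = single i j ((1 : L) ⊗ₜ[k] t) :=
      Matrix.map_single i j t (TensorProduct.mk k L F 1)
    rwa [h4, smul_single, smul_tmul', smul_eq_mul, mul_one] at h3
  | add x y hx hy =>
    rw [single_add]
    exact h1 _ _ hx hy

variable (f) in
/-- The extension of the splitting. -/
def psi : L ⊗[k] A →ₐ[L] Matrix (Fin n) (Fin n) (L ⊗[k] F) :=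
  AlgHom.liftEquiv k L A _ ((up L).comp (f.restrictScalars k))

omit [StarRing K] [StarRing A] [StarModule K A] in
theorem psi_tmul (c : L) (x : A) : psi f L (c ⊗ₜ[k] x) = c • up L (f x) :=
  AlgHom.liftEquiv_tmul _ c x

variable (P) in
/-- The extension of the projection. -/
def prj : Matrix (Fin n) (Fin n) (L ⊗[k] F) →ₗ[L] L ⊗[k] A :=
  ∑ i, ∑ j, (P ∘ₗ singleLinearMap k i j).baseChange L ∘ₗ entryLinearMap L _ i j

omit [StarRing A] in
theorem prj_up (y : Matrix (Fin n) (Fin n) F) : prj P L (up L y) = 1 ⊗ₜ P y := by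
  conv_rhs => rw [matrix_eq_sum_single y]
  simp only [prj, LinearMap.sum_apply, map_sum, tmul_sum]
  rfl

omit [Algebra k K] [IsScalarTower k K A] [IsScalarTower k K F] in
theorem sm_map (σ : F ≃ₐ[k] F) (b : F) (y : Matrix (Fin n) (Fin n) F) :
    (b • y).map σ = σ b • y.map σ := by
  ext i j
  exact map_mul σ _ _

variable {L}

omit [StarModule K A] [IsScalarTower k K A] [IsScalarTower k K F] in
theorem P_f (h : Pk a o f P) (x : A) : P (f x) = x := by
  obtain ⟨b, S, h1, h2, h3⟩ := h.avg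
  refine h.inj ?_
  rw [h3, Finset.sum_congr rfl fun σ hσ => by
    rw [sm_map, Matrix.mul_smul, ← h.inn σ ((h1 σ).1 hσ), Matrix.smul_mul,
      mul_nonsing_inv_cancel_right _ _ (h.det σ).isUnit], ← Finset.sum_smul, h2, one_smul]

omit [StarModule K A] in
theorem prj_psi (h : Pk a o f P) (z : L ⊗[k] A) : prj P L (psi f L z) = z := by
  induction z using TensorProduct.induction_on with
  | zero => rw [map_zero, map_zero]
  | tmul c x => rw [psi_tmul, map_smul, prj_up, P_f h, smul_tmul', smul_eq_mul, mul_one]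
  | add x y hx hy => rw [map_add, map_add, hx, hy]

omit [StarModule K A] in
theorem psi_inj (h : Pk a o f P) : Function.Injective (psi f L : L ⊗[k] A → _) :=
  Function.LeftInverse.injective (prj_psi h)

omit [StarModule K A] in
theorem psi_prj (h : Pk a o f P) (g : GA a o L) : psi f L (prj P L g.1.1) = g.1.1 := by
  obtain ⟨b, S, h1, h2, h3⟩ := h.avg
  have h4 : ∀ y, psi f L (prj P L y) = ∑ σ ∈ S, up L (a σ) *
      (((1 : L) ⊗ₜ[k] b) • y).map (exL L σ) * up L (a σ)⁻¹ := fun y => by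
    induction y using ind with
    | h0 => simp
    | h1 x y hx hy =>
      rw [map_add, map_add, hx, hy, ← Finset.sum_add_distrib]
      refine Finset.sum_congr rfl fun σ _ => ?_
      rw [smul_add, Matrix.map_add _ (map_add _), mul_add, add_mul]
    | h2 c y =>
      rw [map_smul, prj_up, map_smul, psi_tmul, one_smul, h3, map_sum, Finset.smul_sum]
      refine Finset.sum_congr rfl fun σ _ => ?_
      rw [smul_comm, ← up_smul, up_map, map_mul, map_mul, Matrix.mul_smul, Matrix.smul_mul]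
  have h5 : ∀ σ ∈ S, up L (a σ) * (((1 : L) ⊗ₜ[k] b) • g.1.1).map (exL L σ) * up L (a σ)⁻¹ =
      ((1 : L) ⊗ₜ[k] σ b) • g.1.1 := fun σ hσ => by
    have h6 : (((1 : L) ⊗ₜ[k] b) • g.1.1).map (exL L σ) =
        ((1 : L) ⊗ₜ[k] σ b) • g.1.1.map (exL L σ) := by
      ext i j
      exact map_mul (exL L σ) _ _
    have h7 : g.1.1 * up L (a σ) = up L (a σ) * g.1.1.map (exL L σ) :=
      (g.rel σ).1 ((h1 σ).1 hσ)
    rw [h6, Matrix.mul_smul, ← h7, Matrix.smul_mul, mul_assoc, up_inv L (h.det σ), mul_one]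
  rw [h4, Finset.sum_congr rfl h5, ← Finset.sum_smul, ← tmul_sum, h2]
  exact one_smul _ _

omit [StarModule K A] in
theorem unit (h : Pk a o f P) (g : GA a o L) (σ : L ⊗[k] A →+ L ⊗[k] A)
    (hσ : ∀ c y, σ (c ⊗ₜ y) = c ⊗ₜ star y) : prj P L g.1.1 * σ (prj P L g.1.1) = 1 := by
  obtain ⟨s, hs⟩ := h.ex
  have h1 : ∀ z, psi f L (σ z) * up L (a s) = up L (a s) * ((psi f L z).map (exL L s))ᵀ := by
    intro z
    induction z using TensorProduct.induction_on with
    | zero => simp
    | tmul c x =>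
      rw [hσ, psi_tmul, psi_tmul, up_map, transpose_smul, ← up_tr, Matrix.smul_mul,
        Matrix.mul_smul, ← map_mul, ← map_mul, h.dua s hs]
    | add x y hx hy =>
      rw [map_add, map_add, map_add, add_mul, hx, hy, Matrix.map_add _ (map_add _), transpose_add,
        mul_add]
  have h2 : g.1.1 * up L (a s) * (g.1.1.map (exL L s))ᵀ = up L (a s) := (g.rel s).2 hs
  have h3 := h1 (prj P L g.1.1)
  rw [psi_prj h] at h3
  refine psi_inj h ?_
  rw [map_mul, map_one, psi_prj h, ← mul_one (_ * _), ← up_inv L (h.det s), ← mul_assoc,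
    mul_assoc g.1.1, h3, ← mul_assoc, h2]

omit [StarModule K A] in
theorem det_one (h : Pk a o f P) (hn : 0 < n) {z : L ⊗[k] A} (hz : (psi f L z).det = 1)
    (Ω : Type) [Field Ω] [Algebra L Ω] (Φ : L ⊗[k] A →ₐ[L] Matrix (Fin n) (Fin n) Ω) :
    (Φ z).det = 1 := by
  have := h.central
  have := h.simple
  have : FiniteDimensional K A := FiniteDimensional.of_finrank_pos (by rw [h.rank]; positivity)
  let _ : Algebra k Ω := ((algebraMap L Ω).comp (algebraMap k L)).toAlgebra
  have : IsScalarTower k L Ω := IsScalarTower.of_algebraMap_eq' rfl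
  obtain ⟨ι, hι⟩ := Vale.Agent.P011.H738.exists_scal h.fixed h.star_ne hn h.rank
    ((Φ.restrictScalars k).comp Algebra.TensorProduct.includeRight)
  have h1 : ∀ r : k, ι (algebraMap k K r) = algebraMap k Ω r := fun r => by
    have h2 := hι (algebraMap k K r)
    rw [← IsScalarTower.algebraMap_apply, AlgHom.commutes] at h2
    have h3 := congrFun (congrFun h2 ⟨0, hn⟩) ⟨0, hn⟩
    rw [algebraMap_matrix_apply, algebraMap_matrix_apply, if_pos rfl, if_pos rfl] at h3
    exact h3.symm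
  let _ : Algebra K Ω := ι.toAlgebra
  obtain ⟨M, _, i, j, hij⟩ := Vale.Agent.P011.H268.exists_common K F Ω
  let _ : Algebra K M := (i.comp (algebraMap K F)).toAlgebra
  let _ : Algebra k M := (i.comp (algebraMap k F)).toAlgebra
  let g₁ : A →ₐ[K] Matrix (Fin n) (Fin n) M :=
    (⟨j, fun c => (RingHom.congr_fun hij c).symm⟩ : Ω →ₐ[K] M).mapMatrix.comp
      ⟨((Φ.restrictScalars k).comp Algebra.TensorProduct.includeRight).toRingHom, hι⟩
  let g₂ : A →ₐ[K] Matrix (Fin n) (Fin n) M := (⟨i, fun _ => rfl⟩ : F →ₐ[K] M).mapMatrix.comp f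
  let φ : L ⊗[k] F →ₐ[k] M := Algebra.TensorProduct.productMap
    ⟨j.comp (algebraMap L Ω), fun r => by
      change j (algebraMap k Ω r) = i (algebraMap k F r)
      rw [← h1, IsScalarTower.algebraMap_apply k K F]
      exact (RingHom.congr_fun hij _).symm⟩ ⟨i, fun _ => rfl⟩
  have h2 : ∀ z, ∃ w, Vale.Agent.P011.H268.bcS g₁ w = (Φ z).map j ∧
      Vale.Agent.P011.H268.bcS g₂ w = (psi f L z).map φ := fun z => by
    induction z using TensorProduct.induction_on with
    | zero => exact ⟨0, by simp, by simp⟩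
    | tmul c x =>
      refine ⟨j (algebraMap L Ω c) ⊗ₜ x, ?_, ?_⟩
      · have h3 : c ⊗ₜ[k] x = c • ((1 : L) ⊗ₜ[k] x) := by rw [smul_tmul', smul_eq_mul, mul_one]
        rw [Vale.Agent.P011.H268.bcS_tmul, h3, map_smul]
        ext p q
        change _ = j (c • Φ (1 ⊗ₜ[k] x) p q)
        rw [Algebra.smul_def c, map_mul]
        rfl
      · rw [Vale.Agent.P011.H268.bcS_tmul, psi_tmul]
        ext p q
        change _ = φ (c • ((1 : L) ⊗ₜ[k] f x p q))
        rw [smul_tmul', smul_eq_mul, mul_one]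
        rfl
    | add x y hx hy =>
      obtain ⟨w, h3, h4⟩ := hx
      obtain ⟨w', h5, h6⟩ := hy
      refine ⟨w + w', ?_, ?_⟩
      · rw [map_add, map_add, h3, h5, Matrix.map_add _ (map_add _)]
      · rw [map_add, map_add, h4, h6, Matrix.map_add _ (map_add _)]
  obtain ⟨w, h3, h4⟩ := h2 z
  have : Algebra.IsCentral M (M ⊗[K] A) := Vale.Agent.P011.H268.isCentral_baseChange
  have : IsSimpleRing (M ⊗[K] A) := Vale.Agent.P011.H268.isSimpleRing_baseChange
  have h5 := Vale.Agent.P011.H268.det_compare hn (by rw [finrank_baseChange, h.rank])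
    (Vale.Agent.P011.H268.bcS g₂) (Vale.Agent.P011.H268.bcS g₁) w (ν := 1) (by
      rw [h4, map_one]
      exact (φ.map_det _).symm.trans (by rw [hz, map_one]))
  rw [h3, map_one] at h5
  exact j.injective (((j.map_det _).trans h5).trans j.map_one.symm)

end A4x

/-- The points over an extension. -/
theorem Pk.loc [FiniteDimensional k F] (h : Pk a o f P) (hn : 0 < n) (L : Type) [CommRing L]
    [Algebra k L] : ∃ (ρ : GA a o L →* GP k A L n)
      (π : Matrix (Fin n) (Fin n) (L ⊗[k] F) →ₗ[L] L ⊗[k] A), Function.Injective ρ ∧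
      (∀ g, (ρ g).1.1 = π g.1.1) ∧ ∀ x, π ((f x).map (1 ⊗ₜ ·)) = 1 ⊗ₜ x := by
  let m : GA a o L →* L ⊗[k] A :=
    { toFun := fun g => A4x.prj P L g.1.1
      map_one' := A4x.psi_inj h (by rw [A4x.psi_prj h, map_one]; rfl)
      map_mul' := fun g g' => A4x.psi_inj h (by
        rw [map_mul, A4x.psi_prj h, A4x.psi_prj h, A4x.psi_prj h]
        rfl) }
  refine ⟨m.toHomUnits.codRestrict (Subgroup.closure {x : (L ⊗[k] A)ˣ | SU n x.1}) fun g =>
    Subgroup.subset_closure ⟨A4x.unit h g, A4x.det_one h hn ?_⟩, A4x.prj P L, fun g g' e => ?_,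
    fun _ => rfl, fun x => by rw [← A4x.up_eq, A4x.prj_up, A4x.P_f h]⟩
  · change (A4x.psi f L (A4x.prj P L g.1.1)).det = 1
    rw [A4x.psi_prj h]
    exact g.1.2
  · have h1 : A4x.prj P L g.1.1 = A4x.prj P L g'.1.1 := congrArg (fun x => x.1.1) e
    refine Subtype.ext (Subtype.ext ?_)
    rw [← A4x.psi_prj h g, h1, A4x.psi_prj h]

end Vale.Agent.P011Z.Cl

end
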