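import Vale.Agent.P011Z.Cl.A0
import Vale.Agent.P011.H738.FBr1

/-!
Forms of the special linear groups: block A5.
-/

open TensorProduct Matrix Module

noncomputable section

namespace Vale.Agent.P011Z.Cl

open Vale.Agent.P011.H925.Full (Kv GP GK SU Div)

namespace A5x

theorem zpow_inj {L : Type} [Field L] [Infinite L] {m : ℤ} (h : ∀ t : Lˣ, t ^ m = 1) : m = 0 := by
  have h1 : ∀ t : Lˣ, t ^ m.natAbs = 1 := fun t => by
    rcases Int.natAbs_eq m with h2 | h2
    · rw [← zpow_natCast, ← h2, h]
    · rw [← _root_.inv_inj, ← zpow_natCast, ← _root_.zpow_neg, ← h2, h, inv_one]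
  have h2 : (Polynomial.X ^ (m.natAbs + 1) : Polynomial L) = Polynomial.X := by
    refine Polynomial.funext fun t => ?_
    rw [Polynomial.eval_pow, Polynomial.eval_X]
    by_cases ht : t = 0
    · rw [ht, zero_pow (Nat.succ_ne_zero _)]
    · have h3 := congrArg Units.val (h1 (Units.mk0 t ht))
      rw [Units.val_pow_eq_pow_val, Units.val_mk0, Units.val_one] at h3
      rw [pow_succ, h3, one_mul]
  have h3 := congrArg Polynomial.natDegree h2
  rw [Polynomial.natDegree_X_pow, Polynomial.natDegree_X] at h3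
  omega

theorem indep {L D : Type} [Field L] [Infinite L] [AddCommGroup D] [Module L D] (s : Finset ℤ)
    (x : ℤ → D) (h : ∀ t : Lˣ, ∑ m ∈ s, (t ^ m).1 • x m = 0) : ∀ m ∈ s, x m = 0 := by
  intro m hm
  let χ : ℤ → (Lˣ →* L) := fun m => (Units.coeHom L).comp (zpowGroupHom m)
  have hχ : Function.Injective χ := fun m m' hh => by
    have h1 : m - m' = 0 := zpow_inj (L := L) fun t => by
      have h2 : t ^ m = t ^ m' := Units.ext (DFunLike.congr_fun hh t)
      rw [_root_.zpow_sub, h2, mul_inv_cancel]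
    omega
  have hl := (linearIndependent_monoidHom Lˣ L).comp χ hχ
  refine (Module.forall_dual_apply_eq_zero_iff L (x m)).1 fun l => ?_
  refine linearIndependent_iff'.1 hl s (fun m => l (x m)) (funext fun t => ?_) m hm
  have h1 := congrArg l (h t)
  rw [map_sum, map_zero] at h1
  rw [Finset.sum_apply]
  refine Eq.trans (Finset.sum_congr rfl fun i _ => ?_) h1
  rw [map_smul, smul_eq_mul, mul_comm]
  rfl

variable {k K A : Type} [Field k] [Field K] [Algebra k K] [StarRing K] [Ring A] [StarRing A]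
  [Algebra k A] [Algebra K A] [IsScalarTower k K A] [StarModule K A] {n : ℕ}

/-- The extension of the involution. -/
theorem exists_sig (hfix : ∀ x : K, star x = x ↔ x ∈ Set.range (algebraMap k K)) (L : Type)
    [CommRing L] [Algebra k L] : ∃ σ : L ⊗[k] A →ₗ[L] L ⊗[k] A,
      (∀ c y, σ (c ⊗ₜ y) = c ⊗ₜ star y) ∧ (∀ x y, σ (x * y) = σ y * σ x) ∧ ∀ x, σ (σ x) = x := by
  let st : A →ₗ[k] A :=
    { toFun := star
      map_add' := star_add
      map_smul' := fun c y => by
        rw [← algebraMap_smul K c y, star_smul, (hfix _).2 ⟨c, rfl⟩, algebraMap_smul]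
        rfl }
  let σ : L ⊗[k] A →ₗ[L] L ⊗[k] A := TensorProduct.AlgebraTensorModule.map LinearMap.id st
  have h1 : ∀ c y, σ (c ⊗ₜ y) = c ⊗ₜ star y := fun _ _ => rfl
  refine ⟨σ, h1, fun x y => ?_, fun x => ?_⟩
  · induction x using TensorProduct.induction_on with
    | zero => rw [zero_mul, map_zero, mul_zero]
    | add x x' hx hx' => rw [add_mul, map_add, map_add, hx, hx', mul_add]
    | tmul c x =>
      induction y using TensorProduct.induction_on with
      | zero => rw [mul_zero, map_zero, zero_mul]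
      | add y y' hy hy' => rw [mul_add, map_add, map_add, hy, hy', add_mul]
      | tmul d y =>
        rw [Algebra.TensorProduct.tmul_mul_tmul, h1, h1, h1, Algebra.TensorProduct.tmul_mul_tmul,
          star_mul, mul_comm c d]
  · induction x using TensorProduct.induction_on with
    | zero => rw [map_zero, map_zero]
    | add x x' hx hx' => rw [map_add, map_add, hx, hx']
    | tmul c x => rw [h1, h1, star_star]

omit [Algebra k K] [StarRing K] [Algebra K A] [IsScalarTower k K A] [StarModule K A] in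
theorem su {L : Type} [CommRing L] [Algebra k L] {σ : L ⊗[k] A →ₗ[L] L ⊗[k] A}
    (h1 : ∀ c y, σ (c ⊗ₜ y) = c ⊗ₜ star y) (h2 : ∀ x y, σ (x * y) = σ y * σ x)
    (h3 : ∀ x, σ (σ x) = x) (g : GP k A L n) : g.1.1 * σ g.1.1 = 1 ∧
      ∀ (Ω : Type) [Field Ω] [Algebra L Ω] (F : L ⊗[k] A →ₐ[L] Matrix (Fin n) (Fin n) Ω),
        (F g.1.1).det = 1 := by
  obtain ⟨g, hg⟩ := g
  induction hg using Subgroup.closure_induction with
  | mem x hx => exact ⟨hx.1 σ.toAddMonoidHom h1, hx.2⟩
  | one =>
    refine ⟨?_, fun Ω _ _ F => by rw [Units.val_one, map_one, det_one]⟩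
    rw [Units.val_one, one_mul, Algebra.TensorProduct.one_def, h1, star_one]
  | mul x y _ _ hx hy =>
    refine ⟨?_, fun Ω _ _ F => by rw [Units.val_mul, map_mul, det_mul, hx.2, hy.2, one_mul]⟩
    rw [Units.val_mul, h2, mul_assoc, ← mul_assoc y.1, hy.1, one_mul, hx.1]
  | inv x _ hx =>
    refine ⟨?_, fun Ω _ _ F => ?_⟩
    · have h4 : σ x.1 = (x⁻¹).1 := by rw [← Units.mul_right_inj x, hx.1, Units.mul_inv]
      change (x⁻¹).1 * σ (x⁻¹).1 = 1
      rw [← h4, h3, h4, Units.inv_mul]
    · have h4 : (F x.1).det * (F (x⁻¹).1).det = 1 := by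
        rw [← det_mul, ← map_mul, Units.mul_inv, map_one, det_one]
      rwa [hx.2, one_mul] at h4

theorem inj (h : Out k K A n) {L : Type} [Field L] [Algebra k L] [Algebra K L]
    [IsScalarTower k K L] {σ : L ⊗[k] A →ₗ[L] L ⊗[k] A}
    (h1 : ∀ c y, σ (c ⊗ₜ y) = c ⊗ₜ star y) {π : L ⊗[k] A →+ L ⊗[K] A} (hπ : ∀ c y, π (c ⊗ₜ y) = c ⊗ₜ y)
    {z : L ⊗[k] A} (hz : π z = 0) (hz' : π (σ z) = 0) : z = 0 := by
  obtain ⟨w, hw⟩ := h.star_ne
  obtain ⟨t, ht⟩ := (h.fixed (w + star w)).mp (by rw [star_add, star_star, add_comm])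
  obtain ⟨m, hm⟩ := (h.fixed (w * star w)).mp (by rw [star_mul', star_star, mul_comm])
  have mv : ∀ (e : k) (c : L) (y : A), (algebraMap k K e • c) ⊗ₜ[k] y = c ⊗ₜ (algebraMap k K e • y) :=
    fun e c y => by rw [algebraMap_smul, algebraMap_smul, TensorProduct.smul_tmul]
  let u : L ⊗[k] A →ₗ[L] L ⊗[k] A :=
    TensorProduct.AlgebraTensorModule.map LinearMap.id
      ((LinearMap.lsmul K A w).restrictScalars k) - algebraMap K L (star w) • LinearMap.id
  have hu : ∀ c y, u (c ⊗ₜ y) = c ⊗ₜ (w • y) - (star w • c) ⊗ₜ y := fun c y => by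
    change c ⊗ₜ[k] (w • y) - algebraMap K L (star w) • (c ⊗ₜ[k] y) = _
    rw [TensorProduct.smul_tmul', algebraMap_smul]
  have hw1 : ∀ c y, u ((w • c) ⊗ₜ y) = u (c ⊗ₜ (w • y)) := fun c y => by
    have e1 : w * w = algebraMap k K t * w - algebraMap k K m := by rw [ht, hm]; ring
    have e2 : w = algebraMap k K t - star w := by rw [ht]; ring
    have a1 : c ⊗ₜ[k] (w • w • y) =
        (algebraMap k K t • c) ⊗ₜ (w • y) - (algebraMap k K m • c) ⊗ₜ y := by
      rw [smul_smul, e1, sub_smul, mul_smul, TensorProduct.tmul_sub, mv, mv]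
    have a2 : star w • w • c = algebraMap k K m • c := by rw [smul_smul, hm, mul_comm]
    have a3 : (w • c) ⊗ₜ[k] (w • y) =
        (algebraMap k K t • c) ⊗ₜ (w • y) - (star w • c) ⊗ₜ (w • y) := by
      rw [← TensorProduct.sub_tmul, ← sub_smul, ← e2]
    rw [hu, hu, a1, a2, a3]
    abel
  let s : L ⊗[K] A →+ L ⊗[k] A := TensorProduct.liftAddHom
    (AddMonoidHom.mk' (fun c => AddMonoidHom.mk' (fun y => u (c ⊗ₜ y)) fun y y' => by
      rw [TensorProduct.tmul_add, map_add]) fun c c' => by
        ext y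
        change u ((c + c') ⊗ₜ y) = u (c ⊗ₜ y) + u (c' ⊗ₜ y)
        rw [TensorProduct.add_tmul, map_add]) fun κ c y => by
    obtain ⟨α, β, rfl⟩ := P011.H738.exists_comb h.fixed hw κ
    change u ((_ • c) ⊗ₜ y) = u (c ⊗ₜ (_ • y))
    rw [add_smul, add_smul, TensorProduct.add_tmul, TensorProduct.tmul_add, map_add, map_add, mv,
      mul_smul, mv, hw1, mul_smul, smul_comm w]
  have hs : ∀ x, s (π x) = u x := fun x => by
    induction x using TensorProduct.induction_on with
    | zero => rw [map_zero, map_zero, map_zero]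
    | add x x' hx hx' => rw [map_add, map_add, map_add, hx, hx']
    | tmul c y => rw [hπ]; rfl
  have hc : ∀ x, u x + σ (u (σ x)) = (algebraMap K L w - algebraMap K L (star w)) • x := fun x => by
    induction x using TensorProduct.induction_on with
    | zero => simp only [map_zero, add_zero, smul_zero]
    | add x x' hx hx' => rw [map_add, map_add, map_add, map_add, smul_add, ← hx, ← hx']; abel
    | tmul c y =>
      rw [h1, hu, hu, map_sub, h1, h1, star_smul, star_star, TensorProduct.smul_tmul', ← map_sub,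
        algebraMap_smul, sub_smul, TensorProduct.sub_tmul]
      have e3 : c ⊗ₜ[k] (w • y) + c ⊗ₜ[k] (star w • y) = (w • c) ⊗ₜ y + (star w • c) ⊗ₜ y := by
        rw [← TensorProduct.tmul_add, ← add_smul, ← ht, ← mv, ht, add_smul, TensorProduct.add_tmul]
      rw [eq_sub_of_add_eq e3]
      abel
  have h5 := hc z
  rw [← hs, ← hs, hz, hz', map_zero, map_zero, add_zero, eq_comm, smul_eq_zero, sub_eq_zero] at h5
  exact h5.resolve_left fun h6 => hw ((algebraMap K L).injective h6).symm

theorem rk [Infinite k] (h : Out k K A n) {L : Type} [Field L] [Algebra k L]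
    (hd : Div k K A L) : Rk0 L fun g : GP k A L n => g.1.1 := by
  intro c s e hc
  obtain ⟨φ, hφ⟩ := hd
  let _ : Algebra K L := (φ : K →+* L).toAlgebra
  have : IsScalarTower k K L := IsScalarTower.of_algebraMap_eq fun c => (φ.commutes c).symm
  have : Infinite L := Infinite.of_injective _ (algebraMap k L).injective
  have := h.central
  have := h.simple
  have hn := h.le
  have : FiniteDimensional K A := FiniteDimensional.of_finrank_pos (by rw [h.rank]; positivity)
  obtain ⟨σ, h1, h2, h3⟩ := exists_sig (A := A) h.fixed L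
  let π : L ⊗[k] A →ₐ[L] L ⊗[K] A := Algebra.TensorProduct.lift (Algebra.ofId L _)
    ((Algebra.TensorProduct.includeRight : A →ₐ[K] L ⊗[K] A).restrictScalars k) fun x y =>
      show Commute _ _ from Algebra.commutes x _
  have hπ : ∀ c y, π (c ⊗ₜ y) = c ⊗ₜ y := fun c y => by
    change (c ⊗ₜ 1 : L ⊗[K] A) * (1 ⊗ₜ y) = _
    rw [Algebra.TensorProduct.tmul_mul_tmul, mul_one, one_mul]
  have hl : ∀ t, π (c t).1.1 = ∑ m ∈ s, (t ^ m).1 • π (e m) := fun t => by
    rw [show (c t).1.1 = _ from hc t, map_sum]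
    exact Finset.sum_congr rfl fun m _ => map_smul _ _ _
  have hm : ∀ u, ∀ m ∈ s, (u ^ m).1 • π (e m) - π (e m) * π (c u).1.1 = 0 := fun u =>
    indep s _ fun t => by
      have h4 : π (c (t * u)).1.1 = π (c t).1.1 * π (c u).1.1 := by
        rw [map_mul c]
        exact map_mul π (c t).1.1 (c u).1.1
      rw [hl (t * u), hl t, Finset.sum_mul, ← sub_eq_zero, ← Finset.sum_sub_distrib] at h4
      refine Eq.trans (Finset.sum_congr rfl fun m _ => ?_) h4
      rw [smul_sub, smul_smul, mul_zpow, Units.val_mul, smul_mul_assoc]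
  have key : ∀ u, π (c u).1.1 = 1 := by
    by_cases h0 : ∀ m ∈ s, π (e m) = 0
    · intro u
      have h4 : ∀ t, π (c t).1.1 = 0 := fun t => by
        rw [hl]
        exact Finset.sum_eq_zero fun m hm => by rw [h0 m hm, smul_zero]
      rw [h4, ← h4 1, map_one c]
      exact map_one π
    · push Not at h0
      obtain ⟨m, hms, h0⟩ := h0
      have h4 : ∀ u, π (c u).1.1 = (u ^ m).1 • 1 := fun u =>
        (hφ _ h0).mul_left_cancel (by
          rw [mul_smul_comm, mul_one]
          exact (sub_eq_zero.1 (hm u m hms)).symm)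
      let Ω := AlgebraicClosure L
      obtain ⟨g⟩ := P011.H268.exists_split_sepClosed (K := K) (A := A) (E := Ω) h.rank
      let Φ : L ⊗[K] A →ₐ[L] Matrix (Fin n) (Fin n) Ω := Algebra.TensorProduct.lift
        (Algebra.ofId L _) g fun x y => show Commute _ _ from Algebra.commutes x _
      have h5 : m * n = 0 := zpow_inj (L := L) fun u => by
        have h6 := (su h1 h2 h3 (c u)).2 Ω (Φ.comp π)
        rw [AlgHom.comp_apply, h4, map_smul, map_one, ← algebraMap_smul Ω, det_smul, det_one,
          mul_one, Fintype.card_fin, ← map_pow, ← map_one (algebraMap L Ω)] at h6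
        rw [_root_.zpow_mul, zpow_natCast]
        exact Units.ext ((algebraMap L Ω).injective h6)
      have h6 : m = 0 := (mul_eq_zero.1 h5).resolve_right (by omega)
      intro u
      rw [h4, h6, zpow_zero, Units.val_one, one_smul]
  refine MonoidHom.ext fun u => Subtype.ext (Units.ext ?_)
  have h4 : π (σ (c u).1.1) = 1 := by
    have h5 := congrArg π (su h1 h2 h3 (c u)).1
    rwa [map_mul, key, one_mul, map_one] at h5
  have h5 : σ 1 = 1 := by rw [Algebra.TensorProduct.one_def, h1, star_one]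
  exact sub_eq_zero.1 (inj h h1 (π := π.toRingHom.toAddMonoidHom) hπ (z := (c u).1.1 - 1)
    (by change π _ = 0; rw [map_sub, key, map_one, sub_self])
    (by change π _ = 0; rw [map_sub, map_sub, h4, h5, map_one, sub_self]))

end A5x

variable {k K A : Type} [Field k] [Field K] [Algebra k K] [StarRing K] [Ring A] [StarRing A]
  [Algebra k A] [Algebra K A] [IsScalarTower k K A] [StarModule K A] {n : ℕ}

/-- At the places where the algebra is a division algebra the rank is zero. -/
theorem rk_gp [Infinite k] (h : Out k K A n) {L : Type} [CommRing L] [Algebra k L]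
    (hL : IsField L) (hd : Div k K A L) : Rk0 L fun g : GP k A L n => g.1.1 :=
  letI := hL.toField
  A5x.rk h hd

end Vale.Agent.P011Z.Cl

end
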