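import Vale.Agent.P011Z.Cl.A2
import Vale.Agent.P011Z.Cl.A3
import Vale.Agent.P011Z.Cl.A4
import Vale.Agent.P011Z.Cl.A5

/-!
Forms of the special linear groups: block A6.
-/

open TensorProduct Matrix Module

noncomputable section

namespace Vale.Agent.P011Z.Cl

open Vale.Agent.P011.H925.Full (Kv GP GK SU Div)

variable {n : ℕ} {k F : Type} [Field k] [Field F] [Algebra k F]
  {a : (F ≃ₐ[k] F) → Matrix (Fin n) (Fin n) F} {o : (F ≃ₐ[k] F) → Prop}
  {θ : (F ≃ₐ[k] F) →* MulAut (SpecialLinearGroup (Fin n) F)}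

/-- The statement for the special unitary groups. -/
def MA (k F : Type) [Field k] [Field F] (n : ℕ) : Prop :=
  ∀ (K A : Type) [Field K] [Algebra k K] [StarRing K] [Ring A] [StarRing A] [Algebra k A]
    [Algebra K A] [IsScalarTower k K A] [StarModule K A] [Algebra K F]
    (f : A →ₐ[K] Matrix (Fin n) (Fin n) F), Out k K A n →
      ∃ δ : GK f →* P011.H925.Full.HA k K A n, (∀ g, P011.H925.Full.Diag g.1.1 (δ g)) ∧ MP δ

namespace A6x

theorem infinite (hk : Glob k) : Infinite k := by
  rcases hk with hk | ⟨E, _, _, _, _⟩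
  · exact Infinite.of_injective _ (Nat.cast_injective (R := k))
  · have : Infinite (RatFunc E) :=
      Infinite.of_injective _ (RatFunc.algebraMap_injective E)
    exact Infinite.of_injective _ (algebraMap (RatFunc E) k).injective

/-- The map to the points over an extension. -/
theorem exists_pt (h : FormA a o θ) (L : Type) [CommRing L] [Algebra k L] :
    ∃ d : Fix θ →* GA a o L, ∀ g, (d g).1.1 = g.1.1.map (1 ⊗ₜ ·) := by
  let i : F →+* L ⊗[k] F := (Algebra.TensorProduct.includeRight : F →ₐ[k] L ⊗[k] F).toRingHom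
  refine ⟨((SpecialLinearGroup.map i).comp (Fix θ).subtype).codRestrict _ fun g =>
    Subgroup.subset_closure fun σ => ?_, fun g => rfl⟩
  have h1 : θ σ g.1 = g.1 := (Subgroup.mem_iInf.1 g.2) σ
  have h2 := (h.1 σ).2 g.1
  rw [h1] at h2
  have h3 : (g.1.1.map i).map (σ.toLinearMap.lTensor L) = (g.1.1.map σ).map i := rfl
  refine ⟨fun ho => ?_, fun ho => ?_⟩
  · change g.1.1.map i * (a σ).map i = (a σ).map i * (g.1.1.map i).map _
    rw [h3, ← Matrix.map_mul, ← Matrix.map_mul, h2.1 ho]
  · change g.1.1.map i * (a σ).map i * ((g.1.1.map i).map _)ᵀ = (a σ).map i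
    rw [h3, ← Matrix.transpose_map, ← Matrix.map_mul, ← Matrix.map_mul, h2.2 ho]

theorem mp_of {G G' H H' : Type} [Group G] [Group G'] [Group H] [Group H'] [TopologicalSpace H]
    [TopologicalSpace H'] (e : G ≃* G') {δ : G →* H} {δ' : G' →* H'} (r : H →* H')
    (hr : Continuous r) (h : ∀ g, r (δ g) = δ' (e g)) (hm : MP δ') : MP δ := by
  intro N hN hZ
  obtain ⟨W, h1, h2, h3⟩ := hm (N.comap e.symm.toMonoidHom) (hN.comap _) fun h4 => hZ fun x hx =>
    Subgroup.mem_center_iff.2 fun y => e.injective (by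
      rw [map_mul, map_mul]
      exact Subgroup.mem_center_iff.1 (h4 (show e.symm (e x) ∈ N by
        rwa [e.symm_apply_apply])) (e y))
  refine ⟨W.comap r, h1.comap _, h2.preimage hr, Subgroup.ext fun g => ?_⟩
  change _ ↔ r (δ g) ∈ W
  rw [h, ← Subgroup.mem_comap, ← h3]
  change _ ↔ e.symm (e g) ∈ N
  rw [e.symm_apply_apply]

theorem isField (v : AbsoluteValue k ℝ) : IsField (Kv v) := Field.toIsField v.Completion

end A6x

/-- The conjecture for the outer forms of the special linear groups. -/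
theorem form_A [FiniteDimensional k F] [IsGalois k F] (hA : MA k F n) (hk : Glob k) (hn : 3 ≤ n)
    (h : FormA a o θ) (hr : Rk0 k fun g : Fix θ => g.1.1) :
    ∃ δ : Fix θ →* HG a o, (∀ g v, (δ g v).1.1 = g.1.1.map (1 ⊗ₜ ·)) ∧ MP δ := by
  have := A6x.infinite hk
  obtain ⟨K, A, _, _, _, _, _, _, _, _, _, _, _, f, P, hP⟩ := exists_pk hn h
  have hO : Out k K A n :=
    ⟨hk, hP.fixed, hP.star_ne, hP.central, hP.simple, hn, hP.rank, hP.aniso h hr⟩
  obtain ⟨δ0, h1, h2⟩ := hA K A f hO
  obtain ⟨e, he⟩ := hP.gk h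
  choose d hd using fun v : Pl k => A6x.exists_pt h (Kv v.abv)
  choose ρ π r1 r2 r3 using fun v : AbsoluteValue k ℝ => hP.loc (by omega) (Kv v)
  have hv : ∀ v : P011.H925.Full.AG k K A,
      Rk0 (Kv v.abv) fun g : GA a o (Kv v.abv) => g.1.1 := fun v c s x hx => by
    have h3 := rk_gp hO (A6x.isField v.abv) v.div ((ρ v.abv).comp c) s (fun m => π v.abv (x m))
      fun t => by
        change (ρ v.abv (c t)).1.1 = _
        rw [r2, show (c t).1.1 = _ from hx t, map_sum]
        exact Finset.sum_congr rfl fun m _ => map_smul _ _ _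
    exact MonoidHom.ext fun t => r1 v.abv ((DFunLike.congr_fun h3 t).trans (map_one _).symm)
  let δ : Fix θ →* HG a o := MonoidHom.pi fun v => d v.1
  let r : HG a o →* P011.H925.Full.HA k K A n := MonoidHom.pi fun v =>
    (ρ v.abv).comp (Pi.evalMonoidHom
      (fun w : {w : Pl k // Rk0 (Kv w.abv) fun g : GA a o (Kv w.abv) => g.1.1} => GA a o (Kv w.1.abv))
      ⟨⟨v.abv, v.nonarch, v.normalized⟩, hv v⟩)
  refine ⟨δ, fun g v => hd v.1 g, A6x.mp_of e r (continuous_pi fun v => ?_) (fun g => ?_) h2⟩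
  · have h3 : Continuous (ρ v.abv) := by
      refine continuous_induced_rng.2 ?_
      have h4 : @Continuous _ _ (moduleTopology (Kv v.abv) _) (moduleTopology (Kv v.abv) _)
          (π v.abv) := by
        let := moduleTopology (Kv v.abv) (Matrix (Fin n) (Fin n) (Kv v.abv ⊗[k] F))
        let := moduleTopology (Kv v.abv) (Kv v.abv ⊗[k] A)
        have : IsModuleTopology (Kv v.abv) (Matrix (Fin n) (Fin n) (Kv v.abv ⊗[k] F)) := ⟨rfl⟩
        have : IsModuleTopology (Kv v.abv) (Kv v.abv ⊗[k] A) := ⟨rfl⟩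
        have := IsModuleTopology.toContinuousAdd (Kv v.abv) (Kv v.abv ⊗[k] A)
        exact IsModuleTopology.continuous_of_linearMap _
      have h5 : (fun g : GP k A (Kv v.abv) n => g.1.1) ∘ ρ v.abv =
          π v.abv ∘ fun g : GA a o (Kv v.abv) => g.1.1 := funext fun g => r2 v.abv g
      rw [h5]
      exact @Continuous.comp _ _ _ _ (moduleTopology (Kv v.abv) _) (moduleTopology (Kv v.abv) _)
        _ _ h4 continuous_induced_dom
    exact h3.comp (continuous_apply _)
  · funext v
    refine Subtype.ext (Units.ext ?_)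
    refine Eq.trans ?_ (h1 (e g) v).symm
    change (ρ v.abv (d ⟨v.abv, v.nonarch, v.normalized⟩ g)).1.1 = _
    rw [r2, hd, ← he, r3]

end Vale.Agent.P011Z.Cl

end
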