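import Vale.Agent.P011Z.Cl.Pol

/-!
Classification of the forms: block Apx.
-/

open Matrix Module

noncomputable section

namespace Vale.Agent.P011Z.Cl

open Vale.Agent.P011.D4 Vale.Agent.P011.D4.Oct Vale.Agent.P011.E6 Vale.Agent.P011.E6.Alb

variable {V W : Type} [AddCommGroup V] [Module Om V] [AddCommGroup W] [Module Om W]

namespace Apxx

open NumberField

/-- A polynomial function of the coordinates and their conjugates is continuous. -/
theorem cont {p : V → Om} (hp : Pol p) {ι : Om →+* ℂ} {γ : Gq} (hγ : Cj ι γ) {n : ℕ}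
    (u v : Fin n → V) : ∃ F : (Fin n → ℂ) → ℂ, Continuous F ∧
      ∀ z : Fin n → Om, ι (p (∑ a, z a • u a + ∑ a, γ (z a) • v a)) = F fun a => ι (z a) := by
  unfold Pol at hp
  induction hp using Algebra.adjoin_induction with
  | mem q hq =>
    obtain ⟨l, rfl⟩ := hq
    refine ⟨fun w => ∑ a, w a * ι (l (u a)) + ∑ a, starRingEnd ℂ (w a) * ι (l (v a)), ?_,
      fun z => ?_⟩
    · refine Continuous.add ?_ ?_
      · exact continuous_finsetSum _ fun a _ => (continuous_apply a).mul continuous_const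
      · exact continuous_finsetSum _ fun a _ =>
          (Complex.continuous_conj.comp (continuous_apply a)).mul continuous_const
    · simp only [map_add, map_sum, map_smul, smul_eq_mul, map_mul, hγ _]
  | algebraMap r => exact ⟨fun _ => ι r, continuous_const, fun _ => rfl⟩
  | add q r _ _ hq hr =>
    obtain ⟨F, hF, eF⟩ := hq
    obtain ⟨F', hF', eF'⟩ := hr
    exact ⟨fun w => F w + F' w, hF.add hF', fun z => by rw [Pi.add_apply, map_add, eF, eF']⟩
  | mul q r _ _ hq hr =>
    obtain ⟨F, hF, eF⟩ := hq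
    obtain ⟨F', hF', eF'⟩ := hr
    exact ⟨fun w => F w * F' w, hF.mul hF', fun z => by rw [Pi.mul_apply, map_mul, eF, eF']⟩

/-- A complex embedding which is not real has dense image. -/
theorem dense {E : Type} [Field E] [CharZero E] (ψ : E →+* ℂ) {x : E} (hx : (ψ x).im ≠ 0)
    (c : ℂ) {ε : ℝ} (hε : 0 < ε) : ∃ e : E, ‖ψ e - c‖ < ε := by
  have hc : Continuous fun q : ℝ × ℝ => (q.1 : ℂ) + (q.2 : ℂ) * ψ x :=
    (Complex.continuous_ofReal.comp continuous_fst).add
      ((Complex.continuous_ofReal.comp continuous_snd).mul continuous_const)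
  have hs : Function.Surjective fun q : ℝ × ℝ => (q.1 : ℂ) + (q.2 : ℂ) * ψ x := by
    intro w
    refine ⟨(w.re - w.im / (ψ x).im * (ψ x).re, w.im / (ψ x).im), ?_⟩
    apply Complex.ext
    · simp only [Complex.add_re, Complex.ofReal_re, Complex.re_ofReal_mul]
      ring
    · simp only [Complex.add_im, Complex.ofReal_im, Complex.im_ofReal_mul]
      field_simp
      ring
  have hd : DenseRange (Prod.map ((↑) : ℚ → ℝ) ((↑) : ℚ → ℝ)) :=
    Rat.denseRange_cast.prodMap Rat.denseRange_cast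
  have h2 := hs.denseRange.comp hd hc
  obtain ⟨q, hq⟩ := Metric.denseRange_iff.1 h2 c ε hε
  refine ⟨(q.1 : E) + (q.2 : E) * x, ?_⟩
  rw [dist_comm, dist_eq_norm] at hq
  have : ψ ((q.1 : E) + (q.2 : E) * x) = ((q.1 : ℝ) : ℂ) + ((q.2 : ℝ) : ℂ) * ψ x := by
    simp only [map_add, map_mul, map_ratCast, Complex.ofReal_ratCast]
  rw [this]
  exact hq

/-- Weak approximation at the infinite places. -/
theorem weak {E : Type} [Field E] [NumberField E] (e : InfinitePlace E → E) {ε : ℝ}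
    (hε : 0 < ε) : ∃ t : E, ∀ w : InfinitePlace E, w (t - e w) < ε := by
  obtain ⟨t, ht⟩ := Metric.denseRange_iff.1 (InfinitePlace.denseRange_algebraMap_pi E)
    (fun w => WithAbs.toAbs w.1 (e w)) ε hε
  refine ⟨t, fun w => ?_⟩
  have h1 := (dist_le_pi_dist _ _ w).trans_lt ht
  rw [dist_comm, dist_eq_norm] at h1
  exact h1

end Apxx

open NumberField in
/-- Weak approximation at the real places which become complex in a quadratic extension. -/
theorem apx [FiniteDimensional Om V] {G H : Subgroup Gq} (hle : H ≤ G) (hx : Ix2 G H)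
    {f : Gq → V → V} (h : TA H f) {s : Gq} (hs : s ∈ G) (hsH : s ∉ H) {φ : V → W} (hφ : Semi s φ)
    {p : V × W → Om} (hp : Pol p) (hk : ∀ x, Fv H f x → Fx G (p (x, φ x))) (R : Set (Om →+* ℂ))
    (hR : ∀ ι ∈ R, ∃ γ, Cj ι γ ∧ γ ∈ G ∧ γ ∉ H ∧ ∃ y, 0 < (ι (p (y, φ (f (s⁻¹ * γ) y)))).re) :
    ∃ x, Fv H f x ∧ ∀ ι ∈ R, 0 < (ι (p (x, φ x))).re := by
  classical
  obtain ⟨b, hb⟩ := h.basis
  have := h.opn.nf
  set E := IntermediateField.fixedField H with hE
  let res : (Om →+* ℂ) → (E →+* ℂ) := fun ι => ι.comp (algebraMap E Om)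
  -- rational points
  have hfix : ∀ t : Fin (finrank Om V) → E, Fv H f (∑ a, (t a : Om) • b a) := by
    intro t σ hσ
    rw [(h.semi σ hσ).sum]
    refine Finset.sum_congr rfl fun a _ => ?_
    rw [(h.semi σ hσ).smul, hb a σ hσ, mem_fix.1 (t a).2 σ hσ]
  -- local conditions
  have key : ∀ ι ∈ R, ∃ ε : ℝ, 0 < ε ∧ ∃ e : Fin (finrank Om V) → E,
      ∀ t : Fin (finrank Om V) → E, (∀ a, ‖res ι (t a - e a)‖ < ε) →
        0 < (ι (p (∑ a, (t a : Om) • b a, φ (∑ a, (t a : Om) • b a)))).re := by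
    intro ι hι
    obtain ⟨γ, hγ, hγG, hγH, y, hy⟩ := hR ι hι
    have hm : s⁻¹ * γ ∈ H := by
      rw [hx _ (G.inv_mem hs) _ hγG]
      exact ⟨fun h1 => absurd (by simpa using H.inv_mem h1) hsH, fun h1 => absurd h1 hγH⟩
    have hγs : ∀ z : Om, s ((s⁻¹ * γ) z) = γ z := fun z => by
      rw [← AlgEquiv.mul_apply, mul_inv_cancel_left]
    obtain ⟨F, hF, eF⟩ := Apxx.cont hp hγ (fun a => ((b a, 0) : V × W)) fun a => (0, φ (b a))
    have eF' : ∀ z : Fin (finrank Om V) → Om,
        ι (p (∑ a, z a • b a, φ (f (s⁻¹ * γ) (∑ a, z a • b a)))) = F fun a => ι (z a) := by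
      intro z
      rw [← eF]
      congr 2
      rw [(h.semi _ hm).sum, hφ.sum]
      ext
      · simp [Prod.fst_sum]
      · simp only [Prod.snd_add, Prod.snd_sum, Prod.smul_mk, smul_zero, Finset.sum_const_zero,
          zero_add]
        refine Finset.sum_congr rfl fun a _ => ?_
        rw [(h.semi _ hm).smul, hφ.smul, hγs, hb a _ hm]
    have hy' : 0 < (F fun a => ι (b.repr y a)).re := by
      rw [← eF', b.sum_repr]
      exact hy
    have hopen : IsOpen {w | 0 < (F w).re} :=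
      isOpen_lt continuous_const (Complex.continuous_re.comp hF)
    obtain ⟨ε, hε, hball⟩ := Metric.isOpen_iff.1 hopen _ hy'
    obtain ⟨x0, hx0, hx1⟩ : ∃ x0, Fx H x0 ∧ γ x0 ≠ x0 := by
      by_contra hc
      exact hγH (h.opn.mem fun x hx => by_contra fun h1 => hc ⟨x, hx, h1⟩)
    have him : (res ι ⟨x0, mem_fix.2 hx0⟩).im ≠ 0 := fun h1 => hx1 (hγ.real.2 h1)
    choose e he using fun a => Apxx.dense (res ι) him (ι (b.repr y a)) (half_pos hε)
    refine ⟨ε / 2, half_pos hε, e, fun t ht => ?_⟩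
    have h1 := eF' fun a => (t a : Om)
    rw [hfix t _ hm] at h1
    rw [h1]
    apply hball
    rw [Metric.mem_ball, dist_pi_lt_iff hε]
    intro a
    rw [dist_eq_norm]
    have h2 : ι (t a : Om) - ι (b.repr y a) =
        res ι (t a - e a) + (res ι (e a) - ι (b.repr y a)) := by
      rw [map_sub]
      change ι (t a : Om) - _ = ι (t a : Om) - _ + _
      ring
    rw [h2]
    refine (norm_add_le _ _).trans_lt ?_
    linarith [ht a, he a]
  -- one embedding for every place
  have key2 : ∀ w : InfinitePlace E, ∃ ε : ℝ, 0 < ε ∧ ∃ e : Fin (finrank Om V) → E,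
      ∀ t : Fin (finrank Om V) → E, (∀ a, w (t a - e a) < ε) → ∀ ι ∈ R,
        InfinitePlace.mk (res ι) = w →
        0 < (ι (p (∑ a, (t a : Om) • b a, φ (∑ a, (t a : Om) • b a)))).re := by
    intro w
    by_cases hw : ∃ ι ∈ R, InfinitePlace.mk (res ι) = w
    · obtain ⟨ι, hι, rfl⟩ := hw
      obtain ⟨ε, hε, e, he⟩ := key ι hι
      refine ⟨ε, hε, e, fun t ht ι' _ h1 => ?_⟩
      have h2 := he t fun a => by simpa only [InfinitePlace.apply] using ht a
      have h3 : Fx H (p (∑ a, (t a : Om) • b a, φ (∑ a, (t a : Om) • b a))) :=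
        fun σ hσ => hk _ (hfix t) σ (hle hσ)
      generalize p (∑ a, (t a : Om) • b a, φ (∑ a, (t a : Om) • b a)) = q at h2 h3 ⊢
      rcases InfinitePlace.mk_eq_iff.1 h1 with h4 | h4
      · have h5 : ι' q = ι q := RingHom.congr_fun h4 ⟨q, mem_fix.2 h3⟩
        rw [h5]
        exact h2
      · have h5 : starRingEnd ℂ (ι' q) = ι q := RingHom.congr_fun h4 ⟨q, mem_fix.2 h3⟩
        rw [← h5, Complex.conj_re] at h2
        exact h2
    · exact ⟨1, one_pos, 0, fun _ _ ι hι h1 => absurd ⟨ι, hι, h1⟩ hw⟩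
  choose ε hε e he using key2
  obtain ⟨w0, hw0⟩ := Finite.exists_min ε
  choose t ht using fun a => Apxx.weak (fun w => e w a) (hε w0)
  exact ⟨_, hfix t, fun ι hι => he _ t (fun a => (ht a _).trans_le (hw0 _)) ι hι rfl⟩

end Vale.Agent.P011Z.Cl

end
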