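import Vale.Agent.P011Z.Cl.Pol
import Vale.Agent.P011.Tpl.H359.Abhn
import Vale.Agent.P011.Pow.ExIdx
import Vale.Agent.P011.W.LocC
import Vale.Agent.P011Z.Cl.Br0.Item

/-!
Classification of the forms: block Br0.
-/

open Matrix Module

noncomputable section

namespace Vale.Agent.P011Z.Cl

open Vale.Agent.P011.D4 Vale.Agent.P011.D4.Oct Vale.Agent.P011.E6 Vale.Agent.P011.E6.Alb

open NumberField IsDedekindDomain Vale.Agent.P011.W in
/-- The division algebra of a projective action which multiplies a form of prime degree `p` by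
constants; its local indices divide `p`. -/
theorem br0 {V : Type} [AddCommGroup V] [Module Om V] [FiniteDimensional Om V] {H : Subgroup Gq}
    {f : Gq → V → V} (h : PA H f) {p : ℕ} (hp : p.Prime) {N : V → Om} (hN : Pol N)
    (hh : ∀ (t : Om) x, N (t • x) = t ^ p * N x) (h0 : ∃ x, N x ≠ 0)
    (hm : ∀ σ ∈ H, ∃ l : Om, ∀ x, N (f σ x) = l * σ (N x))
    (E : Type) [Field E] [NumberField E] (j : E →+* Om) (hj : ∀ y, Fx H y ↔ ∃ x, j x = y) :
    ∃ (D : Type) (_ : DivisionRing D) (_ : Algebra E D) (_ : FiniteDimensional E D)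
      (_ : Algebra.IsCentral E D) (d : ℕ), finrank E D = d ^ 2 ∧
      (∀ (E' : Type) [Field E'] (φ : E →+* E') (j' : E' →+* Om), (∀ x, j' (φ x) = j x) →
        Spl D d φ → ∃ x, x ≠ 0 ∧ ∀ σ ∈ H, (∀ y, σ (j' y) = j' y) → ∃ t : Om, f σ x = t • x) ∧
      (∀ (ι : Om →+* ℂ) (γ : Gq) (ψ : E →+* ℝ), Cj ι γ → γ ∈ H → (∀ x, ι (j x) = ψ x) →
        (∃ x, x ≠ 0 ∧ ∃ t : Om, f γ x = t • x) → Spl D d ψ) ∧
      ∀ w : HeightOneSpectrum (𝓞 E), ∃ (q : ℕ) (Δ : Type) (_ : DivisionRing Δ)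
        (_ : Algebra (w.adicCompletion E) Δ) (_ : FiniteDimensional (w.adicCompletion E) Δ)
        (_ : Algebra.IsCentral (w.adicCompletion E) Δ), q ∣ p ∧
        finrank (w.adicCompletion E) Δ = q ^ 2 ∧ ∀ (R : Type) [Field R]
          (φ : w.adicCompletion E →+* R),
          Spl D d (φ.comp (algebraMap E (w.adicCompletion E))) ↔ Spl Δ q φ := by
  let _ : Algebra E Om := j.toAlgebra
  obtain ⟨x0, hx0⟩ := h0
  have hx : x0 ≠ 0 := by
    rintro rfl
    have h1 := hh 0 0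
    rw [zero_smul, zero_pow hp.ne_zero, zero_mul] at h1
    exact hx0 h1
  have hnt : Nontrivial V := ⟨⟨x0, 0, hx⟩⟩
  obtain ⟨n, hn, ⟨e⟩⟩ : ∃ n, 0 < n ∧ Nonempty (V ≃ₗ[Om] (Fin n → Om)) :=
    ⟨_, Module.finrank_pos, ⟨(finBasis Om V).equivFun⟩⟩
  obtain ⟨P, hP, he⟩ := Br0x.exists_co h e
  obtain ⟨A, _, _, _, _, g, hA, hsp, hg⟩ := hP.form (E := E) hn hj
  obtain ⟨m, d, D, _, _, _, _, ψ, hmd, hD, hS⟩ := Br0x.wed hn hA g hsp
  refine ⟨D, inferInstance, inferInstance, inferInstance, inferInstance, d, hD, ?_, ?_, ?_⟩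
  · intro E' _ φ j' hφ hs
    let _ : Algebra E E' := φ.toAlgebra
    obtain ⟨F⟩ := (hS E').1 hs
    obtain ⟨y, hy, h1⟩ := Br0x.item1 hn hA hsp hg ({ j' with commutes' := hφ } : E' →ₐ[E] Om) F
    refine ⟨e.symm y, fun h2 => hy (e.symm.map_eq_zero_iff.mp h2), fun σ hσ h2 => ?_⟩
    obtain ⟨t, ht⟩ := h1 σ hσ h2
    refine ⟨t, e.injective ?_⟩
    rw [he σ hσ, map_smul, e.apply_symm_apply, ht]
  · rintro ι γ ψ' hγ hγH hψ ⟨x, hx, t, ht⟩
    let _ : Algebra E ℝ := ψ'.toAlgebra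
    have hs := h.semi γ hγH
    have ht0 : t ≠ 0 := by
      rintro rfl
      exact hs.ne hx (by rw [ht, zero_smul])
    have hu : Semi γ fun y => e (t⁻¹ • f γ (e.symm y)) := by
      have h1 := (semi_lin e).comp ((hs.smul' (inv_ne_zero ht0)).comp (semi_lin e.symm))
      rwa [mul_one, one_mul] at h1
    refine (hS ℝ).2 (Br0x.item2 (g := g) hγ hψ hu (fun y => ?_) fun a y => ?_)
    · obtain ⟨c, hc⟩ := h.coc γ hγH γ hγH
      obtain ⟨c', hc'⟩ := h.coc 1 H.one_mem 1 H.one_mem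
      have h1 : ∀ z, f 1 z = c' • z := fun z => (h.semi 1 H.one_mem).bij.1 (by
        rw [hc', (h.semi 1 H.one_mem).smul, mul_one]
        rfl)
      have h2 : ∀ z, t⁻¹ • f γ (t⁻¹ • f γ z) = (t⁻¹ * γ t⁻¹ * c * c') • z := by
        intro z
        rw [hs.smul, hc, hγ.sq, h1, smul_smul, smul_smul, smul_smul]
      have h3 := h2 x
      rw [ht, inv_smul_smul₀ ht0, ht, inv_smul_smul₀ ht0] at h3
      have h4 : t⁻¹ * γ t⁻¹ * c * c' = 1 :=
        smul_left_injective Om hx (h3.symm.trans (one_smul _ _).symm)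
      rw [e.symm_apply_apply, h2, h4, one_smul, e.apply_symm_apply]
    · rw [map_smul, map_smul, he γ hγH, he γ hγH, e.apply_symm_apply, e.apply_symm_apply,
        Matrix.mulVec_smul, Br0x.map_mv, Matrix.mulVec_mulVec, Matrix.mulVec_mulVec, hg γ hγH]
  · intro w
    obtain ⟨m', q, _, Δ, _, _, _, _, ψ', hmq, hΔ, hiff⟩ :=
      Vale.Agent.P011.Pow.exists_part2 hD (w.adicCompletion E)
    refine ⟨q, Δ, inferInstance, inferInstance, inferInstance, inferInstance, ?_, hΔ, hiff⟩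
    let _ := Vale.Agent.P011.Even.nnf w
    have := Vale.Agent.P011.Even.isUltra w
    have hcK : CharZero (w.adicCompletion E) :=
      charZero_of_injective_algebraMap (algebraMap E _).injective
    obtain ⟨W, _, _, σ, X, U, c, hσ, hX, hU, hq⟩ := Br0x.loc hΔ (Fin m × Fin m') (n := n) (by
      rw [Fintype.card_prod, Fintype.card_fin, Fintype.card_fin, mul_assoc, hmq, hmd])
    let _ : Algebra E W := ((algebraMap (w.adicCompletion E) W).comp (algebraMap E _)).toAlgebra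
    have : IsScalarTower E (w.adicCompletion E) W := IsScalarTower.of_algebraMap_eq fun _ => rfl
    let _ : Algebra E Δ := ((algebraMap (w.adicCompletion E) Δ).comp (algebraMap E _)).toAlgebra'
      fun c x => Algebra.commutes _ _
    have : IsScalarTower E (w.adicCompletion E) Δ := IsScalarTower.of_algebraMap_eq fun _ => rfl
    let g1 : D →ₐ[E] Matrix (Fin m') (Fin m') Δ :=
      (ψ'.toAlgHom.restrictScalars E).comp Algebra.TensorProduct.includeRight
    let G : A →ₐ[E] Matrix (Fin m × Fin m') (Fin m × Fin m') Δ :=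
      ((Matrix.compAlgEquiv (Fin m) (Fin m') Δ E).toAlgHom.comp g1.mapMatrix).comp ψ.toAlgHom
    obtain ⟨Q, hQ⟩ := Br0x.exists_pol hN e
    obtain ⟨l, hl⟩ := Br0x.item3 (p := p) hn hP hj hA hsp hg Q (fun τ hτ => by
        obtain ⟨l, hl⟩ := hm τ hτ
        refine ⟨l, fun y => ?_⟩
        obtain ⟨y, rfl⟩ := e.surjective y
        rw [← he τ hτ, ← hQ, ← hQ, hl])
      (fun t y => by
        obtain ⟨y, rfl⟩ := e.surjective y
        rw [← map_smul, ← hQ, ← hQ, hh]) ⟨e x0, by rwa [← hQ]⟩ σ (fun x => hσ _)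
      ((X.restrictScalars E).comp G) (fun a => hX (G a)) hU
    exact hq l p hl

end Vale.Agent.P011Z.Cl

end
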