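import Vale.Agent.P011Z.Cl.Br0
import Vale.Agent.P011Z.Cl.Br2.Loc
import Vale.Agent.P011Z.Cl.Br2.Sq
import Vale.Agent.P011.Pow.ExSqrt

/-!
Classification of the forms: block Br2.
-/

open Matrix Module

noncomputable section

namespace Vale.Agent.P011Z.Cl

open Vale.Agent.P011.D4 Vale.Agent.P011.D4.Oct Vale.Agent.P011.E6 Vale.Agent.P011.E6.Alb

open NumberField IsDedekindDomain Vale.Agent.P011.W Vale.Agent.P011.Pow Br2x in
/-- A quadratic extension of the ground field which splits the algebra over a cubic extension. -/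
theorem br2 {V : Type} [AddCommGroup V] [Module Om V] [FiniteDimensional Om V] {G H : Subgroup Gq}
    (hle : H ≤ G) (h3 : H.relIndex G = 3) {f : Gq → V → V} (h : PA H f) {N : V → Om} (hN : Pol N)
    (hh : ∀ (t : Om) x, N (t • x) = t ^ 2 * N x) (h0 : ∃ x, N x ≠ 0)
    (hm : ∀ σ ∈ H, ∃ l : Om, ∀ x, N (f σ x) = l * σ (N x)) {N0 : Subgroup Gq} (hN0 : Opn N0)
    (R : Set (Om →+* ℂ)) (hR : ∀ ι ∈ R, ∀ τ ∈ G, ι.comp (τ : Om →+* Om) ∈ R)
    (hr : ∀ ι γ, Cj ι γ → γ ∈ H → ι ∉ R → ∃ x, x ≠ 0 ∧ ∃ t : Om, f γ x = t • x) :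
    ∃ d : Om, d ≠ 0 ∧ Fx G (d ^ 2) ∧ (∃ s ∈ G, s ∈ N0 ∧ s d = -d) ∧
      (∀ ι γ, Cj ι γ → γ ∈ G → (ι ∈ R ↔ (ι (d ^ 2)).re < 0)) ∧
      ∃ x, x ≠ 0 ∧ ∀ σ ∈ H, σ d = d → ∃ t : Om, f σ x = t • x := by
  have hH := h.opn
  have hG := hH.mono hle
  have nk := hG.nf
  have nE := hH.nf
  have rk := hG.finrank
  have rE := hH.finrank
  have hkE : IntermediateField.fixedField G ≤ IntermediateField.fixedField H :=
    fun x hx => mem_fix.mpr fun σ hσ => mem_fix.mp hx σ (hle hσ)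
  set k := IntermediateField.fixedField G with hk
  set E := IntermediateField.fixedField H with hE
  let _ : Algebra k E := (IntermediateField.inclusion hkE).toRingHom.toAlgebra
  have hrk : finrank k E = 3 := by
    have h1 := Module.finrank_mul_finrank ℚ k E
    have h2 := Subgroup.relIndex_mul_index hle
    have h4 := hG.finiteIndex.index_ne_zero
    rw [rk, rE, ← h2, h3, mul_comm] at h1
    exact Nat.eq_of_mul_eq_mul_right (Nat.pos_of_ne_zero h4) h1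
  obtain ⟨D, _, _, _, _, q0, hD, hline, hreal, hloc⟩ := br0 h Nat.prime_two hN hh h0 hm E
    (algebraMap E Om) fun y => ⟨fun hy => ⟨⟨y, mem_fix.mpr hy⟩, rfl⟩, by
      rintro ⟨x, rfl⟩
      exact mem_fix.mp x.2⟩
  obtain ⟨S, hS, hSspl⟩ := spl_almost (deg_pos hD) hD
  obtain ⟨x, -, hxG, hxR⟩ := exists_sign hG R hR
  obtain ⟨x, rfl⟩ : ∃ y : k, (y : Om) = x := ⟨⟨x, mem_fix.mpr hxG⟩, rfl⟩
  obtain ⟨c, d, hc, hcs, hcS, hd, hs⟩ : ∃ (c : k) (d : Om), c ≠ 0 ∧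
      (∀ φ : k →+* ℝ, φ c < 0 ↔ φ x < 0) ∧
      (∀ w ∈ S, ¬ IsSquare (algebraMap E (w.adicCompletion E) (algebraMap k E c))) ∧
      d ^ 2 = c ∧ ∃ s ∈ G, s ∈ N0 ∧ s d = -d := by
    obtain ⟨c, hc, hcs, hcS⟩ := exists_c hrk hS x
    obtain ⟨m, hm0, hmS⟩ := exists_mod hS
    obtain ⟨n, e, hn0, hn1, he, σ, hσ, hσe⟩ := exists_sq (hG.inf hN0) hm0
    obtain ⟨d, hd⟩ := exists_sqrt (c : Om)
    rcases eq_or_neg (σ := σ) (d := d) (by rw [hd]; exact mem_fix.mp c.2 σ hσ.1) with h1 | h1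
    · refine ⟨c * n, d * e, mul_ne_zero hc (Nat.cast_ne_zero.mpr hn0.ne'), fun φ => ?_,
        fun w hw hsq => hcS w hw ?_, ?_, σ, hσ.1, hσ.2, by rw [map_mul, h1, hσe, mul_neg]⟩
      · rw [← hcs, map_mul, map_natCast]
        have h5 : (0 : ℝ) < n := Nat.cast_pos.mpr hn0
        exact ⟨fun h6 => neg_of_mul_neg_left h6 h5.le, fun h6 => mul_neg_of_neg_of_pos h6 h5⟩
      · have h2 := hsq.div (hmS n hn1 w hw)
        have h4 : (n : E) ≠ 0 := Nat.cast_ne_zero.mpr hn0.ne'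
        rwa [← map_div₀, map_mul, map_natCast, mul_div_cancel_right₀ _ h4] at h2
      · rw [mul_pow, hd, he]
        push_cast
        rfl
    · exact ⟨c, d, hc, hcs, hcS, hd, σ, hσ.1, hσ.2, h1⟩
  have hsign : ∀ ι γ, Cj ι γ → γ ∈ G → (ι ∈ R ↔ (ι (d ^ 2)).re < 0) := by
    intro ι γ hι hγ
    obtain ⟨φ, hφ⟩ := exists_phi hι hγ
    rw [hxR ι γ hι hγ, hd, hφ x, hφ c, Complex.ofReal_re, Complex.ofReal_re, hcs]
  refine ⟨d, ?_, ?_, hs, hsign, ?_⟩
  · rintro rfl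
    apply hc
    rw [zero_pow two_ne_zero] at hd
    exact Subtype.ext hd.symm
  · rw [hd]
    exact mem_fix.mp c.2
  have hK : Opn (H ⊓ MulAction.stabilizer Gq d) := hH.inf (opn_stab d)
  have nM := hK.nf
  have hEM : E ≤ IntermediateField.fixedField (H ⊓ MulAction.stabilizer Gq d) :=
    fun x hx => mem_fix.mpr fun σ hσ => mem_fix.mp hx σ hσ.1
  have hdM : d ∈ IntermediateField.fixedField (H ⊓ MulAction.stabilizer Gq d) :=
    mem_fix.mpr fun σ hσ => hσ.2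
  have hio := exists_iota hK
  set M := IntermediateField.fixedField (H ⊓ MulAction.stabilizer Gq d) with hM
  let _ : Algebra E M := (IntermediateField.inclusion hEM).toRingHom.toAlgebra
  have hr2 : (⟨d, hdM⟩ : M) ^ 2 = algebraMap E M (algebraMap k E c) := Subtype.ext hd
  have hspl : Spl D q0 (algebraMap E M) := by
    refine Vale.Agent.P011.Tpl.H359.abhn_gen hD M (fun w' => ?_) fun _ ψ => ?_
    · obtain ⟨w, hw⟩ := Vale.Agent.P011.Arith.exists_below (F := E) w'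
      by_cases hwS : w ∈ S
      · obtain ⟨q, Δ, _, _, _, _, hq, hΔ, hiff⟩ := hloc w
        have hcz : CharZero (w.adicCompletion E) :=
          charZero_of_injective_algebraMap (algebraMap E (w.adicCompletion E)).injective
        have h1 := (idx_part hiff (RingHom.id _)).mpr (idx_self (m := 0 + 1) hΔ hq)
        rw [RingHom.id_comp] at h1
        exact (idx_quad lq_all hD hr2 hw (hcS w hwS) h1).spl
      · exact hSspl w hwS M w' hw
    · obtain ⟨ι, γ, hι, hγ, hψ⟩ := hio ψ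
      refine hreal ι γ _ hι hγ.1 (fun y => hψ (algebraMap E M y)) (hr ι γ hι hγ.1 fun hιR => ?_)
      have h1 := (hsign ι γ hι (hle hγ.1)).mp hιR
      have h2 : ι d = ψ ⟨d, hdM⟩ := hψ ⟨d, hdM⟩
      rw [map_pow, h2, ← Complex.ofReal_pow, Complex.ofReal_re] at h1
      exact absurd h1 (not_lt.mpr (sq_nonneg _))
  obtain ⟨y, hy0, hy⟩ := hline M (algebraMap E M) (algebraMap M Om) (fun _ => rfl) hspl
  exact ⟨y, hy0, fun σ hσ hσd => hy σ hσ fun z => mem_fix.mp z.2 σ ⟨hσ, hσd⟩⟩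

end Vale.Agent.P011Z.Cl

end
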