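import Vale.Agent.P011Z.Cl.Br0
import Vale.Agent.P011Z.Cl.Br3.Gal
import Vale.Agent.P011Z.Cl.Br3.Ari

/-!
Classification of the forms: block Br3.
-/

open Matrix Module

noncomputable section

namespace Vale.Agent.P011Z.Cl

open Vale.Agent.P011.D4 Vale.Agent.P011.D4.Oct Vale.Agent.P011.E6 Vale.Agent.P011.E6.Alb

namespace Br3x

open NumberField IsDedekindDomain IntermediateField

theorem fix_le {G K : Subgroup Gq} (hle : K ≤ G) : fixedField G ≤ fixedField K :=
  fun _ hx => mem_fix.mpr fun σ hσ => mem_fix.mp hx σ (hle hσ)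

theorem opn_of_ix {G K : Subgroup Gq} (hle : K ≤ G) (hK : Opn K) : Opn G := hK.mono hle

/-- The integers of the extension satisfy quadratic equations. -/
theorem quad_int {G K : Subgroup Gq} (hx : Ix2 G K) (b : 𝓞 (fixedField K)) :
    ∃ s n : 𝓞 (fixedField G), (((b : fixedField K) : Om)) ^ 2 -
      ((s : fixedField G) : Om) * ((b : fixedField K) : Om) + ((n : fixedField G) : Om) = 0 := by
  set y : Om := ((b : fixedField K) : Om) with hy
  have hyK : Fx K y := mem_fix.mp (b : fixedField K).2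
  have hyi : IsIntegral ℤ y := b.isIntegral_coe.map (fixedField K).val.toRingHom.toIntAlgHom
  obtain ⟨z, hzi, hz⟩ : ∃ z : Om, IsIntegral ℤ z ∧ ∀ σ ∈ G, (σ y = y ∧ σ z = z) ∨
      (σ y = z ∧ σ z = y) := by
    by_cases hG : ∀ σ ∈ G, σ ∈ K
    · exact ⟨y, hyi, fun σ hσ => Or.inl ⟨hyK σ (hG σ hσ), hyK σ (hG σ hσ)⟩⟩
    · push Not at hG
      obtain ⟨τ, hτ, hτK⟩ := hG
      refine ⟨τ y, hyi.map (τ : Om →+* Om).toIntAlgHom, fun σ hσ => ?_⟩
      have hτ' : τ⁻¹ ∉ K := fun h => hτK (K.inv_mem_iff.mp h)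
      by_cases hσK : σ ∈ K
      · refine Or.inl ⟨hyK σ hσK, ?_⟩
        have h1 : σ * τ ∉ K := fun h => hτK (((hx σ hσ τ hτ).mp h).mp hσK)
        have h2 : τ⁻¹ * (σ * τ) ∈ K :=
          (hx _ (G.inv_mem hτ) _ (G.mul_mem hσ hτ)).mpr (iff_of_false hτ' h1)
        have h3 := congrArg τ (hyK _ h2)
        rw [← AlgEquiv.mul_apply, mul_inv_cancel_left] at h3
        exact h3
      · have h1 : τ⁻¹ * σ ∈ K := (hx _ (G.inv_mem hτ) _ hσ).mpr (iff_of_false hτ' hσK)
        have h2 : σ * τ ∈ K := (hx σ hσ τ hτ).mpr (iff_of_false hσK hτK)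
        have h3 := congrArg τ (hyK _ h1)
        rw [← AlgEquiv.mul_apply, mul_inv_cancel_left] at h3
        exact Or.inr ⟨h3, hyK _ h2⟩
  have hint : ∀ (a : Om) (ha : a ∈ fixedField G), IsIntegral ℤ a →
      IsIntegral ℤ (⟨a, ha⟩ : fixedField G) := fun a ha h =>
    (isIntegral_algHom_iff (fixedField G).val.toRingHom.toIntAlgHom
      (fixedField G).val.injective).mp h
  have hs : y + z ∈ fixedField G := mem_fix.mpr fun σ hσ => by
    rcases hz σ hσ with ⟨h1, h2⟩ | ⟨h1, h2⟩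
    · rw [map_add, h1, h2]
    · rw [map_add, h1, h2, add_comm]
  have hn : y * z ∈ fixedField G := mem_fix.mpr fun σ hσ => by
    rcases hz σ hσ with ⟨h1, h2⟩ | ⟨h1, h2⟩
    · rw [map_mul, h1, h2]
    · rw [map_mul, h1, h2, mul_comm]
  refine ⟨⟨⟨_, hs⟩, hint _ hs (hyi.add hzi)⟩, ⟨⟨_, hn⟩, hint _ hn (hyi.mul hzi)⟩, ?_⟩
  change y ^ 2 - (y + z) * y + y * z = 0
  ring

/-- The parameter of the cubic. -/
theorem exists_cub {G K : Subgroup Gq} (hle : K ≤ G) (hx : Ix2 G K) (hK : Opn K)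
    [NumberField (fixedField K)] (S : Set (HeightOneSpectrum (𝓞 (fixedField K))))
    (hS : S.Finite) : ∃ t : 𝓞 (fixedField K), Fx G ((t : fixedField K) : Om) ∧
      ∀ w ∈ S, ∀ b, gc t b ∉ w.asIdeal := by
  have := (opn_of_ix hle hK).nf
  let _ : Algebra (fixedField G) (fixedField K) :=
    (IntermediateField.inclusion (fix_le hle)).toRingHom.toAlgebra
  have hc : ∀ a : 𝓞 (fixedField G), (((algebraMap (𝓞 (fixedField G)) (𝓞 (fixedField K)) a :
      𝓞 (fixedField K)) : fixedField K) : Om) = ((a : fixedField G) : Om) := fun _ => rfl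
  choose u hu using fun w : HeightOneSpectrum (𝓞 (fixedField K)) =>
    Vale.Agent.P011.Arith.exists_below (F := fixedField G) w
  obtain ⟨t, ht⟩ := exists_glob (u '' S) (hS.image u)
  refine ⟨algebraMap _ _ t, mem_fix.mp (t : fixedField G).2, fun w hw b =>
    up_two (hu w) (u w).isMaximal w.isMaximal (ht _ ⟨w, hw, rfl⟩) b ?_⟩
  obtain ⟨s, n, h⟩ := quad_int hx b
  refine ⟨s, n, ?_⟩
  apply RingOfIntegers.ext
  apply Subtype.ext
  exact h

end Br3x

open NumberField IsDedekindDomain IntermediateField Br3x Vale.Agent.P011.W Vale.Agent.P011.Even in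
/-- A cyclic cubic extension of the ground field which splits the algebra over an extension of
degree at most two. -/
theorem br3 {V : Type} [AddCommGroup V] [Module Om V] [FiniteDimensional Om V] {G K : Subgroup Gq}
    (hle : K ≤ G) (hx : Ix2 G K) {f : Gq → V → V} (h : PA K f) {N : V → Om} (hN : Pol N)
    (hh : ∀ (t : Om) x, N (t • x) = t ^ 3 * N x) (h0 : ∃ x, N x ≠ 0)
    (hm : ∀ σ ∈ K, ∃ l : Om, ∀ x, N (f σ x) = l * σ (N x)) :
    ∃ χ : Gq → Fin 3, Chi G χ ∧ (∃ ρ ∈ K, χ ρ = 1) ∧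
      ∃ x, x ≠ 0 ∧ ∀ σ ∈ K, χ σ = 0 → ∃ t : Om, f σ x = t • x := by
  have hK := h.opn
  have := hK.nf
  obtain ⟨D, _, _, _, _, d, hD, h1, h2, h3⟩ := br0 h Nat.prime_three hN hh h0 hm (fixedField K)
    (fixedField K).val.toRingHom (fun y =>
      ⟨fun hy => ⟨⟨y, mem_fix.mpr hy⟩, rfl⟩, fun ⟨a, ha⟩ => ha ▸ mem_fix.mp a.2⟩)
  obtain ⟨S, hS, hSspl⟩ := spl_almost (deg_pos hD) hD
  obtain ⟨w0⟩ : Nonempty (HeightOneSpectrum (𝓞 (fixedField K))) :=
    Vale.Agent.P011.Arith.nonempty_prime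
  obtain ⟨t, htG, ht⟩ := exists_cub hle hx hK (insert w0 S) (hS.insert w0)
  obtain ⟨χ, x, hχ, hρ, hgx, hχx⟩ := exists_chi hle htG (by
    intro y hy hg
    let _ := nnf w0
    have := isUltra w0
    apply no_root (norm_int w0 t) (to_compl w0 (ht w0 (Set.mem_insert _ _)))
      (algebraMap (fixedField K) _ ⟨y, mem_fix.mpr hy⟩)
    rw [← map_gc, map_eq_zero]
    apply (fixedField K).val.toRingHom.injective
    rw [map_gc, map_zero]
    exact hg)
  have hH : Opn (K ⊓ MulAction.stabilizer Gq x) := hK.inf (opn_stab x)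
  have := hH.nf
  let _ : Algebra (fixedField K) (fixedField (K ⊓ MulAction.stabilizer Gq x)) :=
    (IntermediateField.inclusion (fix_le inf_le_left)).toRingHom.toAlgebra
  have hxM : x ∈ fixedField (K ⊓ MulAction.stabilizer Gq x) := mem_fix.mpr fun σ hσ => hσ.2
  have hspl : Spl D d (algebraMap (fixedField K) (fixedField (K ⊓ MulAction.stabilizer Gq x))) := by
    refine Vale.Agent.P011.Tpl.H359.abhn_gen hD _ (fun w' => ?_) fun _ ψ => ?_
    · obtain ⟨w, hw⟩ := Vale.Agent.P011.Arith.exists_below (F := fixedField K) w'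
      by_cases hwS : w ∈ S
      · obtain ⟨q, Δ, _, _, _, _, hq, hΔ, hiff⟩ := h3 w
        obtain ⟨g, hg⟩ := completion_map hw
        have h4 : pl (F := fixedField K) (fixedField (K ⊓ MulAction.stabilizer Gq x)) w' =
            g.comp (algebraMap _ (w.adicCompletion (fixedField K))) :=
          RingHom.ext fun a => (hg a).symm
        rw [h4, hiff]
        rcases (Nat.dvd_prime Nat.prime_three).mp hq with rfl | rfl
        · have h5 := (spl_of_maxfield hΔ (finrank_self _) (Algebra.ofId _ Δ)).comp g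
          rwa [Algebra.algebraMap_self, RingHom.comp_id] at h5
        · let _ := nnf w
          have := isUltra w
          refine loc3 hΔ (norm_int w t) (to_compl w (ht w (Set.mem_insert_of_mem _ hwS))) g
            (y := algebraMap (fixedField (K ⊓ MulAction.stabilizer Gq x)) _ ⟨x, hxM⟩) ?_
          rw [hg, ← map_gc, map_eq_zero]
          apply (fixedField (K ⊓ MulAction.stabilizer Gq x)).val.toRingHom.injective
          rw [map_gc, map_zero]
          exact hgx
      · exact hSspl w hwS _ w' hw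
    · obtain ⟨ι, γ, hc, hγ, hι⟩ := exists_iota hH ψ
      exact h2 ι γ _ hc hγ.1 (fun a => hι (algebraMap (fixedField K) _ a))
        (real_line h hh h0 hm hc hγ.1)
  obtain ⟨y, hy0, hy⟩ := h1 _ _ (fixedField (K ⊓ MulAction.stabilizer Gq x)).val.toRingHom
    (fun _ => rfl) hspl
  exact ⟨χ, hχ, hρ, y, hy0, fun σ hσ h4 =>
    hy σ hσ fun a => mem_fix.mp a.2 σ ⟨hσ, hχx σ (hle hσ) h4⟩⟩

end Vale.Agent.P011Z.Cl

end
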