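import Vale.Agent.P011Z.Cl.Prc

/-!
Classification of the forms: block Dat.
-/

open Matrix Module

noncomputable section

namespace Vale.Agent.P011Z.Cl

open Vale.Agent.P011.D4 Vale.Agent.P011.D4.Oct Vale.Agent.P011.E6 Vale.Agent.P011.E6.Alb

namespace Datx

variable {σ τ : Gq} {a b f g : J → J}

theorem f_K (D : ED) (ψ : J ≃ₗ[Om] J) (h : σ ∈ D.K) :
    (D.conj ψ).f σ = fun x => ψ.symm (D.f σ (ψ x)) := funext fun _ => if_pos h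

theorem f_nK (D : ED) (ψ : J ≃ₗ[Om] J) (h : σ ∉ D.K) :
    (D.conj ψ).f σ = fun x => dag 1 ψ.symm (D.f σ (ψ x)) := funext fun _ => if_neg h

theorem semi3 (ha : Semi 1 a) (hf : Semi σ f) (hb : Semi 1 b) : Semi σ fun x => a (f (b x)) := by
  have h := ha.comp (hf.comp hb)
  rwa [one_mul, mul_one] at h

theorem sim3 (ha : Sim 1 a) (hf : Sim σ f) (hb : Sim 1 b) : Sim σ fun x => a (f (b x)) := by
  have h := ha.comp (hf.comp hb)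
  rwa [one_mul, mul_one] at h

theorem dag3 (ha : Semi 1 a) (hf : Semi σ f) (hb : Semi 1 b) (y : J) :
    dag σ (fun x => a (f (b x))) y = dag 1 a (dag σ f (dag 1 b y)) :=
  dag_eq (semi3 ha hf hb) fun x => by
    rw [dag_tf ha, AlgEquiv.one_apply, dag_tf hf, dag_tf hb, AlgEquiv.one_apply]

theorem dag_symm' (ψ : J ≃ₗ[Om] J) (y : J) : dag 1 ψ (dag 1 ψ.symm y) = y := dag_symm ψ.symm y

theorem ne_zero (hf : Semi σ f) (hg : Semi τ g) {c : Om} (h : ∀ x, f (g x) = c • a x) : c ≠ 0 := by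
  intro hc
  refine hf.ne (hg.ne (Prcx.ee_ne 0)) ?_
  rw [h, hc, zero_smul]

theorem cub_conj {ψ : J ≃ₗ[Om] J} (hψ : Sim 1 ψ) (g : J ≃ₗ[Om] J) :
    (∀ x, cub (g x) = cub x) ↔ ∀ x, cub (ψ (g (ψ.symm x))) = cub x := by
  obtain ⟨l, hl0, hl⟩ := hψ.mult
  have hl1 : ∀ x, cub (ψ x) = l * cub x := hl
  refine ⟨fun h x => ?_, fun h x => mul_left_cancel₀ hl0 ?_⟩
  · rw [hl1, h, ← hl1, ψ.apply_symm_apply]
  · have h1 := h (ψ x)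
    rwa [ψ.symm_apply_apply, hl1, hl1] at h1

theorem comm_conj (ψ g : J ≃ₗ[Om] J) (f : J → J) :
    (∀ x, g (ψ.symm (f (ψ x))) = ψ.symm (f (ψ (g x)))) ↔
      ∀ x, ψ (g (ψ.symm (f x))) = f (ψ (g (ψ.symm x))) := by
  refine ⟨fun h x => ?_, fun h x => ?_⟩
  · have h1 := h (ψ.symm x)
    rw [ψ.apply_symm_apply] at h1
    rw [h1, ψ.apply_symm_apply]
  · have h1 := h (ψ x)
    rw [ψ.symm_apply_apply] at h1
    rw [← h1, ψ.symm_apply_apply]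

theorem simp {A B : Type} [Group A] [Group B] (e : A ≃* B) (h : SimpL A) : SimpL B := by
  intro N hN h1
  have h2 := h (N.comap e.toMonoidHom) (hN.comap _) fun h3 => h1 fun b hb => by
    have h4 : e.symm b ∈ N.comap e.toMonoidHom := by
      change e (e.symm b) ∈ N
      rwa [e.apply_symm_apply]
    refine Subgroup.mem_center_iff.2 fun c => e.symm.injective ?_
    rw [map_mul, map_mul]
    exact Subgroup.mem_center_iff.1 (h3 h4) _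
  refine eq_top_iff.2 fun b _ => ?_
  have h5 : e.symm b ∈ N.comap e.toMonoidHom := by
    rw [h2]
    exact Subgroup.mem_top _
  have h6 : e (e.symm b) ∈ N := h5
  rwa [e.apply_symm_apply] at h6

theorem ani_of {H H' : Subgroup (J ≃ₗ[Om] J)} {ψ : J ≃ₗ[Om] J}
    (h : ∀ g ∈ H', ψ * g * ψ⁻¹ ∈ H) (hH : AniL H) : AniL H' := by
  rintro g hg ⟨m, hm⟩
  have h1 : Function.Semiconj ψ (fun y => g y - y) fun y => (ψ * g * ψ⁻¹) y - y := by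
    intro y
    change ψ (g y - y) = ψ (g (ψ.symm (ψ y))) - ψ y
    rw [ψ.symm_apply_apply, map_sub]
  have h2 := hH _ (h g hg) ⟨m, fun x => by
    obtain ⟨y, rfl⟩ := ψ.surjective x
    rw [← h1.iterate_right m y, hm, map_zero]⟩
  rwa [mul_inv_eq_one, mul_eq_left] at h2

theorem ani_iff {H H' : Subgroup (J ≃ₗ[Om] J)} {ψ : J ≃ₗ[Om] J}
    (h : ∀ g, g ∈ H' ↔ ψ * g * ψ⁻¹ ∈ H) : AniL H' ↔ AniL H := by
  refine ⟨ani_of (ψ := ψ⁻¹) fun g hg => (h _).2 ?_, ani_of fun g hg => (h g).1 hg⟩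
  have h1 : ψ * (ψ⁻¹ * g * ψ⁻¹⁻¹) * ψ⁻¹ = g := by group
  rwa [h1]

theorem simp_iff {H H' : Subgroup (J ≃ₗ[Om] J)} {ψ : J ≃ₗ[Om] J}
    (h : ∀ g, g ∈ H' ↔ ψ * g * ψ⁻¹ ∈ H) : SimpL H' ↔ SimpL H := by
  have h1 : H'.map (MulAut.conj ψ : (J ≃ₗ[Om] J) ≃* (J ≃ₗ[Om] J)) = H := by
    ext g
    refine Subgroup.mem_map_equiv.trans ?_
    rw [h, ← MulAut.conj_apply, MulEquiv.apply_symm_apply]
  let e : H' ≃* H := ((MulAut.conj ψ).subgroupMap H').trans (MulEquiv.subgroupCongr h1)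
  exact ⟨simp e, simp e.symm⟩

theorem fd_mem (D : FD) {ψ : J ≃ₗ[Om] J} (h1 : Sim 1 ψ) (h2 : Prm 1 ψ) (g : J ≃ₗ[Om] J) :
    g ∈ (D.conj ψ).grp ↔ ψ * g * ψ⁻¹ ∈ D.grp := by
  refine and_congr (cub_conj h1 g) (and_congr (forall_congr' fun i => ?_)
    (forall₂_congr fun σ _ => comm_conj ψ g (D.f σ)))
  obtain ⟨t, ht⟩ := h2.symm i
  have h3 : ψ.symm (ee i) = t • ee i := ht
  have h4 : t ≠ 0 := fun h5 => (semi_lin ψ.symm).ne (Prcx.ee_ne i) (by rw [h3, h5, zero_smul])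
  change _ ↔ ψ (g (ψ.symm (ee i))) = ee i
  rw [← ψ.eq_symm_apply, h3, map_smul]
  exact (smul_right_injective J h4).eq_iff.symm

theorem jm_map {π : Equiv.Perm (Fin 3)} (hf : Sim σ f) (hp : Prm π f) {p : Fin 3 → O}
    (h : ∀ i, p i ≠ 0) : ∃ q : Fin 3 → O, (∀ i, q i ≠ 0) ∧ f (jm 0 p) = jm 0 q := by
  obtain ⟨c, -, hc⟩ := Prcx.exists_c hf.toSemi hp
  obtain ⟨t, ht, h1⟩ := hp.slot hf
  have h2 := Prcx.coord hf.toSemi hc h1 (jm 0 p)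
  refine ⟨sl (f (jm 0 p)), fun j => ?_, j_ext (fun j => ?_) fun j => by rw [sl_jm]⟩
  · obtain ⟨i, rfl⟩ := π.surjective j
    rw [(h2 i).2, sl_jm]
    exact (ht i).ne (h i)
  · obtain ⟨i, rfl⟩ := π.surjective j
    rw [(h2 i).1, dg_jm, dg_jm, Pi.zero_apply, map_zero, mul_zero, Pi.zero_apply]

theorem spin {g : J ≃ₗ[Om] J} (h1 : ∀ x, cub (g x) = cub x) (h2 : ∀ i, g (ee i) = ee i)
    {z : Fin 3 → Om} (hz : ∀ i, z i ≠ 0) (x : J) : g (sc z x) = sc z (g x) :=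
  Prm.sc (π := 1) (sim_of_cub (l := 1) fun x => by rw [h1, one_mul])
    (fun i => ⟨1, by rw [h2, one_smul]; rfl⟩) hz x

end Datx

section E

variable {D : ED} {ψ φ : J ≃ₗ[Om] J}

theorem ED.OK.opnG (h : D.OK) : Opn D.G := h.opn.mono h.le

theorem ED.OK.pa (h : D.OK) : PA D.K D.f :=
  ⟨h.opn, fun σ hσ => (h.sim σ (h.le hσ)).toSemi, fun σ hσ => h.coc σ (h.le hσ), h.smo⟩

theorem ED.OK.conj (h : D.OK) (hψ : Sim 1 ψ) : (D.conj ψ).OK := by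
  have s1 := semi_lin ψ
  have s2 := semi_lin ψ.symm
  refine ⟨h.opn, h.le, h.ix, fun σ hσ => ?_, fun σ hσ τ hτ => ?_, fun σ hσ τ hτ hK => ?_,
    fun x => ?_⟩
  · by_cases h1 : σ ∈ D.K
    · rw [Datx.f_K D ψ h1]
      exact Datx.sim3 hψ.symm (h.sim σ hσ) hψ
    · rw [Datx.f_nK D ψ h1]
      exact Datx.sim3 hψ.symm.dag (h.sim σ hσ) hψ
  · obtain ⟨c, hc⟩ := h.coc σ hσ τ hτ
    have h2 := h.ix σ hσ τ (h.le hτ)
    refine ⟨c, fun x => ?_⟩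
    rw [Datx.f_K D ψ hτ]
    by_cases h1 : σ ∈ D.K
    · rw [Datx.f_K D ψ h1, Datx.f_K D ψ (h2.2 (iff_of_true h1 hτ))]
      simp only [LinearEquiv.apply_symm_apply, hc, map_smul]
    · rw [Datx.f_nK D ψ h1, Datx.f_nK D ψ fun h3 => h1 ((h2.1 h3).2 hτ)]
      simp only [LinearEquiv.apply_symm_apply, hc]
      exact s2.dag.smul c _
  · obtain ⟨c, hc⟩ := h.cod σ hσ τ hτ hK
    have h2 := h.ix σ hσ τ hτ
    have h4 := (h.sim σ hσ).toSemi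
    refine ⟨c, fun x => ?_⟩
    rw [Datx.f_nK D ψ hK]
    by_cases h1 : σ ∈ D.K
    · rw [Datx.f_K D ψ h1, Datx.f_nK D ψ fun h3 => hK ((h2.1 h3).1 h1), Datx.dag3 s2 h4 s1,
        Datx.dag_symm', hc]
      exact s2.dag.smul c _
    · rw [Datx.f_nK D ψ h1, Datx.f_K D ψ (h2.2 (iff_of_false h1 hK)), Datx.dag3 s2.dag h4 s1,
        Datx.dag_symm', hc, dag_dag s2, map_smul]
  · obtain ⟨H, hH, hx⟩ := h.smo (ψ x)
    refine ⟨H, hH, fun σ h1 h2 => ?_⟩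
    rw [Datx.f_K D ψ h2]
    change ψ.symm (D.f σ (ψ x)) = x
    rw [hx σ h1 h2, ψ.symm_apply_apply]

theorem ED.OK.res (h : D.OK) {H : Subgroup Gq} (hH : Opn H) : (D.res H).OK := by
  refine ⟨h.opn.inf hH, inf_le_inf_right H h.le, fun σ hσ τ hτ => ?_, fun σ hσ => h.sim σ hσ.1,
    fun σ hσ τ hτ => h.coc σ hσ.1 τ hτ.1,
    fun σ hσ τ hτ hK => h.cod σ hσ.1 τ hτ.1 fun h1 => hK ⟨h1, hτ.2⟩,
    fun x => (h.smo x).imp fun _ h1 => ⟨h1.1, fun σ h2 h3 => h1.2 σ h2 h3.1⟩⟩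
  have h2 : σ ∈ H := hσ.2
  have h3 : τ ∈ H := hτ.2
  change σ * τ ∈ D.K ⊓ H ↔ (σ ∈ D.K ⊓ H ↔ τ ∈ D.K ⊓ H)
  rw [Subgroup.mem_inf, Subgroup.mem_inf, Subgroup.mem_inf, and_iff_left (mul_mem h2 h3),
    and_iff_left h2, and_iff_left h3]
  exact h.ix σ hσ.1 τ hτ.1

/-- The inner form over the field fixed by `K`. -/
theorem ED.OK.inner (h : D.OK) : (ED.mk D.K D.K D.f).OK :=
  ⟨h.opn, le_rfl, fun _ hσ _ hτ => iff_of_true (mul_mem hσ hτ) (iff_of_true hσ hτ),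
    fun σ hσ => h.sim σ (h.le hσ), fun σ hσ => h.coc σ (h.le hσ),
    fun _ _ _ hτ hK => absurd hτ hK, h.smo⟩

theorem ED.conj_conj (D : ED) (ψ φ : J ≃ₗ[Om] J) : (D.conj ψ).conj φ = D.conj (φ.trans ψ) := by
  refine congrArg (ED.mk D.G D.K) (funext fun σ => ?_)
  change ((D.conj ψ).conj φ).f σ = (D.conj (φ.trans ψ)).f σ
  by_cases h1 : σ ∈ D.K
  · rw [Datx.f_K (D.conj ψ) φ h1, Datx.f_K D ψ h1, Datx.f_K D _ h1]
    rfl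
  · rw [Datx.f_nK (D.conj ψ) φ h1, Datx.f_nK D ψ h1, Datx.f_nK D _ h1]
    funext x
    exact (dag_comp (semi_lin φ.symm) (semi_lin ψ.symm) _).symm

theorem ED.conj_res (D : ED) (ψ : J ≃ₗ[Om] J) {H : Subgroup Gq} {σ : Gq} (hσ : σ ∈ H) (x : J) :
    ((D.res H).conj ψ).f σ x = (D.conj ψ).f σ x := by
  by_cases h1 : σ ∈ D.K
  · rw [Datx.f_K (D.res H) ψ ⟨h1, hσ⟩, Datx.f_K D ψ h1]
    rfl
  · rw [Datx.f_nK (D.res H) ψ fun h2 => h1 h2.1, Datx.f_nK D ψ h1]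
    rfl

theorem ED.conj_K (D : ED) (ψ : J ≃ₗ[Om] J) {σ : Gq} (hσ : σ ∈ D.K) (x : J) :
    (D.conj ψ).f σ x = ψ.symm (D.f σ (ψ x)) := by
  rw [Datx.f_K D ψ hσ]

theorem ED.conj_nK (D : ED) (ψ : J ≃ₗ[Om] J) {σ : Gq} (hσ : σ ∉ D.K) (x y : J) :
    tf x ((D.conj ψ).f σ y) = tf (ψ x) (D.f σ (ψ y)) := by
  rw [Datx.f_nK D ψ hσ]
  exact tf_dag_symm ψ x _

theorem ED.mem_conj (D : ED) (hψ : Sim 1 ψ) (g : J ≃ₗ[Om] J) :
    g ∈ (D.conj ψ).grp ↔ (ψ.symm.trans g).trans ψ ∈ D.grp := by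
  refine and_congr (Datx.cub_conj hψ g) (and_congr ?_ ?_)
  · refine forall₂_congr fun σ hσ => ?_
    rw [Datx.f_K D ψ hσ]
    exact Datx.comm_conj ψ g (D.f σ)
  · refine forall₃_congr fun σ _ hσ => ⟨fun h1 x y => ?_, fun h1 x y => ?_⟩
    · have h2 := h1 (ψ.symm x) (ψ.symm y)
      rw [D.conj_nK ψ hσ, D.conj_nK ψ hσ, ψ.apply_symm_apply, ψ.apply_symm_apply] at h2
      exact h2
    · have h2 : tf (ψ (g (ψ.symm (ψ x)))) (D.f σ (ψ (g (ψ.symm (ψ y))))) = _ := h1 (ψ x) (ψ y)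
      rw [ψ.symm_apply_apply, ψ.symm_apply_apply] at h2
      rw [D.conj_nK ψ hσ, D.conj_nK ψ hσ, h2]

theorem ED.ani_conj (D : ED) (hψ : Sim 1 ψ) : AniL (D.conj ψ).grp ↔ AniL D.grp :=
  Datx.ani_iff (D.mem_conj hψ)

theorem ED.simp_conj (D : ED) (hψ : Sim 1 ψ) : SimpL (D.conj ψ).grp ↔ SimpL D.grp :=
  Datx.simp_iff (D.mem_conj hψ)

theorem ED.spl_conj (D : ED) (hψ : Sim 1 ψ) : (D.conj ψ).Spl ↔ D.Spl := by
  constructor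
  · rintro ⟨φ, h1, h2⟩
    refine ⟨φ.trans ψ, h1.trans hψ, fun σ hσ => (h2 σ hσ).imp fun t ht x => ?_⟩
    have h3 := ht x
    rw [D.conj_K ψ hσ, ψ.symm_apply_eq, map_smul] at h3
    exact h3
  · rintro ⟨φ, h1, h2⟩
    refine ⟨φ.trans ψ.symm, h1.trans hψ.symm, fun σ hσ => (h2 σ hσ).imp fun t ht x => ?_⟩
    rw [D.conj_K ψ hσ, LinearEquiv.trans_apply, LinearEquiv.trans_apply, ψ.apply_symm_apply, ht,
      map_smul]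

theorem ED.line_conj (D : ED) (ψ : J ≃ₗ[Om] J) {H : Subgroup Gq} (hH : H ≤ D.K) :
    (∃ x, Line H (D.conj ψ).f x) ↔ ∃ x, Line H D.f x := by
  constructor
  · rintro ⟨x, h1, h2⟩
    refine ⟨ψ x, (semi_lin ψ).ne h1, fun σ hσ => (h2 σ hσ).imp fun t ht => ?_⟩
    rw [D.conj_K ψ (hH hσ), ψ.symm_apply_eq, map_smul] at ht
    exact ht
  · rintro ⟨x, h1, h2⟩
    refine ⟨ψ.symm x, (semi_lin ψ.symm).ne h1, fun σ hσ => (h2 σ hσ).imp fun t ht => ?_⟩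
    rw [D.conj_K ψ (hH hσ), ψ.apply_symm_apply, ht, map_smul]

/-- A dual element times an element of `K`. -/
theorem ED.OK.split (h : D.OK) {s σ : Gq} (hs : s ∈ D.G) (hsK : s ∉ D.K) (hσ : σ ∈ D.G)
    (hσK : σ ∉ D.K) : s⁻¹ * σ ∈ D.K ∧ ∃ c : Om, c ≠ 0 ∧ ∀ x, D.f σ x = c • D.f s (D.f (s⁻¹ * σ) x) := by
  have h1 : s⁻¹ * σ ∈ D.K :=
    (h.ix _ (inv_mem hs) _ hσ).2 (iff_of_false (fun h2 => hsK (inv_mem_iff.1 h2)) hσK)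
  obtain ⟨c, hc⟩ := h.coc s hs _ h1
  have h2 : c ≠ 0 := Datx.ne_zero (h.sim s hs).toSemi (h.sim _ (h.le h1)).toSemi hc
  refine ⟨h1, c⁻¹, inv_ne_zero h2, fun x => ?_⟩
  rw [hc, mul_inv_cancel_left, smul_smul, inv_mul_cancel₀ h2, one_smul]

/-- Generators are enough. -/
theorem ED.OK.mem_grp (h : D.OK) {s : Gq} (hs : s ∈ D.G) (hsK : s ∉ D.K) {g : J ≃ₗ[Om] J}
    (h1 : ∀ x, cub (g x) = cub x) (h2 : ∀ σ ∈ D.K, ∀ x, g (D.f σ x) = D.f σ (g x))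
    (h3 : ∀ x y, tf (g x) (D.f s (g y)) = tf x (D.f s y)) : g ∈ D.grp := by
  refine ⟨h1, h2, fun σ hσ hK x y => ?_⟩
  obtain ⟨h4, c, -, hc⟩ := h.split hs hsK hσ hK
  rw [hc, hc, tf_smul_right, tf_smul_right, ← h2 _ h4, h3]

/-- A datum with a stable frame is a datum of type `D₄`. -/
theorem ED.OK.fd (h : D.OK) {χ : Gq → Fin 3} (hχ : Chi D.G χ)
    (hp : ∀ σ ∈ D.G, Prm (Equiv.addRight (χ σ)) (D.f σ)) :
    (FD.mk D.G (fun σ => Equiv.addRight (χ σ)) D.f).OK := by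
  refine ⟨h.opnG, fun σ hσ τ hτ => ?_, h.sim, hp, fun σ hσ τ hτ => ?_, fun x => ?_⟩
  · refine Equiv.ext fun i => ?_
    change i + χ (σ * τ) = i + χ τ + χ σ
    rw [hχ.mul σ hσ τ hτ, add_assoc, add_comm (χ σ)]
  · have h1 := h.sim σ hσ
    have h2 := (h.sim τ hτ).toSemi
    by_cases hK : τ ∈ D.K
    · obtain ⟨c, hc⟩ := h.coc σ hσ τ hK
      have h3 := Datx.ne_zero h1.toSemi h2 hc
      exact ⟨fun _ => c, fun _ => h3, fun x => (hc x).trans (sc_const h3 _).symm⟩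
    · obtain ⟨c, hc⟩ := h.cod σ hσ τ hτ hK
      have h3 := Datx.ne_zero h1.toSemi.dag h2 hc
      obtain ⟨w, hw, h4⟩ := (hp σ hσ).dag h1
      refine ⟨w⁻¹ * fun _ => c, fun i => mul_ne_zero (inv_ne_zero (hw i)) h3, fun x => ?_⟩
      change D.f σ (D.f τ x) = sc _ (D.f (σ * τ) x)
      rw [← sc_sc, sc_const h3, ← hc, h4, (Prcx.sc_inv hw _).2]
  · obtain ⟨H, hH, hx⟩ := h.smo x
    exact ⟨H ⊓ D.K, hH.inf h.opn, fun σ h1 _ => hx σ h1.1 h1.2⟩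

end E

section F

variable {D : FD} {ψ : J ≃ₗ[Om] J}

theorem FD.OK.conj (h : D.OK) (h1 : Sim 1 ψ) (h2 : Prm 1 ψ) : (D.conj ψ).OK := by
  refine ⟨h.opn, h.pmul, fun σ hσ => Datx.sim3 h1.symm (h.sim σ hσ) h1, fun σ hσ => ?_,
    fun σ hσ τ hτ => ?_, fun x => ?_⟩
  · have h3 := h2.symm.comp (semi_lin ψ.symm) ((h.prm σ hσ).comp (h.sim σ hσ).toSemi h2)
    rw [inv_one, one_mul, mul_one] at h3
    exact h3
  · obtain ⟨z, hz, h3⟩ := h.coc σ hσ τ hτ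
    refine ⟨z, hz, fun x => ?_⟩
    change ψ.symm (D.f σ (ψ (ψ.symm (D.f τ (ψ x))))) = sc z (ψ.symm (D.f (σ * τ) (ψ x)))
    rw [ψ.apply_symm_apply, h3]
    exact h2.symm.sc h1.symm hz _
  · obtain ⟨H, hH, hx⟩ := h.smo (ψ x)
    refine ⟨H, hH, fun σ h3 h4 => ?_⟩
    change ψ.symm (D.f σ (ψ x)) = x
    rw [hx σ h3 h4, ψ.symm_apply_apply]

theorem FD.OK.res (h : D.OK) {H : Subgroup Gq} (hH : Opn H) : (D.res H).OK :=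
  ⟨h.opn.inf hH, fun σ hσ τ hτ => h.pmul σ hσ.1 τ hτ.1, fun σ hσ => h.sim σ hσ.1,
    fun σ hσ => h.prm σ hσ.1, fun σ hσ τ hτ => h.coc σ hσ.1 τ hτ.1,
    fun x => (h.smo x).imp fun _ h1 => ⟨h1.1, fun σ h2 h3 => h1.2 σ h2 h3.1⟩⟩

theorem FD.conj_conj (D : FD) (ψ φ : J ≃ₗ[Om] J) : (D.conj ψ).conj φ = D.conj (φ.trans ψ) := rfl

theorem FD.ani_conj (D : FD) (h1 : Sim 1 ψ) (h2 : Prm 1 ψ) :
    AniL (D.conj ψ).grp ↔ AniL D.grp :=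
  Datx.ani_iff (Datx.fd_mem D h1 h2)

theorem FD.simp_conj (D : FD) (h1 : Sim 1 ψ) (h2 : Prm 1 ψ) :
    SimpL (D.conj ψ).grp ↔ SimpL D.grp :=
  Datx.simp_iff (Datx.fd_mem D h1 h2)

theorem FD.qs_conj (D : FD) (h1 : Sim 1 ψ) (h2 : Prm 1 ψ) (γ : Gq) :
    (D.conj ψ).QS γ ↔ D.QS γ := by
  constructor
  · rintro ⟨p, hp, ha, z, hz, h3⟩
    obtain ⟨q, hq, h4⟩ := Datx.jm_map h1 h2 hp
    refine ⟨q, hq, by rw [← h4, h1.sing, ha], z, hz, ?_⟩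
    have h5 : ψ.symm (D.f γ (ψ (jm 0 p))) = _ := h3
    rw [ψ.symm_apply_eq] at h5
    rw [← h4, h5]
    exact h2.sc h1 hz _
  · rintro ⟨p, hp, ha, z, hz, h3⟩
    obtain ⟨q, hq, h4⟩ := Datx.jm_map h1.symm h2.symm hp
    refine ⟨q, hq, by rw [← h4, h1.symm.sing, ha], z, hz, ?_⟩
    change ψ.symm (D.f γ (ψ (jm 0 q))) = _
    rw [← h4, ψ.apply_symm_apply, h3]
    exact h2.symm.sc h1.symm hz _

theorem FD.OK.one (h : D.OK) : D.π 1 = 1 ∧ ∃ z : Fin 3 → Om, (∀ i, z i ≠ 0) ∧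
    ∀ x, D.f 1 x = sc z x := by
  have h1 := h.pmul 1 D.G.one_mem 1 D.G.one_mem
  obtain ⟨z, hz, h2⟩ := h.coc 1 D.G.one_mem 1 D.G.one_mem
  rw [mul_one] at h1 h2
  refine ⟨left_eq_mul.1 h1, z, hz, fun x => ?_⟩
  obtain ⟨y, rfl⟩ := (h.sim 1 D.G.one_mem).bij.2 x
  exact h2 y

theorem FD.OK.ker (h : D.OK) : ∃ N, Opn N ∧ ∀ σ, σ ∈ N ↔ σ ∈ D.G ∧ D.π σ = 1 := by
  choose H hH h2 using fun i => h.smo (ee i)
  refine ⟨⟨⟨⟨{σ | σ ∈ D.G ∧ D.π σ = 1}, fun ha hb => ⟨mul_mem ha.1 hb.1, ?_⟩⟩, D.G.one_mem,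
    h.one.1⟩, fun {σ} ha => ⟨inv_mem ha.1, ?_⟩⟩,
    (h.opn.inf (opn_iInf hH)).mono fun σ hσ => ⟨hσ.1, ?_⟩, fun _ => Iff.rfl⟩
  · rw [h.pmul _ ha.1 _ hb.1, ha.2, hb.2, mul_one]
  · have h3 := h.pmul σ ha.1 _ (inv_mem ha.1)
    rwa [mul_inv_cancel, h.one.1, ha.2, one_mul, eq_comm] at h3
  · refine (h.prm σ hσ.1).unique (h.sim σ hσ.1).toSemi fun i => ⟨1, ?_⟩
    rw [h2 i σ (Subgroup.mem_iInf.1 hσ.2 i) hσ.1, one_smul]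
    rfl

theorem FD.OK.stab (h : D.OK) (i : Fin 3) :
    ∃ N, Opn N ∧ ∀ σ, σ ∈ N ↔ σ ∈ D.G ∧ D.π σ i = i := by
  obtain ⟨N, hN, h2⟩ := h.ker
  refine ⟨⟨⟨⟨{σ | σ ∈ D.G ∧ D.π σ i = i}, fun ha hb => ⟨mul_mem ha.1 hb.1, ?_⟩⟩, D.G.one_mem,
    ?_⟩, fun {σ} ha => ⟨inv_mem ha.1, ?_⟩⟩,
    hN.mono fun σ hσ => ⟨((h2 σ).1 hσ).1, ?_⟩, fun _ => Iff.rfl⟩
  · rw [h.pmul _ ha.1 _ hb.1, Equiv.Perm.mul_apply, hb.2, ha.2]
  · rw [h.one.1, Equiv.Perm.one_apply]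
  · have h3 := h.pmul _ (inv_mem ha.1) σ ha.1
    rw [inv_mul_cancel, h.one.1] at h3
    have h4 := DFunLike.congr_fun h3 i
    rw [Equiv.Perm.mul_apply, ha.2] at h4
    exact h4.symm
  · rw [((h2 σ).1 hσ).2, Equiv.Perm.one_apply]

theorem FD.OK.qs_tau (h : D.OK) {γ τ : Gq} (hγ : γ ∈ D.G) (hτ : τ ∈ D.G) (hq : D.QS γ) :
    D.QS (τ⁻¹ * γ * τ) := by
  obtain ⟨p, hp, ha, z, hz, h3⟩ := hq
  have hi := inv_mem hτ
  have h1 := h.sim _ hi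
  obtain ⟨q, hq, h4⟩ := Datx.jm_map h1 (h.prm _ hi) hp
  obtain ⟨u, hu, h5⟩ := h.coc _ (mul_mem (mul_mem hi hγ) hτ) _ hi
  obtain ⟨v, hv, h6⟩ := h.coc _ hi _ hγ
  rw [mul_inv_cancel_right] at h5
  have h7 := h6 (jm 0 p)
  rw [h3, (h.prm _ hi).sc h1 hz] at h7
  refine ⟨q, hq, by rw [← h4, h1.sing, ha], u * (v⁻¹ * fun j => τ⁻¹ (z ((D.π τ⁻¹)⁻¹ j))),
    fun i => mul_ne_zero (hu i) (mul_ne_zero (inv_ne_zero (hv i))
      ((map_ne_zero_iff _ (τ⁻¹).injective).2 (hz _))), ?_⟩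
  rw [← h4, h5, ← sc_sc, ← sc_sc, h7, (Prcx.sc_inv hv _).2]

/-- Changing the maps by factors `sc` does not change the group. -/
theorem FD.grp_sc {D D' : FD} (hG : D.G = D'.G) (h : ∀ σ ∈ D.G, ∃ z : Fin 3 → Om,
    (∀ i, z i ≠ 0) ∧ ∀ x, D.f σ x = sc z (D'.f σ x)) : D.grp = D'.grp := by
  ext g
  refine and_congr_right fun h1 => and_congr_right fun h2 => ?_
  rw [← hG]
  refine forall₂_congr fun σ hσ => forall_congr' fun x => ?_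
  obtain ⟨z, hz, h3⟩ := h σ hσ
  rw [h3, h3, Datx.spin h1 h2 hz]
  exact (sc_sim hz).1.bij.1.eq_iff

theorem spin_sc {g : J ≃ₗ[Om] J} (h1 : ∀ x, cub (g x) = cub x) (h2 : ∀ i, g (ee i) = ee i)
    {z : Fin 3 → Om} (hz : ∀ i, z i ≠ 0) (x : J) : g (sc z x) = sc z (g x) := Datx.spin h1 h2 hz x

/-- The projective action on a slot. -/
theorem FD.OK.slot (h : D.OK) (i : Fin 3) {N : Subgroup Gq} (hN : Opn N)
    (hi : ∀ σ ∈ N, σ ∈ D.G ∧ D.π σ i = i) : ∃ t : Gq → O → O, PA N t ∧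
      (∀ σ ∈ N, ∀ y, D.f σ (ins i y) = ins i (t σ y)) ∧
      ∀ σ ∈ N, ∃ l : Om, ∀ y, norm (t σ y) = l * σ (norm y) := by
  have key : ∀ σ ∈ N, Semi σ (fun y => sl (D.f σ (ins i y)) i) ∧
      (∀ y, D.f σ (ins i y) = ins i (sl (D.f σ (ins i y)) i)) ∧
      ∃ l : Om, ∀ y, norm (sl (D.f σ (ins i y)) i) = l * σ (norm y) := by
    intro σ hσ
    obtain ⟨h1, h2⟩ := hi σ hσ
    have h3 := h.sim σ h1
    obtain ⟨l, hl0, hl⟩ := h3.mult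
    obtain ⟨c, -, hc⟩ := Prcx.exists_c h3.toSemi (h.prm σ h1)
    obtain ⟨t, ht, h4⟩ := (h.prm σ h1).slot h3
    have h5 : ∀ y, sl (D.f σ (ins i y)) i = t i y := fun y => by
      rw [h4, h2, Prcx.sl_ins_self]
    simp only [h5]
    exact ⟨ht i, fun y => by rw [h4, h2], _, Prcx.norm_slot h3.toSemi hl0 hl hc h4 i⟩
  refine ⟨fun σ y => sl (D.f σ (ins i y)) i, ⟨hN, fun σ hσ => (key σ hσ).1,
    fun σ hσ τ hτ => ?_, fun y => ?_⟩, fun σ hσ => (key σ hσ).2.1, fun σ hσ => (key σ hσ).2.2⟩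
  · obtain ⟨z, -, h1⟩ := h.coc σ (hi σ hσ).1 τ (hi τ hτ).1
    refine ⟨z i, fun y => ?_⟩
    rw [← (key τ hτ).2.1, h1, Prcx.sl_sc]
  · obtain ⟨H, hH, h1⟩ := h.smo (ins i y)
    refine ⟨H, hH, fun σ h2 h3 => ?_⟩
    rw [h1 σ h2 (hi σ h3).1, Prcx.sl_ins_self]

end F

theorem simpL_equiv {A B : Type} [Group A] [Group B] (e : A ≃* B) (h : SimpL A) : SimpL B :=
  Datx.simp e h

end Vale.Agent.P011Z.Cl

end
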