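import Vale.Agent.P011Z.FinDefs

/-!
The statements on the models.
-/

namespace Vale.Agent.P011Z.Cl

open Vale.Agent.P011.H900

/-- Trialitarian groups, cyclic case. -/
def MD3 : Prop := ∀ {F : Type} [Field F] [NumberField F] (r s : F → F) (a b c d q : F),
  Dat [r, s] r s a b c d q →
    Ani (fun f : Oc a b → Oc a b => Tri c r f ∧ Twi c r s d q f) →
    Simp fun f : Oc a b → Oc a b => Tri c r f ∧ Twi c r s d q f

/-- Trialitarian groups, noncyclic case. -/
def MD6 : Prop := ∀ {F : Type} [Field F] [NumberField F] (r s i : F → F) (a b c d q : F),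
  Dat [r, s, i] r s a b c d q → Aut 2 i → (∀ x, s (i x) = i (s x)) →
    (∀ x, r (i (r x)) = i x) → i d = d → r (i q) = q →
    Ani (fun f : Oc a b → Oc a b => Tri c r f ∧ Twi c r s d q f ∧ Swp i f) →
    Simp fun f : Oc a b → Oc a b => Tri c r f ∧ Twi c r s d q f ∧ Swp i f

/-- Outer groups of type `E₆` with trivial Tits class. -/
def ME1 : Prop := ∀ {F : Type} [Field F] [NumberField F] (s : F → F) (a b c : F) (g : Fin 3 → F),
  Aut 2 s → Dvn [s] [] a b c → (∀ i, s (g i) = g i) →
    (∀ x : Al a b, her c s g x x = 0 → x = 0) →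
    Simp fun f : Al a b → Al a b => Cub c f ∧ Her c s g f

/-- Inner groups of type `E₆`. -/
def ME2 : Prop := ∀ {F : Type} [Field F] [NumberField F] (r : F → F) (a b c e : F),
  Aut 3 r → Dvn [r] [r] a b c → Nnm r e →
    Simp fun f : Al a b → Al a b => Cub c f ∧ Ph r e f

/-- Outer groups of type `E₆` with nontrivial Tits class. -/
def ME3 : Prop := ∀ {F : Type} [Field F] [NumberField F] (r s : F → F) (a b c e t : F)
  (g : Fin 3 → F), Aut 3 r → Aut 2 s → (∀ x, r (s x) = s (r x)) → Dvn [r, s] [r, s] a b c →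
    Nnm r e → Wei r s e t g →
    Ani (fun f : Al a b → Al a b => Cub c f ∧ Her c s g f ∧ Ph r e f) →
    Simp fun f : Al a b → Al a b => Cub c f ∧ Her c s g f ∧ Ph r e f

end Vale.Agent.P011Z.Cl
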