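import Vale.Agent.P011.H900.SpecX

/-!
The forms of the split simply connected groups of type `D₄` and `E₆`, given by Galois descent.
-/

namespace Vale.Agent.P011Z.Cl

open Vale.Agent.P011.H900

variable {F : Type} [Field F]

/-- The split Albert algebra: the hermitian matrices of degree three over the split octonions. -/
abbrev Js (F : Type) [Field F] : Type := Al (1 : F) 1

/-- The trace form. -/
def trf (x y : Js F) : F := her 1 id 1 x y

/-- The diagonal idempotents. -/
def ei (i : Fin 3) : Js F := (Pi.single i 1, 0)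

/-- The map `r` applied to the coordinates. -/
def ajs (r : F → F) (x : Js F) : Js F := (fun i => r (x.1 i), fun i => ap r (x.2 i))

/-- The map `f` is an `r`-semilinear bijection which multiplies the cubic norm by a constant. -/
def Sml (r : F → F) (f : Js F → Js F) : Prop :=
  f.Bijective ∧ (∀ (t : F) x y, f (t • x + y) = r t • f x + f y) ∧
    ∃ l, ∀ x, cub 1 (f x) = l * r (cub 1 x)

/-- The split group `Spin(8)`: the maps which preserve the norm and fix the idempotents. -/
def Spin (f : Js F → Js F) : Prop := Cub 1 f ∧ ∀ i, f (ei i) = ei i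

variable {P : (Js F → Js F) → Prop}

/-- The automorphism `α` is `g ↦ f g f⁻¹`. -/
def Inn (f : Js F → Js F) (α : MulAut (grp P)) : Prop := ∀ g x, (α g).1 (f x) = f (g.1 x)

/-- The automorphism `α` maps `g` to the inverse of the adjoint of `f g f⁻¹`. -/
def Dua (f : Js F → Js F) (α : MulAut (grp P)) : Prop :=
  ∀ g x y, trf ((α g).1 x) (f (g.1 y)) = trf x (f y)

/-- The fixed points of an action. -/
def Fix {Γ G : Type} [Group Γ] [Group G] (θ : Γ →* MulAut G) : Subgroup G :=
  ⨅ σ, (θ σ).toMonoidHom.eqLocus (MonoidHom.id G)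

/-- If the group has no unipotent element except one, then every noncentral normal subgroup is the
whole group. -/
def Smp (H : Subgroup (grp P)) : Prop :=
  (∀ g ∈ H, (∃ m : ℕ, ∀ x, (fun y => g.1 y - y)^[m] x = 0) → g = 1) →
    ∀ N : Subgroup H, N.Normal → ¬ N ≤ Subgroup.center H → N = ⊤

variable {k : Type} [Field k] [Algebra k F]

/-- The action defines a trialitarian form of `Spin(8)`: every `σ` acts by a semilinear norm
similarity which permutes the lines of the idempotents, and some `σ` permutes them cyclically. -/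
def FormD (θ : (F ≃ₐ[k] F) →* MulAut (grp (Spin (F := F)))) : Prop :=
  (∀ σ : F ≃ₐ[k] F, ∃ f, Sml σ f ∧ Inn f (θ σ) ∧ ∀ i, ∃ (j : Fin 3) (t : F), f (ei i) = t • ei j) ∧
    ∃ (σ : F ≃ₐ[k] F) (f : Js F → Js F) (t u : F), Sml σ f ∧ Inn f (θ σ) ∧
      f (ei 0) = t • ei 1 ∧ f (ei 1) = u • ei 2

/-- The action defines a form of the simply connected group of type `E₆` which does not split over
the field of degree at most two over which it becomes an inner form. -/
def FormE (θ : (F ≃ₐ[k] F) →* MulAut (grp (Cub (a := (1 : F)) (b := 1) 1))) : Prop :=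
  (∀ σ : F ≃ₐ[k] F, ∃ f, Sml σ f ∧ (Inn f (θ σ) ∨ Dua f (θ σ))) ∧
    ¬ ∃ ψ, Sml id ψ ∧ ∀ (σ : F ≃ₐ[k] F) f, Sml σ f → Inn f (θ σ) →
      ∃ t : F, ∀ x, f (ψ x) = t • ψ (ajs σ x)

end Vale.Agent.P011Z.Cl
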