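import Vale.Agent.P011Z.Cl.Gal2
import Vale.Agent.P011.Arith.Landherr
import Vale.Agent.P011Z.Cl.HM.Meyer

/-!
Classification of the forms: block HM.
-/

open Matrix Module

noncomputable section

namespace Vale.Agent.P011Z.Cl

open Vale.Agent.P011.D4 Vale.Agent.P011.D4.Oct Vale.Agent.P011.E6 Vale.Agent.P011.E6.Alb

/-- The theorem of Hasse and Minkowski in dimension at least five, diagonal forms. -/
theorem meyer {F : Type} [Field F] [NumberField F] {n : ℕ} (hn : 5 ≤ n) (a : Fin n → F)
    (h : ∀ φ : F →+* ℝ, ¬ (∀ i, 0 < φ (a i)) ∧ ¬ ∀ i, φ (a i) < 0) :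
    ∃ x : Fin n → F, x ≠ 0 ∧ ∑ i, a i * x i ^ 2 = 0 := HMx.meyer hn a h

namespace HMx

variable {V : Type} [AddCommGroup V] [Module Om V]

/-- The value of the form in an orthogonal family. -/
theorem form_sum {ι : Type} [Fintype ι] (B : V →ₗ[Om] V →ₗ[Om] Om) (c : ι → V)
    (hc : ∀ i j, i ≠ j → B (c i) (c j) = 0) (s : ι → Om) :
    B (∑ i, s i • c i) (∑ i, s i • c i) = ∑ i, B (c i) (c i) * s i ^ 2 := by
  rw [map_sum B, LinearMap.sum_apply]
  refine Finset.sum_congr rfl fun i _ => ?_
  rw [map_sum, Finset.sum_eq_single i]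
  · rw [map_smul, map_smul, LinearMap.smul_apply, smul_eq_mul, smul_eq_mul]
    ring
  · intro j _ hj
    rw [map_smul, map_smul, LinearMap.smul_apply, hc i j hj.symm, smul_zero, smul_zero]
  · intro h
    exact absurd (Finset.mem_univ _) h

/-- An orthogonal basis of fixed vectors. -/
theorem ortho_basis [FiniteDimensional Om V] {G : Subgroup Gq} {f : Gq → V → V} (h : TA G f)
    (B : V →ₗ[Om] V →ₗ[Om] Om) (hB : ∀ x y, B x y = B y x)
    (he : ∀ σ ∈ G, ∀ x y, B (f σ x) (f σ y) = σ (B x y)) :
    ∃ c : Basis (Fin (finrank Om V)) Om V, (∀ i, Fv G f (c i)) ∧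
      ∀ i j, i ≠ j → B (c i) (c j) = 0 := by
  classical
  obtain ⟨b, hb⟩ := h.basis
  let g : Matrix (Fin (finrank Om V)) (Fin (finrank Om V)) (IntermediateField.fixedField G) :=
    fun i j => ⟨B (b i) (b j), mem_fix.mpr fun σ hσ => by
      rw [← he σ hσ, hb i σ hσ, hb j σ hσ]⟩
  have hg : ∀ i j, (g i j : Om) = B (b i) (b j) := fun _ _ => rfl
  let L : (Fin (finrank Om V) → IntermediateField.fixedField G) → V :=
    fun y => ∑ j, (y j : Om) • b j
  have hL : ∀ y z, B (L y) (L z) = (Matrix.toBilin' g y z : Om) := by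
    intro y z
    rw [Matrix.toBilin'_apply]
    change B (∑ j, (y j : Om) • b j) (∑ j, (z j : Om) • b j) = _
    rw [map_sum B, LinearMap.sum_apply, IntermediateField.coe_sum]
    refine Finset.sum_congr rfl fun i _ => ?_
    rw [map_sum, IntermediateField.coe_sum]
    refine Finset.sum_congr rfl fun j _ => ?_
    rw [map_smul, map_smul, LinearMap.smul_apply, smul_eq_mul, smul_eq_mul,
      IntermediateField.coe_mul, IntermediateField.coe_mul, hg]
    ring
  have hsy : LinearMap.IsSymm (Matrix.toBilin' g) := ⟨fun y z => by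
    apply Subtype.ext
    rw [RingHom.id_apply, ← hL, ← hL, hB]⟩
  have : Invertible (2 : IntermediateField.fixedField G) := invertibleOfNonzero two_ne_zero
  obtain ⟨v, hv⟩ := LinearMap.BilinForm.exists_orthogonal_basis hsy
  have hn : finrank (IntermediateField.fixedField G)
      (Fin (finrank Om V) → IntermediateField.fixedField G) = finrank Om V := by
    rw [Module.finrank_fin_fun]
  let w := v.reindex (finCongr hn)
  have hspan : ⊤ ≤ Submodule.span Om (Set.range fun i => L (w i)) := by
    rw [← b.span_eq, Submodule.span_le]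
    rintro _ ⟨j, rfl⟩
    have h1 : b j = ∑ i, (w.repr (Pi.single j 1) i : Om) • L (w i) := by
      have h2 := w.sum_repr (Pi.single j 1)
      have h3 : ∀ k, ∑ i, (w.repr (Pi.single j 1) i : Om) * (w i k : Om) =
          ((Pi.single j (1 : IntermediateField.fixedField G) :
            Fin (finrank Om V) → IntermediateField.fixedField G) k : Om) := by
        intro k
        have h4 := congrFun h2 k
        rw [Finset.sum_apply] at h4
        rw [← h4, IntermediateField.coe_sum]
        rfl
      change b j = ∑ i, (w.repr (Pi.single j 1) i : Om) • ∑ k, (w i k : Om) • b k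
      simp only [Finset.smul_sum, smul_smul]
      rw [Finset.sum_comm]
      simp only [← Finset.sum_smul, h3]
      rw [Finset.sum_eq_single j]
      · rw [Pi.single_eq_same, IntermediateField.coe_one, one_smul]
      · intro k _ hk
        rw [Pi.single_eq_of_ne hk, IntermediateField.coe_zero, zero_smul]
      · intro h
        exact absurd (Finset.mem_univ _) h
    rw [h1]
    exact Submodule.sum_mem _ fun i _ => Submodule.smul_mem _ _ (Submodule.subset_span ⟨i, rfl⟩)
  refine ⟨basisOfTopLeSpanOfCardEqFinrank (fun i => L (w i)) hspan (Fintype.card_fin _),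
    fun i σ hσ => ?_, fun i j hij => ?_⟩
  · rw [coe_basisOfTopLeSpanOfCardEqFinrank]
    change f σ (∑ k, (w i k : Om) • b k) = ∑ k, (w i k : Om) • b k
    rw [(h.semi σ hσ).sum]
    refine Finset.sum_congr rfl fun k _ => ?_
    rw [(h.semi σ hσ).smul, hb k σ hσ, mem_fix.mp (w i k).2 σ hσ]
  · rw [coe_basisOfTopLeSpanOfCardEqFinrank, hL]
    have h1 : Matrix.toBilin' g (w i) (w j) = 0 := by
      rw [Basis.reindex_apply, Basis.reindex_apply]
      exact hv fun h => hij ((finCongr hn).symm.injective h)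
    rw [h1, IntermediateField.coe_zero]

end HMx

theorem hm {V : Type} [AddCommGroup V] [Module Om V] [FiniteDimensional Om V] {G : Subgroup Gq}
    {f : Gq → V → V} (h : TA G f) (B : V →ₗ[Om] V →ₗ[Om] Om) (hB : ∀ x y, B x y = B y x)
    (he : ∀ σ ∈ G, ∀ x y, B (f σ x) (f σ y) = σ (B x y)) (h5 : 5 ≤ finrank Om V)
    (hr : ∀ ι γ, Cj ι γ → γ ∈ G → ∃ x, x ≠ 0 ∧ f γ x = x ∧ B x x = 0) :
    ∃ x, x ≠ 0 ∧ Fv G f x ∧ B x x = 0 := by
  have := h.opn.nf
  obtain ⟨c, hc, ho⟩ := HMx.ortho_basis h B hB he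
  let a : Fin (finrank Om V) → IntermediateField.fixedField G := fun i =>
    ⟨B (c i) (c i), mem_fix.mpr fun σ hσ => by rw [← he σ hσ, hc i σ hσ]⟩
  have ha : ∀ i, (a i : Om) = B (c i) (c i) := fun _ => rfl
  obtain ⟨y, hy0, hy⟩ := meyer h5 a (by
    intro φ
    obtain ⟨ι, γ, hcj, hγ, hι⟩ := exists_iota h.opn φ
    obtain ⟨x, hx0, hx1, hx2⟩ := hr ι γ hcj hγ
    have h1 : ∀ i, (ι (c.repr x i)).im = 0 := fun i =>
      hcj.real.mp (by rw [← h.repr c hc hγ, hx1])
    have h2 : ∑ i, φ (a i) * (ι (c.repr x i)).re ^ 2 = 0 := by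
      rw [← c.sum_repr x, HMx.form_sum B c ho] at hx2
      have h3 := congrArg (fun z => (ι z).re) hx2
      simp only [map_sum, map_zero, Complex.re_sum, Complex.zero_re] at h3
      rw [← h3]
      refine Finset.sum_congr rfl fun i _ => ?_
      rw [map_mul, ← ha, hι, map_pow, Complex.re_ofReal_mul, pow_two, pow_two, Complex.mul_re,
        h1, mul_zero, sub_zero]
    have h4 : ∃ i, (ι (c.repr x i)).re ≠ 0 := by
      by_contra hcon
      push Not at hcon
      apply hx0
      apply c.repr.injective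
      ext i
      rw [map_zero, Finsupp.zero_apply]
      exact (map_eq_zero ι).mp (Complex.ext (hcon i) (h1 i))
    obtain ⟨i, hi⟩ := h4
    have hi2 : 0 < (ι (c.repr x i)).re ^ 2 := by positivity
    constructor
    · intro hp
      refine absurd h2 (ne_of_gt (Finset.sum_pos' (fun j _ => ?_) ⟨i, Finset.mem_univ _, ?_⟩))
      · exact mul_nonneg (hp j).le (sq_nonneg _)
      · exact mul_pos (hp i) hi2
    · intro hp
      refine absurd h2 (ne_of_lt (Finset.sum_neg' (fun j _ => ?_) ⟨i, Finset.mem_univ _, ?_⟩))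
      · exact mul_nonpos_of_nonpos_of_nonneg (hp j).le (sq_nonneg _)
      · exact mul_neg_of_neg_of_pos (hp i) hi2)
  refine ⟨∑ i, (y i : Om) • c i, fun h0 => hy0 ?_, fun σ hσ => ?_, ?_⟩
  · funext i
    exact Subtype.ext (Fintype.linearIndependent_iff.mp c.linearIndependent _ h0 i)
  · rw [(h.semi σ hσ).sum]
    refine Finset.sum_congr rfl fun k _ => ?_
    rw [(h.semi σ hσ).smul, hc k σ hσ, mem_fix.mp (y k).2 σ hσ]
  · rw [HMx.form_sum B c ho]
    have h1 := congrArg (fun z : IntermediateField.fixedField G => (z : Om)) hy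
    simp only [IntermediateField.coe_sum, IntermediateField.coe_mul, IntermediateField.coe_pow,
      IntermediateField.coe_zero, ha] at h1
    exact h1

end Vale.Agent.P011Z.Cl

end
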