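import Vale.Agent.P011Z.Cl.ZD
import Vale.Agent.P011Z.Cl.HM

/-!
Classification of the forms: block Tri.
-/

open Matrix Module

noncomputable section

namespace Vale.Agent.P011Z.Cl

open Vale.Agent.P011.D4 Vale.Agent.P011.D4.Oct Vale.Agent.P011.E6 Vale.Agent.P011.E6.Alb

variable {G : Subgroup Gq} {α : Gq → O → O}

/-- Automorphisms of the octonions. -/
def Aut8 (φ : O ≃ₗ[Om] O) : Prop := ∀ x y, φ (x * y) = φ x * φ y

theorem Aut8.symm {φ : O ≃ₗ[Om] O} (h : Aut8 φ) : Aut8 φ.symm := fun x y => by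
  rw [φ.symm_apply_eq, h, φ.apply_symm_apply, φ.apply_symm_apply]

theorem Aut8.al {φ : O ≃ₗ[Om] O} (h : Aut8 φ) : ∃ ψ : J ≃ₗ[Om] J, Sim 1 ψ ∧ Prm 1 ψ ∧
    (∀ x, ψ x = al 1 φ x) ∧ (∀ x, ψ.symm x = al 1 φ.symm x) ∧ ∀ x, dag 1 ψ.symm x = ψ.symm x := by
  obtain ⟨h1, -, -⟩ := al_props (semi_lin φ) h
  obtain ⟨-, -, h2⟩ := al_props (semi_lin φ.symm) h.symm
  obtain ⟨ψ, hψ⟩ := h1.toSemi.lin
  have h3 : ∀ x, ψ.symm x = Cl.al 1 φ.symm x := fun x => by
    rw [ψ.symm_apply_eq, hψ]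
    refine j_ext (fun i => ?_) fun i => ?_
    · rw [Cl.al, Cl.al, dg_jm, dg_jm]
      rfl
    · rw [Cl.al, Cl.al, sl_jm, sl_jm]
      exact (φ.apply_symm_apply _).symm
  refine ⟨ψ, by rw [funext hψ]; exact h1, fun i => ⟨1, ?_⟩, hψ, h3, fun x =>
    dag_eq (semi_lin ψ.symm) fun y => by rw [h3, h3, h2]⟩
  rw [hψ, one_smul]
  refine j_ext (fun j => ?_) fun j => ?_
  · rw [Cl.al, dg_jm]
    rfl
  · rw [Cl.al, sl_jm, ee, ee, sl_jm, sl_jm]
    exact map_zero φ

theorem HA.conj (h : HA G α) {φ : O ≃ₗ[Om] O} (hφ : Aut8 φ) :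
    HA G fun σ x => φ.symm (α σ (φ x)) := by
  refine ⟨⟨h.opn, fun σ hσ => ?_, fun σ hσ τ hτ x => ?_, Smo.conj h.semi h.smo φ⟩,
    fun σ hσ x y => ?_⟩
  · have h1 := (semi_lin φ.symm).comp ((h.semi σ hσ).comp (semi_lin φ))
    rwa [one_mul, mul_one] at h1
  · rw [φ.apply_symm_apply, h.mul σ hσ τ hτ]
  · rw [hφ, h.hom σ hσ, hφ.symm]

theorem HA.mono (h : HA G α) {H : Subgroup Gq} (hH : Opn H) (hle : H ≤ G) : HA H α :=
  ⟨h.toTA.mono hH hle, fun σ hσ => h.hom σ (hle hσ)⟩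

namespace Trix

theorem fv_one (h : HA G α) : Fv G α 1 := fun σ hσ => (hom_props (h.semi σ hσ) (h.hom σ hσ)).1

theorem fv_mul (h : HA G α) {x y : O} (hx : Fv G α x) (hy : Fv G α y) : Fv G α (x * y) :=
  fun σ hσ => by rw [h.hom σ hσ, hx σ hσ, hy σ hσ]

theorem fv_add (h : HA G α) {x y : O} (hx : Fv G α x) (hy : Fv G α y) : Fv G α (x + y) :=
  fun σ hσ => by rw [(h.semi σ hσ).add, hx σ hσ, hy σ hσ]

theorem fv_sub (h : HA G α) {x y : O} (hx : Fv G α x) (hy : Fv G α y) : Fv G α (x - y) :=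
  fun σ hσ => by rw [(h.semi σ hσ).sub, hx σ hσ, hy σ hσ]

theorem fv_smul (h : HA G α) {t : Om} {x : O} (ht : Fx G t) (hx : Fv G α x) : Fv G α (t • x) :=
  fun σ hσ => by rw [(h.semi σ hσ).smul, ht σ hσ, hx σ hσ]

theorem fx_bil (h : HA G α) {x y : O} (hx : Fv G α x) (hy : Fv G α y) : Fx G (bil x y) :=
  fun σ hσ => by rw [← (hom_props (h.semi σ hσ) (h.hom σ hσ)).2.2.2, hx σ hσ, hy σ hσ]

theorem fx_norm (h : HA G α) {x : O} (hx : Fv G α x) : Fx G (norm x) :=
  fun σ hσ => by rw [← (hom_props (h.semi σ hσ) (h.hom σ hσ)).2.2.1, hx σ hσ]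

/-- A functional which vanishes on the fixed vectors is zero. -/
theorem eq_zero (h : HA G α) (l : O →ₗ[Om] Om) (hl : ∀ x, Fv G α x → l x = 0) (x : O) :
    l x = 0 := by
  have h1 : Submodule.span Om {x | Fv G α x} ≤ LinearMap.ker l := Submodule.span_le.2 hl
  rw [h.toTA.span] at h1
  exact h1 Submodule.mem_top

/-- The complement of an orthogonal family contains an anisotropic fixed vector. -/
theorem exists_aniso (h : HA G α) {k : ℕ} (hk : k < 8) (v : Fin k → O) (hv : ∀ i, Fv G α (v i))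
    (ho : ∀ i j, i ≠ j → bil (v i) (v j) = 0) (hn : ∀ i, norm (v i) ≠ 0) :
    ∃ x, Fv G α x ∧ norm x ≠ 0 ∧ ∀ i, bil x (v i) = 0 := by
  obtain ⟨B, hB⟩ := exists_bilL
  let p : O →ₗ[Om] O := LinearMap.id - ∑ i, ((2 * norm (v i))⁻¹ • B (v i)).smulRight (v i)
  have hp : ∀ x, p x = x - ∑ i, ((2 * norm (v i))⁻¹ * bil (v i) x) • v i := fun x => by
    simp only [p, LinearMap.sub_apply, LinearMap.id_apply, LinearMap.sum_apply,
      LinearMap.smulRight_apply, LinearMap.smul_apply, hB, smul_eq_mul]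
  have h1 : ∀ x i, bil (v i) (p x) = 0 := fun x i => by
    rw [hp, ← hB, map_sub, map_sum, Finset.sum_eq_single i]
    · rw [map_smul, hB, hB, bil_self, smul_eq_mul, mul_right_comm,
        inv_mul_cancel₀ (mul_ne_zero two_ne_zero (hn i)), one_mul, sub_self]
    · intro j _ hj
      rw [map_smul, hB, ho i j hj.symm, smul_zero]
    · exact fun hi => absurd (Finset.mem_univ i) hi
  have h2 : ∀ x, Fv G α x → Fv G α (p x) := fun x hx => by
    rw [hp]
    refine fv_sub h hx fun σ hσ => ?_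
    rw [(h.semi σ hσ).sum]
    refine Finset.sum_congr rfl fun i _ => fv_smul h (fun τ hτ => ?_) (hv i) σ hσ
    rw [map_mul, map_inv₀, map_mul, map_ofNat, fx_norm h (hv i) τ hτ, fx_bil h (hv i) hx τ hτ]
  by_contra hc
  have h3 : ∀ x, Fv G α x → norm (p x) = 0 := fun x hx => by
    by_contra h0
    exact hc ⟨p x, h2 x hx, h0, fun i => by rw [bil_comm, h1]⟩
  have h4 : ∀ x y, bil (p x) (p y) = 0 := by
    have h5 : ∀ x, Fv G α x → ∀ y, bil (p x) (p y) = 0 := fun x hx y => by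
      rw [← hB]
      refine eq_zero h (B (p x) ∘ₗ p) (fun z hz => ?_) y
      have h6 := h3 _ (fv_add h hx hz)
      rw [map_add, norm_add, h3 x hx, h3 z hz, zero_add, zero_add] at h6
      rw [LinearMap.comp_apply, hB, h6]
    intro x y
    rw [bil_comm, ← hB]
    exact eq_zero h (B (p y) ∘ₗ p) (fun z hz => by
      rw [LinearMap.comp_apply, hB, bil_comm, h5 z hz]) x
  have h5 : ∀ x, p x = 0 := fun x => eq_zero_of_bil fun y => by
    have h6 := h4 x y
    rw [hp y, ← hB, map_sub, map_sum, Finset.sum_eq_zero, sub_zero, hB] at h6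
    · exact h6
    · intro i _
      rw [map_smul, hB, bil_comm (p x), h1, smul_zero]
  have h6 : Submodule.span Om (Set.range v) = ⊤ := by
    rw [eq_top_iff]
    intro x _
    rw [sub_eq_zero.1 ((hp x).symm.trans (h5 x))]
    exact Submodule.sum_mem _ fun i _ => Submodule.smul_mem _ _ (Submodule.subset_span ⟨i, rfl⟩)
  have h7 := finrank_le_of_span_eq_top h6
  rw [finrank_O, Fintype.card_fin] at h7
  omega

theorem exists_i (h : HA G α) : ∃ x, Fv G α x ∧ norm x ≠ 0 ∧ bil x 1 = 0 := by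
  obtain ⟨x, h1, h2, h3⟩ := exists_aniso h (by norm_num) ![1]
    (fun i => by fin_cases i; exact fv_one h) (fun i j hij => absurd (Subsingleton.elim i j) hij)
    fun i => by fin_cases i; simp
  exact ⟨x, h1, h2, h3 0⟩

theorem exists_j (h : HA G α) {i : O} (hi : Fv G α i) (h0 : norm i ≠ 0) (h1 : bil i 1 = 0) :
    ∃ x, Fv G α x ∧ norm x ≠ 0 ∧ bil x 1 = 0 ∧ bil x i = 0 := by
  have h1' : bil 1 i = 0 := by rw [bil_comm, h1]
  obtain ⟨x, h2, h3, h4⟩ := exists_aniso h (by norm_num) ![1, i]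
    (fun k => by fin_cases k; exacts [fv_one h, hi])
    (fun k l hkl => by fin_cases k <;> fin_cases l <;> simp_all)
    fun k => by fin_cases k <;> simp [h0]
  exact ⟨x, h2, h3, h4 0, h4 1⟩

theorem exists_l (h : HA G α) {i j : O} {a b : Omˣ} (hb : Basic i j a b) (hi : Fv G α i)
    (hj : Fv G α j) : ∃ x, Fv G α x ∧ norm x ≠ 0 ∧ Perp i j x := by
  have h9 : bil i (i * j) = 0 := by
    rw [bil_comm, bil_mul_left', hb.star_j, mul_neg, bil_neg_right, bil_comm, bil_mul_left,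
      star_mul_self, bil_smul_right, hb.j_one, mul_zero, neg_zero]
  have h10 : bil j (i * j) = 0 := by
    rw [bil_comm, bil_mul_left', mul_star_self, bil_smul_right, hb.i_one, mul_zero]
  have e1 := hb.i_one
  have e2 := hb.j_one
  have e3 := hb.i_j
  have e4 := hb.ij_one
  have f1 := (bil_comm _ _).trans e1
  have f2 := (bil_comm _ _).trans e2
  have f3 := (bil_comm _ _).trans e3
  have f4 := (bil_comm _ _).trans e4
  have f5 := (bil_comm _ _).trans h9
  have f6 := (bil_comm _ _).trans h10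
  obtain ⟨x, h2, h3, h4⟩ := exists_aniso h (by norm_num) ![1, i, j, i * j]
    (fun k => by fin_cases k; exacts [fv_one h, hi, hj, fv_mul h hi hj])
    (fun k l hkl => by
      fin_cases k <;> fin_cases l
      exacts [absurd rfl hkl, f1, f2, f4, e1, absurd rfl hkl, e3, h9, e2, f3, absurd rfl hkl, h10,
        e4, f5, f6, absurd rfl hkl])
    fun k => by fin_cases k <;> simp [hb.norm_i, hb.norm_j, hb.norm_ij]
  exact ⟨x, h2, h3, h4 0, h4 1, h4 2, h4 3⟩

/-- Change of the norm to minus one. -/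
def rs (i x : O) : O := ((1 - (norm x)⁻¹) / 2) • x + ((1 + (norm x)⁻¹) / 2) • (i * x)

theorem norm_rs {i x : O} (h1 : bil i 1 = 0) (hi : norm i = -1) (hx : norm x ≠ 0) :
    norm (rs i x) = -1 := by
  have h2 : bil x (i * x) = 0 := by
    rw [bil_comm, bil_mul_left', mul_star_self, bil_smul_right, h1, mul_zero]
  rw [rs, norm_add, Oct.norm_smul, Oct.norm_smul, bil_smul_left, bil_smul_right, h2, Oct.norm_mul, hi]
  field_simp
  ring

theorem fv_rs (h : HA G α) {i x : O} (hi : Fv G α i) (hx : Fv G α x) : Fv G α (rs i x) :=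
  fv_add h (fv_smul h (fun σ hσ => by
      rw [map_div₀, map_sub, map_one, map_inv₀, map_ofNat, fx_norm h hx σ hσ]) hx)
    (fv_smul h (fun σ hσ => by
      rw [map_div₀, map_add, map_one, map_inv₀, map_ofNat, fx_norm h hx σ hσ]) (fv_mul h hi hx))

theorem bil_rs {i x y : O} (h1 : bil x y = 0) (h2 : bil x (star i * y) = 0) :
    bil (rs i x) y = 0 := by
  rw [rs, bil_add_left, bil_smul_left, bil_smul_left, bil_mul_left, h1, h2, mul_zero, mul_zero,
    add_zero]

end Trix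

open Trix

/-- A fixed basic triple. -/
theorem HA.triple (h : HA G α) : ∃ (i j l : O) (a b c : Omˣ), Triple i j l a b c ∧
    Fv G α i ∧ Fv G α j ∧ Fv G α l := by
  obtain ⟨i, hi, i0, i1⟩ := exists_i h
  obtain ⟨j, hj, j0, j1, j2⟩ := exists_j h hi i0 i1
  have hb : Basic i j (Units.mk0 _ (neg_ne_zero.2 i0)) (Units.mk0 _ (neg_ne_zero.2 j0)) :=
    ⟨i1, j1, by rw [bil_comm, j2], (neg_neg _).symm, (neg_neg _).symm⟩
  obtain ⟨l, hl, l0, l1⟩ := exists_l h hb hi hj
  exact ⟨i, j, l, _, _, Units.mk0 _ (neg_ne_zero.2 l0), ⟨hb, l1, (neg_neg _).symm⟩, hi, hj, hl⟩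

/-- The embedding of a basic triple is bijective. -/
theorem emb_bij {i j l : O} {a b c : Omˣ} (h : Triple i j l a b c) :
    Function.Bijective (emb i j l : Oct a b c → O) := by
  let L : Oct a b c →ₗ[Om] O := IsLinearMap.mk' (emb i j l) ⟨emb_add, emb_smul⟩
  have h1 : Function.Injective L := by
    rw [← LinearMap.ker_eq_bot, LinearMap.ker_eq_bot']
    intro x hx
    have hx' : emb i j l x = 0 := hx
    exact eq_zero_of_bil fun y => by rw [← h.bil_emb, hx', bil_zero_left]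
  exact ⟨h1, (LinearMap.injective_iff_surjective_of_finrank_eq_finrank
    (by rw [finrank_oct, finrank_oct])).1 h1⟩

/-- The split case, with a given idempotent. -/
theorem tri_idem (h : HA G α) {w : O} (hf : Fv G α w) (hn : norm w = 0) (ht : bil w 1 = 1) :
    ∃ φ : O ≃ₗ[Om] O, Aut8 φ ∧ φ ep = w ∧ ∀ σ ∈ G, ∀ y, α σ (φ y) = φ (oa σ y) := by
  obtain ⟨i, hiw⟩ : ∃ i : O, i = w + w - 1 := ⟨_, rfl⟩
  have hi : Fv G α i := hiw ▸ fv_sub h (fv_add h hf hf) (fv_one h)
  have i1 : bil i 1 = 0 := by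
    rw [hiw, bil_sub_left, bil_add_left, ht, bil_self, Oct.norm_one]
    ring
  have i0 : norm i = -1 := by
    rw [hiw, norm_sub, norm_add, bil_self, bil_add_left, hn, ht, Oct.norm_one]
    ring
  have si : star i = -i := star_eq_neg_iff.2 i1
  have s1 : ∀ y : O, star i * (i * y) = -y := fun y => by rw [star_mul_mul, i0, neg_one_smul]
  obtain ⟨x, hx, x0, x1, x2⟩ := exists_j h hi (by rw [i0]; exact neg_ne_zero.2 one_ne_zero) i1
  have hb : Basic i (rs i x) 1 1 := ⟨i1,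
    bil_rs x1 (by rw [mul_one, si, bil_neg_right, x2, neg_zero]),
    (bil_comm _ _).trans (bil_rs x2 (by rw [star_mul_self, bil_smul_right, x1, mul_zero])),
    i0, norm_rs i1 i0 x0⟩
  have hj := fv_rs h hi hx
  obtain ⟨y, hy, y0, y1, y2, y3, y4⟩ := exists_l h hb hi hj
  have hT : Triple i (rs i x) (rs i y) 1 1 1 := ⟨hb,
    ⟨bil_rs y1 (by rw [mul_one, si, bil_neg_right, y2, neg_zero]),
      bil_rs y2 (by rw [star_mul_self, bil_smul_right, y1, mul_zero]),
      bil_rs y3 (by rw [si, neg_mul, bil_neg_right, y4, neg_zero]),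
      bil_rs y4 (by rw [s1, bil_neg_right, y3, neg_zero])⟩, norm_rs i1 i0 y0⟩
  have hl := fv_rs h hi hy
  generalize rs i x = j at hT hj
  generalize rs i y = l at hT hl
  refine ⟨LinearEquiv.ofBijective (IsLinearMap.mk' (emb i j l) ⟨emb_add, emb_smul⟩) (emb_bij hT),
    hT.emb_mul, ?_, fun σ hσ z => ?_⟩
  · change emb i j l ep = w
    simp only [emb, qemb, ep, zorn, Pi.zero_apply, add_zero, sub_zero, zero_div, zero_smul,
      zero_mul]
    rw [hiw]
    module
  · change α σ (emb i j l z) = emb i j l (oa σ z)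
    have hs := h.semi σ hσ
    simp only [emb, qemb, oa, hs.add, hs.smul, h.hom σ hσ, fv_one h σ hσ, hi σ hσ, hj σ hσ,
      hl σ hσ]

/-- The split case. -/
theorem tri_split (h : HA G α) {x : O} (hx : x ≠ 0) (hf : Fv G α x) (hn : norm x = 0) :
    ∃ φ : O ≃ₗ[Om] O, Aut8 φ ∧ ∀ σ ∈ G, ∀ y, α σ (φ y) = φ (oa σ y) := by
  obtain ⟨B, hB⟩ := exists_bilL
  obtain ⟨y, hy, h0⟩ : ∃ y, Fv G α y ∧ bil (x * y) 1 ≠ 0 := by
    by_contra hc
    push Not at hc
    refine hx (star_eq_zero.1 (eq_zero_of_bil fun y => ?_))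
    rw [← hB]
    refine eq_zero h _ (fun z hz => ?_) y
    rw [hB, bil_comm, ← mul_one (star x), ← bil_mul_left, hc z hz]
  have h1 := fv_mul h hf hy
  obtain ⟨φ, h2, -, h3⟩ := tri_idem h (w := (bil (x * y) 1)⁻¹ • (x * y))
    (fv_smul h (fun σ hσ => by rw [map_inv₀, fx_bil h h1 (fv_one h) σ hσ]) h1)
    (by rw [Oct.norm_smul, Oct.norm_mul, hn, zero_mul, mul_zero])
    (by rw [bil_smul_left, inv_mul_cancel₀ h0])
  exact ⟨φ, h2, h3⟩

theorem idem_trans {w : O} (hn : norm w = 0) (ht : bil w 1 = 1) :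
    ∃ φ : O ≃ₗ[Om] O, Aut8 φ ∧ φ ep = w := by
  obtain ⟨H, hH, h⟩ := (ha_oa opn_top).smo w
  obtain ⟨φ, h1, h2, -⟩ := tri_idem (ha_oa hH) (fun σ hσ => h σ hσ (Subgroup.mem_top σ)) hn ht
  exact ⟨φ, h1, h2⟩

/-- A division algebra is definite at some real place. -/
theorem tri_def (h : HA G α) (hd : ∀ x, Fv G α x → norm x = 0 → x = 0) :
    ∃ ι γ, Cj ι γ ∧ γ ∈ G ∧ ∀ x, α γ x = x → norm x = 0 → x = 0 := by
  by_contra hc
  push Not at hc
  obtain ⟨B, hB⟩ := exists_bilL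
  obtain ⟨x, h0, h1, h2⟩ := hm h.toTA B (fun x y => by rw [hB, hB, bil_comm])
    (fun σ hσ x y => by rw [hB, hB, (hom_props (h.semi σ hσ) (h.hom σ hσ)).2.2.2])
    (by rw [finrank_O]; norm_num) fun ι γ h1 h2 => by
      obtain ⟨x, h3, h4, h5⟩ := hc ι γ h1 h2
      exact ⟨x, h5, h3, by rw [hB, bil_self, h4, mul_zero]⟩
  rw [hB, bil_self] at h2
  exact h0 (hd x h1 ((mul_eq_zero.1 h2).resolve_left two_ne_zero))

theorem tri_imag (h : HA G α) (hc : ∀ ι γ, Cj ι γ → γ ∉ G) :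
    ∃ φ : O ≃ₗ[Om] O, Aut8 φ ∧ ∀ σ ∈ G, ∀ y, α σ (φ y) = φ (oa σ y) := by
  by_cases hd : ∀ x, Fv G α x → norm x = 0 → x = 0
  · obtain ⟨ι, γ, h1, h2, -⟩ := tri_def h hd
    exact absurd h2 (hc ι γ h1)
  · push Not at hd
    obtain ⟨x, h1, h2, h3⟩ := hd
    exact tri_split h h3 h1 h2

/-- At a definite place the norm is positive. -/
theorem def_pos {ι : Om →+* ℂ} {γ : Gq} (hγ : Cj ι γ) {a : O → O} (h : Semi γ a)
    (hm : ∀ x y, a (x * y) = a x * a y) (h2 : ∀ x, a (a x) = x)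
    (hd : ∀ x, a x = x → norm x = 0 → x = 0) {x : O} (hx : x ≠ 0) :
    0 < (ι (bil x (a x))).re := by
  obtain ⟨a1, -, an, ab⟩ := hom_props h hm
  have hp : ∀ y, a y = y → y ≠ 0 → 0 < (ι (norm y)).re := by
    intro y hy y0
    have hn : γ (norm y) = norm y := by rw [← an, hy]
    have hb : γ (bil y 1) = bil y 1 := by rw [← ab, hy, a1]
    by_contra hc
    have h3 : (ι (norm y)).re ≠ 0 := fun h4 => y0 (hd y hy (ι.injective (by
      rw [map_zero]
      exact Complex.ext h4 (hγ.real.1 hn))))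
    have h4 : (ι (norm y)).re < 0 := lt_of_le_of_ne (not_lt.1 hc) h3
    obtain ⟨z, z0, hz, hz2⟩ := hγ.pos (x := bil y 1 * bil y 1 - 4 * norm y)
      (by rw [map_sub, map_mul, map_mul, map_ofNat, hn, hb]) (by
        rw [map_sub, map_mul, map_mul, map_ofNat, Complex.sub_re, Complex.mul_re, Complex.mul_re,
          hγ.real.1 hb, hγ.real.1 hn]
        simp only [Complex.re_ofNat, mul_zero, sub_zero]
        nlinarith [mul_self_nonneg (ι (bil y 1)).re])
    have h5 := hd (y + ((z - bil y 1) / 2) • 1)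
      (by rw [h.add, h.smul, hy, a1, map_div₀, map_sub, map_ofNat, hz, hb]) (by
        rw [norm_add, Oct.norm_smul, Oct.norm_one, bil_smul_right]
        linear_combination (-1 / 4 : Om) * hz2)
    have h6 := congrArg (fun u => bil u 1) h5
    simp only [bil_add_left, bil_smul_left, bil_self, Oct.norm_one, bil_zero_left] at h6
    exact z0 (by linear_combination h6)
  have hq : ∀ y, a y = y → 0 ≤ (ι (norm y)).re := fun y hy => by
    by_cases y0 : y = 0
    · rw [y0, Oct.norm_zero, map_zero, Complex.zero_re]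
    · exact (hp y hy y0).le
  obtain ⟨I, hI⟩ := IsAlgClosed.exists_pow_nat_eq (-1 : Om) two_pos
  have hγI : γ I = -I := by
    have h3 : (γ I - I) * (γ I + I) = 0 := by
      have h4 : γ I ^ 2 = -1 := by rw [← map_pow, hI, map_neg, map_one]
      linear_combination h4 - hI
    refine eq_neg_of_add_eq_zero_left ((mul_eq_zero.1 h3).resolve_left fun h4 => ?_)
    have h5 := congrArg (fun u => (ι u).re) hI
    simp only [pow_two, map_mul, Complex.mul_re, hγ.real.1 (sub_eq_zero.1 h4), map_neg,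
      map_one, Complex.neg_re, Complex.one_re] at h5
    nlinarith [mul_self_nonneg (ι I).re]
  have hu : a (x + a x) = x + a x := by rw [h.add, h2, add_comm]
  have hv : a (I • (x - a x)) = I • (x - a x) := by
    rw [h.smul, h.sub, h2, hγI, neg_smul, ← smul_neg, neg_sub]
  have h3 : 2 * bil x (a x) = norm (x + a x) + norm (I • (x - a x)) := by
    rw [Oct.norm_smul, hI, norm_add, norm_sub]
    ring
  have h4 := congrArg (fun u => (ι u).re) h3
  simp only [map_mul, map_add, map_ofNat, Complex.mul_re, Complex.add_re, Complex.re_ofNat,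
    Complex.im_ofNat, zero_mul, sub_zero] at h4
  by_cases h5 : x + a x = 0
  · have h6 : I • (x - a x) ≠ 0 := by
      refine smul_ne_zero (fun h7 => ?_) fun h7 => hx ?_
      · rw [h7, zero_pow two_ne_zero] at hI
        exact one_ne_zero (neg_eq_zero.1 hI.symm)
      · have h8 : (2 : Om) • x = 0 := by
          have h9 : x + x = (x + a x) + (x - a x) := by abel
          rw [two_smul, h9, h5, h7, add_zero]
        exact (smul_eq_zero.1 h8).resolve_left two_ne_zero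
    linarith [hp _ hv h6, hq _ hu]
  · linarith [hp _ hu h5, hq _ hv]

end Vale.Agent.P011Z.Cl

end
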