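import Vale.Agent.P011Z.Cl.Ext
import Vale.Agent.P011Z.Cl.Tri
import Vale.Agent.P011Z.Cl.Dat
import Vale.Agent.P011Z.Cl.SpecF
import Vale.Agent.P011Z.Cl.Mods

/-!
Classification of the forms: block Brg.
-/

open Matrix Module

noncomputable section

namespace Vale.Agent.P011Z.Cl

open Vale.Agent.P011.D4 Vale.Agent.P011.D4.Oct Vale.Agent.P011.E6 Vale.Agent.P011.E6.Alb

section xfer

variable {V : Type} [AddCommGroup V]

/-- Comparison of a group of bijections with a group of linear automorphisms. -/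
theorem xfer (P : (V → V) → Prop) (S : Subgroup (J ≃ₗ[Om] J)) (j : V → J)
    (hj : Function.Injective j)
    (h1 : ∀ f : Equiv.Perm V, P f → ∃ g ∈ S, ∀ x, g (j x) = j (f x))
    (h2 : ∀ g ∈ S, ∃ f : Equiv.Perm V, P f ∧ ∀ x, g (j x) = j (f x))
    (h3 : ∀ g ∈ S, (∀ x, g (j x) = j x) → g = 1) :
    (∀ f : P011.H900.grp P, P f.1) ∧
      ∃ e : P011.H900.grp P ≃* S, ∀ f x, (e f).1 (j x) = j (f.1 x) := by
  have hq : ∀ f ∈ P011.H900.grp P, ∃ g ∈ S, ∀ x, g (j x) = j (f x) := by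
    intro f hf
    induction hf using Subgroup.closure_induction with
    | mem f hf => exact h1 f hf
    | one => exact ⟨1, S.one_mem, fun _ => rfl⟩
    | mul f f' _ _ a b =>
      obtain ⟨g, a1, a2⟩ := a
      obtain ⟨g', b1, b2⟩ := b
      exact ⟨g * g', S.mul_mem a1 b1, fun x => by
        rw [LinearEquiv.mul_apply, b2, a2, Equiv.Perm.mul_apply]⟩
    | inv f _ a =>
      obtain ⟨g, a1, a2⟩ := a
      refine ⟨g⁻¹, S.inv_mem a1, fun x => g.symm_apply_eq.2 ?_⟩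
      rw [a2]
      exact congrArg j (f.apply_symm_apply x).symm
  have hu : ∀ g g' : S, (∀ x, g.1 (j x) = g'.1 (j x)) → g = g' := fun g g' h => by
    have h4 := h3 _ (g'⁻¹ * g).2 fun x => g'.1.symm_apply_eq.2 (h x)
    exact (inv_mul_eq_one.1 (Subtype.ext h4)).symm
  choose g hg hj' using fun f : P011.H900.grp P => hq f.1 f.2
  refine ⟨fun f => ?_, MulEquiv.ofBijective (MonoidHom.mk' (fun f => (⟨g f, hg f⟩ : S))
    fun f f' => hu _ _ fun x => ?_) ⟨fun f f' h => Subtype.ext (Equiv.ext fun x => hj ?_),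
      fun s => ?_⟩, hj'⟩
  · obtain ⟨f', a, b⟩ := h2 _ (hg f)
    have h4 : f.1 = f' := Equiv.ext fun x => hj ((hj' f x).symm.trans (b x))
    rwa [h4]
  · change g (f * f') (j x) = g f (g f' (j x))
    rw [hj', hj', hj']
    rfl
  · rw [← hj', ← hj']
    exact congrArg (fun s : S => s.1 (j x)) h
  · obtain ⟨f, a, b⟩ := h2 s.1 s.2
    exact ⟨⟨f, Subgroup.subset_closure a⟩, hu _ _ fun x => (hj' _ x).trans (b x).symm⟩

theorem uni_span {j : V → J} (ha : ∀ x y, j (x - y) = j x - j y)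
    (hs : Submodule.span Om (Set.range j) = ⊤) {g : J ≃ₗ[Om] J} {f : V → V}
    (h : ∀ x, g (j x) = j (f x)) (hf : ∃ m : ℕ, ∀ x, (fun y => f y - y)^[m] x = 0) :
    ∃ m : ℕ, ∀ x, (fun y => g y - y)^[m] x = 0 := by
  have h0 : j 0 = 0 := by rw [← sub_self (0 : V), ha, sub_self]
  have h1 : ∀ m x, (fun y => g y - y)^[m] (j x) = j ((fun y => f y - y)^[m] x) := by
    intro m
    induction m with
    | zero => exact fun _ => rfl
    | succ m ih =>
      intro x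
      rw [Function.iterate_succ_apply, Function.iterate_succ_apply, ← ih, h, ha]
  refine hf.imp fun m hm y => ?_
  have h2 : (g.toLinearMap - 1) ^ m = 0 := LinearMap.ext_on hs (by
    rintro _ ⟨x, rfl⟩
    exact (Module.End.pow_apply _ m _).trans ((h1 m x).trans (by rw [hm, h0]; rfl)))
  exact (Module.End.pow_apply (g.toLinearMap - 1) m y).symm.trans (LinearMap.congr_fun h2 y)

end xfer

variable {F : Type} [Field F] {a b : F}

/-- The chart of the octonions given by a basic triple. -/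
def jo (ι : F →+* Om) (i j l : O) (x : P011.H900.Oc a b) : O :=
  ι x.1.re • 1 + ι x.1.imI • i + ι x.1.imJ • j + ι x.1.imK • (i * j) +
    (ι x.2.re • 1 + ι x.2.imI • i + ι x.2.imJ • j + ι x.2.imK • (i * j)) * l

/-- The chart of the Albert algebra. -/
def ja (ι : F →+* Om) (i j l : O) (x : P011.H900.Al a b) : J :=
  jm (fun n => ι (x.1 n)) fun n => jo ι i j l (x.2 n)

/-- The hypotheses on the triple. -/
def Trp (ι : F →+* Om) (a b c : F) (i j l : O) : Prop :=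
  ∃ A B C : Omˣ, Triple i j l A B C ∧ ι a = A ∧ ι b = B ∧ ι c = C

namespace Brgx

section chart

variable {E V V' W W' : Type} [Field E] [AddCommGroup V] [Module E V]
  [AddCommGroup V'] [Module E V'] [AddCommGroup W] [Module Om W] [AddCommGroup W'] [Module Om W']
  {ι : E →+* Om} {j : V → W} {j' : V' → W'}

theorem mk {κ : Type} [Finite κ] (h1 : ∀ x y, j (x + y) = j x + j y)
    (h2 : ∀ (t : E) x, j (t • x) = ι t • j x) (u : Basis κ E V) (v : Basis κ Om W)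
    (h : ∀ n, j (u n) = v n) : Chart ι j := by
  obtain ⟨n, ⟨e⟩⟩ := Finite.exists_equiv_fin κ
  exact ⟨h1, h2, n, u.reindex e, v.reindex e, fun m => by
    rw [Basis.reindex_apply, Basis.reindex_apply, h]⟩

theorem fld (ι : E →+* Om) : Chart ι (ι : E → Om) :=
  mk ι.map_add ι.map_mul (Basis.singleton Unit E) (Basis.singleton Unit Om) fun _ => by
    rw [Basis.singleton_apply, Basis.singleton_apply, map_one]

theorem equiv (h : Chart ι j) (e : W ≃ₗ[Om] W') : Chart ι fun x => e (j x) := by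
  obtain ⟨n, u, v, h1⟩ := h.bas
  exact mk (fun x y => by rw [h.add, map_add]) (fun t x => by rw [h.smul, map_smul]) u (v.map e)
    fun m => by rw [h1, Basis.map_apply]

theorem prod (h : Chart ι j) (h' : Chart ι j') : Chart ι fun x : V × V' => (j x.1, j' x.2) := by
  obtain ⟨n, u, v, h1⟩ := h.bas
  obtain ⟨n', u', v', h2⟩ := h'.bas
  have z : j 0 = 0 := (Extx.sm h).map_zero
  have z' : j' 0 = 0 := (Extx.sm h').map_zero
  refine mk (fun x y => Prod.ext (h.add _ _) (h'.add _ _))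
    (fun t x => Prod.ext (h.smul _ _) (h'.smul _ _)) (u.prod u') (v.prod v') ?_
  rintro (m | m) <;> simp [h1, h2, z, z']

theorem pi (h : Chart ι j) (k : ℕ) : Chart ι fun (x : Fin k → V) n => j (x n) := by
  obtain ⟨n, u, v, h1⟩ := h.bas
  refine mk (fun x y => funext fun _ => h.add _ _) (fun t x => funext fun _ => h.smul _ _)
    (Pi.basis fun _ => u) (Pi.basis fun _ => v) fun m => funext fun s => ?_
  rw [Pi.basis_apply, Pi.basis_apply, ← h1]
  exact Pi.apply_single (fun _ => j) (fun _ => (Extx.sm h).map_zero) _ _ _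

theorem quat (ι : E →+* Om) (a b : E) (A B : Om) : Chart ι fun x : QuaternionAlgebra E a 0 b =>
    (⟨ι x.re, ι x.imI, ι x.imJ, ι x.imK⟩ : QuaternionAlgebra Om A 0 B) := by
  refine mk (fun x y => ?_) (fun t x => ?_) (QuaternionAlgebra.basisOneIJK a 0 b)
    (QuaternionAlgebra.basisOneIJK A 0 B) fun m => ?_
  · ext <;> simp
  · ext <;> simp
  · fin_cases m <;> ext <;> simp [QuaternionAlgebra.basisOneIJK]

end chart

/-- The embedding applied to the coefficients. -/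
def mp (ι : F →+* Om) (A B C : Omˣ) (x : P011.H900.Oc a b) : Oct A B C :=
  ⟨⟨ι x.1.re, ι x.1.imI, ι x.1.imJ, ι x.1.imK⟩, ⟨ι x.2.re, ι x.2.imI, ι x.2.imJ, ι x.2.imK⟩⟩

variable {ι : F →+* Om} {i j l : O}

theorem jo_eq (A B C : Omˣ) (x : P011.H900.Oc a b) : jo ι i j l x = emb i j l (mp ι A B C x) := rfl

theorem mp_mul {c : F} {A B C : Omˣ} (ha : ι a = A) (hb : ι b = B) (hc : ι c = C)
    (x y : P011.H900.Oc a b) :
    mp ι A B C (P011.H900.om c x y) = mp ι A B C x * mp ι A B C y := by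
  apply ext8 <;>
    simp only [mp, P011.H900.om, fst_mul, snd_mul, QuaternionAlgebra.re_add,
      QuaternionAlgebra.imI_add, QuaternionAlgebra.imJ_add, QuaternionAlgebra.imK_add,
      QuaternionAlgebra.re_mul, QuaternionAlgebra.imI_mul, QuaternionAlgebra.imJ_mul,
      QuaternionAlgebra.imK_mul, QuaternionAlgebra.re_star, QuaternionAlgebra.imI_star,
      QuaternionAlgebra.imJ_star, QuaternionAlgebra.imK_star, QuaternionAlgebra.re_smul,
      QuaternionAlgebra.imI_smul, QuaternionAlgebra.imJ_smul, QuaternionAlgebra.imK_smul,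
      smul_eq_mul, map_add, map_sub, map_mul, map_neg, map_zero, ha, hb, hc]

theorem jo_smul (t : F) (x : P011.H900.Oc a b) : jo ι i j l (t • x) = ι t • jo ι i j l x := by
  rw [jo_eq 1 1 1, jo_eq 1 1 1, ← emb_smul]
  congr 1
  apply ext8 <;> exact map_mul ι _ _

theorem jo_one (ι : F →+* Om) (a b : F) (i j l : O) :
    jo ι i j l ((1, 0) : P011.H900.Oc a b) = 1 := by
  simp [jo]

theorem re_one (c : F) (x : P011.H900.Oc a b) :
    P011.H900.re (P011.H900.om c x (P011.H900.oc (1, 0))) = P011.H900.re x := by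
  simp [P011.H900.om, P011.H900.oc, P011.H900.re]

theorem ap {σ : Gq} {α : O → O} (hα : Semi σ α) (hm : ∀ x y, α (x * y) = α x * α y)
    (hi : α i = i) (hj : α j = j) (hl : α l = l) {r : F → F} (hr : ∀ t, σ (ι t) = ι (r t))
    (x : P011.H900.Oc a b) : α (jo ι i j l x) = jo ι i j l (P011.H900.ap r x) := by
  simp only [jo, hα.add, hα.smul, hm, hi, hj, hl, (hom_props hα hm).1, hr, P011.H900.ap]

end Brgx

variable [NumberField F] {ι : F →+* Om} {c : F} {i j l : O}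

theorem Trp.chart (h : Trp ι a b c i j l) : Chart ι (jo ι i j l : P011.H900.Oc a b → O) := by
  obtain ⟨A, B, C, h1, -⟩ := h
  exact Brgx.equiv (Brgx.prod (Brgx.quat ι a b A B) (Brgx.quat ι a b A B))
    (toPair.symm.trans (LinearEquiv.ofBijective
      (IsLinearMap.mk' (emb i j l : Oct A B C → O) ⟨emb_add, emb_smul⟩) (emb_bij h1)))

theorem Trp.chartA (h : Trp ι a b c i j l) : Chart ι (ja ι i j l : P011.H900.Al a b → J) :=
  Brgx.equiv (Brgx.prod (Brgx.pi (Brgx.fld ι) 3) (Brgx.pi h.chart 3)) Cubx.je.symm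

theorem Trp.mul (h : Trp ι a b c i j l) (x y : P011.H900.Oc a b) :
    jo ι i j l (P011.H900.om c x y) = jo ι i j l x * jo ι i j l y := by
  obtain ⟨A, B, C, h1, ha, hb, hc⟩ := h
  rw [Brgx.jo_eq A B C, Brgx.jo_eq A B C, Brgx.jo_eq A B C, ← h1.emb_mul]
  exact congrArg _ (Brgx.mp_mul ha hb hc x y)

theorem Trp.star (h : Trp ι a b c i j l) (x : P011.H900.Oc a b) :
    jo ι i j l (P011.H900.oc x) = star (jo ι i j l x) := by
  obtain ⟨A, B, C, h1, -⟩ := h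
  rw [Brgx.jo_eq A B C, Brgx.jo_eq A B C, ← h1.emb_star]
  congr 1
  apply ext8 <;> simp [Brgx.mp, P011.H900.oc]

theorem Trp.bil (h : Trp ι a b c i j l) (x y : P011.H900.Oc a b) :
    bil (jo ι i j l x) (jo ι i j l y) =
      ι (2 * P011.H900.re (P011.H900.om c x (P011.H900.oc y))) := by
  obtain ⟨A, B, C, h1, ha, hb, hc⟩ := h
  rw [Brgx.jo_eq A B C, Brgx.jo_eq A B C, h1.bil_emb, bil_eq]
  simp [Brgx.mp, P011.H900.om, P011.H900.oc, P011.H900.re, ha, hb, hc, map_ofNat]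
  ring

theorem Trp.norm (h : Trp ι a b c i j l) (x : P011.H900.Oc a b) :
    norm (jo ι i j l x) = ι (P011.H900.re (P011.H900.om c x (P011.H900.oc x))) := by
  have h1 := h.bil x x
  rw [bil_self, map_mul, map_ofNat] at h1
  exact mul_left_cancel₀ two_ne_zero h1

theorem Trp.cub (h : Trp ι a b c i j l) (x : P011.H900.Al a b) :
    cub (ja ι i j l x) = ι (P011.H900.cub c x) := by
  rw [cub_eq, ja, dg_jm, sl_jm, ← h.mul, ← h.mul, ← Brgx.jo_one ι a b i j l, h.bil, Brgx.re_one,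
    P011.H900.cub]
  simp only [h.norm, map_add, map_sub, map_mul, map_sum]

theorem jo_ap {σ : Gq} {α : O → O} (hα : Semi σ α) (hm : ∀ x y, α (x * y) = α x * α y)
    (hi : α i = i) (hj : α j = j) (hl : α l = l) {r : F → F} (hr : ∀ t, σ (ι t) = ι (r t))
    (x : P011.H900.Oc a b) : α (jo ι i j l x) = jo ι i j l (P011.H900.ap r x) := Brgx.ap hα hm hi hj hl hr x

theorem Trp.her (h : Trp ι a b c i j l) {σ : Gq} {α : O → O} (hα : Semi σ α)
    (hm : ∀ x y, α (x * y) = α x * α y) (hi : α i = i) (hj : α j = j) (hl : α l = l) {r : F → F}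
    (hr : ∀ t, σ (ι t) = ι (r t)) (g : Fin 3 → F) (x y : P011.H900.Al a b) :
    tf (ja ι i j l x) (wtJ (ι ∘ g) (al σ α (ja ι i j l y))) = ι (P011.H900.her c r g x y) := by
  rw [tf_eq, P011.H900.her, map_sum]
  refine Finset.sum_congr rfl fun n _ => ?_
  simp only [wtJ, al, ja, dg_jm, sl_jm, jo_ap hα hm hi hj hl hr, bil_smul_right, h.bil, hr,
    Function.comp_apply, map_add, map_mul, map_pow]
  ring

theorem ja_ph {σ : Gq} {α : O → O} (hα : Semi σ α) (hm : ∀ x y, α (x * y) = α x * α y)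
    (hi : α i = i) (hj : α j = j) (hl : α l = l) {r : F → F} (hr : ∀ t, σ (ι t) = ι (r t))
    (e : F) (x : P011.H900.Al a b) :
    phJ (ι e) (al σ α (ja ι i j l x)) = ja ι i j l (P011.H900.ph r e x) := by
  refine j_ext (fun n => ?_) fun n => ?_ <;>
    simp only [phJ, al, ja, dg_jm, sl_jm, P011.H900.ph, jo_ap hα hm hi hj hl hr, hr] <;>
    fin_cases n <;> simp [Brgx.jo_smul]

/-- The fixed vectors are the points of the chart. -/
theorem Trp.fix (h : Trp ι a b c i j l) {N : Subgroup Gq} {α : Gq → O → O} (hα : HA N α)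
    (hN : ∀ y, Fx N y ↔ ∃ t, ι t = y) (hi : Fv N α i) (hj : Fv N α j) (hl : Fv N α l) :
    (∀ y, Fv N α y ↔ ∃ x : P011.H900.Oc a b, jo ι i j l x = y) ∧
      ∀ y, (∀ σ ∈ N, al σ (α σ) y = y) ↔ ∃ x : P011.H900.Al a b, ja ι i j l x = y := by
  have hr : ∀ σ ∈ N, ∀ t, σ (ι t) = ι (id t) := fun σ hσ t => (hN _).2 ⟨t, rfl⟩ σ hσ
  have h1 : ∀ y, Fv N α y ↔ ∃ x : P011.H900.Oc a b, jo ι i j l x = y := by
    refine fun y => ⟨fun hy => ?_, ?_⟩
    · obtain ⟨A, B, C, h1, -⟩ := h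
      obtain ⟨z, rfl⟩ := (emb_bij h1).2 y
      have h2 : ∀ σ ∈ N, Brgx.mp (RingHom.id Om) A B C (P011.H900.ap σ (z.fst, z.snd)) = z :=
        fun σ hσ => (emb_bij h1).1 ((Brgx.ap (ι := RingHom.id Om) (hα.semi σ hσ) (hα.hom σ hσ)
          (hi σ hσ) (hj σ hσ) (hl σ hσ) (fun _ => rfl) (z.fst, z.snd)).symm.trans (hy σ hσ))
      obtain ⟨t1, e1⟩ := (hN z.fst.re).1 fun σ hσ => congrArg (·.fst.re) (h2 σ hσ)
      obtain ⟨t2, e2⟩ := (hN z.fst.imI).1 fun σ hσ => congrArg (·.fst.imI) (h2 σ hσ)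
      obtain ⟨t3, e3⟩ := (hN z.fst.imJ).1 fun σ hσ => congrArg (·.fst.imJ) (h2 σ hσ)
      obtain ⟨t4, e4⟩ := (hN z.fst.imK).1 fun σ hσ => congrArg (·.fst.imK) (h2 σ hσ)
      obtain ⟨t5, e5⟩ := (hN z.snd.re).1 fun σ hσ => congrArg (·.snd.re) (h2 σ hσ)
      obtain ⟨t6, e6⟩ := (hN z.snd.imI).1 fun σ hσ => congrArg (·.snd.imI) (h2 σ hσ)
      obtain ⟨t7, e7⟩ := (hN z.snd.imJ).1 fun σ hσ => congrArg (·.snd.imJ) (h2 σ hσ)
      obtain ⟨t8, e8⟩ := (hN z.snd.imK).1 fun σ hσ => congrArg (·.snd.imK) (h2 σ hσ)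
      exact ⟨(⟨t1, t2, t3, t4⟩, ⟨t5, t6, t7, t8⟩), (Brgx.jo_eq A B C _).trans
        (congrArg _ (ext8 e1 e2 e3 e4 e5 e6 e7 e8))⟩
    · rintro ⟨x, rfl⟩ σ hσ
      exact jo_ap (hα.semi σ hσ) (hα.hom σ hσ) (hi σ hσ) (hj σ hσ) (hl σ hσ) (hr σ hσ) x
  refine ⟨h1, fun y => ⟨fun hy => ?_, ?_⟩⟩
  · choose t ht using fun n => (hN (dg y n)).1 fun σ hσ => by
      conv_rhs => rw [← hy σ hσ, al, dg_jm]
    choose x hx using fun n => (h1 (sl y n)).1 fun σ hσ => by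
      conv_rhs => rw [← hy σ hσ, al, sl_jm]
    exact ⟨(t, x), j_ext (fun n => by rw [ja, dg_jm, ht]) fun n => by rw [ja, sl_jm, hx]⟩
  · rintro ⟨x, rfl⟩ σ hσ
    refine j_ext (fun n => ?_) fun n => ?_
    · rw [al, dg_jm, ja, dg_jm]
      exact hr σ hσ _
    · rw [al, sl_jm, ja, sl_jm]
      exact (h1 _).2 ⟨_, rfl⟩ σ hσ

/-- Norm preserving maps extend. -/
theorem Trp.ext (h : Trp ι a b c i j l) (f : Equiv.Perm (P011.H900.Al a b))
    (hf : P011.H900.Cub c f) : ∃ g : J ≃ₗ[Om] J, (∀ x, Alb.cub (g x) = Alb.cub x) ∧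
      ∀ x, g (ja ι i j l x) = ja ι i j l (f x) := by
  obtain ⟨g, g1, g2⟩ := h.chartA.ext_semi h.chartA (r := id) (σ := 1) (fun _ => rfl) f.bijective
    hf.1
  obtain ⟨G, hG⟩ := g1.lin
  refine ⟨G, fun y => sub_eq_zero.1 (h.chartA.pol ((Pol.cub (PolM.lin G.toLinearMap)).sub
    (Pol.cub (PolM.lin LinearMap.id))) (fun x => sub_eq_zero.2 ?_) y), fun x => (hG _).trans (g2 x)⟩
  change Alb.cub (G _) = Alb.cub (ja ι i j l x)
  rw [hG, g2, h.cub, h.cub, hf.2]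

theorem Trp.res (h : Trp ι a b c i j l) (g : J ≃ₗ[Om] J) (hg : ∀ x, Alb.cub (g x) = Alb.cub x)
    (h1 : ∀ x : P011.H900.Al a b, ∃ y : P011.H900.Al a b, g (ja ι i j l x) = ja ι i j l y) :
    ∃ f : Equiv.Perm (P011.H900.Al a b), P011.H900.Cub c f ∧
      ∀ x, g (ja ι i j l x) = ja ι i j l (f x) := by
  obtain ⟨X, -, x1, x2, -⟩ := h.chartA.ext
  obtain ⟨f, rfl⟩ := x2 g h1
  refine ⟨f.toEquiv, ⟨fun t x y => ?_, fun x => ι.injective ?_⟩, x1 f⟩
  · change f _ = t • f x + f y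
    rw [map_add, map_smul]
  · change ι (P011.H900.cub c (f x)) = _
    rw [← h.cub, ← h.cub, ← x1, hg]

/-- The standard triple. -/
theorem trp_std : ∃ i j l : O, Trp ι (1 : F) 1 1 i j l ∧ (∀ σ, oa σ i = i ∧ oa σ j = j ∧ oa σ l = l) ∧
    (∀ n, ja ι i j l (ei n : Js F) = ee n) ∧
    (∀ x y : Js F, tf (ja ι i j l x) (ja ι i j l y) = ι (trf x y)) ∧
    ∀ (σ : Gq) (r : F → F), (∀ t, σ (ι t) = ι (r t)) →
      ∀ x : Js F, aj σ (ja ι i j l x) = ja ι i j l (ajs r x) := by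
  have h : Trp ι (1 : F) 1 1 ⟨⟨0, 1, 0, 0⟩, 0⟩ ⟨⟨0, 0, 1, 0⟩, 0⟩ ⟨0, 1⟩ := by
    refine ⟨1, 1, 1, ⟨⟨?_, ?_, ?_, ?_, ?_⟩, ⟨?_, ?_, ?_, ?_⟩, ?_⟩, map_one ι, map_one ι,
      map_one ι⟩ <;> simp [bil_eq, Oct.norm, P011.MPQ.nrd]
  have h1 : ∀ σ : Gq, oa σ ⟨⟨0, 1, 0, 0⟩, 0⟩ = ⟨⟨0, 1, 0, 0⟩, 0⟩ ∧
      oa σ ⟨⟨0, 0, 1, 0⟩, 0⟩ = ⟨⟨0, 0, 1, 0⟩, 0⟩ ∧ oa σ ⟨0, 1⟩ = ⟨0, 1⟩ := fun σ => by
    refine ⟨?_, ?_, ?_⟩ <;> apply ext8 <;> simp [oa]
  refine ⟨_, _, _, h, h1, fun n => j_ext (fun m => ?_) fun m => ?_, fun x y => ?_,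
    fun σ r hr x => j_ext (fun m => ?_) fun m => ?_⟩
  · rw [ja, ee, dg_jm, dg_jm, ei]
    exact Pi.apply_single (fun _ => ι) (fun _ => map_zero ι) n 1 m |>.trans (by rw [map_one])
  · rw [ja, ee, sl_jm, sl_jm]
    simp [ei, jo]
  · rw [trf, ← h.her (σ := 1) (α := id) (r := id) (semi_lin (LinearEquiv.refl Om O)) (fun _ _ => rfl)
      rfl rfl rfl (fun _ => rfl)]
    congr 1
    refine j_ext (fun m => ?_) fun m => ?_ <;> simp [wtJ, al, dg_jm, sl_jm]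
  · rw [aj, al, ja, ja, dg_jm, dg_jm, dg_jm]
    exact hr _
  · rw [aj, al, ja, ja, sl_jm, sl_jm, sl_jm]
    exact jo_ap (oa_semi σ) (oa_mul σ) (h1 σ).1 (h1 σ).2.1 (h1 σ).2.2 hr _

omit [NumberField F] in
/-- The restriction of an automorphism to the field fixed by a normal subgroup. -/
theorem exists_res {G N : Subgroup Gq} (hN : ∀ y, Fx N y ↔ ∃ t, ι t = y)
    (hn : ∀ σ ∈ G, ∀ τ ∈ N, σ⁻¹ * τ * σ ∈ N) : ∃ r : Gq → F → F, ∀ σ ∈ G,
      (∀ t, σ (ι t) = ι (r σ t)) ∧ ∀ x y, r σ (x + y) = r σ x + r σ y ∧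
        r σ (x * y) = r σ x * r σ y := by
  have h1 : ∀ σ ∈ G, ∀ t, ∃ s, ι s = σ (ι t) := fun σ hσ t => (hN _).1 fun τ hτ => by
    have h2 : σ.symm (τ (σ (ι t))) = ι t := (hN _).2 ⟨t, rfl⟩ _ (hn σ hσ τ hτ)
    exact σ.symm_apply_eq.1 h2
  choose! r hr using h1
  refine ⟨r, fun σ hσ => ⟨fun t => (hr σ hσ t).symm, fun x y => ⟨ι.injective ?_, ι.injective ?_⟩⟩⟩
  · simp only [hr σ hσ, map_add]
  · simp only [hr σ hσ, map_mul]

/-- Embeddings which are real on the ground field. -/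
theorem exists_cj_of {G N : Subgroup Gq} (hG : Opn G) (hle : N ≤ G)
    (hN : ∀ y, Fx N y ↔ ∃ t, ι t = y) (w : F →+* ℂ) (hw : ∀ t, Fx G (ι t) → (w t).im = 0) :
    ∃ κ γ, Cj κ γ ∧ γ ∈ G ∧ ∀ t, κ (ι t) = w t := by
  obtain ⟨κ, h1⟩ := exists_lift ι w
  obtain ⟨γ, h2⟩ := exists_cj κ
  refine ⟨κ, γ, h2, hG.mem fun x hx => ?_, h1⟩
  obtain ⟨t, rfl⟩ := (hN x).1 fun σ hσ => hx σ (hle hσ)
  rw [h2.real, h1]
  exact hw t hx

end Vale.Agent.P011Z.Cl

end
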