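import Vale.Agent.P011Z.Cl.Com.Rt

/-!
Classification of the forms: block Com.
-/

open Matrix Module

noncomputable section

namespace Vale.Agent.P011Z.Cl

open Vale.Agent.P011.D4 Vale.Agent.P011.D4.Oct Vale.Agent.P011.E6 Vale.Agent.P011.E6.Alb

/-- The rational points of the split group of type `E₆`. -/
def RatE (g : J ≃ₗ[Om] J) : Prop := (∀ x, cub (g x) = cub x) ∧ ∀ σ x, g (aj σ x) = aj σ (g x)

theorem Comx.Rt.ratE {f : J → J} (h : Comx.Rt f) : ∃ g, RatE g ∧ ∀ x, g x = f x := by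
  obtain ⟨g, hg⟩ := h.ex
  exact ⟨g, ⟨fun x => by rw [hg, h.cub], fun σ x => by rw [hg, hg, h.rat]⟩, hg⟩

open Comx in
theorem com_E (T : Module.End Om J) (h : ∀ g, RatE g → ∀ x, T (g x) = g (T x)) :
    ∃ c : Om, ∀ x, T x = c • x := by
  have h' : ∀ f, Rt f → ∀ x, T (f x) = f (T x) := by
    intro f hf x
    obtain ⟨g, hg, e⟩ := hf.ratE
    rw [← e, ← e, h g hg]
  obtain ⟨-, z, hz⟩ := core T.isLinear fun f hf _ => h' f hf
  have s1 : ∀ (c : Om) i, T (ee i) = c • ee i → T (ee (i + 1)) = c • ee (i + 1) := by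
    intro c i hi
    rw [← cyc_ee, h' _ rt_cyc, hi, rt_cyc.lin.map_smul]
  have s2 : ∀ (c : Om) i y, T (ins i y) = c • ins i y →
      T (ins (i + 1) y) = c • ins (i + 1) y := by
    intro c i y hi
    rw [← cyc_ins, h' _ rt_cyc, hi, rt_cyc.lin.map_smul]
  have e1 : T (ee 1) = z 2 • ee 1 := by
    have a := h' _ rt_el (ins 2 1)
    rw [hz, rt_el.lin.map_smul, el_ins, map_add, hz, map_smul, smul_add, add_right_inj,
      smul_comm] at a
    exact smul_right_injective J two_ne_zero a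
  have he : ∀ i, T (ee i) = z 2 • ee i := by
    intro i
    fin_cases i
    · exact s1 _ 2 (s1 _ 1 e1)
    · exact e1
    · exact s1 _ 1 e1
  have hi : ∀ i y, T (ins i y) = z 2 • ins i y := by
    intro i y
    fin_cases i
    · exact s2 _ 2 y (hz 2 y)
    · exact s2 _ 0 y (s2 _ 2 y (hz 2 y))
    · exact hz 2 y
  refine ⟨z 2, fun x => ?_⟩
  rw [jm_sum x]
  simp only [map_sum, map_add, map_smul, he, hi, Finset.smul_sum, smul_add, smul_comm (z 2)]

open Comx in
theorem com_D {T : J → J} (hT : Sim 1 T)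
    (h : ∀ g, RatE g → (∀ i, g (ee i) = ee i) → ∀ x, T (g x) = g (T x)) :
    ∃ z : Fin 3 → Om, (∀ i, z i ≠ 0) ∧ ∀ x, T x = sc z x := by
  have hl : IsLinearMap Om T := ⟨hT.add, hT.smul⟩
  obtain ⟨he, z, hz⟩ := core hl fun f hf hf' x => by
    obtain ⟨g, hg, e⟩ := hf.ratE
    rw [← e, ← e, h g hg fun i => by rw [e, hf']]
  obtain ⟨l, -, hc⟩ := hT.mult
  simp only [AlgEquiv.one_apply] at hc
  have h2 : bil (1 : O) 1 = 2 := by rw [bil_self, Oct.norm_one, mul_one]
  have z0 : ∀ i, z i ≠ 0 := by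
    intro i hi
    have a := hz i 1
    rw [hi, zero_smul, ← hl.map_zero] at a
    have b := congrArg (fun w => Oct.norm (sl w i)) (hT.bij.1 a)
    simp only [sl_ins, if_true, sl_lin.map_zero, Pi.zero_apply, Oct.norm_one, Oct.norm_zero] at b
    exact one_ne_zero b
  have hp : z 0 * z 1 * z 2 = l := by
    have a := hc (ins 0 1 + ins 1 1 + ins 2 1)
    rw [hl.map_add, hl.map_add, hz, hz, hz, cub_eq, cub_eq] at a
    simp [dg_add, sl_add, dg_smul, sl_smul, dg_ins, sl_ins, smul_smul, bil_smul_left, h2] at a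
    linear_combination a
  have hd : ∀ k i, dg (T (ee k)) i * z i ^ 2 = l * dg (ee k) i := by
    intro k i
    have a := hc (ee k + ins i 1)
    have b := hc (ee k)
    rw [hl.map_add, hz, cub_eq, cub_eq] at a
    rw [cub_eq, cub_eq] at b
    fin_cases i <;>
      simp [dg_add, sl_add, dg_smul, sl_smul, dg_ins, sl_ins, sl_ee, he, Fin.sum_univ_three,
        Oct.norm_smul, -mul_eq_zero] at a b ⊢ <;>
      linear_combination b - a
  have hq : ∀ i, z (i + 1) * z (i + 2) * z i = l := by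
    intro i
    fin_cases i <;> simp <;> linear_combination hp
  have hE : ∀ k, T (ee k) = sc z (ee k) := by
    intro k
    refine j_ext (fun i => ?_) fun i => ?_
    · have a := hd k i
      have b := z0 i
      rw [dg_sc, ← hq i] at *
      field_simp
      refine mul_right_cancel₀ b ?_
      linear_combination a
    · rw [he, sl_sc, sl_ee, smul_zero]
  refine ⟨z, z0, fun x => ?_⟩
  rw [jm_sum x]
  simp only [Fin.sum_univ_three, hl.map_add, hl.map_smul, (sc_lin z).map_add, (sc_lin z).map_smul,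
    hE, hz, sc_ins]

open Comx in
theorem no_inv (B : J →ₗ[Om] J →ₗ[Om] Om) (h : ∀ g, RatE g → ∀ x y, B (g x) (g y) = B x y) :
    B = 0 := by
  obtain ⟨g, hg, e⟩ := (rt_sc (z := ![1 / 2, 1 / 3, 6]) (by simp; norm_num) fun σ i => by
    fin_cases i <;> simp [map_ofNat]).ratE
  let S : Set Om := {4, 9, 1 / 36, 1 / 2, 1 / 3, 6}
  have hS : ∀ s ∈ S, ∀ t ∈ S, s * t ≠ 1 := by
    intro s hs t ht
    simp only [S, Set.mem_insert_iff, Set.mem_singleton_iff] at hs ht
    rcases hs with rfl | rfl | rfl | rfl | rfl | rfl <;>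
      rcases ht with rfl | rfl | rfl | rfl | rfl | rfl <;> norm_num
  let P : J → Prop := fun x => ∃ s ∈ S, g x = s • x
  have key : ∀ x, P x → ∀ y, P y → B x y = 0 := by
    rintro x ⟨s, hs, hx⟩ y ⟨t, ht, hy⟩
    have a := h g hg x y
    rw [hx, hy, map_smul, map_smul, LinearMap.smul_apply, smul_eq_mul, smul_eq_mul] at a
    have b : (s * t - 1) * B x y = 0 := by linear_combination a
    exact (mul_eq_zero.1 b).resolve_left (sub_ne_zero.2 (hS s hs t ht))
  have p1 : ∀ i, P (ee i) := by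
    intro i
    refine ⟨_, ?_, (e _).trans (sc_ee _ i)⟩
    fin_cases i <;> simp [S] <;> norm_num
  have p2 : ∀ i y, P (ins i y) := by
    intro i y
    refine ⟨_, ?_, (e _).trans (sc_ins _ i y)⟩
    fin_cases i <;> simp [S]
  refine LinearMap.ext fun x => LinearMap.ext fun y => ?_
  rw [jm_sum x, jm_sum y]
  simp only [map_sum, map_add, map_smul, LinearMap.sum_apply, LinearMap.add_apply,
    LinearMap.smul_apply, key _ (p1 _) _ (p1 _), key _ (p1 _) _ (p2 _ _), key _ (p2 _ _) _ (p1 _),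
    key _ (p2 _ _) _ (p2 _ _), smul_zero, add_zero, Finset.sum_const_zero, LinearMap.zero_apply]

end Vale.Agent.P011Z.Cl

end
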