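import Vale.Agent.P011Z.Cl.Pol

/-!
Classification of the forms: block Cub.
-/

open Matrix Module

noncomputable section

namespace Vale.Agent.P011Z.Cl

open Vale.Agent.P011.D4 Vale.Agent.P011.D4.Oct Vale.Agent.P011.E6 Vale.Agent.P011.E6.Alb

namespace Cubx

theorem ap_inv (σ : Gq) (t : Om) : σ (σ⁻¹ t) = t := σ.apply_symm_apply t

theorem inv_ap (σ : Gq) (t : Om) : σ⁻¹ (σ t) = t := σ.symm_apply_apply t

theorem jm_add (d e : Fin 3 → Om) (y z : Fin 3 → O) : jm (d + e) (y + z) = jm d y + jm e z := rfl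

theorem jm_smul (t : Om) (d : Fin 3 → Om) (y : Fin 3 → O) : jm (t • d) (t • y) = t • jm d y := rfl

/-- The coordinates. -/
def je : J ≃ₗ[Om] (Fin 3 → Om) × (Fin 3 → O) :=
  LinearEquiv.symm
    { toFun := fun p => jm p.1 p.2
      map_add' := fun _ _ => rfl
      map_smul' := fun _ _ => rfl
      invFun := fun x => (dg x, sl x)
      left_inv := fun p => by
        refine Prod.ext ?_ ?_ <;> funext i <;> fin_cases i <;> rfl
      right_inv := fun _ => rfl }

theorem al_semi {σ : Gq} {a : O → O} (h : Semi σ a) : Semi σ (al σ a) := by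
  obtain ⟨b, -, h2, h3⟩ := h.inv
  refine ⟨fun x y => ?_, fun t x => ?_, Function.bijective_iff_has_inverse.2
    ⟨al σ⁻¹ b, fun x => ?_, fun x => ?_⟩⟩
  · exact Alb.ext (map_add σ _ _) (map_add σ _ _) (map_add σ _ _) (h.add _ _) (h.add _ _)
      (h.add _ _)
  · exact Alb.ext (map_mul σ _ _) (map_mul σ _ _) (map_mul σ _ _) (h.smul _ _) (h.smul _ _)
      (h.smul _ _)
  · exact Alb.ext (inv_ap σ _) (inv_ap σ _) (inv_ap σ _) (h2 _) (h2 _) (h2 _)
  · exact Alb.ext (ap_inv σ _) (ap_inv σ _) (ap_inv σ _) (h3 _) (h3 _) (h3 _)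

theorem cub_j1 : cub j1 = 1 := by simp [cub, j1, jm]

theorem adj_j1 : adj j1 = j1 := by
  ext1 <;> simp [adj, j1, jm]

theorem cross_j1 (x : J) : cross j1 x = tf x j1 • j1 - x := by
  ext1 <;> simp [cross, tf, j1, jm] <;> ring

/-- Invertible elements are adjoints. -/
theorem exists_adj {y : J} (hy : cub y ≠ 0) : ∃ z, adj z = y := by
  obtain ⟨c, hc⟩ := IsAlgClosed.exists_pow_nat_eq (cub y)⁻¹ two_pos
  exact ⟨c • adj y, by rw [adj_smul, adj_adj, smul_smul, hc, inv_mul_cancel₀ hy, one_smul]⟩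

theorem cross_cross_adj (a y : J) : cross a (cross (adj a) y) = cub a • y + tf a y • adj a := by
  refine eq_of_tf fun z => ?_
  rw [cross_comm, tf_cross, cross_comm (adj a), tf_cross, cross_adj_cross, tf_add_right,
    tf_add_left, tf_smul_right, tf_smul_right, tf_smul_left, tf_smul_left, tf_comm y a]
  ring

theorem uo_adj (a : J) : uo a (adj a) = cub a • a := by
  rw [uo, tf_comm, tf_adj_self, Alb.cross_self, adj_adj]
  module

end Cubx

/-- The operator `V`, the polarisation of `U`. -/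
def vo (a b x : J) : J := tf a b • x + tf x b • a - cross (cross a x) b

theorem vo_lin (a b : J) : IsLinearMap Om (vo a b) := by
  refine ⟨fun x y => ?_, fun t x => ?_⟩
  · rw [vo, vo, vo, tf_add_left, cross_add_right, cross_add_left]
    module
  · rw [vo, vo, tf_smul_left, cross_smul_right, cross_smul_left]
    module

/-- The operator `V` as an endomorphism. -/
def voL (a b : J) : Module.End Om J := (vo_lin a b).mk' _

theorem jm_dg_sl (x : J) : jm (dg x) (sl x) = x := rfl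

theorem dg_jm (d : Fin 3 → Om) (y : Fin 3 → O) : dg (jm d y) = d := by
  funext i
  fin_cases i <;> rfl

theorem sl_jm (d : Fin 3 → Om) (y : Fin 3 → O) : sl (jm d y) = y := by
  funext i
  fin_cases i <;> rfl

theorem j_ext {x y : J} (h1 : ∀ i, dg x i = dg y i) (h2 : ∀ i, sl x i = sl y i) : x = y :=
  Alb.ext (h1 0) (h1 1) (h1 2) (h2 0) (h2 1) (h2 2)

theorem dg_lin : IsLinearMap Om dg := by
  refine ⟨fun x y => ?_, fun t x => ?_⟩ <;> funext i <;> fin_cases i <;> rfl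

theorem sl_lin : IsLinearMap Om sl := by
  refine ⟨fun x y => ?_, fun t x => ?_⟩ <;> funext i <;> fin_cases i <;> rfl

theorem ins_lin (i : Fin 3) : IsLinearMap Om (ins i) := by
  refine ⟨fun x y => ?_, fun t x => ?_⟩
  · rw [ins, ins, ins, ← Cubx.jm_add, add_zero, Pi.single_add]
  · rw [ins, ins, ← Cubx.jm_smul, smul_zero, Pi.single_smul]

theorem jm_sum (x : J) : x = ∑ i, (dg x i • ee i + ins i (sl x i)) := by
  rw [Fin.sum_univ_three]
  ext1 <;> simp [ee, ins, jm, dg, sl]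

theorem cub_eq (x : J) : cub x = dg x 0 * dg x 1 * dg x 2 - ∑ i, dg x i * norm (sl x i) +
    bil (sl x 0 * sl x 1 * sl x 2) 1 := by
  rw [Fin.sum_univ_three]
  change cub x = x.d1 * x.d2 * x.d3 - (x.d1 * norm x.x1 + x.d2 * norm x.x2 + x.d3 * norm x.x3) +
    bil (x.x1 * x.x2 * x.x3) 1
  rw [cub]
  ring

theorem tf_eq (x y : J) : tf x y = ∑ i, (dg x i * dg y i + bil (sl x i) (sl y i)) := by
  rw [Fin.sum_univ_three]
  change tf x y = x.d1 * y.d1 + bil x.x1 y.x1 + (x.d2 * y.d2 + bil x.x2 y.x2) +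
    (x.d3 * y.d3 + bil x.x3 y.x3)
  rw [tf]
  ring

theorem dg_adj (x : J) (i : Fin 3) :
    dg (adj x) i = dg x (i + 1) * dg x (i + 2) - norm (sl x i) := by
  fin_cases i <;> rfl

theorem sl_adj (x : J) (i : Fin 3) :
    sl (adj x) i = star (sl x (i + 1) * sl x (i + 2)) - dg x i • sl x i := by
  fin_cases i <;> rfl

theorem fd_O : FiniteDimensional Om O := inferInstance

theorem fd_J : FiniteDimensional Om J := Module.Finite.equiv Cubx.je.symm

theorem finrank_O : finrank Om O = 8 := finrank_oct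

theorem finrank_J : finrank Om J = 27 := by
  rw [Cubx.je.finrank_eq, Module.finrank_prod, Module.finrank_fin_fun,
    Module.finrank_pi_fintype, Fin.sum_univ_three, finrank_O]
  rfl

/-- The trace form as a bilinear map. -/
theorem exists_tfL : ∃ B : J →ₗ[Om] J →ₗ[Om] Om, ∀ x y, B x y = tf x y :=
  ⟨LinearMap.mk₂ Om tf tf_add_left tf_smul_left tf_add_right tf_smul_right, fun _ _ => rfl⟩

theorem exists_crossL : ∃ B : J →ₗ[Om] J →ₗ[Om] J, ∀ x y, B x y = cross x y :=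
  ⟨LinearMap.mk₂ Om cross cross_add_left cross_smul_left cross_add_right cross_smul_right,
    fun _ _ => rfl⟩

theorem exists_bilL : ∃ B : O →ₗ[Om] O →ₗ[Om] Om, ∀ x y, B x y = bil x y :=
  ⟨LinearMap.mk₂ Om bil bil_add_left bil_smul_left bil_add_right bil_smul_right, fun _ _ => rfl⟩

theorem exists_mulL : ∃ B : O →ₗ[Om] O →ₗ[Om] O, ∀ x y, B x y = x * y :=
  ⟨LinearMap.mk₂ Om (fun x y => x * y) add_mul smul_mul_oct mul_add mul_smul_oct, fun _ _ => rfl⟩

/-- Every functional is given by the trace form. -/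
theorem exists_tf (l : J →ₗ[Om] Om) : ∃ z, ∀ x, l x = tf x z := by
  have := fd_J
  obtain ⟨B, hB⟩ := exists_tfL
  have h1 : Function.Injective B := by
    intro x y h
    refine eq_of_tf fun z => ?_
    rw [← hB, ← hB, h]
  have h2 : finrank Om J = finrank Om (J →ₗ[Om] Om) := Subspace.dual_finrank_eq.symm
  obtain ⟨z, hz⟩ := (LinearMap.injective_iff_surjective_of_finrank_eq_finrank h2).1 h1 l
  exact ⟨z, fun x => by rw [← hz, hB, tf_comm]⟩

section pol

variable {V : Type} [AddCommGroup V] [Module Om V] {g h : V → J}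

theorem Pol.tf (hg : PolM g) (hh : PolM h) : Pol fun x => tf (g x) (h x) := by
  have := fd_J
  obtain ⟨B, hB⟩ := exists_tfL
  exact (polM_iff.1 (PolM.bil B hg hh)).congr fun x => (hB _ _).symm

theorem PolM.cross (hg : PolM g) (hh : PolM h) : PolM fun x => cross (g x) (h x) := by
  have := fd_J
  obtain ⟨B, hB⟩ := exists_crossL
  intro l
  exact (PolM.bil B hg hh l).congr fun x => congrArg l (hB _ _).symm

theorem PolM.adj (hg : PolM g) : PolM fun x => adj (g x) := by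
  intro l
  refine (PolM.smul (Pol.const 2⁻¹) (hg.cross hg) l).congr fun x => congrArg l ?_
  change Alb.adj (g x) = (2 : Om)⁻¹ • Alb.cross (g x) (g x)
  rw [Alb.cross_self, smul_smul, inv_mul_cancel₀ two_ne_zero, one_smul]

theorem Pol.cub (hg : PolM g) : Pol fun x => cub (g x) := by
  refine ((Pol.const 3⁻¹).mul (Pol.tf hg.adj hg)).congr fun x => ?_
  rw [tf_adj_self, ← mul_assoc, inv_mul_cancel₀ three_ne_zero, one_mul]

theorem PolM.uo (hg : PolM g) (hh : PolM h) : PolM fun x => uo (g x) (h x) :=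
  (PolM.smul (Pol.tf hg hh) hg).sub (hg.adj.cross hh)

theorem Pol.dg (hg : PolM g) (i : Fin 3) : Pol fun x => dg (g x) i :=
  hg (LinearMap.proj i ∘ₗ dg_lin.mk' _)

end pol

theorem oa_semi (σ : Gq) : Semi σ (oa σ) := by
  refine ⟨fun x y => ?_, fun t x => ?_, Function.bijective_iff_has_inverse.2
    ⟨oa σ⁻¹, fun x => ?_, fun x => ?_⟩⟩
  · apply ext8 <;> exact map_add σ _ _
  · apply ext8 <;> exact map_mul σ _ _
  · apply ext8 <;> exact σ.symm_apply_apply _
  · apply ext8 <;> exact σ.apply_symm_apply _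

theorem oa_mul (σ : Gq) (x y : O) : oa σ (x * y) = oa σ x * oa σ y := by
  apply ext8 <;> simp [oa]

theorem ha_oa {G : Subgroup Gq} (hG : Opn G) : HA G oa := by
  refine ⟨⟨hG, fun σ _ => oa_semi σ, fun _ _ _ _ _ => rfl, fun x => ?_⟩, fun σ _ => oa_mul σ⟩
  obtain ⟨H, hH, h⟩ := opn_fin ![x.fst.re, x.fst.imI, x.fst.imJ, x.fst.imK, x.snd.re, x.snd.imI,
    x.snd.imJ, x.snd.imK]
  exact ⟨H, hH, fun σ hσ _ => ext8 (h σ hσ 0) (h σ hσ 1) (h σ hσ 2) (h σ hσ 3) (h σ hσ 4)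
    (h σ hσ 5) (h σ hσ 6) (h σ hσ 7)⟩

/-- Semilinear automorphisms of the octonions. -/
theorem hom_props {σ : Gq} {a : O → O} (h : Semi σ a) (hm : ∀ x y, a (x * y) = a x * a y) :
    a 1 = 1 ∧ (∀ x, a (star x) = star (a x)) ∧ (∀ x, norm (a x) = σ (norm x)) ∧
      ∀ x y, bil (a x) (a y) = σ (bil x y) := by
  have h1 : a 1 = 1 := by
    obtain ⟨x, hx⟩ := h.bij.2 1
    have h2 := hm 1 x
    rwa [one_mul, hx, mul_one, eq_comm] at h2
  have hn : ∀ x, norm (a x) = σ (norm x) := by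
    intro x
    by_cases hx : ∃ c : Om, x = c • 1
    · obtain ⟨c, rfl⟩ := hx
      rw [h.smul, h1, Oct.norm_smul, Oct.norm_smul, Oct.norm_one, mul_one, mul_one, map_pow]
    · have h2 := hm x x
      rw [mul_self_eq, mul_self_eq, h.sub, h.smul, h.smul, h1] at h2
      have h3 : (σ (bil x 1) - bil (a x) 1) • a x = (σ (norm x) - norm (a x)) • (1 : O) := by
        rw [sub_smul, sub_smul, sub_eq_sub_iff_sub_eq_sub, h2]
      by_cases h4 : σ (bil x 1) - bil (a x) 1 = 0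
      · rw [h4, zero_smul] at h3
        have h5 := congrArg (fun z : O => z.fst.re) h3
        have h6 : σ (norm x) - norm (a x) = 0 := by simpa using h5.symm
        exact (sub_eq_zero.1 h6).symm
      · refine absurd ⟨σ⁻¹ ((σ (bil x 1) - bil (a x) 1)⁻¹ * (σ (norm x) - norm (a x))),
          h.bij.1 ?_⟩ hx
        rw [h.smul, h1, Cubx.ap_inv, mul_smul, ← h3, smul_smul, inv_mul_cancel₀ h4, one_smul]
  have hb : ∀ x y, bil (a x) (a y) = σ (bil x y) := by
    intro x y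
    rw [bil, bil, ← h.add, hn, hn, hn, map_sub, map_sub]
  refine ⟨h1, fun x => ?_, hn, hb⟩
  rw [star_eq, star_eq, h.sub, h.smul, ← hb, h1]

theorem al_props {σ : Gq} {a : O → O} (h : Semi σ a) (hm : ∀ x y, a (x * y) = a x * a y) :
    Sim σ (al σ a) ∧ (∀ x, cub (al σ a x) = σ (cub x)) ∧
      ∀ x y, tf (al σ a x) (al σ a y) = σ (tf x y) := by
  obtain ⟨h1, -, hn, hb⟩ := hom_props h hm
  have hc : ∀ x, cub (al σ a x) = σ (cub x) := by
    intro x
    change σ x.d1 * σ x.d2 * σ x.d3 - σ x.d1 * norm (a x.x1) - σ x.d2 * norm (a x.x2) -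
      σ x.d3 * norm (a x.x3) + bil (a x.x1 * a x.x2 * a x.x3) 1 = _
    rw [hn, hn, hn, ← hm, ← hm, ← h1, hb, cub]
    simp only [map_add, map_sub, map_mul]
  refine ⟨⟨Cubx.al_semi h, 1, one_ne_zero, fun x => by rw [hc, one_mul]⟩, hc, fun x y => ?_⟩
  change σ x.d1 * σ y.d1 + σ x.d2 * σ y.d2 + σ x.d3 * σ y.d3 + bil (a x.x1) (a y.x1) +
    bil (a x.x2) (a y.x2) + bil (a x.x3) (a y.x3) = _
  rw [hb, hb, hb, tf]
  simp only [map_add, map_mul]

theorem ta_aj {G : Subgroup Gq} (hG : Opn G) : TA G aj := by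
  refine ⟨hG, fun σ _ => Cubx.al_semi (oa_semi σ), fun _ _ _ _ _ => rfl, fun x => ?_⟩
  obtain ⟨H, hH, h⟩ := opn_fin (dg x)
  choose K hK hk using fun i => (ha_oa hG).smo (sl x i)
  refine ⟨H ⊓ ⨅ i, K i, hH.inf (opn_iInf hK), fun σ hσ hσG => ?_⟩
  have h2 := fun i => hk i σ (Subgroup.mem_iInf.1 hσ.2 i) hσG
  exact Alb.ext (h σ hσ.1 0) (h σ hσ.1 1) (h σ hσ.1 2) (h2 0) (h2 1) (h2 2)

variable {σ τ : Gq} {f g : J → J}

theorem sim_id : Sim 1 fun x : J => x :=
  ⟨semi_lin (LinearEquiv.refl Om J), 1, one_ne_zero, fun _ => (one_mul _).symm⟩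

theorem Sim.comp (hf : Sim σ f) (hg : Sim τ g) : Sim (σ * τ) fun x => f (g x) := by
  obtain ⟨l, hl0, hl⟩ := hf.mult
  obtain ⟨m, hm0, hm⟩ := hg.mult
  refine ⟨hf.toSemi.comp hg.toSemi, l * σ m,
    mul_ne_zero hl0 ((map_ne_zero_iff _ σ.injective).2 hm0), fun x => ?_⟩
  rw [hl, hm, map_mul, mul_assoc]
  rfl

theorem Sim.inv (hf : Sim σ f) :
    ∃ g, Sim σ⁻¹ g ∧ (∀ x, g (f x) = x) ∧ ∀ y, f (g y) = y := by
  obtain ⟨l, hl0, hl⟩ := hf.mult
  obtain ⟨g, h1, h2, h3⟩ := hf.toSemi.inv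
  refine ⟨g, ⟨h1, σ⁻¹ l⁻¹, (map_ne_zero_iff _ (σ⁻¹).injective).2 (inv_ne_zero hl0),
    fun y => ?_⟩, h2, h3⟩
  have h4 := hl (g y)
  rw [h3] at h4
  rw [← map_mul, h4, ← mul_assoc, inv_mul_cancel₀ hl0, one_mul, Cubx.inv_ap]

theorem Sim.smul' (hf : Sim σ f) {t : Om} (ht : t ≠ 0) : Sim σ fun x => t • f x := by
  obtain ⟨l, hl0, hl⟩ := hf.mult
  refine ⟨hf.toSemi.smul' ht, t ^ 3 * l, mul_ne_zero (pow_ne_zero 3 ht) hl0, fun x => ?_⟩
  rw [cub_smul, hl, mul_assoc]

theorem Sim.symm {ψ : J ≃ₗ[Om] J} (h : Sim 1 ψ) : Sim 1 ψ.symm := by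
  obtain ⟨l, hl0, hl⟩ := h.mult
  refine ⟨semi_lin ψ.symm, l⁻¹, inv_ne_zero hl0, fun y => ?_⟩
  have h4 := hl (ψ.symm y)
  rw [ψ.apply_symm_apply] at h4
  rw [AlgEquiv.one_apply, h4, AlgEquiv.one_apply, ← mul_assoc, inv_mul_cancel₀ hl0, one_mul]

theorem Sim.trans {ψ φ : J ≃ₗ[Om] J} (h : Sim 1 ψ) (h' : Sim 1 φ) : Sim 1 (ψ.trans φ) := by
  have h1 := h'.comp h
  rw [one_mul] at h1
  exact h1

theorem sim_of_cub {ψ : J ≃ₗ[Om] J} {l : Om} (h : ∀ x, cub (ψ x) = l * cub x) : Sim 1 ψ := by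
  refine ⟨semi_lin ψ, l, fun hl => ?_, h⟩
  have h1 := h (ψ.symm j1)
  rw [ψ.apply_symm_apply, hl, zero_mul, Cubx.cub_j1] at h1
  exact one_ne_zero h1

theorem dag_tf (hf : Semi σ f) (x y : J) : tf (f x) (dag σ f y) = σ (tf x y) := by
  have h1 : ∃ z, ∀ x, tf (f x) z = σ (tf x y) := by
    obtain ⟨g, h1, h2, -⟩ := hf.inv
    obtain ⟨B, hB⟩ := exists_tfL
    obtain ⟨z, hz⟩ := exists_tf (h1.form (B y))
    refine ⟨z, fun x => ?_⟩
    rw [← hz, Semi.form_apply, inv_inv, h2, hB, tf_comm]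
  exact @Classical.epsilon_spec_aux J ⟨0⟩ _ h1 x

theorem dag_eq (hf : Semi σ f) {y z : J} (h : ∀ x, tf (f x) z = σ (tf x y)) : dag σ f y = z := by
  refine eq_of_tf fun w => ?_
  obtain ⟨x, rfl⟩ := hf.bij.2 w
  rw [tf_comm, dag_tf hf, ← h, tf_comm]

theorem Semi.dag (hf : Semi σ f) : Semi σ (dag σ f) := by
  refine ⟨fun x y => dag_eq hf fun z => ?_, fun t x => dag_eq hf fun z => ?_, fun x y h => ?_,
    fun w => ?_⟩
  · rw [tf_add_right, tf_add_right, dag_tf hf, dag_tf hf, map_add]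
  · rw [tf_smul_right, tf_smul_right, dag_tf hf, map_mul]
  · refine eq_of_tf fun z => σ.injective ?_
    rw [tf_comm, tf_comm y, ← dag_tf hf, ← dag_tf hf, h]
  · obtain ⟨B, hB⟩ := exists_tfL
    obtain ⟨z, hz⟩ := exists_tf (hf.form (B w))
    refine ⟨z, dag_eq hf fun x => ?_⟩
    rw [← hz, Semi.form_apply, Cubx.ap_inv, hB, tf_comm]

theorem dag_dag (hf : Semi σ f) (x : J) : dag σ (dag σ f) x = f x :=
  dag_eq hf.dag fun y => by rw [tf_comm, dag_tf hf, tf_comm]

theorem dag_comp (hf : Semi σ f) (hg : Semi τ g) (y : J) :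
    dag (σ * τ) (fun x => f (g x)) y = dag σ f (dag τ g y) :=
  dag_eq (hf.comp hg) fun x => by
    rw [dag_tf hf, dag_tf hg]
    rfl

theorem dag_smul (hf : Semi σ f) {t : Om} (ht : t ≠ 0) (y : J) :
    dag σ (fun x => t • f x) y = t⁻¹ • dag σ f y :=
  dag_eq (hf.smul' ht) fun x => by
    rw [tf_smul_left, tf_smul_right, dag_tf hf, ← mul_assoc, mul_inv_cancel₀ ht, one_mul]

theorem dag_id (y : J) : dag 1 (fun x => x) y = y := dag_eq sim_id.toSemi fun _ => rfl

theorem dag_symm (ψ : J ≃ₗ[Om] J) (y : J) : dag 1 ψ.symm (dag 1 ψ y) = y :=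
  dag_eq (semi_lin ψ.symm) fun x => by
    have h := dag_tf (semi_lin ψ) (ψ.symm x) y
    rw [ψ.apply_symm_apply] at h
    exact h.symm

theorem tf_dag_symm (ψ : J ≃ₗ[Om] J) (x y : J) : tf x (dag 1 ψ.symm y) = tf (ψ x) y := by
  have h := dag_tf (semi_lin ψ.symm) (ψ x) y
  rw [ψ.symm_apply_apply] at h
  exact h

theorem adj_sim (hf : Semi σ f) {l : Om} (hl : ∀ x, cub (f x) = l * σ (cub x)) (x : J) :
    adj (f x) = l • dag σ f (adj x) := by
  refine eq_of_tf fun w => ?_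
  obtain ⟨y, rfl⟩ := hf.bij.2 w
  rw [tf_smul_left, tf_comm (dag σ f _), dag_tf hf, tf_comm y]
  have h1 := hl (x + y)
  have h2 := hl (x + -y)
  rw [hf.add, cub_add, cub_add, hl, hl] at h1
  rw [hf.add, hf.neg, cub_add, cub_add, cub_neg, cub_neg, hl, hl, adj_neg, adj_neg, tf_neg_right,
    tf_neg_right] at h2
  simp only [map_add, map_neg] at h1 h2
  linear_combination 2⁻¹ * h1 - 2⁻¹ * h2

theorem cross_sim (hf : Semi σ f) {l : Om} (hl : ∀ x, cub (f x) = l * σ (cub x)) (x y : J) :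
    cross (f x) (f y) = l • dag σ f (cross x y) := by
  have h1 := adj_sim hf hl (x + y)
  rw [hf.add, adj_add, adj_add, hf.dag.add, hf.dag.add, adj_sim hf hl, adj_sim hf hl, smul_add,
    smul_add] at h1
  exact add_left_cancel (add_right_cancel h1)

theorem cub_dag (hf : Semi σ f) {l : Om} (hl0 : l ≠ 0) (hl : ∀ x, cub (f x) = l * σ (cub x))
    (x : J) : cub (dag σ f x) = l⁻¹ * σ (cub x) := by
  have hp : Pol fun y : J => cub y := Pol.cub (PolM.lin LinearMap.id)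
  have hq : Pol fun y : J => σ⁻¹ (cub (dag σ f y)) - σ⁻¹ l⁻¹ * cub y :=
    (hp.semi hf.dag).sub ((Pol.const _).mul hp)
  by_contra h0
  have h1 : σ⁻¹ (cub (dag σ f x)) - σ⁻¹ l⁻¹ * cub x ≠ 0 := by
    intro h2
    apply h0
    have h3 := congrArg σ (sub_eq_zero.1 h2)
    rwa [map_mul, Cubx.ap_inv, Cubx.ap_inv] at h3
  obtain ⟨y, hy⟩ := hp.mul_ne hq ⟨j1, by rw [Cubx.cub_j1]; exact one_ne_zero⟩ ⟨x, h1⟩
  obtain ⟨z, rfl⟩ := Cubx.exists_adj (left_ne_zero_of_mul hy)
  apply right_ne_zero_of_mul hy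
  have h4 := congrArg cub (adj_sim hf hl z)
  rw [cub_adj, cub_smul, hl] at h4
  have h5 : cub (dag σ f (adj z)) = l⁻¹ * σ (cub (adj z)) := by
    rw [cub_adj, map_pow]
    apply mul_left_cancel₀ (pow_ne_zero 3 hl0)
    rw [← h4]
    field_simp
  rw [h5, map_mul, Cubx.inv_ap, sub_self]

theorem Sim.dag (hf : Sim σ f) : Sim σ (dag σ f) := by
  obtain ⟨l, hl0, hl⟩ := hf.mult
  exact ⟨hf.toSemi.dag, l⁻¹, inv_ne_zero hl0, cub_dag hf.toSemi hl0 hl⟩

theorem Sim.sing (hf : Sim σ f) {x : J} : adj (f x) = 0 ↔ adj x = 0 := by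
  obtain ⟨l, hl0, hl⟩ := hf.mult
  rw [adj_sim hf.toSemi hl, smul_eq_zero_iff_right hl0]
  refine ⟨fun h => ?_, fun h => by rw [h, hf.toSemi.dag.zero]⟩
  by_contra h1
  exact hf.toSemi.dag.ne h1 h

theorem uo_sim (hf : Sim σ f) (a x : J) : uo (f a) (dag σ f x) = f (uo a x) := by
  obtain ⟨l, hl0, hl⟩ := hf.mult
  have h := hf.toSemi
  rw [uo, uo, dag_tf h, adj_sim h hl, cross_smul_left, cross_sim h.dag (cub_dag h hl0 hl),
    dag_dag h, smul_smul, mul_inv_cancel₀ hl0, one_smul, h.sub, h.smul]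

theorem uo_dag (hf : Sim σ f) (a x : J) : uo (dag σ f a) (f x) = dag σ f (uo a x) := by
  rw [← uo_sim hf.dag, dag_dag hf.toSemi]

theorem vo_sim (hf : Sim σ f) (a b x : J) : vo (f a) (dag σ f b) (f x) = f (vo a b x) := by
  obtain ⟨l, hl0, hl⟩ := hf.mult
  have h := hf.toSemi
  rw [vo, vo, dag_tf h, dag_tf h, cross_sim h hl, cross_smul_left,
    cross_sim h.dag (cub_dag h hl0 hl), dag_dag h, smul_smul, mul_inv_cancel₀ hl0, one_smul,
    h.sub, h.add, h.smul, h.smul]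

theorem uo_lin (a : J) : IsLinearMap Om (uo a) := by
  refine ⟨fun x y => ?_, fun t x => ?_⟩
  · rw [uo, uo, uo, tf_add_right, cross_add_right]
    module
  · rw [uo, uo, tf_smul_right, cross_smul_right]
    module

theorem tf_uo (a x y : J) : tf (uo a x) y = tf x (uo a y) := by
  rw [uo, uo, tf_sub_left, tf_sub_right, tf_smul_left, tf_smul_right, cross_comm (adj a) x,
    tf_cross, tf_comm x a]
  ring

theorem uo_adj_uo (a x : J) : uo (adj a) (uo a x) = cub a ^ 2 • x := by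
  rw [uo, tf_comm, tf_uo, Cubx.uo_adj, tf_smul_right, adj_adj, cross_smul_left, uo,
    cross_sub_right, cross_smul_right, Alb.cross_self, Cubx.cross_cross_adj, tf_comm x a]
  module

theorem adj_uo (a x : J) : adj (uo a x) = uo (adj a) (adj x) := by
  have h := adj_cross (adj a) x
  rw [uo, uo, sub_eq_add_neg, adj_add, adj_neg, adj_smul, cross_neg_right, cross_smul_left,
    Cubx.cross_cross_adj, eq_sub_of_add_eq h, adj_adj, tf_smul_left]
  module

theorem cub_uo (a x : J) : cub (uo a x) = cub a ^ 2 * cub x := by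
  apply mul_left_cancel₀ (three_ne_zero : (3 : Om) ≠ 0)
  rw [← tf_adj_self, adj_uo, tf_uo, uo_adj_uo, tf_smul_right, tf_adj_self]
  ring

theorem uo_adj (a : J) : uo a (adj a) = cub a • a := Cubx.uo_adj a

theorem tf_vo (a b x y : J) : tf (vo a b x) y = tf x (vo b a y) := by
  rw [vo, vo, tf_sub_left, tf_sub_right, tf_add_left, tf_add_right, tf_smul_left, tf_smul_left,
    tf_smul_right, tf_smul_right, tf_cross, cross_comm a x, tf_cross, cross_comm a, tf_comm b a,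
    tf_comm y a]
  ring

theorem tf_adj_vo (a b x : J) : tf (adj x) (vo a b x) = 2 * tf a b * cub x := by
  rw [vo, tf_sub_right, tf_add_right, tf_smul_right, tf_smul_right, tf_adj_self, ← tf_cross,
    cross_comm a x, cross_adj_cross, tf_add_left, tf_smul_left, tf_smul_left]
  ring

/-- Automorphisms preserve the trace form. -/
theorem dag_of_one (hf : Semi σ f) (hl : ∀ x, cub (f x) = σ (cub x)) (h1 : f j1 = j1) (x : J) :
    dag σ f x = f x := by
  have hl1 : ∀ x, cub (f x) = 1 * σ (cub x) := fun x => by rw [hl, one_mul]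
  have h2 : dag σ f j1 = j1 := by
    have h3 := adj_sim hf hl1 j1
    rw [h1, Cubx.adj_j1, one_smul] at h3
    exact h3.symm
  have h4 := cross_sim hf hl1 j1 x
  have h5 := dag_tf hf x j1
  rw [h2] at h5
  rw [h1, Cubx.cross_j1, Cubx.cross_j1, one_smul, hf.dag.sub, hf.dag.smul, h2, h5] at h4
  exact (sub_right_injective h4).symm

theorem cub_three {x y z : J} (hx : adj x = 0) (hy : adj y = 0) (hz : adj z = 0) :
    cub (x + y + z) = tf (cross x y) z := by
  have h0 : ∀ w : J, adj w = 0 → cub w = 0 := by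
    intro w hw
    have h1 := tf_adj_self w
    rw [hw, tf_zero_left] at h1
    exact (mul_eq_zero.1 h1.symm).resolve_left three_ne_zero
  rw [cub_add, cub_add, adj_add, hx, hy, hz, h0 x hx, h0 y hy, h0 z hz]
  simp

end Vale.Agent.P011Z.Cl

end
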