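import Vale.Agent.P011Z.Cl.Hur
import Vale.Agent.P011Z.Cl.Br2

/-!
Classification of the forms: block D4a.
-/

open Matrix Module

noncomputable section

namespace Vale.Agent.P011Z.Cl

open Vale.Agent.P011.D4 Vale.Agent.P011.D4.Oct Vale.Agent.P011.E6 Vale.Agent.P011.E6.Alb

namespace D4ax

theorem pol_norm : Pol fun x : O => Oct.norm x := by
  obtain ⟨B, hB⟩ := exists_bilL
  have := fd_O
  refine ((Pol.const 2⁻¹).mul (polM_iff.1 (PolM.bil B (PolM.lin LinearMap.id)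
    (PolM.lin LinearMap.id)))).congr fun x => ?_
  rw [hB, LinearMap.id_apply, bil_self]
  ring

theorem index {D : FD} (h : D.OK) (ht : D.Tri) {H : Subgroup Gq}
    (hH : ∀ σ, σ ∈ H ↔ σ ∈ D.G ∧ D.π σ 0 = 0) : H.relIndex D.G = 3 := by
  let P : D.G →* Equiv.Perm (Fin 3) := MonoidHom.mk' (fun σ => D.π σ) fun a b =>
    h.pmul _ a.2 _ b.2
  let : MulAction D.G (Fin 3) := MulAction.compHom _ P
  obtain ⟨ρ, hρ, h0, h1⟩ := ht
  have : MulAction.IsPretransitive D.G (Fin 3) := by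
    refine (MulAction.isPretransitive_iff_base (0 : Fin 3)).2 fun i => ?_
    fin_cases i
    · exact ⟨1, one_smul _ _⟩
    · exact ⟨⟨ρ, hρ⟩, h0⟩
    · refine ⟨⟨ρ, hρ⟩ * ⟨ρ, hρ⟩, ?_⟩
      rw [mul_smul]
      change D.π ρ (D.π ρ 0) = 2
      rw [h0, h1]
  have h2 : H.subgroupOf D.G = MulAction.stabilizer D.G (0 : Fin 3) := by
    ext σ
    rw [Subgroup.mem_subgroupOf, hH, MulAction.mem_stabilizer_iff]
    exact and_iff_right σ.2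
  rw [Subgroup.relIndex, h2, MulAction.index_stabilizer_of_transitive, Nat.card_eq_fintype_card,
    Fintype.card_fin]

theorem slot_line {σ : Gq} {f : J → J} {π : Equiv.Perm (Fin 3)} (hf : Sim σ f) (hp : Prm π f)
    {p : Fin 3 → O} {z : Fin 3 → Om} (h : f (jm 0 p) = sc z (jm 0 p)) (i : Fin 3) :
    f (ins i (p i)) = ins (π i) (z (π i) • p (π i)) := by
  obtain ⟨c, -, hc⟩ := Prcx.exists_c hf.toSemi hp
  obtain ⟨t, -, ht⟩ := hp.slot hf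
  have h1 := (Prcx.coord hf.toSemi hc ht (jm 0 p) i).2
  rw [h, Prcx.sl_sc, sl_jm] at h1
  rw [ht, h1]

theorem triv_move {D : FD} (h : D.OK) {ρ : Gq} (hρ : ρ ∈ D.G) {i : Fin 3} (ht : D.Triv i) :
    D.Triv (D.π ρ i) := by
  obtain ⟨y, hy, h1⟩ := ht
  obtain ⟨t, h2, h3⟩ := (h.prm ρ hρ).slot (h.sim ρ hρ)
  refine ⟨t i y, (h2 i).ne hy, fun σ hσ h4 => ?_⟩
  have hn : ρ⁻¹ * (σ * ρ) ∈ D.G := mul_mem (inv_mem hρ) (mul_mem hσ hρ)
  obtain ⟨s, h5⟩ := h1 _ hn (by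
    rw [h.pmul _ (inv_mem hρ) _ (mul_mem hσ hρ), h.pmul _ hσ _ hρ, Equiv.Perm.mul_apply,
      Equiv.Perm.mul_apply, h4, ← Equiv.Perm.mul_apply, ← h.pmul _ (inv_mem hρ) _ hρ,
      inv_mul_cancel, h.one.1, Equiv.Perm.one_apply])
  obtain ⟨z, hz, h6⟩ := h.coc _ hσ _ hρ
  obtain ⟨w, hw, h7⟩ := h.coc _ hρ _ hn
  have h8 := h7 (ins i y)
  rw [mul_inv_cancel_left, h5, (h.sim _ hρ).smul, h3] at h8
  have h9 := congrArg (sc w⁻¹) h8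
  rw [(Prcx.sc_inv hw _).2] at h9
  refine ⟨ρ s * (w⁻¹ (D.π ρ i) * z (D.π ρ i)), ?_⟩
  rw [← h3, h6, ← h9, h3, (sc_lin _).map_smul, (sc_lin _).map_smul, sc_ins, (sc_lin _).map_smul,
    sc_ins, smul_smul, smul_smul, mul_assoc]

theorem perm_sq : ∀ π : Equiv.Perm (Fin 3), π * π = 1 →
    π = 1 ∨ (Equiv.Perm.sign π ≠ 1 ∧ ∃ i, π⁻¹ (i + 2) = i + 1) := by decide

/-- A datum of Hurwitz type which fixes a point of the hexagon is not definite. -/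
theorem exists_iso {π : Equiv.Perm (Fin 3)} (hπ : π * π = 1) {γ : Gq} {a : O → O}
    {p : Fin 3 → O} (hp : adj (jm 0 p) = 0) {z w : Fin 3 → Om} (hz : ∀ i, z i ≠ 0)
    (h : sc z (hur π γ a (jm 0 p)) = sc w (jm 0 p)) : ∃ j, bil (p j) (a (p j)) = 0 := by
  have h1 : ∀ j, sgs π (a (p (π⁻¹ j))) = ((z j)⁻¹ * w j) • p j := fun j => by
    have h2 := congrArg (fun x => sl x j) h
    simp only [Prcx.sl_sc, Prcx.sl_hur, sl_jm] at h2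
    rw [mul_smul, ← h2, inv_smul_smul₀ (hz j)]
  rcases perm_sq π hπ with rfl | ⟨h2, i, h3⟩
  · have h2 := h1 0
    have h3 := dg_adj (jm 0 p) 0
    rw [hp, Prcx.dg_zero, dg_jm, sl_jm, Pi.zero_apply, zero_mul, zero_sub, eq_comm,
      neg_eq_zero] at h3
    rw [Prcx.sgs_one, inv_one, Equiv.Perm.one_apply] at h2
    exact ⟨0, by rw [h2, bil_smul_right, bil_self, h3, mul_zero, mul_zero]⟩
  · have h4 := h1 (i + 2)
    have h5 := sl_adj (jm 0 p) i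
    rw [hp, Prcx.sl_zero, dg_jm, sl_jm, Pi.zero_apply, zero_smul, sub_zero, eq_comm,
      star_eq_zero] at h5
    rw [h3, sgs, if_neg h2, star_eq_iff_star_eq] at h4
    refine ⟨i + 1, ?_⟩
    rw [← h4, star_smul_oct, bil_smul_right, ← one_mul (star (p (i + 2))), ← bil_mul_left', h5,
      bil_zero_left, mul_zero]

end D4ax

/-- A trialitarian datum is standard over a quadratic extension. -/
theorem d4a {D : FD} (h : D.OK) (ht : D.Tri) : ∃ (d : Om) (ψ : J ≃ₗ[Om] J), Sim 1 ψ ∧ Prm 1 ψ ∧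
    D.Qd d ∧ (∀ ι γ, Cj ι γ → γ ∈ D.G → (ι (d ^ 2)).re < 0 → ¬ D.QS γ) ∧ (D.conj ψ).Std d := by
  obtain ⟨H, hH, h0⟩ := h.stab 0
  obtain ⟨N, hN, h1⟩ := h.ker
  obtain ⟨t, pa, t1, t2⟩ := h.slot 0 hH fun σ hσ => (h0 σ).1 hσ
  have := fd_O
  obtain ⟨d, d0, d2, ⟨s, s1, s2, s3⟩, hs, x, x0, hx⟩ := br2 (fun σ hσ => ((h0 σ).1 hσ).1)
    (D4ax.index h ht h0) pa D4ax.pol_norm (fun t x => Oct.norm_smul t x)
    ⟨1, by rw [Oct.norm_one]; exact one_ne_zero⟩ t2 hN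
    {ι | ∃ γ, Cj ι γ ∧ γ ∈ D.G ∧ ¬ D.QS γ} (by
      rintro ι ⟨γ, k1, k2, k3⟩ τ hτ
      have k4 := mul_mem (mul_mem (inv_mem hτ) k2) hτ
      refine ⟨_, k1.comp τ, k4, fun k5 => k3 ?_⟩
      have k6 := h.qs_tau k4 (inv_mem hτ) k5
      rwa [inv_inv, mul_assoc, mul_inv_cancel_right, mul_inv_cancel_left] at k6) (by
      intro ι γ k1 k2 k3
      obtain ⟨k4, k5⟩ := (h0 γ).1 k2
      obtain ⟨p, hp, -, z, -, k6⟩ : D.QS γ := by
        by_contra k6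
        exact k3 ⟨γ, k1, k4, k6⟩
      have k7 := D4ax.slot_line (h.sim γ k4) (h.prm γ k4) k6 0
      rw [t1 γ k2, k5] at k7
      exact ⟨p 0, hp 0, _, Prcx.ins_inj k7⟩)
  have hD := h.res (opn_stab d)
  have s4 := ((h1 s).1 s2).2
  have T0 : (D.res (MulAction.stabilizer Gq d)).Triv 0 := ⟨x, x0, fun σ hσ k1 => by
    have k2 := (h0 σ).2 ⟨hσ.1, k1⟩
    obtain ⟨c, k3⟩ := hx σ k2 hσ.2
    exact ⟨c, (t1 σ k2 x).trans (by rw [k3, (ins_lin 0).map_smul])⟩⟩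
  obtain ⟨ρ, hρ, r0, r1⟩ : (D.res (MulAction.stabilizer Gq d)).Tri := by
    obtain ⟨σ, hσ, k⟩ := ht
    rcases eq_or_neg (d2 σ hσ) with k1 | k1
    · exact ⟨σ, ⟨hσ, k1⟩, k⟩
    · refine ⟨σ * s, ⟨mul_mem hσ s1, ?_⟩, ?_⟩
      · change σ (s d) = d
        rw [s3, map_neg, k1, neg_neg]
      · change D.π (σ * s) 0 = 1 ∧ D.π (σ * s) 1 = 2
        rwa [h.pmul σ hσ s s1, s4, mul_one]
  have T1 := r0 ▸ D4ax.triv_move hD hρ T0
  have T2 := r1 ▸ D4ax.triv_move hD hρ T1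
  obtain ⟨ψ, α, p1, p2, ha, hα⟩ := hur_main hD fun i => by
    fin_cases i
    exacts [T0, T1, T2]
  obtain ⟨φ, a1, a2⟩ : ∃ φ : O ≃ₗ[Om] O, Aut8 φ ∧ ∀ σ ∈ D.G ⊓ MulAction.stabilizer Gq d,
      ∀ y, α σ (φ y) = φ (oa σ y) := by
    by_contra hc
    obtain ⟨ι, γ, k1, k2, k3⟩ := tri_def ha fun y y1 y2 => by
      by_contra y3
      exact hc (tri_split ha y3 y1 y2)
    obtain ⟨p, hp, q1, w, -, q2⟩ : (D.conj ψ).QS γ := by
      rw [D.qs_conj p1 p2]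
      by_contra k4
      have k5 := (hs ι γ k1 k2.1).1 ⟨γ, k1, k2.1, k4⟩
      have k6 := k1.real.1 (k2.2 : γ d = d)
      rw [map_pow, sq, Complex.mul_re, k6, mul_zero, sub_zero] at k5
      exact (mul_self_nonneg _).not_gt k5
    obtain ⟨z, hz, q3⟩ := hα γ k2
    obtain ⟨j, q4⟩ := D4ax.exists_iso (π := D.π γ)
      (by rw [← h.pmul γ k2.1 γ k2.1, k1.sq, h.one.1]) q1 hz ((q3 _).symm.trans q2)
    have q5 := def_pos k1 (ha.semi γ k2) (ha.hom γ k2)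
      (fun y => by rw [ha.mul γ k2 γ k2, k1.sq, ha.toTA.one]) k3 (hp j)
    rw [q4, map_zero, Complex.zero_re] at q5
    exact lt_irrefl _ q5
  obtain ⟨θ, b1, b2, b3, -⟩ := a1.al
  refine ⟨d, θ.trans ψ, b1.trans p1, ?_, ⟨d0, d2, s, s1, s4, s3⟩, fun ι γ k1 k2 k3 => ?_,
    fun σ hσ k1 => ?_⟩
  · have k := Prm.comp p1.toSemi p2 b2
    rwa [mul_one] at k
  · obtain ⟨γ', k4, -, k5⟩ := (hs ι γ k1 k2).2 k3
    rwa [k1.unique k4]
  · obtain ⟨z, hz, k2⟩ := hα σ ⟨hσ, k1⟩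
    refine ⟨z, hz, fun y => ?_⟩
    change θ.symm (ψ.symm (D.f σ (ψ (θ y)))) = sc z (hur (D.π σ) σ (oa σ) y)
    have k3 : ψ.symm (D.f σ (ψ (θ y))) = sc z (hur (D.π σ) σ (α σ) (θ y)) := k2 _
    rw [θ.symm_apply_eq, b2.sc b1 hz, k3, b3, b3, ← hur_one, ← hur_one,
      hur_hur (hom_props (ha.semi σ ⟨hσ, k1⟩) (ha.hom σ ⟨hσ, k1⟩)).2.1,
      hur_hur (hom_props (semi_lin φ) a1).2.1, mul_one, mul_one, one_mul, one_mul,
      funext (a2 σ ⟨hσ, k1⟩)]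
    rfl

end Vale.Agent.P011Z.Cl

end
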