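import Vale.Agent.P011Z.Cl.Hur0
import Vale.Agent.P011Z.Cl.Dat

/-!
Classification of the forms: block D4b.
-/

open Matrix Module

noncomputable section

namespace Vale.Agent.P011Z.Cl

open Vale.Agent.P011.D4 Vale.Agent.P011.D4.Oct Vale.Agent.P011.E6 Vale.Agent.P011.E6.Alb

open Prcx

namespace D4bx

/-- A rational nilpotent element. -/
def nn : O := zorn 0 0 (Pi.single 0 1) 0

/-- The second intersection of a line through `nn` with the quadric. -/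
def st (u : O) : O := bil u nn • u - norm u • nn

/-- A family of isotropic octonions of trace zero. -/
def ff (u : O) : O := st (u - star u)

theorem norm_nn : norm nn = 0 := by
  simp [norm_z, nn, ZDx.zp_zorn, ZDx.zb_zorn]

theorem nn_one : bil nn 1 = 0 := by
  rw [z_one, bil_z]
  simp [nn, ZDx.zp_zorn, ZDx.zm_zorn, ZDx.za_zorn, ZDx.zb_zorn]

theorem oa_nn (σ : Gq) : oa σ nn = nn := by
  obtain ⟨h1, h2, h3, h4⟩ := z_oa σ nn
  refine z_ext (by rw [h1, nn, ZDx.zp_zorn, map_zero]) (by rw [h2, nn, ZDx.zm_zorn, map_zero])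
    ?_ ?_
  · rw [h3, nn, ZDx.za_zorn]
    funext i
    fin_cases i <;> simp
  · rw [h4, nn, ZDx.zb_zorn]
    funext i
    simp

theorem norm_st (u : O) : norm (st u) = 0 := by
  rw [st, norm_sub, Oct.norm_smul, Oct.norm_smul, norm_nn, bil_smul_left, bil_smul_right]
  ring

theorem pure_sub (u : O) : bil (u - star u) 1 = 0 := by
  rw [bil_sub_left, bil_star_left, star_one, sub_self]

theorem ff_one (u : O) : bil (ff u) 1 = 0 := by
  rw [ff, st, bil_sub_left, bil_smul_left, bil_smul_left, pure_sub, nn_one]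
  ring

theorem ff_oa (σ : Gq) (u : O) : oa σ (ff u) = ff (oa σ u) := by
  obtain ⟨-, h1, h2, h3⟩ := hom_props (oa_semi σ) (oa_mul σ)
  have h := oa_semi σ
  rw [ff, ff, st, st, h.sub, h.smul, h.smul, ← h3, ← h2, oa_nn, h.sub, h1]

theorem ff_pure {u : O} (hu : bil u 1 = 0) : ff ((2 : Om)⁻¹ • u) = st u := by
  rw [ff, star_smul_oct, star_neg_of_pure hu]
  congr 1
  module

theorem pol_ff : PolM ff := by
  have := fd_O
  obtain ⟨B, hB⟩ := exists_bilL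
  have h0 : IsLinearMap Om fun u : O => u - star u :=
    ⟨fun x y => by rw [star_add]; abel, fun t x => by rw [star_smul_oct, smul_sub]⟩
  have h1 : PolM fun u : O => u - star u := PolM.lin (h0.mk' _)
  have h2 : Pol fun u : O => bil (u - star u) nn :=
    (polM_iff.1 (PolM.bil B h1 (PolM.const nn))).congr fun _ => (hB _ _).symm
  have h3 : Pol fun u : O => norm (u - star u) :=
    ((Pol.const 2⁻¹).mul (polM_iff.1 (PolM.bil B h1 h1))).congr fun u => by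
      rw [hB, bil_self, ← mul_assoc, inv_mul_cancel₀ two_ne_zero, one_mul]
  exact (PolM.smul h2 h1).sub (PolM.smul h3 (PolM.const nn))

theorem exists_ff {y : O} (hy : y ≠ 0) (hn : norm y = 0) : ∃ u, bil (ff u) y ≠ 0 := by
  by_contra h
  simp only [not_exists, not_not] at h
  have h1 : ∀ u, bil u 1 = 0 → bil u nn * bil u y = norm u * bil nn y := fun u hu => by
    have h2 := h ((2 : Om)⁻¹ • u)
    rwa [ff_pure hu, st, bil_sub_left, bil_smul_left, bil_smul_left, sub_eq_zero] at h2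
  have h2 : bil nn y = 0 := by
    have h3 := h1 (zorn 1 (-1) 0 0) (by
      rw [z_one, bil_z]
      simp [ZDx.zp_zorn, ZDx.zm_zorn, ZDx.za_zorn, ZDx.zb_zorn])
    rw [bil_z _ nn, norm_z] at h3
    simpa [nn, ZDx.zp_zorn, ZDx.zm_zorn, ZDx.za_zorn, ZDx.zb_zorn] using h3
  obtain ⟨m, m1, m2⟩ : ∃ m : O, bil m 1 = 0 ∧ bil m nn ≠ 0 := by
    refine ⟨zorn 0 0 0 (Pi.single 0 1), ?_, ?_⟩
    · rw [z_one, bil_z]
      simp [ZDx.zp_zorn, ZDx.zm_zorn, ZDx.za_zorn, ZDx.zb_zorn]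
    · rw [bil_z]
      simp [nn, ZDx.zp_zorn, ZDx.zm_zorn, ZDx.za_zorn, ZDx.zb_zorn]
  have h3 : ∀ u, bil u 1 = 0 → bil u nn ≠ 0 → bil u y = 0 := fun u hu h4 => by
    have h5 := h1 u hu
    rw [h2, mul_zero] at h5
    exact (mul_eq_zero.1 h5).resolve_left h4
  have h4 : ∀ u, bil u 1 = 0 → bil u y = 0 := fun u hu => by
    by_cases h5 : bil u nn = 0
    · have h6 := h3 (u + m) (by rw [bil_add_left, hu, m1, add_zero])
        (by rwa [bil_add_left, h5, zero_add])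
      rwa [bil_add_left, h3 m m1 m2, add_zero] at h6
    · exact h3 u hu h5
  have h5 : star y = y := eq_of_bil fun v => by
    have h6 := h4 _ (pure_sub v)
    rw [bil_sub_left, bil_star_left, sub_eq_zero] at h6
    rw [bil_comm, ← h6, bil_comm]
  have h6 := add_star_self y
  have h7 := congrArg Oct.norm h6
  rw [h5, norm_add, bil_self, hn, Oct.norm_smul, Oct.norm_one] at h7
  have h8 : bil y 1 = 0 := pow_eq_zero_iff two_ne_zero |>.1 (by linear_combination -h7)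
  rw [h5, h8, zero_smul, ← two_smul Om] at h6
  exact hy ((smul_eq_zero.1 h6).resolve_left two_ne_zero)

/-- A rational point in general position. -/
theorem exists_p {G : Subgroup Gq} (hG : Opn G) {s : Gq} (hs : s ∉ G) {t : Fin 3 → O → O}
    (ht : ∀ i, Semi s (t i)) (hn : ∀ i (y : O), norm y = 0 → norm (t i y) = 0) :
    ∃ p : O, Fv G oa p ∧ norm p = 0 ∧ bil p 1 = 0 ∧ ∀ i, bil p (t i p) ≠ 0 := by
  have := fd_O
  obtain ⟨B, hB⟩ := exists_bilL
  choose F a1 a2 using fun i => pol_ff.semi (oa_semi s) (ht i)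
  have hp : ∀ i, Pol fun y : O × O => bil (ff y.1) (F i y.2) := fun i =>
    (polM_iff.1 (PolM.bil B (pol_ff.comp (PolM.lin (LinearMap.fst Om O O)))
      ((a1 i).comp (PolM.lin (LinearMap.snd Om O O))))).congr fun _ => (hB _ _).symm
  obtain ⟨u₀, hu₀⟩ := exists_ff (y := ep) (fun h => by
    have h1 := congrArg zp h
    rw [ep, ZDx.zp_zorn, ZDx.zp_zero] at h1
    exact one_ne_zero h1) (by simp [norm_z, ep, ZDx.zm_zorn, ZDx.zb_zorn])
  have h0 : ff u₀ ≠ 0 := fun h => hu₀ (by rw [h, bil_zero_left])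
  obtain ⟨y, hy⟩ := Pol.prod_ne Finset.univ (fun i _ => hp i) fun i _ => by
    obtain ⟨u, hu⟩ := exists_ff ((ht i).ne h0) (hn i _ (norm_st _))
    exact ⟨(u, oa s u₀), by rwa [a2]⟩
  obtain ⟨u, h1, h2⟩ := den2' (ha_oa hG).toTA hs (oa_semi s) (Pol.prod Finset.univ fun i _ => hp i)
    ⟨y, Finset.prod_ne_zero_iff.2 hy⟩
  refine ⟨ff u, fun σ hσ => by rw [ff_oa, h1 σ hσ], norm_st _, ff_one u, fun i => ?_⟩
  have h3 := Finset.prod_ne_zero_iff.1 h2 i (Finset.mem_univ i)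
  rwa [a2] at h3

theorem n1 : ∀ i : Fin 3, i + 1 + 1 = i + 2 := by decide

theorem n2 : ∀ i : Fin 3, i + 1 + 2 = i := by decide

theorem n3 : ∀ i : Fin 3, i + 2 + 1 = i := by decide

theorem n4 : ∀ i : Fin 3, i + 2 + 2 = i + 1 := by decide

theorem par : ∀ (π : Equiv.Perm (Fin 3)) (i : Fin 3),
    (Equiv.Perm.sign π = 1 → π (i + 1) = π i + 1 ∧ π (i + 2) = π i + 2) ∧
      (Equiv.Perm.sign π ≠ 1 → π (i + 1) = π i + 2 ∧ π (i + 2) = π i + 1) := by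
  decide

theorem cross_ins (i : Fin 3) (a b : O) :
    cross (ins (i + 1) a) (ins (i + 2) b) = ins i (star (a * b)) := by
  refine j_ext (fun k => ?_) fun k => ?_
  · simp only [dg_cross, dg_ins, sl_ins]
    fin_cases i <;> fin_cases k <;> simp
  · simp only [sl_cross, dg_ins, sl_ins]
    fin_cases i <;> fin_cases k <;> simp

/-- The common idempotent. -/
theorem idem {ψ : J ≃ₗ[Om] J} (s1 : Sim 1 ψ) (p1 : Prm 1 ψ) {v v' : Fin 3 → O}
    (hψ : ∀ i, sl (ψ ones) i = v i + v' i) (hn : ∀ i, norm (v i) = 0) (hn' : ∀ i, norm (v' i) = 0)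
    (z1 : ∀ i, v (i + 1) * v' (i + 2) = 0) (z2 : ∀ i, v' (i + 1) * v (i + 2) = 0) :
    ∃ w : O, norm w = 0 ∧ bil w 1 = 1 ∧
      ∀ i, ψ (ins i w) = ins i (v i) ∧ ψ (ins i (star w)) = ins i (v' i) := by
  have s2 := s1.symm
  have p2 : Prm 1 ψ.symm := by
    have h1 := p1.symm
    rwa [inv_one] at h1
  obtain ⟨c, hc0, hc⟩ := exists_c s2.toSemi p2
  obtain ⟨t, ht'⟩ := exists_t s2 hc0 hc
  obtain ⟨l, hl0, hl⟩ := s2.mult
  have ts := slot_semi s2.toSemi hc ht'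
  obtain ⟨-, tn, tm⟩ := Prm.triple s2.toSemi hl0 hl hc ht'
  have t1 : ∀ i, t i (v' i) = 1 - t i (v i) := fun i => by
    have h1 := (coord s2.toSemi hc ht' (ψ ones) i).2
    rw [hψ, ψ.symm_apply_apply, ones, sl_jm, (ts i).add, Pi.one_apply] at h1
    rw [h1, add_sub_cancel_left]
  have wn : ∀ i, norm (t i (v i)) = 0 := fun i => by rw [tn, hn, map_zero, mul_zero]
  have wb : bil (t 0 (v 0)) 1 = 1 := by
    have h1 := tn 0 (v' 0)
    rw [t1, hn', map_zero, mul_zero, Oct.norm_sub, wn, Oct.norm_one, bil_comm] at h1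
    linear_combination -h1
  have w1 : ∀ i, t (i + 1) (v (i + 1)) = t (i + 2) (v (i + 2)) := fun i => by
    have h1 := tm i (v (i + 1)) (v' (i + 2))
    have h2 := tm i (v' (i + 1)) (v (i + 2))
    rw [z1, star_zero, (ts i).zero, smul_zero, star_eq_zero, t1, mul_sub, mul_one,
      sub_eq_zero] at h1
    rw [z2, star_zero, (ts i).zero, smul_zero, star_eq_zero, t1, sub_mul, one_mul,
      sub_eq_zero] at h2
    exact h1.trans h2.symm
  have w2 : ∀ i, t i (v i) = t 0 (v 0) := fun i => by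
    fin_cases i
    · rfl
    · exact (w1 2).symm
    · exact w1 1
  refine ⟨t 0 (v 0), wn 0, wb, fun i => ⟨?_, ?_⟩⟩
  · rw [← ψ.eq_symm_apply, ht', w2 i]
    rfl
  · rw [← ψ.eq_symm_apply, ht', t1, w2 i, star_eq, wb, one_smul]
    rfl

theorem of_sc {z : Fin 3 → Om} (hz : ∀ i, z i ≠ 0) {x : J} {c : Om} (hc : c ≠ 0) {k : Fin 3}
    {y : O} (h : sc z x = c • ins k y) : ∃ c' : Om, c' ≠ 0 ∧ x = c' • ins k y :=
  ⟨c * (z k)⁻¹, mul_ne_zero hc (inv_ne_zero (hz k)), by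
    rw [← (sc_inv hz x).2, h, (sc_lin _).map_smul, sc_ins, smul_smul, Pi.inv_apply]⟩

variable {D : FD} {σ τ : Gq} {i j k : Fin 3} {x y z : O}

/-- The map of `σ` sends the line of `x` in the slot `i` to the line of `y` in the slot `j`. -/
def Mp (D : FD) (σ : Gq) (i : Fin 3) (x : O) (j : Fin 3) (y : O) : Prop :=
  ∃ c : Om, c ≠ 0 ∧ D.f σ (ins i x) = c • ins j y

theorem Mp.mul (h : D.OK) (hσ : σ ∈ D.G) (hτ : τ ∈ D.G) (h1 : Mp D σ j y k z)
    (h2 : Mp D τ i x j y) : Mp D (σ * τ) i x k z := by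
  obtain ⟨c, hc, h1⟩ := h1
  obtain ⟨c', hc', h2⟩ := h2
  obtain ⟨w, hw, h3⟩ := h.coc σ hσ τ hτ
  refine of_sc hw (mul_ne_zero ((map_ne_zero σ).2 hc') hc) ?_
  rw [← h3, h2, (h.sim σ hσ).smul, h1, smul_smul]

theorem Mp.inv (h : D.OK) (hσ : σ ∈ D.G) (h1 : Mp D σ i x j y) : Mp D σ⁻¹ j y i x := by
  obtain ⟨c, hc, h1⟩ := h1
  obtain ⟨w, hw, h3⟩ := h.coc σ⁻¹ (inv_mem hσ) σ hσ
  obtain ⟨-, u, hu, h4⟩ := h.one
  have h5 := h3 (ins i x)
  have h6 : σ⁻¹ c ≠ 0 := (map_ne_zero _).2 hc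
  rw [h1, (h.sim _ (inv_mem hσ)).smul, inv_mul_cancel, h4, sc_ins, (sc_lin _).map_smul, sc_ins,
    smul_smul, ← eq_inv_smul_iff₀ h6, smul_smul] at h5
  exact ⟨_, mul_ne_zero (inv_ne_zero h6) (mul_ne_zero (hu i) (hw i)), h5⟩

theorem Mp.cross (h : D.OK) (hσ : σ ∈ D.G) {a b a' b' : O} (h1 : Mp D σ (i + 1) a (i + 1) a')
    (h2 : Mp D σ (i + 2) b (i + 2) b') : Mp D σ i (star (a * b)) i (star (a' * b')) := by
  obtain ⟨c, hc, h1⟩ := h1
  obtain ⟨c', hc', h2⟩ := h2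
  obtain ⟨l, hl0, hl⟩ := (h.sim σ hσ).mult
  obtain ⟨w, hw, h3⟩ := (h.prm σ hσ).dag (h.sim σ hσ)
  have h4 := cross_sim (h.sim σ hσ).toSemi hl (ins (i + 1) a) (ins (i + 2) b)
  rw [h1, h2, cross_smul_left, cross_smul_right, cross_ins, cross_ins, h3, smul_smul,
    ← inv_smul_eq_iff₀ hl0, smul_smul] at h4
  exact of_sc hw (mul_ne_zero (inv_ne_zero hl0) (mul_ne_zero hc hc')) h4.symm

theorem ta_hur (h : D.OK) {G : Subgroup Gq} (hG : Opn G) (hle : G ≤ D.G) :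
    TA G fun σ => hur (D.π σ) σ (oa σ) := by
  refine ⟨hG, fun σ _ => (hur_props (oa_semi σ) (oa_mul σ)).1.toSemi, fun σ hσ τ hτ x => ?_,
    fun x => ?_⟩
  · rw [hur_hur (hom_props (oa_semi σ) (oa_mul σ)).2.1, h.pmul σ (hle hσ) τ (hle hτ)]
    rfl
  · obtain ⟨N, hN, h1⟩ := h.ker
    obtain ⟨H, hH, h2⟩ := (ta_aj hG).smo x
    refine ⟨H ⊓ N, hH.inf hN, fun σ h3 h4 => ?_⟩
    rw [((h1 σ).1 h3.2).2, hur_one]
    exact h2 σ h3.1 h4

/-- The two families of isotropic vectors. -/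
theorem exists_pq (h : D.OK) {d : Om} (hd : D.Qd d) (hs : D.Std d) : ∃ (p : O) (q : Fin 3 → O),
    p * p = 0 ∧ star p = -p ∧ adj (jm 0 q) = 0 ∧ (∀ i, bil p (q i) = 1) ∧
      (∀ σ ∈ D.G, σ d = d → oa σ p = p ∧ ∀ i, sgs (D.π σ) (oa σ (q i)) =
        if Equiv.Perm.sign (D.π σ) = 1 then q (D.π σ i) else -q (D.π σ i)) ∧
      ∀ σ ∈ D.G, σ d = -d → D.π σ = 1 → ∀ i, Mp D σ i p i (q i) ∧ Mp D σ i (q i) i p := by
  obtain ⟨s, hsG, hs1, hsd⟩ := hd.ex
  have hi := inv_mem hsG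
  have hid : s⁻¹ d = -d := by
    rw [← neg_eq_iff_eq_neg, ← map_neg, ← hsd]
    exact s.symm_apply_apply d
  have hi1 : D.π s⁻¹ = 1 := by
    have h1 := h.pmul _ hi _ hsG
    rwa [inv_mul_cancel, h.one.1, hs1, mul_one, eq_comm] at h1
  have hf := h.sim s hsG
  have hp : Prm 1 (D.f s) := hs1 ▸ h.prm s hsG
  obtain ⟨c, hc0, hc⟩ := exists_c hf.toSemi hp
  obtain ⟨t, ht⟩ := exists_t hf hc0 hc
  obtain ⟨l, hl0, hl⟩ := hf.mult
  have ts := slot_semi hf.toSemi hc ht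
  obtain ⟨p, p1, p2, p3, p4⟩ := exists_p (G := D.G ⊓ MulAction.stabilizer Gq d)
    (h.opn.inf (opn_stab d)) (s := s) (fun h1 => hd.d0 (by
      have h2 : s d = d := h1.2
      linear_combination (hsd - h2) / 2)) ts fun i y hy => by
      rw [norm_slot hf.toSemi hl0 hl hc ht, hy, map_zero, mul_zero]
  have pp : p * p = 0 := by rw [mul_self_of_pure p3, p2, neg_zero, zero_smul]
  have ps := star_neg_of_pure p3
  obtain ⟨q, hq⟩ : ∃ q : Fin 3 → O, ∀ i, q i = (bil p (t i p))⁻¹ • t i p := ⟨_, fun _ => rfl⟩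
  have pq : ∀ i, bil p (q i) = 1 := fun i => by rw [hq, bil_smul_right, inv_mul_cancel₀ (p4 i)]
  have hA : ∀ σ ∈ D.G, σ d = d → ∀ i, Mp D σ i p (D.π σ i) p := fun σ hσ h1 i => by
    obtain ⟨z, hz, h2⟩ := hs σ hσ h1
    have h3 : D.f σ (ins i p) = z (D.π σ i) • ins (D.π σ i) (sgs (D.π σ) p) := by
      rw [h2, (hur_props (oa_semi σ) (oa_mul σ)).2.2.2.2.2, p1 σ ⟨hσ, h1⟩, sc_ins]
    unfold sgs at h3
    split_ifs at h3
    · exact ⟨_, hz _, h3⟩
    · exact ⟨_, neg_ne_zero.2 (hz _), by rw [h3, ps, (ins_lin _).map_neg, smul_neg, neg_smul]⟩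
  have hB : ∀ i, Mp D s i p i (q i) := fun i => ⟨_, p4 i, by
    rw [ht, hq, (ins_lin _).map_smul, smul_smul, mul_inv_cancel₀ (p4 i), one_smul]
    rfl⟩
  have hC : ∀ i, Mp D s⁻¹ i (q i) i p := fun i => (hB i).inv h hsG
  refine ⟨p, q, pp, ps, ?_, pq, fun σ hσ h1 => ⟨p1 σ ⟨hσ, h1⟩, fun i => ?_⟩,
    fun σ hσ h1 h2 i => ⟨?_, ?_⟩⟩
  · have h1 : jm 0 q = sc (fun i => (bil p (t i p))⁻¹) (D.f s (jm 0 fun _ => p)) := by
      refine j_ext (fun i => ?_) fun i => ?_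
      · have h2 := (coord hf.toSemi hc ht (jm 0 fun _ => p) i).1
        rw [Equiv.Perm.one_apply] at h2
        rw [dg_sc, h2, dg_jm, dg_jm, Pi.zero_apply, map_zero, mul_zero, mul_zero]
      · have h2 := (coord hf.toSemi hc ht (jm 0 fun _ => p) i).2
        rw [Equiv.Perm.one_apply] at h2
        rw [sl_sc, h2, sl_jm, sl_jm, hq]
    rw [h1, (sc_sim fun i => inv_ne_zero (p4 i)).1.sing, hf.sing]
    refine j_ext (fun i => ?_) fun i => ?_
    · rw [dg_adj, dg_jm, sl_jm, p2, dg_zero, Pi.zero_apply, zero_mul, sub_zero]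
    · rw [sl_adj, dg_jm, sl_jm, pp, sl_zero, Pi.zero_apply, zero_smul, star_zero, sub_zero]
  · have hτ : s⁻¹ * σ * s ∈ D.G := mul_mem (mul_mem hi hσ) hsG
    have h2 : D.π (s⁻¹ * σ * s) = D.π σ := by
      rw [h.pmul _ (mul_mem hi hσ) _ hsG, h.pmul _ hi _ hσ, hi1, hs1, one_mul, mul_one]
    have h3 := hA _ hτ (by
      rw [AlgEquiv.mul_apply, AlgEquiv.mul_apply, hsd, map_neg, h1, map_neg, hid, neg_neg]) i
    rw [h2] at h3
    have h4 := ((hB _).mul h hsG hτ h3).mul h (mul_mem hsG hτ) hi (hC i)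
    have h5 : s * (s⁻¹ * σ * s) * s⁻¹ = σ := by group
    rw [h5] at h4
    obtain ⟨e, -, h4⟩ := h4
    obtain ⟨z, hz, h6⟩ := hs σ hσ h1
    rw [h6, (hur_props (oa_semi σ) (oa_mul σ)).2.2.2.2.2, sc_ins, ← eq_inv_smul_iff₀ (hz _),
      smul_smul, ← (ins_lin _).map_smul] at h4
    have h7 := ins_inj h4
    have h8 := bil_sgs (π := D.π σ) (oa σ p) (oa σ (q i))
    rw [h7, (hom_props (oa_semi σ) (oa_mul σ)).2.2.2, pq, map_one, p1 σ ⟨hσ, h1⟩,
      bil_smul_right] at h8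
    rw [h7]
    unfold sgs at h8
    split_ifs at h8 ⊢
    · rw [pq, mul_one] at h8
      rw [h8, one_smul]
    · rw [ps, bil_neg_left, pq, mul_neg, mul_one, neg_eq_iff_eq_neg] at h8
      rw [h8, neg_one_smul]
  · have h3 := hA _ (mul_mem hi hσ) (by rw [AlgEquiv.mul_apply, h1, map_neg, hid, neg_neg]) i
    rw [h.pmul _ hi _ hσ, hi1, h2, one_mul, Equiv.Perm.one_apply] at h3
    have h4 := (hB i).mul h hsG (mul_mem hi hσ) h3
    rwa [mul_inv_cancel_left] at h4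
  · have h3 := hA _ (mul_mem hσ hsG) (by rw [AlgEquiv.mul_apply, hsd, map_neg, h1, neg_neg]) i
    rw [h.pmul _ hσ _ hsG, hs1, h2, one_mul, Equiv.Perm.one_apply] at h3
    have h4 := h3.mul h (mul_mem hσ hsG) hi (hC i)
    rwa [mul_inv_cancel_right] at h4

end D4bx

open D4bx

theorem d4b {D : FD} (h : D.OK) {d : Om} (hd : D.Qd d) (hs : D.Std d) :
    ∃ ψ : J ≃ₗ[Om] J, Sim 1 ψ ∧ Prm 1 ψ ∧ (D.conj ψ).Std d ∧ (D.conj ψ).Swp d := by
  obtain ⟨p, q, pp, ps, hq, pq, h1, h2⟩ := exists_pq h hd hs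
  obtain ⟨v, hv⟩ : ∃ v : Fin 3 → O, ∀ i, v i = star (p * q (i + 2)) := ⟨_, fun _ => rfl⟩
  obtain ⟨v', hv'⟩ : ∃ v' : Fin 3 → O, ∀ i, v' i = star (q (i + 1) * p) := ⟨_, fun _ => rfl⟩
  have pn : norm p = 0 := by
    have h3 := Oct.norm_mul p p
    rw [pp, Oct.norm_zero] at h3
    exact mul_self_eq_zero.1 h3.symm
  have qq : ∀ i, q (i + 1) * q (i + 2) = 0 := fun i => by
    have h3 := sl_adj (jm 0 q) i
    rwa [hq, sl_zero, sl_jm, dg_jm, Pi.zero_apply, zero_smul, sub_zero, eq_comm,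
      star_eq_zero] at h3
  have hP : adj (jm 0 fun _ => p) = 0 := by
    refine j_ext (fun i => ?_) fun i => ?_
    · rw [dg_adj, dg_jm, sl_jm, pn, dg_zero, Pi.zero_apply, zero_mul, sub_zero]
    · rw [sl_adj, dg_jm, sl_jm, pp, sl_zero, Pi.zero_apply, zero_smul, star_zero, sub_zero]
  obtain ⟨x, hx⟩ : ∃ x, x = cross (jm 0 fun _ => p) (jm 0 q) := ⟨_, rfl⟩
  have xd : ∀ i, dg x i = -1 := fun i => by
    simp only [hx, dg_cross, dg_jm, sl_jm, Pi.zero_apply, pq, mul_zero, add_zero, zero_sub]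
  have xs : ∀ i, sl x i = v i + v' i := fun i => by
    simp only [hx, sl_cross, dg_jm, sl_jm, Pi.zero_apply, zero_smul, add_zero, sub_zero, hv, hv',
      star_add]
  have xa : adj x = 0 := by
    have h3 := adj_cross (jm 0 fun _ => p) (jm 0 q)
    rwa [hP, hq, cross_zero_left, tf_zero_left, tf_zero_right, zero_smul, zero_smul, add_zero,
      add_zero, ← hx] at h3
  have hvv : ∀ σ ∈ D.G, σ d = d → ∀ i,
      sgs (D.π σ) (oa σ (v i)) =
        (if Equiv.Perm.sign (D.π σ) = 1 then v (D.π σ i) else v' (D.π σ i)) ∧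
      sgs (D.π σ) (oa σ (v' i)) =
        if Equiv.Perm.sign (D.π σ) = 1 then v' (D.π σ i) else v (D.π σ i) := fun σ hσ h3 i => by
    obtain ⟨h4, h5⟩ := h1 σ hσ h3
    have h6 := (hom_props (oa_semi σ) (oa_mul σ)).2.1
    have h7 := h5 (i + 1)
    have h8 := h5 (i + 2)
    rw [hv, hv', hv, hv', h6, h6, oa_mul, oa_mul, h4]
    unfold sgs at h7 h8 ⊢
    split_ifs at h7 h8 ⊢ with h9
    · obtain ⟨k1, k2⟩ := (par (D.π σ) i).1 h9
      rw [h7, h8, k1, k2]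
      exact ⟨rfl, rfl⟩
    · obtain ⟨k1, k2⟩ := (par (D.π σ) i).2 h9
      rw [k1, ← neg_eq_iff_eq_neg, ← star_neg, star_eq_iff_star_eq] at h7
      rw [k2, ← neg_eq_iff_eq_neg, ← star_neg, star_eq_iff_star_eq] at h8
      rw [star_star, star_star, star_mul, star_mul, h7, h8, ps, neg_mul_neg, neg_mul_neg]
      exact ⟨rfl, rfl⟩
  obtain ⟨ψ₁, a1, a2, a3⟩ := ones_trans xa fun i => by rw [xd]; exact neg_ne_zero.2 one_ne_zero
  obtain ⟨w, w1, w2, w3⟩ := idem a1 a2 (v := v) (v' := v') (fun i => by rw [a3, xs])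
    (fun i => by rw [hv, Oct.norm_star, Oct.norm_mul, pn, zero_mul])
    (fun i => by rw [hv', Oct.norm_star, Oct.norm_mul, pn, mul_zero])
    (fun i => by rw [hv, hv', n2, n3, ← star_mul, moufang, pp, mul_zero, zero_mul, star_zero])
    (fun i => by rw [hv, hv', n1, n4, ← star_mul, moufang, qq, mul_zero, zero_mul, star_zero])
  have hG : Opn (D.G ⊓ MulAction.stabilizer Gq d) := h.opn.inf (opn_stab d)
  obtain ⟨α, b1, b2⟩ := hur0 (π := D.π) (ta_hur h hG inf_le_left)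
    (fun σ _ => (hur_props (oa_semi σ) (oa_mul σ)).1)
    (fun σ _ i => ⟨1, by rw [(hur_props (oa_semi σ) (oa_mul σ)).2.2.2.1, one_smul]⟩)
    (fun σ hσ τ hτ => h.pmul σ hσ.1 τ hτ.1) a1 a2 (fun σ hσ => by
      rw [a3]
      refine j_ext (fun j => ?_) fun j => ?_
      · rw [dg_hur, xd, xd, map_neg, map_one]
      · obtain ⟨k1, k2⟩ := hvv σ hσ.1 hσ.2 ((D.π σ)⁻¹ j)
        rw [sl_hur, xs, xs, (oa_semi σ).add, sgs_add, k1, k2, app_inv]
        split_ifs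
        · rfl
        · exact add_comm _ _)
  obtain ⟨φ, c1, c2, c3⟩ := tri_idem b1 (w := w) (fun σ hσ => by
    have h3 := b2 σ hσ (ins 0 w)
    rw [(w3 0).1, (hur_props (oa_semi σ) (oa_mul σ)).2.2.2.2.2, (hvv σ hσ.1 hσ.2 0).1,
      (hur_props (b1.semi σ hσ) (b1.hom σ hσ)).2.2.2.2.2] at h3
    unfold sgs at h3
    split_ifs at h3
    · rw [← (w3 _).1] at h3
      exact (ins_inj (ψ₁.injective h3)).symm
    · rw [← (w3 _).2] at h3
      exact (star_injective (ins_inj (ψ₁.injective h3))).symm) w1 w2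
  obtain ⟨χ, e1, e2, e3, -⟩ := c1.al
  have cs := (hom_props (semi_lin φ) c1).2.1
  have e4 : ∀ i y, χ (ins i y) = ins i (φ y) := fun i y => by
    rw [e3, ← hur_one, (hur_props (π := 1) (semi_lin φ) c1).2.2.2.2.2, sgs_one]
    rfl
  have s1 := e1.trans a1
  have s2 := Hur0x.prm_trans e2 a2
  have g1 : ∀ i, (χ.trans ψ₁) (ins i ep) = ins i (v i) := fun i => by
    rw [LinearEquiv.trans_apply, e4, c2, (w3 i).1]
  have g2 : ∀ i, (χ.trans ψ₁) (ins i em) = ins i (v' i) := fun i => by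
    have h3 : em = star ep := by
      obtain ⟨k1, k2, k3, k4⟩ := z_star ep
      refine z_ext ?_ ?_ ?_ ?_
      · rw [k1, em, ep, ZDx.zp_zorn, ZDx.zm_zorn]
      · rw [k2, em, ep, ZDx.zp_zorn, ZDx.zm_zorn]
      · rw [k3, em, ep, ZDx.za_zorn, ZDx.za_zorn, neg_zero]
      · rw [k4, em, ep, ZDx.zb_zorn, ZDx.zb_zorn, neg_zero]
    rw [LinearEquiv.trans_apply, e4, h3, cs, c2, (w3 i).2]
  refine ⟨χ.trans ψ₁, s1, s2, fun σ hσ h3 => ?_, fun s hsG h3 h4 i => ⟨?_, ?_⟩⟩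
  · obtain ⟨z, hz, h4⟩ := hs σ hσ h3
    refine ⟨z, hz, fun y => ?_⟩
    change (χ.trans ψ₁).symm (D.f σ ((χ.trans ψ₁) y)) = sc z (hur (D.π σ) σ (oa σ) y)
    have h5 : hur (D.π σ) σ (α σ) (χ y) = χ (hur (D.π σ) σ (oa σ) y) := by
      rw [e3, e3, ← hur_one, ← hur_one, hur_hur cs,
        hur_hur (hom_props (b1.semi σ ⟨hσ, h3⟩) (b1.hom σ ⟨hσ, h3⟩)).2.1, mul_one, mul_one,
        one_mul, one_mul, funext (c3 σ ⟨hσ, h3⟩)]
    rw [LinearEquiv.symm_apply_eq, h4, s2.sc s1 hz, LinearEquiv.trans_apply,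
      LinearEquiv.trans_apply, b2 σ ⟨hσ, h3⟩, h5]
    rfl
  · obtain ⟨c, -, h5⟩ := ((h2 s hsG h3 h4 (i + 1)).1).cross h hsG (h2 s hsG h3 h4 (i + 2)).2
    refine ⟨c, ?_⟩
    change (χ.trans ψ₁).symm (D.f s ((χ.trans ψ₁) _)) = _
    rw [LinearEquiv.symm_apply_eq, map_smul, g1, g2, hv, hv', h5]
  · obtain ⟨c, -, h5⟩ := ((h2 s hsG h3 h4 (i + 1)).2).cross h hsG (h2 s hsG h3 h4 (i + 2)).1
    refine ⟨c, ?_⟩
    change (χ.trans ψ₁).symm (D.f s ((χ.trans ψ₁) _)) = _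
    rw [LinearEquiv.symm_apply_eq, map_smul, g1, g2, hv, hv', h5]

end Vale.Agent.P011Z.Cl

end
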