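import Vale.Agent.P011Z.Cl.Prc

/-!
Classification of the forms: block ZD.
-/

open Matrix Module

noncomputable section

namespace Vale.Agent.P011Z.Cl

open Vale.Agent.P011.D4 Vale.Agent.P011.D4.Oct Vale.Agent.P011.E6 Vale.Agent.P011.E6.Alb

theorem zorn_eta (x : O) : zorn (zp x) (zm x) (za x) (zb x) = x := by
  apply ext8 <;> simp [zorn, zp, zm, za, zb] <;> ring

theorem z_zorn (p m : Om) (a b : Fin 3 → Om) : zp (zorn p m a b) = p ∧ zm (zorn p m a b) = m ∧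
    za (zorn p m a b) = a ∧ zb (zorn p m a b) = b := by
  refine ⟨?_, ?_, funext fun i => ?_, funext fun i => ?_⟩
  · simp only [zorn, zp]
    ring
  · simp only [zorn, zm]
    ring
  · fin_cases i <;> simp [zorn, za] <;> ring
  · fin_cases i <;> simp [zorn, zb] <;> ring

theorem z_ext {x y : O} (h1 : zp x = zp y) (h2 : zm x = zm y) (h3 : za x = za y)
    (h4 : zb x = zb y) : x = y := by
  rw [← zorn_eta x, ← zorn_eta y, h1, h2, h3, h4]

theorem z_lin : IsLinearMap Om zp ∧ IsLinearMap Om zm ∧ IsLinearMap Om za ∧ IsLinearMap Om zb := by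
  refine ⟨⟨fun x y => ?_, fun t x => ?_⟩, ⟨fun x y => ?_, fun t x => ?_⟩,
    ⟨fun x y => funext fun i => ?_, fun t x => funext fun i => ?_⟩,
    ⟨fun x y => funext fun i => ?_, fun t x => funext fun i => ?_⟩⟩
  · simp [zp]
    ring
  · simp [zp]
    ring
  · simp [zm]
    ring
  · simp [zm]
    ring
  · fin_cases i <;> simp [za] <;> ring
  · fin_cases i <;> simp [za] <;> ring
  · fin_cases i <;> simp [zb] <;> ring
  · fin_cases i <;> simp [zb] <;> ring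

theorem z_mul (x y : O) : zp (x * y) = zp x * zp y + za x ⬝ᵥ zb y ∧
    zm (x * y) = zm x * zm y + zb x ⬝ᵥ za y ∧
    za (x * y) = zp x • za y + zm y • za x - crossProduct (zb x) (zb y) ∧
    zb (x * y) = zp y • zb x + zm x • zb y + crossProduct (za x) (za y) := by
  refine ⟨?_, ?_, funext fun i => ?_, funext fun i => ?_⟩
  · simp [zp, za, zb, dotProduct, Fin.sum_univ_three]
    ring
  · simp [zm, za, zb, dotProduct, Fin.sum_univ_three]
    ring
  · fin_cases i <;> simp [zp, zm, za, zb, cross_apply] <;> ring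
  · fin_cases i <;> simp [zp, zm, za, zb, cross_apply] <;> ring

theorem z_star (x : O) : zp (star x) = zm x ∧ zm (star x) = zp x ∧ za (star x) = -za x ∧
    zb (star x) = -zb x := by
  refine ⟨?_, ?_, funext fun i => ?_, funext fun i => ?_⟩
  · simp [zp, zm, sub_eq_add_neg]
  · simp [zp, zm]
  · fin_cases i <;> simp [za] <;> ring
  · fin_cases i <;> simp [zb] <;> ring

theorem z_one : (1 : O) = zorn 1 1 0 0 := by
  apply ext8 <;> simp [zorn]

theorem norm_z (x : O) : norm x = zp x * zm x - za x ⬝ᵥ zb x := by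
  simp [Oct.norm, Vale.Agent.P011.MPQ.nrd, zp, zm, za, zb, dotProduct, Fin.sum_univ_three]
  ring

theorem bil_z (x y : O) :
    bil x y = zp x * zm y + zm x * zp y - za x ⬝ᵥ zb y - zb x ⬝ᵥ za y := by
  simp [bil_eq, zp, zm, za, zb, dotProduct, Fin.sum_univ_three]
  ring

theorem z_oa (σ : Gq) (x : O) : zp (oa σ x) = σ (zp x) ∧ zm (oa σ x) = σ (zm x) ∧
    za (oa σ x) = σ ∘ za x ∧ zb (oa σ x) = σ ∘ zb x := by
  refine ⟨?_, ?_, funext fun i => ?_, funext fun i => ?_⟩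
  · simp [zp, oa]
  · simp [zm, oa]
  · fin_cases i <;> simp [za, oa]
  · fin_cases i <;> simp [zb, oa]

namespace ZDx

theorem zp_zorn (p m : Om) (a b : Fin 3 → Om) : zp (zorn p m a b) = p := (z_zorn p m a b).1

theorem zm_zorn (p m : Om) (a b : Fin 3 → Om) : zm (zorn p m a b) = m := (z_zorn p m a b).2.1

theorem za_zorn (p m : Om) (a b : Fin 3 → Om) : za (zorn p m a b) = a := (z_zorn p m a b).2.2.1

theorem zb_zorn (p m : Om) (a b : Fin 3 → Om) : zb (zorn p m a b) = b := (z_zorn p m a b).2.2.2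

theorem zp_add (x y : O) : zp (x + y) = zp x + zp y := z_lin.1.map_add x y

theorem zm_add (x y : O) : zm (x + y) = zm x + zm y := z_lin.2.1.map_add x y

theorem za_add (x y : O) : za (x + y) = za x + za y := z_lin.2.2.1.map_add x y

theorem zb_add (x y : O) : zb (x + y) = zb x + zb y := z_lin.2.2.2.map_add x y

theorem zp_smul (t : Om) (x : O) : zp (t • x) = t * zp x := z_lin.1.map_smul t x

theorem zm_smul (t : Om) (x : O) : zm (t • x) = t * zm x := z_lin.2.1.map_smul t x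

theorem za_smul (t : Om) (x : O) : za (t • x) = t • za x := z_lin.2.2.1.map_smul t x

theorem zb_smul (t : Om) (x : O) : zb (t • x) = t • zb x := z_lin.2.2.2.map_smul t x

theorem zp_zero : zp 0 = 0 := z_lin.1.map_zero

theorem zm_zero : zm 0 = 0 := z_lin.2.1.map_zero

theorem za_zero : za 0 = 0 := z_lin.2.2.1.map_zero

theorem zb_zero : zb 0 = 0 := z_lin.2.2.2.map_zero

theorem dg_add (x y : J) (i : Fin 3) : dg (x + y) i = dg x i + dg y i :=
  congrFun (dg_lin.map_add x y) i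

theorem dg_smul (t : Om) (x : J) (i : Fin 3) : dg (t • x) i = t * dg x i :=
  congrFun (dg_lin.map_smul t x) i

theorem sl_add (x y : J) (i : Fin 3) : sl (x + y) i = sl x i + sl y i :=
  congrFun (sl_lin.map_add x y) i

theorem sl_smul (t : Om) (x : J) (i : Fin 3) : sl (t • x) i = t • sl x i :=
  congrFun (sl_lin.map_smul t x) i

/-- The norm in Zorn coordinates. -/
theorem cub_z (x : J) : cub x = dg x 0 * dg x 1 * dg x 2 -
    dg x 0 * (zp (sl x 0) * zm (sl x 0) - za (sl x 0) ⬝ᵥ zb (sl x 0)) -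
    dg x 1 * (zp (sl x 1) * zm (sl x 1) - za (sl x 1) ⬝ᵥ zb (sl x 1)) -
    dg x 2 * (zp (sl x 2) * zm (sl x 2) - za (sl x 2) ⬝ᵥ zb (sl x 2)) +
    (zp (sl x 0) * zp (sl x 1) * zp (sl x 2) + zm (sl x 0) * zm (sl x 1) * zm (sl x 2) +
      zp (sl x 0) * (za (sl x 1) ⬝ᵥ zb (sl x 2)) + zp (sl x 1) * (za (sl x 2) ⬝ᵥ zb (sl x 0)) +
      zp (sl x 2) * (za (sl x 0) ⬝ᵥ zb (sl x 1)) + zm (sl x 0) * (za (sl x 2) ⬝ᵥ zb (sl x 1)) +
      zm (sl x 1) * (za (sl x 0) ⬝ᵥ zb (sl x 2)) + zm (sl x 2) * (za (sl x 1) ⬝ᵥ zb (sl x 0)) +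
      crossProduct (za (sl x 0)) (za (sl x 1)) ⬝ᵥ za (sl x 2) -
      crossProduct (zb (sl x 0)) (zb (sl x 1)) ⬝ᵥ zb (sl x 2)) := by
  rw [cub_eq, Fin.sum_univ_three, norm_z, norm_z, norm_z, bil_z, z_one, zp_zorn, zm_zorn, za_zorn,
    zb_zorn, (z_mul _ _).1, (z_mul _ _).2.1, (z_mul _ _).1, (z_mul _ _).2.1, (z_mul _ _).2.2.1,
    (z_mul _ _).2.2.2]
  simp only [add_dotProduct, sub_dotProduct, smul_dotProduct, smul_eq_mul, dotProduct_zero,
    dotProduct_comm (zb (sl x 0)), dotProduct_comm (zb (sl x 1))]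
  ring

theorem dot_inv {R : Matrix (Fin 3) (Fin 3) Om} (h : R.det ≠ 0) (a b : Fin 3 → Om) :
    (R *ᵥ a) ⬝ᵥ (Rᵀ⁻¹ *ᵥ b) = a ⬝ᵥ b := by
  rw [dotProduct_mulVec, ← mulVec_transpose, mulVec_mulVec, transpose_nonsing_inv,
    transpose_transpose, nonsing_inv_mul _ h.isUnit, one_mulVec]

theorem cross_dot (R : Matrix (Fin 3) (Fin 3) Om) (a b c : Fin 3 → Om) :
    crossProduct (R *ᵥ a) (R *ᵥ b) ⬝ᵥ (R *ᵥ c) = R.det * (crossProduct a b ⬝ᵥ c) := by
  simp [cross_apply, mulVec, dotProduct, Fin.sum_univ_three, det_fin_three]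
  ring

theorem cross_tr (R : Matrix (Fin 3) (Fin 3) Om) (a b : Fin 3 → Om) :
    Rᵀ *ᵥ crossProduct (R *ᵥ a) (R *ᵥ b) = R.det • crossProduct a b := by
  funext i
  fin_cases i <;>
    simp [cross_apply, mulVec, dotProduct, Fin.sum_univ_three, det_fin_three] <;> ring

theorem cross_mulVec {R : Matrix (Fin 3) (Fin 3) Om} (h : R.det ≠ 0) (a b : Fin 3 → Om) :
    crossProduct (R *ᵥ a) (R *ᵥ b) = R.det • (Rᵀ⁻¹ *ᵥ crossProduct a b) := by
  rw [← mulVec_smul, ← cross_tr, mulVec_mulVec,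
    nonsing_inv_mul _ (by rw [det_transpose]; exact h.isUnit), one_mulVec]

theorem det_tinv (R : Matrix (Fin 3) (Fin 3) Om) : Rᵀ⁻¹.det = R.det⁻¹ := by
  rw [det_nonsing_inv, det_transpose, Ring.inverse_eq_inv']

theorem map_inv {n : Type} [Fintype n] [DecidableEq n] (σ : Gq) (R : Matrix n n Om) :
    R⁻¹.map σ = (R.map σ)⁻¹ := by
  have h1 : (R.map σ).det = σ R.det := ((σ : Om →+* Om).map_det R).symm
  have h2 : (R.map σ).adjugate = R.adjugate.map σ := ((σ : Om →+* Om).map_adjugate R).symm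
  rw [inv_def, inv_def, h1, h2, Ring.inverse_eq_inv', ← map_inv₀]
  ext i j
  simp

theorem comp_mulVec {n : Type} [Fintype n] (σ : Gq) (R : Matrix n n Om) (a : n → Om) :
    σ ∘ (R *ᵥ a) = R.map σ *ᵥ (σ ∘ a) :=
  funext fun i => (σ : Om →+* Om).map_mulVec R a i

theorem comp_smul {n : Type} (σ : Gq) (t : Om) (a : n → Om) : σ ∘ (t • a) = σ t • (σ ∘ a) :=
  funext fun i => map_mul σ t (a i)

theorem dg_gl3 (R : Matrix (Fin 3) (Fin 3) Om) (V : Fin 3 → Om) (x : J) (i : Fin 3) :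
    dg (gl3 R V x) i = V i * dg x i := by rw [gl3, dg_jm]

theorem sl_gl3 (R : Matrix (Fin 3) (Fin 3) Om) (V : Fin 3 → Om) (x : J) (i : Fin 3) :
    sl (gl3 R V x) i = zorn (V (i + 2) * zp (sl x i)) (V (i + 1) * zm (sl x i))
      (R *ᵥ za (sl x i)) ((V (i + 1) * V (i + 2)) • (Rᵀ⁻¹ *ᵥ zb (sl x i))) := by rw [gl3, sl_jm]

theorem gl3_one (x : J) : gl3 1 1 x = x := by
  refine j_ext (fun i => ?_) fun i => ?_
  · simp [dg_gl3]
  · simp [sl_gl3, zorn_eta]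

end ZDx

open ZDx

theorem gl3_lin (R : Matrix (Fin 3) (Fin 3) Om) (V : Fin 3 → Om) : IsLinearMap Om (gl3 R V) := by
  refine ⟨fun x y => j_ext (fun i => ?_) fun i => ?_, fun t x => j_ext (fun i => ?_) fun i => ?_⟩
  · simp only [dg_add, dg_gl3, mul_add]
  · apply z_ext <;> simp only [sl_add, sl_gl3, zp_add, zm_add, za_add, zb_add, zp_zorn, zm_zorn,
      za_zorn, zb_zorn, mul_add, mulVec_add, smul_add]
  · simp only [dg_smul, dg_gl3, mul_left_comm]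
  · apply z_ext <;> simp only [sl_smul, sl_gl3, zp_smul, zm_smul, za_smul, zb_smul, zp_zorn,
      zm_zorn, za_zorn, zb_zorn, mul_left_comm, mulVec_smul, smul_comm t]

theorem ZDx.gl3_gl3 (R S : Matrix (Fin 3) (Fin 3) Om) (V W : Fin 3 → Om) (x : J) :
    gl3 R V (gl3 S W x) = gl3 (R * S) (V * W) x := by
  refine j_ext (fun i => ?_) fun i => ?_
  · simp only [dg_gl3, Pi.mul_apply, mul_assoc]
  · simp only [sl_gl3, zp_zorn, zm_zorn, za_zorn, zb_zorn, Pi.mul_apply, mul_assoc, mulVec_mulVec,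
      mulVec_smul, smul_smul, transpose_mul, Matrix.mul_inv_rev]
    rw [mul_left_comm (V (i + 2)) (W (i + 1))]

theorem ZDx.gl3_ee (R : Matrix (Fin 3) (Fin 3) Om) (V : Fin 3 → Om) (i : Fin 3) :
    gl3 R V (ee i) = V i • ee i := by
  refine j_ext (fun j => ?_) fun j => ?_
  · rw [dg_gl3, dg_smul, ee, dg_jm, Pi.single_apply]
    split_ifs with h
    · rw [h]
    · rw [mul_zero, mul_zero]
  · apply z_ext <;> simp [sl_smul, sl_gl3, ee, sl_jm, zp_zorn, zm_zorn, za_zorn, zb_zorn,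
      zp_zero, zm_zero, za_zero, zb_zero]

theorem ZDx.cub_gl3 {R : Matrix (Fin 3) (Fin 3) Om} {V : Fin 3 → Om} (h0 : R.det ≠ 0)
    (h : R.det = V 0 * V 1 * V 2) (x : J) : cub (gl3 R V x) = R.det * cub x := by
  have h1 : (V 0 * V 1 * V 2) * (V 0 * V 1 * V 2) * R.det⁻¹ = V 0 * V 1 * V 2 := by
    rw [← h, mul_inv_cancel_right₀ h0]
  rw [cub_z, cub_z x]
  simp only [dg_gl3, sl_gl3, zp_zorn, zm_zorn, za_zorn, zb_zorn, dotProduct_smul, smul_dotProduct,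
    map_smul, LinearMap.smul_apply, smul_eq_mul, dot_inv h0, cross_dot, det_tinv, Fin.isValue,
    Fin.reduceAdd]
  rw [h] at h1 ⊢
  linear_combination (-(crossProduct (zb (sl x 0)) (zb (sl x 1)) ⬝ᵥ zb (sl x 2))) * h1

theorem gl3_props {R : Matrix (Fin 3) (Fin 3) Om} {V : Fin 3 → Om} (hV : ∀ i, V i ≠ 0)
    (h : R.det = V 0 * V 1 * V 2) : Prm 1 (gl3 R V) ∧ (∀ x, cub (gl3 R V x) = R.det * cub x) ∧
      ∃ ψ : J ≃ₗ[Om] J, Sim 1 ψ ∧ (∀ x, ψ x = gl3 R V x) ∧ ∀ x, ψ.symm x = gl3 R⁻¹ V⁻¹ x := by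
  have h0 : R.det ≠ 0 := h ▸ mul_ne_zero (mul_ne_zero (hV 0) (hV 1)) (hV 2)
  have h1 : V⁻¹ * V = 1 := funext fun i => inv_mul_cancel₀ (hV i)
  have h2 : V * V⁻¹ = 1 := funext fun i => mul_inv_cancel₀ (hV i)
  refine ⟨fun i => ⟨V i, gl3_ee R V i⟩, cub_gl3 h0 h,
    { (gl3_lin R V).mk' _ with
      invFun := gl3 R⁻¹ V⁻¹
      left_inv := fun x => ?_
      right_inv := fun x => ?_ }, sim_of_cub (l := R.det) (cub_gl3 h0 h), fun _ => rfl,
    fun _ => rfl⟩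
  · change gl3 R⁻¹ V⁻¹ (gl3 R V x) = x
    rw [ZDx.gl3_gl3, nonsing_inv_mul _ h0.isUnit, h1, gl3_one]
  · change gl3 R V (gl3 R⁻¹ V⁻¹ x) = x
    rw [ZDx.gl3_gl3, mul_nonsing_inv _ h0.isUnit, h2, gl3_one]

theorem gl3_gl3 {R S : Matrix (Fin 3) (Fin 3) Om} (V W : Fin 3 → Om) (x : J) :
    gl3 R V (gl3 S W x) = gl3 (R * S) (V * W) x := ZDx.gl3_gl3 R S V W x

theorem ZDx.rot : ∀ π : Equiv.Perm (Fin 3), Equiv.Perm.sign π = 1 →
    ∀ j, π⁻¹ (j + 1) = π⁻¹ j + 1 ∧ π⁻¹ (j + 2) = π⁻¹ j + 2 := by decide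

theorem hur_gl3 (π : Equiv.Perm (Fin 3)) (hπ : Equiv.Perm.sign π = 1) (σ : Gq)
    (R : Matrix (Fin 3) (Fin 3) Om) (V : Fin 3 → Om) (x : J) :
    hur π σ (oa σ) (gl3 R V x) = gl3 (R.map σ) (fun j => σ (V (π⁻¹ j))) (hur π σ (oa σ) x) := by
  refine j_ext (fun i => ?_) fun i => ?_
  · simp only [hur, dg_jm, dg_gl3, map_mul]
  · apply z_ext <;> simp only [hur, sl_jm, sl_gl3, sgs, if_pos hπ, (z_oa σ _).1, (z_oa σ _).2.1,
      (z_oa σ _).2.2.1, (z_oa σ _).2.2.2, zp_zorn, zm_zorn, za_zorn, zb_zorn, map_mul,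
      (rot π hπ i).1, (rot π hπ i).2, comp_mulVec, comp_smul, ZDx.map_inv, transpose_map]

/-- The automorphism which exchanges the two idempotents. -/
def ZDx.be (x : O) : O := zorn (zm x) (zp x) (-zb x) (-za x)

theorem ZDx.be_be (x : O) : be (be x) = x := by
  simp only [be, zp_zorn, zm_zorn, za_zorn, zb_zorn, neg_neg, zorn_eta]

theorem ZDx.be_semi : Semi 1 be := by
  refine ⟨fun x y => ?_, fun t x => ?_, Function.Involutive.bijective be_be⟩
  · apply z_ext <;> simp only [be, zp_add, zm_add, za_add, zb_add, zp_zorn, zm_zorn,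
      za_zorn, zb_zorn, neg_add]
  · apply z_ext <;> simp only [be, zp_smul, zm_smul, za_smul, zb_smul, zp_zorn, zm_zorn,
      za_zorn, zb_zorn, smul_neg, AlgEquiv.one_apply]

theorem ZDx.be_mul (x y : O) : be (x * y) = be x * be y := by
  apply z_ext <;> simp only [be, (z_mul _ _).1, (z_mul _ _).2.1, (z_mul _ _).2.2.1,
    (z_mul _ _).2.2.2, zp_zorn, zm_zorn, za_zorn, zb_zorn, neg_dotProduct, dotProduct_neg, neg_neg,
    map_neg, LinearMap.neg_apply, smul_neg] <;> abel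

theorem swJ_props (s : Gq) {q : Fin 3 → Om} {H : Matrix (Fin 3) (Fin 3) Om}
    (h : q 0 * q 1 * q 2 * H.det = -1) : Sim s (swJ s q H) ∧ Prm 1 (swJ s q H) := by
  have hH : H.det ≠ 0 := fun h0 => by simp [h0] at h
  have hq : ∀ i, q i ≠ 0 := fun i h0 => by fin_cases i <;> simp_all
  have hd : (-Hᵀ⁻¹).det = q 0 * q 1 * q 2 := by
    rw [det_neg, det_tinv, Fintype.card_fin]
    field_simp
    linear_combination -h
  have hi : (-Hᵀ⁻¹)ᵀ⁻¹ = -H := inv_eq_left_inv (by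
    rw [transpose_neg, transpose_nonsing_inv, transpose_transpose, neg_mul_neg,
      mul_nonsing_inv _ hH.isUnit])
  have he : swJ s q H = fun x => gl3 (-Hᵀ⁻¹) q (al s (fun y => be (oa s y)) x) := by
    funext x
    refine j_ext (fun i => ?_) fun i => ?_
    · simp only [swJ, al, dg_jm, dg_gl3]
    · simp only [swJ, al, sl_jm, sl_gl3, be, zp_zorn, zm_zorn, za_zorn, zb_zorn, hi, (z_oa s _).1,
        (z_oa s _).2.1, (z_oa s _).2.2.1, (z_oa s _).2.2.2, neg_mulVec, mulVec_neg, neg_neg]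
  have hs : Semi s fun y => be (oa s y) := by
    have := be_semi.comp (oa_semi s)
    rwa [one_mul] at this
  have hm : ∀ x y, be (oa s (x * y)) = be (oa s x) * be (oa s y) :=
    fun x y => by rw [oa_mul, be_mul]
  obtain ⟨-, -, ψ, h1, h2, -⟩ := gl3_props hq hd
  have h3 := h1.comp (al_props hs hm).1
  simp only [h2, one_mul] at h3
  rw [he]
  refine ⟨h3, fun i => ⟨q i, ?_⟩⟩
  have h4 := (hur_props (π := 1) hs hm).2.2.2.1 i
  rw [hur_one] at h4
  change gl3 _ q (al s _ (ee i)) = _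
  rw [h4, gl3_ee]
  rfl

/-- The automorphisms in `SL₃`. -/
theorem sl3_aut {R : Matrix (Fin 3) (Fin 3) Om} (h : R.det = 1) : ∃ φ : O ≃ₗ[Om] O,
    (∀ x y, φ (x * y) = φ x * φ y) ∧
      (∀ x, φ x = zorn (zp x) (zm x) (R *ᵥ za x) (Rᵀ⁻¹ *ᵥ zb x)) ∧
      ∀ x, gl3 R 1 x = al 1 φ x := by
  have h0 : R.det ≠ 0 := h ▸ one_ne_zero
  have h1 : Rᵀ⁻¹ᵀ⁻¹ = R := by
    rw [transpose_nonsing_inv, transpose_transpose, nonsing_inv_nonsing_inv _ h0.isUnit]
  have h2 : Rᵀ⁻¹.det = 1 := by rw [det_tinv, h, inv_one]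
  have h3 : IsUnit Rᵀ.det := by
    rw [det_transpose]
    exact h0.isUnit
  refine ⟨{ toFun := fun x => zorn (zp x) (zm x) (R *ᵥ za x) (Rᵀ⁻¹ *ᵥ zb x)
            invFun := fun x => zorn (zp x) (zm x) (R⁻¹ *ᵥ za x) (Rᵀ *ᵥ zb x)
            map_add' := fun x y => ?_
            map_smul' := fun t x => ?_
            left_inv := fun x => ?_
            right_inv := fun x => ?_ }, fun x y => ?_, fun _ => rfl, fun x => ?_⟩
  · apply z_ext <;> simp only [zp_add, zm_add, za_add, zb_add, zp_zorn, zm_zorn,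
      za_zorn, zb_zorn, mulVec_add]
  · apply z_ext <;> simp only [zp_smul, zm_smul, za_smul, zb_smul, zp_zorn, zm_zorn,
      za_zorn, zb_zorn, mulVec_smul, RingHom.id_apply]
  · simp only [zp_zorn, zm_zorn, za_zorn, zb_zorn, mulVec_mulVec, nonsing_inv_mul _ h0.isUnit,
      mul_nonsing_inv _ h3, one_mulVec, zorn_eta]
  · simp only [zp_zorn, zm_zorn, za_zorn, zb_zorn, mulVec_mulVec, mul_nonsing_inv _ h0.isUnit,
      nonsing_inv_mul _ h3, one_mulVec, zorn_eta]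
  · change zorn (zp (x * y)) (zm (x * y)) (R *ᵥ za (x * y)) (Rᵀ⁻¹ *ᵥ zb (x * y)) =
      zorn (zp x) (zm x) (R *ᵥ za x) (Rᵀ⁻¹ *ᵥ zb x) * zorn (zp y) (zm y) (R *ᵥ za y) (Rᵀ⁻¹ *ᵥ zb y)
    apply z_ext <;> simp only [(z_mul _ _).1, (z_mul _ _).2.1, (z_mul _ _).2.2.1,
      (z_mul _ _).2.2.2, zp_zorn, zm_zorn, za_zorn, zb_zorn, dot_inv h0, mulVec_add, mulVec_sub,
      mulVec_smul]
    · rw [dotProduct_comm (Rᵀ⁻¹ *ᵥ zb x), dot_inv h0, dotProduct_comm]
    · rw [cross_mulVec (h2 ▸ one_ne_zero), h1, h2, one_smul]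
    · rw [cross_mulVec h0, h, one_smul]
  · refine j_ext (fun i => ?_) fun i => ?_
    · simp only [al, dg_jm, dg_gl3, Pi.one_apply, one_mul, AlgEquiv.one_apply]
    · simp only [al, sl_jm, sl_gl3, Pi.one_apply, one_mul, one_smul]
      rfl

namespace ZDx

theorem up_0 (x : J) (i : Fin 3) : up x (i, 0) = za (sl x i) 0 := rfl

theorem up_1 (x : J) (i : Fin 3) : up x (i, 1) = zb (sl x i) 1 := rfl

theorem um_0 (x : J) (i : Fin 3) : um x (i, 0) = -za (sl x i) 1 := rfl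

theorem um_1 (x : J) (i : Fin 3) : um x (i, 1) = zb (sl x i) 0 := rfl

theorem om6_d (x : J) (i : Fin 3) (a b : Fin 2) : om6 x (i, a) (i, b) = dg x i * j2 a b :=
  if_pos rfl

theorem om6_u (x : J) (i : Fin 3) (a b : Fin 2) :
    om6 x (i + 1, a) (i + 2, b) = yb (sl x i) a b := by
  fin_cases i <;> simp [om6]

theorem om6_l (x : J) (i : Fin 3) (a b : Fin 2) :
    om6 x (i + 2, b) (i + 1, a) = -yb (sl x i) a b := by
  fin_cases i <;> simp [om6]

theorem yb_add (x y : O) : yb (x + y) = yb x + yb y := by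
  ext a b
  fin_cases a <;> fin_cases b <;> simp [yb, zp_add, zm_add, za_add, zb_add, add_comm]

theorem yb_smul (t : Om) (x : O) : yb (t • x) = t • yb x := by
  ext a b
  fin_cases a <;> fin_cases b <;> simp [yb, zp_smul, zm_smul, za_smul, zb_smul]

theorem yb_oa (σ : Gq) (x : O) (a b : Fin 2) : yb (oa σ x) a b = σ (yb x a b) := by
  fin_cases a <;> fin_cases b <;>
    simp [yb, (z_oa σ _).1, (z_oa σ _).2.1, (z_oa σ _).2.2.1, (z_oa σ _).2.2.2]

theorem j2_map (σ : Gq) (a b : Fin 2) : σ (j2 a b) = j2 a b := by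
  fin_cases a <;> fin_cases b <;> simp [j2]

theorem j2_alt (a b : Fin 2) : j2 b a = -j2 a b := by
  fin_cases a <;> fin_cases b <;> simp [j2]

/-- The three kinds of pairs of blocks. -/
theorem three {P : Fin 3 → Fin 3 → Prop} (h1 : ∀ i, P i i) (h2 : ∀ i, P (i + 1) (i + 2))
    (h3 : ∀ i, P (i + 2) (i + 1)) (i j : Fin 3) : P i j := by
  fin_cases i <;> fin_cases j
  exacts [h1 0, h2 2, h3 1, h3 2, h1 1, h2 0, h2 1, h3 0, h1 2]

theorem i6_ext {α : Type} {u v : I6 → α} (h0 : ∀ i, u (i, 0) = v (i, 0))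
    (h1 : ∀ i, u (i, 1) = v (i, 1)) : u = v := by
  funext ⟨i, a⟩
  fin_cases a
  exacts [h0 i, h1 i]

theorem m6_ext {u v : Matrix I6 I6 Om} (h1 : ∀ i a b, u (i, a) (i, b) = v (i, a) (i, b))
    (h2 : ∀ i a b, u (i + 1, a) (i + 2, b) = v (i + 1, a) (i + 2, b))
    (h3 : ∀ i a b, u (i + 2, b) (i + 1, a) = v (i + 2, b) (i + 1, a)) : u = v := by
  ext ⟨i, a⟩ ⟨j, b⟩
  exact three (P := fun i j => ∀ a b, u (i, a) (j, b) = v (i, a) (j, b)) h1 h2
    (fun i a b => h3 i b a) i j a b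

theorem dg_d6 (u v : I6 → Om) (w : Matrix I6 I6 Om) (i : Fin 3) :
    dg (d6 u w v) i = w (i, 0) (i, 1) := by rw [d6, dg_jm]

theorem sl_d6 (u v : I6 → Om) (w : Matrix I6 I6 Om) (i : Fin 3) : sl (d6 u w v) i =
    zorn (w (i + 1, 0) (i + 2, 1)) (-w (i + 1, 1) (i + 2, 0))
      ![u (i, 0), -v (i, 0), -w (i + 1, 0) (i + 2, 0)]
      ![v (i, 1), u (i, 1), w (i + 1, 1) (i + 2, 1)] := by rw [d6, sl_jm]

end ZDx

theorem six_lin : IsLinearMap Om up ∧ IsLinearMap Om um ∧ IsLinearMap Om om6 := by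
  refine ⟨⟨fun x y => i6_ext (fun i => ?_) fun i => ?_, fun t x => i6_ext (fun i => ?_) fun i => ?_⟩,
    ⟨fun x y => i6_ext (fun i => ?_) fun i => ?_, fun t x => i6_ext (fun i => ?_) fun i => ?_⟩,
    ⟨fun x y => m6_ext (fun i a b => ?_) (fun i a b => ?_) fun i a b => ?_,
      fun t x => m6_ext (fun i a b => ?_) (fun i a b => ?_) fun i a b => ?_⟩⟩ <;>
  simp only [up_0, up_1, um_0, um_1, om6_d, om6_u, om6_l, dg_add, dg_smul, sl_add, sl_smul, za_add,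
    zb_add, za_smul, zb_smul, yb_add, yb_smul, Pi.add_apply, Pi.smul_apply, Matrix.add_apply,
    Matrix.smul_apply, smul_eq_mul, neg_add, mul_neg, add_mul, mul_assoc]

theorem om6_alt (x : J) : (om6 x)ᵀ = -om6 x := by
  refine m6_ext (fun i a b => ?_) (fun i a b => ?_) fun i a b => ?_ <;>
    simp only [transpose_apply, Matrix.neg_apply, om6_d, om6_u, om6_l, neg_neg]
  rw [j2_alt, mul_neg]

theorem d6_eta (x : J) : d6 (up x) (om6 x) (um x) = x := by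
  refine j_ext (fun i => ?_) fun i => ?_
  · simp [dg_d6, om6_d, j2]
  · rw [sl_d6]
    refine z_ext ?_ ?_ (funext fun a => ?_) (funext fun a => ?_)
    · simp [zp_zorn, om6_u, yb]
    · simp [zm_zorn, om6_u, yb]
    · fin_cases a <;> simp [za_zorn, om6_u, yb, up_0, um_0]
    · fin_cases a <;> simp [zb_zorn, om6_u, yb, up_1, um_1]

theorem six_d6 (u v : I6 → Om) {w : Matrix I6 I6 Om} (hw : wᵀ = -w) :
    up (d6 u w v) = u ∧ om6 (d6 u w v) = w ∧ um (d6 u w v) = v := by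
  have h1 : ∀ q r, w r q = -w q r := fun q r => congrFun (congrFun hw q) r
  have h2 : ∀ q, w q q = 0 := fun q => by linear_combination (2⁻¹ : Om) * h1 q q
  have h3 : ∀ i a b, yb (sl (d6 u w v) i) a b = w (i + 1, a) (i + 2, b) := fun i a b => by
    fin_cases a <;> fin_cases b <;> simp [sl_d6, yb, zp_zorn, zm_zorn, za_zorn, zb_zorn]
  refine ⟨i6_ext (fun i => ?_) fun i => ?_, m6_ext (fun i a b => ?_) (fun i a b => ?_)
    fun i a b => ?_, i6_ext (fun i => ?_) fun i => ?_⟩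
  · simp [up_0, sl_d6, za_zorn]
  · simp [up_1, sl_d6, zb_zorn]
  · rw [om6_d, dg_d6]
    fin_cases a <;> fin_cases b <;> simp [j2, h2, h1 (i, 0) (i, 1)]
  · rw [om6_u, h3]
  · rw [om6_l, h3, h1 (i + 1, a)]
  · simp [um_0, sl_d6, za_zorn]
  · simp [um_1, sl_d6, zb_zorn]

theorem six_ext {x y : J} (h1 : up x = up y) (h2 : om6 x = om6 y) (h3 : um x = um y) : x = y := by
  rw [← d6_eta x, ← d6_eta y, h1, h2, h3]

theorem ZDx.j6_mulVec (u : I6 → Om) (i : Fin 3) :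
    (j6 *ᵥ u) (i, 0) = u (i, 1) ∧ (j6 *ᵥ u) (i, 1) = -u (i, 0) := by
  simp [mulVec, dotProduct, j6, j2, Fintype.sum_prod_type]

theorem ZDx.j6_mul (w : Matrix I6 I6 Om) (i : Fin 3) (r : I6) :
    (j6 * w) (i, 0) r = w (i, 1) r ∧ (j6 * w) (i, 1) r = -w (i, 0) r :=
  j6_mulVec (fun q => w q r) i

theorem j6_props : j6ᵀ = -j6 ∧ j6 * j6 = -1 ∧ j6.det = 1 ∧ ∀ σ : Gq, j6.map σ = j6 := by
  refine ⟨?_, ?_, ?_, fun σ => ?_⟩
  · ext ⟨i, a⟩ ⟨j, b⟩
    simp only [transpose_apply, Matrix.neg_apply, j6]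
    by_cases h : i = j
    · rw [if_pos h, if_pos h.symm, j2_alt]
    · rw [if_neg h, if_neg (Ne.symm h), neg_zero]
  · refine i6_ext (fun i => funext fun ⟨j, b⟩ => ?_) fun i => funext fun ⟨j, b⟩ => ?_
    · rw [(j6_mul j6 i _).1]
      by_cases h : i = j <;> fin_cases b <;> simp [j6, j2, h]
    · rw [(j6_mul j6 i _).2]
      by_cases h : i = j <;> fin_cases b <;> simp [j6, j2, h]
  · have : j6 = kroneckerMap (· * ·) (1 : Matrix (Fin 3) (Fin 3) Om) j2 := by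
      ext ⟨i, a⟩ ⟨j, b⟩
      simp [j6, Matrix.one_apply]
    rw [this, det_kronecker]
    simp [j2, det_fin_two]
  · ext ⟨i, a⟩ ⟨j, b⟩
    simp only [map_apply, j6]
    split_ifs
    · exact j2_map σ a b
    · exact map_zero σ

theorem ZDx.om6_01 (x : J) (a b : Fin 2) : om6 x (0, a) (1, b) = yb (sl x 2) a b := om6_u x 2 a b

theorem ZDx.om6_12 (x : J) (a b : Fin 2) : om6 x (1, a) (2, b) = yb (sl x 0) a b := om6_u x 0 a b

theorem ZDx.om6_20 (x : J) (a b : Fin 2) : om6 x (2, a) (0, b) = yb (sl x 1) a b := om6_u x 1 a b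

theorem ZDx.om6_10 (x : J) (a b : Fin 2) : om6 x (1, b) (0, a) = -yb (sl x 2) a b := om6_l x 2 a b

theorem ZDx.om6_21 (x : J) (a b : Fin 2) : om6 x (2, b) (1, a) = -yb (sl x 0) a b := om6_l x 0 a b

theorem ZDx.om6_02 (x : J) (a b : Fin 2) : om6 x (0, b) (2, a) = -yb (sl x 1) a b := om6_l x 1 a b

theorem ZDx.yb_e (y : O) : yb y 0 0 = -za y 2 ∧ yb y 0 1 = zp y ∧ yb y 1 0 = -zm y ∧
    yb y 1 1 = zb y 2 := ⟨rfl, rfl, rfl, rfl⟩

theorem ZDx.j2_e : j2 0 0 = 0 ∧ j2 0 1 = 1 ∧ j2 1 0 = -1 ∧ j2 1 1 = 0 := ⟨rfl, rfl, rfl, rfl⟩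

theorem cub_six (x : J) : cub x = pf (om6 x) + up x ⬝ᵥ (om6 x *ᵥ um x) := by
  rw [pf, cub_z, cub_z]
  simp only [dg_d6, sl_d6, zp_zorn, zm_zorn, za_zorn, zb_zorn, om6_d, om6_u, mulVec, dotProduct,
    Fintype.sum_prod_type, Fin.sum_univ_three, Fin.sum_univ_two, om6_01, om6_12, om6_20, om6_10,
    om6_21, om6_02, yb_e, j2_e, up_0, up_1, um_0, um_1, cross_apply, Pi.zero_apply, cons_val_zero,
    cons_val_one, cons_val_two, Nat.succ_eq_add_one, Nat.reduceAdd, tail_cons, head_cons]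
  ring

theorem tf_six (x y : J) : tf x y = um x ⬝ᵥ (j6 *ᵥ up y) - up x ⬝ᵥ (j6 *ᵥ um y) +
    2⁻¹ * (j6 * om6 x * j6 * om6 y).trace := by
  rw [tf_eq, mul_assoc (j6 * om6 x)]
  simp only [bil_z, trace, diag_apply, Matrix.mul_apply (M := j6 * om6 x), dotProduct,
    Fintype.sum_prod_type, Fin.sum_univ_three, Fin.sum_univ_two, j6_mul, j6_mulVec, om6_d, om6_01,
    om6_12, om6_20, om6_10, om6_21, om6_02, yb_e, j2_e, up_0, up_1, um_0, um_1]
  ring

theorem six_aj (σ : Gq) (x : J) : up (aj σ x) = σ ∘ up x ∧ om6 (aj σ x) = (om6 x).map σ ∧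
    um (aj σ x) = σ ∘ um x := by
  refine ⟨i6_ext (fun i => ?_) fun i => ?_, m6_ext (fun i a b => ?_) (fun i a b => ?_)
    fun i a b => ?_, i6_ext (fun i => ?_) fun i => ?_⟩ <;>
  simp only [aj, al, up_0, up_1, um_0, um_1, om6_d, om6_u, om6_l, dg_jm, sl_jm, (z_oa σ _).2.2.1,
    (z_oa σ _).2.2.2, Function.comp_apply, map_apply, map_mul, map_neg, yb_oa, j2_map]

theorem om6_ee (i : Fin 3) : up (ee i) = 0 ∧ um (ee i) = 0 ∧
    om6 (ee i) = fun q r => if q.1 = i ∧ r.1 = i then j2 q.2 r.2 else 0 := by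
  have h : yb 0 = 0 := by
    have := yb_smul 0 0
    rwa [zero_smul, zero_smul] at this
  have h1 : ∀ j : Fin 3, ¬ (j + 1 = i ∧ j + 2 = i) := by
    revert i
    decide
  refine ⟨i6_ext (fun j => ?_) fun j => ?_, i6_ext (fun j => ?_) fun j => ?_,
    m6_ext (fun j a b => ?_) (fun j a b => ?_) fun j a b => ?_⟩
  · simp [up_0, ee, sl_jm, za_zero]
  · simp [up_1, ee, sl_jm, zb_zero]
  · simp [um_0, ee, sl_jm, za_zero]
  · simp [um_1, ee, sl_jm, zb_zero]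
  · simp [om6_d, ee, dg_jm, Pi.single_apply]
  · rw [om6_u, if_neg (h1 j)]
    simp [ee, sl_jm, h]
  · rw [om6_l, if_neg fun h2 => h1 j h2.symm]
    simp [ee, sl_jm, h]

theorem ZDx.alt0 : (0 : Matrix I6 I6 Om)ᵀ = -0 := by rw [transpose_zero, neg_zero]

theorem ep_lin : IsLinearMap Om Ep := by
  refine ⟨fun x y => six_ext ?_ ?_ ?_, fun t x => six_ext ?_ ?_ ?_⟩ <;>
  simp only [Ep, six_lin.1.map_add, six_lin.2.1.map_add, six_lin.2.2.map_add, six_lin.1.map_smul,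
    six_lin.2.1.map_smul, six_lin.2.2.map_smul, six_d6 _ _ alt0, add_zero, smul_zero]

theorem em_lin : IsLinearMap Om Em := by
  refine ⟨fun x y => six_ext ?_ ?_ ?_, fun t x => six_ext ?_ ?_ ?_⟩ <;>
  simp only [Em, six_lin.1.map_add, six_lin.2.1.map_add, six_lin.2.2.map_add, six_lin.1.map_smul,
    six_lin.2.1.map_smul, six_lin.2.2.map_smul, six_d6 _ _ alt0, add_zero, smul_zero]

/-- The root element as an endomorphism. -/
def EpL : Module.End Om J := ep_lin.mk' _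

/-- The root element as an endomorphism. -/
def EmL : Module.End Om J := em_lin.mk' _

theorem up6_al (σ : Gq) : Up6 (aj σ) := by
  have h1 : σ ∘ (0 : I6 → Om) = 0 := funext fun _ => map_zero σ
  have h2 : (0 : Matrix I6 I6 Om).map σ = 0 := Matrix.map_zero _ (map_zero σ)
  refine ⟨fun x a b => ?_, fun x a b => ?_, fun x a b => ?_⟩ <;>
    simp only [six_aj, a, b, h1, h2, and_self]

/-- Maps which permute the entries up to scalars. -/
theorem ZDx.up6_of {f : J → J} (hd : ∀ i, ∃ t j, ∀ x, dg (f x) i = t * dg x j)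
    (hs : ∀ i, ∃ (t : Om) (j : Fin 3), ∀ x, sl (f x) i = t • sl x j) : Up6 f := by
  have h1 : ∀ x, up x = 0 → up (f x) = 0 := fun x h => by
    refine i6_ext (fun i => ?_) fun i => ?_ <;> obtain ⟨t, j, e⟩ := hs i
    · rw [up_0, e, za_smul, Pi.smul_apply, ← up_0, h]
      simp
    · rw [up_1, e, zb_smul, Pi.smul_apply, ← up_1, h]
      simp
  have h2 : ∀ x, um x = 0 → um (f x) = 0 := fun x h => by
    refine i6_ext (fun i => ?_) fun i => ?_ <;> obtain ⟨t, j, e⟩ := hs i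
    · rw [um_0, e, za_smul, Pi.smul_apply, ← smul_neg, ← um_0, h]
      simp
    · rw [um_1, e, zb_smul, Pi.smul_apply, ← um_1, h]
      simp
  have h3 : ∀ x, om6 x = 0 → om6 (f x) = 0 := fun x h => by
    refine m6_ext (fun i a b => ?_) (fun i a b => ?_) fun i a b => ?_
    · obtain ⟨t, j, e⟩ := hd i
      rw [om6_d, e, mul_assoc, ← om6_d, h]
      simp
    · obtain ⟨t, j, e⟩ := hs i
      rw [om6_u, e, yb_smul, Matrix.smul_apply, ← om6_u, h]
      simp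
    · obtain ⟨t, j, e⟩ := hs i
      rw [om6_l, e, yb_smul, Matrix.smul_apply, ← om6_u, h]
      simp
  exact ⟨fun x a b => ⟨h3 x a, h2 x b⟩, fun x a b => ⟨h3 x a, h1 x b⟩,
    fun x a b => ⟨h1 x a, h2 x b⟩⟩

theorem up6_phJ (c : Om) : Up6 (phJ c) := by
  refine up6_of (fun i => ?_) fun i => ?_ <;> fin_cases i
  exacts [⟨c⁻¹, 2, fun _ => rfl⟩, ⟨c, 0, fun _ => rfl⟩, ⟨c, 1, fun _ => rfl⟩,
    ⟨c, 2, fun _ => rfl⟩, ⟨1, 0, fun _ => (one_smul _ _).symm⟩,
    ⟨1, 1, fun _ => (one_smul _ _).symm⟩]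

theorem up6_wtJ (g : Fin 3 → Om) : Up6 (wtJ g) :=
  up6_of (fun i => ⟨_, i, fun x => by rw [wtJ, dg_jm]⟩) fun i => ⟨_, i, fun x => by rw [wtJ, sl_jm]⟩

end Vale.Agent.P011Z.Cl

end
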