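import Vale.Agent.P011Z.Cl.Dat
import Vale.Agent.P011Z.Cl.ZD
import Vale.Agent.P011Z.Cl.D4c.A
import Vale.Agent.P011Z.Cl.Pf.B

/-!
Classification of the forms: block D4c.
-/

open Matrix Module

noncomputable section

namespace Vale.Agent.P011Z.Cl

open Vale.Agent.P011.D4 Vale.Agent.P011.D4.Oct Vale.Agent.P011.E6 Vale.Agent.P011.E6.Alb

/-- The stabilizer of the lines of the idempotents. -/
theorem zst {f : J → J} (hf : Sim 1 f) (hp : Prm 1 f)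
    (h1 : ∀ i, ∃ t : Om, f (ins i ep) = t • ins i ep)
    (h2 : ∀ i, ∃ t : Om, f (ins i em) = t • ins i em) :
    ∃ (z V : Fin 3 → Om) (R : Matrix (Fin 3) (Fin 3) Om), (∀ i, z i ≠ 0) ∧ (∀ i, V i ≠ 0) ∧
      R.det = V 0 * V 1 * V 2 ∧ ∀ x, f x = sc z (gl3 R V x) := D4cx.zst hf hp h1 h2

namespace D4cx

open ZDx Pfx

/-- Equality up to the scalars in the slots. -/
def Eqv (f g : J → J) : Prop := ∃ z : Fin 3 → Om, (∀ i, z i ≠ 0) ∧ ∀ x, f x = sc z (g x)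

variable {f g k : J → J} {s σ τ : Gq} {q q' : Fin 3 → Om} {H H' : Matrix (Fin 3) (Fin 3) Om}

theorem Eqv.symm (h : Eqv f g) : Eqv g f := by
  obtain ⟨z, hz, h⟩ := h
  exact ⟨z⁻¹, fun i => inv_ne_zero (hz i), fun x => by rw [h, (Prcx.sc_inv hz _).2]⟩

theorem Eqv.trans (h : Eqv f g) (h' : Eqv g k) : Eqv f k := by
  obtain ⟨z, hz, h⟩ := h
  obtain ⟨w, hw, h'⟩ := h'
  exact ⟨z * w, fun i => mul_ne_zero (hz i) (hw i), fun x => by rw [h, h', sc_sc]⟩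

theorem Eqv.right (h : Eqv f g) (k : J → J) : Eqv (fun x => f (k x)) fun x => g (k x) := by
  obtain ⟨z, hz, h⟩ := h
  exact ⟨z, hz, fun x => h _⟩

theorem Eqv.left (h : Eqv f g) {π : Equiv.Perm (Fin 3)} (hk : Sim σ k) (hp : Prm π k) :
    Eqv (fun x => k (f x)) fun x => k (g x) := by
  obtain ⟨z, hz, h⟩ := h
  exact ⟨fun j => σ (z (π⁻¹ j)), fun j => (map_ne_zero σ).2 (hz _), fun x =>
    (congrArg k (h x)).trans (hp.sc hk hz _)⟩

theorem Eqv.cancel (h : Eqv (fun x => f (k x)) fun x => g (k x)) (hk : Function.Surjective k) :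
    Eqv f g := by
  obtain ⟨z, hz, h⟩ := h
  refine ⟨z, hz, fun y => ?_⟩
  obtain ⟨x, rfl⟩ := hk y
  exact h x

theorem Eqv.of_eq (h : Eqv f g) {f' g' : J → J} (h1 : ∀ x, f' x = f x) (h2 : ∀ x, g' x = g x) :
    Eqv f' g' := by
  rwa [funext h1, funext h2]

theorem dg_swJ (x : J) (i : Fin 3) : dg (swJ s q H x) i = q i * s (dg x i) := by
  simp only [swJ, dg_jm]

theorem sl_swJ (x : J) (i : Fin 3) : sl (swJ s q H x) i =
    zorn (q (i + 2) * s (zm (sl x i))) (q (i + 1) * s (zp (sl x i)))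
      (Hᵀ⁻¹ *ᵥ (s ∘ zb (sl x i))) ((q (i + 1) * q (i + 2)) • (H *ᵥ (s ∘ za (sl x i)))) := by
  simp only [swJ, sl_jm]

theorem swJ_smul {t : Om} (ht : t ≠ 0) (x : J) :
    swJ s (t • q) (t⁻¹ • H) x = t • swJ s q H x := by
  refine j_ext (fun i => ?_) fun i => ?_
  · rw [dg_smul, dg_swJ, dg_swJ, Pi.smul_apply, smul_eq_mul, mul_assoc]
  · rw [sl_smul, sl_swJ, sl_swJ, transpose_smul, smul_inv0 (inv_ne_zero ht), inv_inv]
    apply z_ext <;> simp only [zp_smul, zm_smul, za_smul, zb_smul, zp_zorn, zm_zorn, za_zorn,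
      zb_zorn, Pi.smul_apply, smul_eq_mul, mul_assoc, smul_mulVec, smul_smul]
    congr 1
    field_simp

theorem swJ_al (x : J) : swJ s q H (hur 1 τ (oa τ) x) = swJ (s * τ) q H x := by
  rw [hur_one]
  refine j_ext (fun i => ?_) fun i => ?_
  · rw [dg_swJ, dg_swJ, Prcx.dg_al, AlgEquiv.mul_apply]
  · rw [sl_swJ, sl_swJ, Prcx.sl_al, (z_oa τ _).1, (z_oa τ _).2.1, (z_oa τ _).2.2.1,
      (z_oa τ _).2.2.2]
    rfl

theorem gl3_swJ {R : Matrix (Fin 3) (Fin 3) Om} (hR : R.det ≠ 0) (x : J) :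
    gl3 R q (swJ s 1 (-1) x) = swJ s q (-Rᵀ⁻¹) x := by
  have h1 : (-Rᵀ⁻¹)ᵀ⁻¹ = -R := inv_eq_left_inv (by
    rw [transpose_neg, transpose_nonsing_inv, transpose_transpose, neg_mul_neg,
      mul_nonsing_inv _ hR.isUnit])
  have h2 : (-1 : Matrix (Fin 3) (Fin 3) Om)ᵀ⁻¹ = -1 := inv_eq_left_inv (by simp)
  refine j_ext (fun i => ?_) fun i => ?_
  · rw [dg_gl3, dg_swJ, dg_swJ, Pi.one_apply, one_mul]
  · simp only [sl_gl3, sl_swJ, h1, h2, zp_zorn, zm_zorn, za_zorn, zb_zorn, Pi.one_apply, one_mul,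
      one_smul, neg_mulVec, mulVec_neg, one_mulVec]

theorem rot' : ∀ π : Equiv.Perm (Fin 3), Equiv.Perm.sign π ≠ 1 →
    ∀ j, π⁻¹ (j + 1) = π⁻¹ j + 2 ∧ π⁻¹ (j + 2) = π⁻¹ j + 1 := by decide

theorem cmp_neg (σ : Gq) (a : Fin 3 → Om) : σ ∘ (-a) = -(σ ∘ a) := by
  ext i
  simp

theorem hur_swJ (π : Equiv.Perm (Fin 3)) {τ' : Gq} (h : τ * s = s * τ') (x : J) :
    hur π τ (oa τ) (swJ s q H x) =
      swJ s (fun j => τ (q (π⁻¹ j))) (H.map τ) (hur π τ' (oa τ') x) := by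
  have h1 : ∀ y, τ (s y) = s (τ' y) := fun y => DFunLike.congr_fun h y
  have h2 : ∀ a : Fin 3 → Om, τ ∘ (s ∘ a) = s ∘ (τ' ∘ a) := fun a => funext fun i => h1 _
  refine j_ext (fun i => ?_) fun i => ?_
  · rw [Prcx.dg_hur, dg_swJ, dg_swJ, Prcx.dg_hur, map_mul, h1]
  · by_cases hπ : Equiv.Perm.sign π = 1
    · apply z_ext <;> simp only [Prcx.sl_hur, sl_swJ, sgs, if_pos hπ, (z_oa _ _).1, (z_oa _ _).2.1,
        (z_oa _ _).2.2.1, (z_oa _ _).2.2.2, zp_zorn, zm_zorn, za_zorn, zb_zorn, map_mul,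
        (rot π hπ i).1, (rot π hπ i).2, cmp_mulVec, cmp_smul, mp_inv, mp_tr, h1, h2]
    · apply z_ext <;> simp only [Prcx.sl_hur, sl_swJ, sgs, if_neg hπ, (z_oa _ _).1, (z_oa _ _).2.1,
        (z_oa _ _).2.2.1, (z_oa _ _).2.2.2, zp_zorn, zm_zorn, za_zorn, zb_zorn, map_mul,
        (rot' π hπ i).1, (rot' π hπ i).2, cmp_mulVec, cmp_smul, mp_inv, mp_tr, h1, h2,
        (z_star _).1, (z_star _).2.1, (z_star _).2.2.1, (z_star _).2.2.2, cmp_neg, mulVec_neg,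
        smul_neg, mul_comm (τ (q (π⁻¹ i + 1)))]

theorem idx (i : Fin 3) : i + 2 + 1 = i ∧ i + 1 + 2 = i ∧ i + 1 + 1 = i + 2 ∧
    i + 2 + 2 = i + 1 := by
  revert i
  decide

theorem swJ_swJ (hq : ∀ i, q i ≠ 0) (hH : H.det ≠ 0) :
    Eqv (fun x => swJ s (s ∘ q) (H.map s)ᵀ (swJ τ q H x)) (hur 1 (s * τ) (oa (s * τ))) := by
  have h0 : ∀ i, s (q i) ≠ 0 := fun i => (map_ne_zero s).2 (hq i)
  have h1 : (H.map s).det ≠ 0 := by
    rw [mp_det]
    exact (map_ne_zero s).2 hH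
  have h2 : (H.map s)⁻¹ * H.map s = 1 := nonsing_inv_mul _ h1.isUnit
  have h3 : (H.map s)ᵀ * (H.map s)ᵀ⁻¹ = 1 :=
    mul_nonsing_inv _ (by rw [det_transpose]; exact h1.isUnit)
  refine ⟨fun i => s (q (i + 1)) * s (q (i + 2)), fun i => mul_ne_zero (h0 _) (h0 _), fun x => ?_⟩
  rw [hur_one]
  refine j_ext (fun i => ?_) fun i => ?_
  · have a1 := h0 (i + 1)
    have a2 := h0 (i + 2)
    simp only [dg_swJ, Prcx.dg_sc, Prcx.dg_al, Function.comp_apply, map_mul, AlgEquiv.mul_apply,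
      (idx i).1, (idx i).2.1, (idx i).2.2.1, (idx i).2.2.2]
    field_simp
  · apply z_ext <;> simp only [Prcx.sl_sc, Prcx.sl_al, sl_swJ, (z_oa _ _).1, (z_oa _ _).2.1,
      (z_oa _ _).2.2.1, (z_oa _ _).2.2.2, zp_zorn, zm_zorn, za_zorn, zb_zorn, map_mul,
      cmp_mulVec, cmp_smul, mp_inv, mp_tr, zp_smul, zm_smul, za_smul, zb_smul, cmp_cmp,
      Function.comp_apply, AlgEquiv.mul_apply, transpose_transpose, mulVec_smul, mulVec_mulVec,
      h2, h3, one_mulVec]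
    · ring
    · ring

/-- Uniqueness of the parameters. -/
theorem swJ_unique (hH : H.det ≠ 0) (hH' : H'.det ≠ 0) (h : Eqv (swJ s q' H') (swJ s q H)) :
    ∃ t : Om, t ≠ 0 ∧ q' = t • q ∧ H' = t⁻¹ • H := by
  obtain ⟨z, hz, h⟩ := h
  have hs : ∀ u : Fin 3 → Om, s ∘ (⇑s⁻¹ ∘ u) = u := fun u => by
    rw [cmp_cmp, mul_inv_cancel, cmp_one]
  have h1 : ∀ i, q' (i + 1) = z i * q (i + 1) := fun i => by
    have := congrArg (fun y => zm (sl y i)) (h (ins i ep))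
    simpa [Prcx.sl_sc, sl_swJ, Prcx.sl_ins_self, zm_smul, zm_zorn, ep, zp_zorn] using this
  have h2 : ∀ i, H'ᵀ⁻¹ = z i • Hᵀ⁻¹ := fun i => ext_mulVec fun u => by
    have := congrArg (fun y => za (sl y i)) (h (ins i (zorn 0 0 0 (⇑s⁻¹ ∘ u))))
    simpa only [Prcx.sl_sc, sl_swJ, Prcx.sl_ins_self, za_smul, za_zorn, zb_zorn, hs,
      smul_mulVec] using this
  have h3 : Hᵀ⁻¹ ≠ 0 := fun h0 => by
    have := det_tinv H
    rw [h0, det_zero] at this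
    exact inv_ne_zero hH this.symm
  have h4 : ∀ i, z i = z 0 := fun i => smul_left_injective Om h3 ((h2 i).symm.trans (h2 0))
  refine ⟨z 0, hz 0, funext fun i => ?_, ?_⟩
  · have := h1 (i + 2)
    rwa [(idx i).1, h4] at this
  · have h5 := congrArg (fun A : Matrix (Fin 3) (Fin 3) Om => A⁻¹ᵀ) (h2 0)
    rwa [smul_inv0 (hz 0), nonsing_inv_nonsing_inv _ (by rw [det_transpose]; exact hH'.isUnit),
      nonsing_inv_nonsing_inv _ (by rw [det_transpose]; exact hH.isUnit), transpose_smul,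
      transpose_transpose, transpose_transpose] at h5

theorem ne_of_det (h : q 0 * q 1 * q 2 * H.det = -1) : (∀ i, q i ≠ 0) ∧ H.det ≠ 0 :=
  ⟨fun i h0 => by fin_cases i <;> simp_all, fun h0 => by simp [h0] at h⟩

theorem swJ_ins (i : Fin 3) :
    swJ s 1 (-1) (ins i em) = ins i ep ∧ swJ s 1 (-1) (ins i ep) = ins i em := by
  constructor <;> refine j_ext (fun j => ?_) fun j => ?_
  · simp [dg_swJ, Prcx.dg_ins]
  · by_cases h : j = i <;> apply z_ext <;>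
      simp [sl_swJ, Prcx.sl_ins, h, ep, em, zp_zorn, zm_zorn, za_zorn, zb_zorn, zp_zero, zm_zero,
        za_zero, zb_zero]
  · simp [dg_swJ, Prcx.dg_ins]
  · by_cases h : j = i <;> apply z_ext <;>
      simp [sl_swJ, Prcx.sl_ins, h, ep, em, zp_zorn, zm_zorn, za_zorn, zb_zorn, zp_zero, zm_zero,
        za_zero, zb_zero]

/-- The similarities which exchange the lines of the idempotents. -/
theorem sw_form (hf : Sim s f) (hp : Prm 1 f)
    (h : ∀ i, (∃ t : Om, f (ins i ep) = t • ins i em) ∧ ∃ t : Om, f (ins i em) = t • ins i ep) :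
    ∃ (q : Fin 3 → Om) (H : Matrix (Fin 3) (Fin 3) Om), q 0 * q 1 * q 2 * H.det = -1 ∧
      Eqv f (swJ s q H) := by
  have h0 : (1 : Fin 3 → Om) 0 * (1 : Fin 3 → Om) 1 * (1 : Fin 3 → Om) 2 *
      (-1 : Matrix (Fin 3) (Fin 3) Om).det = -1 := by
    rw [det_neg, det_one, Fintype.card_fin]
    norm_num
  obtain ⟨g, hg, g1, g2⟩ := (swJ_props s h0).1.inv
  have h1 := hf.comp hg
  rw [mul_inv_cancel] at h1
  have h2 : ∀ i, g (ee i) = ee i := fun i => by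
    have h3 : swJ s 1 (-1) (ee i) = ee i := by
      refine j_ext (fun j => ?_) fun j => ?_
      · by_cases h : j = i <;> simp [dg_swJ, Prcx.dg_ee, h]
      · apply z_ext <;> simp [sl_swJ, Prcx.sl_ee, zp_zorn, zm_zorn, za_zorn, zb_zorn, zp_zero,
          zm_zero, za_zero, zb_zero]
    rw [← h3, g1, h3]
  obtain ⟨z, V, R, hz, hV, hR, he⟩ := zst h1 (fun i => by simpa only [h2] using hp i)
    (fun i => by
      rw [← (swJ_ins (s := s) i).1, g1, (swJ_ins i).1]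
      exact (h i).2)
    (fun i => by
      rw [← (swJ_ins (s := s) i).2, g1, (swJ_ins i).2]
      exact (h i).1)
  have hR0 : R.det ≠ 0 := by
    rw [hR]
    exact mul_ne_zero (mul_ne_zero (hV 0) (hV 1)) (hV 2)
  refine ⟨V, -Rᵀ⁻¹, ?_, z, hz, fun x => ?_⟩
  · rw [det_neg, det_tinv, Fintype.card_fin, ← hR]
    field_simp
  · rw [← gl3_swJ hR0, ← he, g1]

end D4cx

open D4cx Pfx in
theorem d4c {D : FD} (h : D.OK) {d : Om} (hd : D.Qd d) (hs : D.Std d) (hw : D.Swp d) :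
    ∃ (q : Fin 3 → Om) (H : Matrix (Fin 3) (Fin 3) Om), D.NF d q H := by
  obtain ⟨s, hsG, hs1, hsd⟩ := hd.ex
  obtain ⟨q, H, hdet, hf⟩ := sw_form (h.sim s hsG) (hs1 ▸ h.prm s hsG) (hw s hsG hsd hs1)
  obtain ⟨hq, hH⟩ := ne_of_det hdet
  have hsw := swJ_props s hdet
  have std : ∀ σ ∈ D.G, σ d = d → Eqv (D.f σ) (hur (D.π σ) σ (oa σ)) := hs
  have coc : ∀ σ ∈ D.G, ∀ τ ∈ D.G, Eqv (fun x => D.f σ (D.f τ x)) (D.f (σ * τ)) := h.coc
  have hi : s⁻¹ d = -d := by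
    have h1 : s⁻¹ (s d) = d := s.symm_apply_apply d
    rw [hsd, map_neg] at h1
    exact (neg_eq_iff_eq_neg.1 h1)
  have hπi : D.π s⁻¹ = 1 := by
    have h1 := h.pmul s hsG s⁻¹ (D.G.inv_mem hsG)
    rw [mul_inv_cancel, h.one.1, hs1, one_mul] at h1
    exact h1.symm
  have hp := fun (π : Equiv.Perm (Fin 3)) (σ : Gq) => hur_props (π := π) (oa_semi σ) (oa_mul σ)
  have P1 : ∀ τ ∈ D.G, τ d = d → ∃ t : Om, t ≠ 0 ∧ (∀ i, τ (q i) = t * q (D.π τ i)) ∧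
      H.map τ = t⁻¹ • H := by
    intro τ hτ hτd
    have m1 : s⁻¹ * τ * s ∈ D.G := D.G.mul_mem (D.G.mul_mem (D.G.inv_mem hsG) hτ) hsG
    have m2 : (s⁻¹ * τ * s) d = d := by
      rw [AlgEquiv.mul_apply, AlgEquiv.mul_apply, hsd, map_neg, hτd, map_neg, hi, neg_neg]
    have m3 : D.π (s⁻¹ * τ * s) = D.π τ := by
      rw [h.pmul _ (D.G.mul_mem (D.G.inv_mem hsG) hτ) s hsG, h.pmul _ (D.G.inv_mem hsG) τ hτ, hπi,
        hs1, one_mul, mul_one]
    have m4 : τ * s = s * (s⁻¹ * τ * s) := by group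
    have e1 : Eqv (fun x => D.f τ (D.f s x)) fun x => hur (D.π τ) τ (oa τ) (swJ s q H x) :=
      ((std τ hτ hτd).right _).trans (hf.left (hp _ τ).1 fun i =>
        ⟨1, ((hp _ τ).2.2.2.1 i).trans (one_smul _ _).symm⟩)
    have e2 : Eqv (fun x => D.f s (D.f (s⁻¹ * τ * s) x)) fun x =>
        swJ s q H (hur (D.π τ) (s⁻¹ * τ * s) (oa (s⁻¹ * τ * s)) x) :=
      (hf.right _).trans ((m3 ▸ std _ m1 m2).left hsw.1 hsw.2)
    have e3 := coc s hsG _ m1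
    rw [← m4] at e3
    have e4 := ((e1.symm.trans (coc τ hτ s hsG)).trans e3.symm).trans e2
    have e5 := (e4.of_eq (fun x => (hur_swJ (D.π τ) m4 x).symm) fun _ => rfl).cancel
      (hp _ _).1.bij.2
    obtain ⟨t, ht, k1, k2⟩ := swJ_unique hH (by
      rw [mp_det]
      exact (map_ne_zero τ).2 hH) e5
    refine ⟨t, ht, fun i => ?_, k2⟩
    have k3 := congrFun k1 (D.π τ i)
    rwa [Prcx.inv_app] at k3
  have P2 : ∃ t : Om, t ≠ 0 ∧ (∀ i, s (q i) = t * q i) ∧ H.map s = t⁻¹ • Hᵀ := by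
    have m1 : (s * s) d = d := by rw [AlgEquiv.mul_apply, hsd, map_neg, hsd, neg_neg]
    have m2 : D.π (s * s) = 1 := by rw [h.pmul s hsG s hsG, hs1, one_mul]
    have e1 : Eqv (fun x => D.f s (D.f s x)) fun x => swJ s q H (swJ s q H x) :=
      (hf.right _).trans (hf.left hsw.1 hsw.2)
    have e2 := std _ (D.G.mul_mem hsG hsG) m1
    rw [m2] at e2
    have e3 := ((swJ_swJ hq hH).trans (e2.symm.trans (coc s hsG s hsG).symm)).trans e1
    obtain ⟨t, ht, k1, k2⟩ := swJ_unique hH (by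
      rw [det_transpose, mp_det]
      exact (map_ne_zero s).2 hH) (e3.cancel hsw.1.bij.2)
    refine ⟨t, ht, fun i => congrFun k1 i, ?_⟩
    rw [← transpose_smul, ← k2, transpose_transpose]
  have P : ∀ σ ∈ D.G, ∃ t : Om, t ≠ 0 ∧ (∀ i, σ (q i) = t * q (D.π σ i)) ∧
      (σ d = d → H.map σ = t⁻¹ • H) ∧ (σ d = -d → H.map σ = t⁻¹ • Hᵀ) := by
    intro σ hσ
    have hne : d ≠ -d := fun h0 => hd.d0 (by linear_combination h0 / 2)
    rcases eq_or_neg (hd.sq σ hσ) with h1 | h1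
    · obtain ⟨t, ht, k1, k2⟩ := P1 σ hσ h1
      exact ⟨t, ht, k1, fun _ => k2, fun h2 => absurd (h1.symm.trans h2) hne⟩
    · have m1 : σ * s⁻¹ ∈ D.G := D.G.mul_mem hσ (D.G.inv_mem hsG)
      obtain ⟨t, ht, k1, k2⟩ := P1 _ m1 (by rw [AlgEquiv.mul_apply, hi, map_neg, h1, neg_neg])
      obtain ⟨u, hu, k3, k4⟩ := P2
      rw [h.pmul σ hσ _ (D.G.inv_mem hsG), hπi, mul_one] at k1
      obtain ⟨τ, hτ⟩ : ∃ τ, τ = σ * s⁻¹ := ⟨_, rfl⟩
      rw [← hτ] at k1 k2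
      have m2 : σ = τ * s := by rw [hτ, inv_mul_cancel_right]
      refine ⟨τ u * t, mul_ne_zero ((map_ne_zero τ).2 hu) ht, fun i => ?_,
        fun h2 => absurd (h2.symm.trans h1) hne, fun _ => ?_⟩
      · rw [mul_assoc, ← k1, ← map_mul, ← k3, m2, AlgEquiv.mul_apply]
      · rw [m2, ← mp_mp, k4, mp_smul, mp_tr, k2, transpose_smul, smul_smul, map_inv₀, mul_inv]
  choose! l l0 l1 l2 l3 using P
  obtain ⟨w, hw0, hl⟩ := h90 h.opn l l0 (fun σ hσ τ hτ => by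
    refine mul_right_cancel₀ (hq (D.π (σ * τ) 0)) ?_
    rw [← l1 _ (D.G.mul_mem hσ hτ), AlgEquiv.mul_apply, l1 τ hτ, map_mul, l1 σ hσ,
      h.pmul σ hσ τ hτ, Equiv.Perm.mul_apply]
    ring) (by
    obtain ⟨N, hN, hN'⟩ := h.ker
    refine ⟨N ⊓ MulAction.stabilizer Gq (q 0), hN.inf (opn_stab _), fun σ hσ hG => ?_⟩
    have k1 := l1 σ hG 0
    have k2 : σ (q 0) = q 0 := hσ.2
    rw [((hN' σ).1 hσ.1).2, k2, Equiv.Perm.one_apply] at k1
    exact mul_right_cancel₀ (hq 0) (k1.symm.trans (one_mul _).symm))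
  have hl' : ∀ σ ∈ D.G, (σ w)⁻¹ * (l σ)⁻¹ = w⁻¹ := fun σ hσ => by
    rw [← mul_inv, mul_comm, hl σ hσ]
  refine ⟨w • q, w⁻¹ • H, hs, fun σ hσ h1 h2 => ?_, fun σ hσ i => ?_, fun σ hσ h1 => ?_,
    fun σ hσ h1 => ?_, ?_⟩
  · have m1 : s⁻¹ * σ ∈ D.G := D.G.mul_mem (D.G.inv_mem hsG) hσ
    have e1 := std _ m1 (by rw [AlgEquiv.mul_apply, h1, map_neg, hi, neg_neg])
    rw [h.pmul _ (D.G.inv_mem hsG) σ hσ, hπi, h2, mul_one] at e1
    have e2 := coc s hsG _ m1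
    have e3 := (e2.symm.trans ((hf.right _).trans (e1.left hsw.1 hsw.2))).of_eq (fun _ => rfl)
      fun x => (swJ_al x).symm
    rw [mul_inv_cancel_left] at e3
    exact e3.trans (Eqv.symm ⟨fun _ => w, fun _ => hw0, fun x => by
      rw [sc_const hw0, swJ_smul hw0]⟩)
  · rw [Pi.smul_apply, Pi.smul_apply, smul_eq_mul, smul_eq_mul, map_mul, l1 σ hσ, ← mul_assoc,
      mul_comm (σ w), hl σ hσ]
  · rw [mp_smul, l2 σ hσ h1, smul_smul, map_inv₀, hl' σ hσ]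
  · rw [mp_smul, l3 σ hσ h1, smul_smul, map_inv₀, hl' σ hσ, transpose_smul]
  · rw [det_smul, Fintype.card_fin, ← hdet]
    simp only [Pi.smul_apply, smul_eq_mul]
    field_simp

end Vale.Agent.P011Z.Cl

end
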