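import Vale.Agent.P011Z.Cl.ZD

/-!
Classification of the forms: block Lie.
-/

open Matrix Module

noncomputable section

namespace Vale.Agent.P011Z.Cl

open Vale.Agent.P011.D4 Vale.Agent.P011.D4.Oct Vale.Agent.P011.E6 Vale.Agent.P011.E6.Alb

theorem Lie.add {X Y : Module.End Om J} (hX : Lie X) (hY : Lie Y) : Lie (X + Y) := fun x => by
  rw [LinearMap.add_apply, tf_add_right, hX x, hY x, add_zero]

theorem Lie.smul {X : Module.End Om J} (hX : Lie X) (t : Om) : Lie (t • X) := fun x => by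
  rw [LinearMap.smul_apply, tf_smul_right, hX x, mul_zero]

theorem Lie.neg {X : Module.End Om J} (hX : Lie X) : Lie (-X) := fun x => by
  rw [LinearMap.neg_apply, tf_neg_right, hX x, neg_zero]

theorem Lie.tri {X : Module.End Om J} (hX : Lie X) (x y z : J) :
    tf (cross (X x) y) z + tf (cross x (X y)) z + tf (cross x y) (X z) = 0 := by
  have h1 := hX (x + y + z)
  have h2 := hX (x + y)
  have h3 := hX (x + z)
  have h4 := hX (y + z)
  have h5 := hX x
  have h6 := hX y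
  have h7 := hX z
  simp only [adj_add, map_add, cross_add_left, tf_add_left, tf_add_right] at h1 h2 h3 h4
  rw [tf_cross (X x), tf_comm (X x), tf_cross_comm x (X y)]
  linear_combination h1 - h2 - h3 - h4 + h5 + h6 + h7

theorem lie_of_tri {X : Module.End Om J}
    (h : ∀ x y z, tf (cross (X x) y) z + tf (cross x (X y)) z + tf (cross x y) (X z) = 0) :
    Lie X := fun x => by
  have h1 := h x x x
  rw [tf_cross (X x), tf_comm (X x), tf_cross_comm x (X x), Alb.cross_self, tf_smul_left] at h1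
  linear_combination (6⁻¹ : Om) * h1

theorem Lie.br {X Y : Module.End Om J} (hX : Lie X) (hY : Lie Y) : Lie (X * Y - Y * X) := fun x => by
  have h1 := hX.tri x x (Y x)
  have h2 := hY.tri x x (X x)
  rw [Alb.cross_self, tf_smul_left, cross_comm (X x)] at h1
  rw [Alb.cross_self, tf_smul_left, cross_comm (Y x), tf_cross_comm] at h2
  change tf (adj x) (X (Y x) - Y (X x)) = 0
  rw [tf_sub_right]
  linear_combination (2⁻¹ : Om) * h1 - (2⁻¹ : Om) * h2

theorem lie_vo {a b : J} (h : tf a b = 0) : Lie (voL a b) := fun x => by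
  change tf (adj x) (vo a b x) = 0
  rw [tf_adj_vo, h, mul_zero, zero_mul]

theorem Liex.of_cub {X : Module.End Om J} (h : ∀ x (t : Om), cub (x + t • X x) = cub x) :
    Lie X := fun x => by
  have h1 := h x 1
  have h2 := h x (-1)
  have h3 := h x 2
  rw [cub_add, adj_smul, tf_smul_right, tf_smul_right, cub_smul] at h1 h2 h3
  linear_combination h1 - (3⁻¹ : Om) * h2 - (6⁻¹ : Om) * h3

theorem Liex.alt (x : J) (u : I6 → Om) : u ⬝ᵥ (om6 x *ᵥ u) = 0 := by
  have h : u ⬝ᵥ (om6 x *ᵥ u) = -(u ⬝ᵥ (om6 x *ᵥ u)) := by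
    conv_lhs => rw [dotProduct_mulVec, ← mulVec_transpose, om6_alt, neg_mulVec, neg_dotProduct,
      dotProduct_comm]
  linear_combination (2⁻¹ : Om) * h

theorem lie_ep : Lie EpL := Liex.of_cub fun x t => by
  change cub (x + t • Ep x) = cub x
  rw [cub_six, cub_six x]
  simp only [Ep, six_lin.1.map_add, six_lin.2.1.map_add, six_lin.2.2.map_add, six_lin.1.map_smul,
    six_lin.2.1.map_smul, six_lin.2.2.map_smul, six_d6 _ _ ZDx.alt0, add_zero, smul_zero,
    add_dotProduct, smul_dotProduct, Liex.alt]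

theorem lie_em : Lie EmL := Liex.of_cub fun x t => by
  change cub (x + t • Em x) = cub x
  rw [cub_six, cub_six x]
  simp only [Em, six_lin.1.map_add, six_lin.2.1.map_add, six_lin.2.2.map_add, six_lin.1.map_smul,
    six_lin.2.1.map_smul, six_lin.2.2.map_smul, six_d6 _ _ ZDx.alt0, add_zero, smul_zero,
    mulVec_add, mulVec_smul, dotProduct_add, dotProduct_smul, Liex.alt]

/-- The Lie algebra is stable under transposition. -/
theorem Lie.tr {X Y : Module.End Om J} (hX : Lie X) (h : ∀ x y, tf (Y x) y = tf x (X y)) :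
    Lie Y := by
  have h1 : ∀ x, Y (adj x) = -cross x (X x) := fun x => eq_of_tf fun z => by
    have h2 := hX.tri x x z
    rw [Alb.cross_self, tf_smul_left, cross_comm (X x)] at h2
    rw [h, tf_neg_left]
    linear_combination (2⁻¹ : Om) * h2
  have h2 : ∀ x, tf (adj (adj x)) (Y (adj x)) = 0 := fun x => by
    rw [adj_adj, h1, tf_smul_left, tf_neg_right, ← tf_cross, Alb.cross_self, tf_smul_left, hX x]
    ring
  have h3 : ∀ y, cub y ^ 3 * tf (adj y) (Y y) = 0 := fun y => by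
    have h4 := h2 (adj y)
    rw [adj_adj y, adj_smul, map_smul, tf_smul_left, tf_smul_right] at h4
    linear_combination h4
  intro y
  by_contra hy
  have hi : PolM fun x : J => x := PolM.lin LinearMap.id
  have h5 : cub j1 ^ 3 ≠ 0 := by
    have : cub j1 = 1 := by simp [cub_eq, j1, dg_jm, sl_jm]
    rw [this, one_pow]
    exact one_ne_zero
  obtain ⟨x, hx⟩ := ((Pol.cub hi).pow 3).mul_ne (Pol.tf hi.adj (PolM.lin Y)) ⟨j1, h5⟩ ⟨y, hy⟩
  exact hx (h3 x)

theorem exists_tr (X : Module.End Om J) : ∃ Y : Module.End Om J,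
    (∀ x y, tf (Y x) y = tf x (X y)) ∧ LinearMap.trace Om J Y = LinearMap.trace Om J X ∧
      finrank Om (LinearMap.range Y) = finrank Om (LinearMap.range X) := by
  have := fd_J
  obtain ⟨B, hB⟩ := exists_tfL
  have hb : Function.Bijective B := by
    refine ⟨fun x y hxy => eq_of_tf fun z => by rw [← hB, ← hB, hxy], fun l => ?_⟩
    obtain ⟨z, hz⟩ := exists_tf l
    exact ⟨z, LinearMap.ext fun x => by rw [hB, hz, tf_comm]⟩
  let e : J ≃ₗ[Om] Module.Dual Om J := LinearEquiv.ofBijective B hb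
  refine ⟨e.symm.conj X.dualMap, fun x y => ?_, ?_, ?_⟩
  · rw [← hB, ← hB]
    change e (e.symm (X.dualMap (e x))) y = _
    rw [e.apply_symm_apply]
    rfl
  · rw [LinearMap.trace_conj']
    exact LinearMap.trace_transpose' X
  · rw [← LinearMap.finrank_range_dualMap_eq_finrank_range X, LinearEquiv.conj_apply,
      LinearMap.range_comp, LinearEquiv.range, Submodule.map_top, LinearMap.range_comp,
      LinearEquiv.finrank_map_eq]

theorem Lie.semi {σ : Gq} {f : J → J} (hf : Sim σ f) {X Y : Module.End Om J} (hX : Lie X)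
    (h : ∀ x, Y (f x) = f (X x)) : Lie Y := fun y => by
  obtain ⟨x, rfl⟩ := hf.bij.2 y
  obtain ⟨l, -, hl⟩ := hf.mult
  rw [h, adj_sim hf.toSemi hl, tf_smul_left, tf_comm, dag_tf hf.toSemi, tf_comm, hX x, map_zero,
    mul_zero]

theorem Liex.finrank_eq {V W : Type} [AddCommGroup V] [Module Om V] [AddCommGroup W]
    [Module Om W] {σ : Gq} {f : V → W} (hf : Semi σ f) : finrank Om V = finrank Om W :=
  congrArg Cardinal.toNat (rank_eq_of_equiv_equiv σ
    (AddEquiv.ofBijective (AddMonoidHom.mk' f hf.add) hf.bij) σ.bijective hf.smul)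

theorem trace_semi {V : Type} [AddCommGroup V] [Module Om V] [FiniteDimensional Om V] {σ : Gq}
    {f : V → V} (hf : Semi σ f) {X Y : Module.End Om V} (h : ∀ x, Y (f x) = f (X x)) :
    LinearMap.trace Om V Y = σ (LinearMap.trace Om V X) ∧
      finrank Om (LinearMap.range Y) = finrank Om (LinearMap.range X) := by
  classical
  obtain ⟨g, hg, h1, h2⟩ := hf.inv
  refine ⟨?_, (Liex.finrank_eq (σ := σ) (f := fun x : LinearMap.range X =>
    (⟨f x, x.2.elim fun u hu => ⟨f u, by rw [h, hu]⟩⟩ : LinearMap.range Y))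
    ⟨fun x y => Subtype.ext (hf.add x y), fun t x => Subtype.ext (hf.smul t x),
      fun x y hxy => Subtype.ext (hf.bij.1 (congrArg Subtype.val hxy)), ?_⟩).symm⟩
  · let b := Module.finBasis Om V
    let e : V ≃ₗ[Om] Fin (finrank Om V) → Om :=
      { toFun := fun y i => σ (b.repr (g y) i)
        invFun := fun c => f (b.equivFun.symm fun i => σ⁻¹ (c i))
        map_add' := fun x y => funext fun i => by simp [hg.add]
        map_smul' := fun t x => funext fun i => by simp [hg.smul]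
        left_inv := fun x => by
          have : ∀ t, σ⁻¹ (σ t) = t := σ.symm_apply_apply
          simp only [this]
          rw [← h2 x, h1]
          exact congrArg f (b.equivFun.symm_apply_apply _)
        right_inv := fun c => funext fun i => by
          simp only [h1]
          exact (congrArg σ (congrFun (b.equivFun.apply_symm_apply _) i)).trans
            (σ.apply_symm_apply _) }
    have h3 : ∀ x i, (Basis.ofEquivFun e).repr (f x) i = σ (b.repr x i) := fun x i => by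
      change σ (b.repr (g (f x)) i) = _
      rw [h1]
    have h4 : ∀ i, Basis.ofEquivFun e i = f (b i) := fun i =>
      (Basis.ofEquivFun e).ext_elem fun j => by
        rw [h3, Basis.repr_self, Basis.repr_self, Finsupp.single_apply]
        split_ifs <;> simp
    rw [LinearMap.trace_eq_matrix_trace Om (Basis.ofEquivFun e),
      LinearMap.trace_eq_matrix_trace Om b, trace, trace, map_sum]
    refine Finset.sum_congr rfl fun i _ => ?_
    rw [diag_apply, diag_apply, LinearMap.toMatrix_apply, LinearMap.toMatrix_apply, h4, h, h3]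
  · rintro ⟨_, u, rfl⟩
    refine ⟨⟨X (g u), g u, rfl⟩, Subtype.ext ?_⟩
    change f (X (g u)) = Y u
    rw [← h, h2]

theorem ex3_neg {X : Module.End Om J} (h3 : X * X * X = 0) :
    ex3 X * ex3 (-X) = 1 ∧ ex3 (-X) * ex3 X = 1 := by
  constructor <;>
  · simp only [ex3, mul_add, add_mul, mul_one, one_mul, neg_mul, mul_neg, neg_neg, smul_mul_assoc,
      mul_smul_comm, ← mul_assoc, h3, zero_mul, smul_zero, neg_zero]
    module

theorem Liex.ex3_apply (X : Module.End Om J) (x : J) :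
    ex3 X x = x + X x + (2⁻¹ : Om) • X (X x) := rfl

theorem Liex.six_cub (x : J) : 6 * cub x = tf (cross x x) x := by
  rw [Alb.cross_self, tf_smul_left, tf_adj_self]
  ring

theorem cub_ex3 {X : Module.End Om J} (hX : Lie X) (h3 : X * X * X = 0) (x : J) :
    cub (ex3 X x) = cub x := by
  have h0 : X (X (X x)) = 0 := LinearMap.congr_fun h3 x
  have hz : ∀ u : J, cross 0 u = 0 := fun u => by
    have := cross_smul_left (0 : Om) u u
    rwa [zero_smul, zero_smul] at this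
  have tz : ∀ u : J, tf 0 u = 0 := fun u => by
    have := tf_smul_left (0 : Om) u u
    rwa [zero_smul, zero_mul] at this
  have h1 := hX.tri x x x
  have h2 := hX.tri x x (X x)
  have h4 := hX.tri (X (X x)) x x
  have h5 := hX.tri x (X x) (X x)
  have h6 := hX.tri (X x) (X x) (X x)
  have h7 := hX.tri (X (X x)) x (X x)
  have h8 := hX.tri (X (X x)) x (X (X x))
  have h9 := hX.tri (X (X x)) (X x) (X (X x))
  have e1 := Liex.six_cub x
  have e2 := Liex.six_cub (ex3 X x)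
  rw [h0, hz, tz] at h4 h7
  rw [h0, hz, tz, tf_comm _ 0, tz] at h8 h9
  rw [Liex.ex3_apply] at e2 ⊢
  generalize X (X x) = c at *
  generalize X x = b at *
  simp only [cross_add_left, cross_add_right, cross_smul_left, cross_smul_right, tf_add_left,
    tf_add_right, tf_smul_left, tf_smul_right] at e2
  have s1 : ∀ u v w : J, tf (cross v u) w = tf (cross u v) w := fun u v w => by rw [cross_comm]
  have s2 : ∀ u v w : J, tf (cross u w) v = tf (cross u v) w := fun u v w => tf_cross_comm u w v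
  have s3 : ∀ u v w : J, tf (cross v w) u = tf (cross u v) w := fun u v w => by
    rw [tf_comm, ← tf_cross]
  simp only [s1 x b, s1 x c, s1 b c, s2 x x b, s2 x x c, s2 x b c, s2 b b c, s3 x b b, s3 x b c,
    s3 x c c, s3 b c c] at *
  linear_combination (6⁻¹ : Om) * (e2 - e1 + h1 + (3 / 2) * h2 + 2⁻¹ * h4 + h5 + 4⁻¹ * h6 +
    (3 / 4) * h7 + (3 / 4) * h8 + 8⁻¹ * h9)

theorem exists_ex3 {X : Module.End Om J} (hX : Lie X) (h3 : X * X * X = 0) :
    ∃ ψ : J ≃ₗ[Om] J, (∀ x, cub (ψ x) = cub x) ∧ (∀ x, ψ x = ex3 X x) ∧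
      ∀ x, ψ.symm x = ex3 (-X) x :=
  ⟨LinearEquiv.ofLinearMap (ex3 X) (ex3 (-X)) (ex3_neg h3).1 (ex3_neg h3).2, cub_ex3 hX h3,
    fun _ => rfl, fun _ => rfl⟩

variable {D : ED} {σ : Gq}

/-- Conjugation by a semilinear bijection. -/
theorem Liex.exists_conj {f : J → J} (hf : Semi σ f) (X : Module.End Om J) :
    ∃ Y : Module.End Om J, ∀ x, Y (f x) = f (X x) := by
  obtain ⟨g, hg, h1, -⟩ := hf.inv
  refine ⟨⟨⟨fun y => f (X (g y)), fun x y => ?_⟩, fun t x => ?_⟩, fun x => ?_⟩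
  · rw [hg.add, map_add, hf.add]
  · have : σ (σ⁻¹ t) = t := σ.apply_symm_apply t
    simp only [hg.smul, map_smul, hf.smul, this, RingHom.id_apply]
  · change f (X (g (f x))) = _
    rw [h1]

theorem Liex.exists_th (hf : Semi σ (D.f σ)) (X : Module.End Om J) : ∃ Y, D.Th σ X Y := by
  obtain ⟨Y, hY⟩ := Liex.exists_conj hf X
  by_cases hK : σ ∈ D.K
  · exact ⟨Y, fun _ => hY, fun h => absurd hK h⟩
  · obtain ⟨Z, hZ, -⟩ := exists_tr Y
    refine ⟨-Z, fun h => absurd h hK, fun _ x y => ?_⟩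
    rw [LinearMap.neg_apply, tf_neg_left, hZ, hY]

theorem Liex.th_unique (hf : Semi σ (D.f σ)) {X Y Z : Module.End Om J} (hY : D.Th σ X Y)
    (hZ : D.Th σ X Z) : Y = Z := by
  refine LinearMap.ext fun x => ?_
  by_cases hK : σ ∈ D.K
  · obtain ⟨u, rfl⟩ := hf.bij.2 x
    rw [hY.1 hK, hZ.1 hK]
  · refine eq_of_tf fun y => ?_
    obtain ⟨u, rfl⟩ := hf.bij.2 y
    rw [hY.2 hK, hZ.2 hK]

theorem Liex.th_eq (hf : Semi σ (D.f σ)) {X Y : Module.End Om J} (hY : D.Th σ X Y) :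
    D.th σ X = Y :=
  Liex.th_unique hf (Classical.epsilon_spec (Liex.exists_th hf X)) hY

theorem ED.OK.th (h : D.OK) (hσ : σ ∈ D.G) (X : Module.End Om J) : D.Th σ X (D.th σ X) :=
  Classical.epsilon_spec (Liex.exists_th (h.sim σ hσ).toSemi X)

theorem ED.OK.th_eq (h : D.OK) (hσ : σ ∈ D.G) {X Y : Module.End Om J} (hY : D.Th σ X Y) :
    D.th σ X = Y :=
  Liex.th_eq (h.sim σ hσ).toSemi hY

theorem Liex.ne {f g : J → J} {c : Om} (hf : Semi σ f) (h : ∀ x, f x = c • g x) : c ≠ 0 := by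
  rintro rfl
  have h1 : (j1 : J) ≠ 0 := fun h0 => one_ne_zero (congrArg Alb.d1 h0)
  exact hf.ne h1 (by rw [h, zero_smul])

theorem Liex.th_mul (h : D.OK) (hσ : σ ∈ D.G) {τ : Gq} (hτ : τ ∈ D.G) (X : Module.End Om J) :
    D.th σ (D.th τ X) = D.th (σ * τ) X := by
  have hs := (h.sim σ hσ).toSemi
  have ht := (h.sim τ hτ).toSemi
  have hY := h.th hτ X
  have hZ := h.th hσ (D.th τ X)
  have hi := h.ix σ hσ τ hτ
  refine (h.th_eq (D.G.mul_mem hσ hτ) ?_).symm
  by_cases hK : τ ∈ D.K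
  · obtain ⟨c, hc⟩ := h.coc σ hσ τ hK
    have c0 : c ≠ 0 := Liex.ne (hs.comp ht) hc
    refine ⟨fun h1 x => smul_right_injective J c0 ?_, fun h1 x y => mul_left_cancel₀ c0 ?_⟩
    · change c • _ = c • _
      rw [← map_smul, ← hc, ← hc, hZ.1 (by tauto), hY.1 hK]
    · rw [← tf_smul_right, ← hc, hZ.2 (by tauto), hY.1 hK, hc, tf_smul_right, mul_neg]
  · obtain ⟨c, hc⟩ := h.cod σ hσ τ hτ hK
    have c0 : c ≠ 0 := Liex.ne (hs.dag.comp ht) hc
    refine ⟨fun h1 x => smul_right_injective J c0 (eq_of_tf fun y => ?_),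
      fun h1 x y => mul_left_cancel₀ c0 ?_⟩
    · obtain ⟨u, rfl⟩ := hs.bij.2 y
      change tf (c • _) _ = tf (c • _) _
      rw [← map_smul, ← hc, ← hc, hZ.2 (by tauto), tf_comm, dag_tf hs, hY.2 hK, map_neg, neg_neg,
        tf_comm (dag _ _ _), dag_tf hs]
    · obtain ⟨u, rfl⟩ := hs.bij.2 x
      rw [← tf_smul_right, ← hc, hZ.1 (by tauto), dag_tf hs, hY.2 hK, map_neg, mul_neg,
        ← tf_smul_right, ← hc, dag_tf hs]

theorem Liex.th_one (h : D.OK) (X : Module.End Om J) : D.th 1 X = X := by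
  have hs := (h.sim 1 D.G.one_mem).toSemi
  obtain ⟨c, hc⟩ := h.coc 1 D.G.one_mem 1 D.K.one_mem
  have h1 : ∀ x, D.f 1 x = c • x := fun x => hs.bij.1 (by rw [hc, hs.smul, mul_one]; rfl)
  refine h.th_eq D.G.one_mem ⟨fun _ x => ?_, fun h2 => absurd D.K.one_mem h2⟩
  rw [h1, h1, map_smul]

theorem Liex.th_semi (h : D.OK) (hσ : σ ∈ D.G) : Semi σ (D.th σ) := by
  have hs := (h.sim σ hσ).toSemi
  refine ⟨fun X Y => h.th_eq hσ ⟨fun hK x => ?_, fun hK x y => ?_⟩,
    fun t X => h.th_eq hσ ⟨fun hK x => ?_, fun hK x y => ?_⟩,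
    Function.bijective_iff_has_inverse.2 ⟨D.th σ⁻¹, fun X => ?_, fun X => ?_⟩⟩
  · rw [LinearMap.add_apply, LinearMap.add_apply, hs.add, (h.th hσ X).1 hK, (h.th hσ Y).1 hK]
  · rw [LinearMap.add_apply, LinearMap.add_apply, hs.add, tf_add_left, tf_add_right,
      (h.th hσ X).2 hK, (h.th hσ Y).2 hK, neg_add]
  · rw [LinearMap.smul_apply, LinearMap.smul_apply, hs.smul, (h.th hσ X).1 hK]
  · rw [LinearMap.smul_apply, LinearMap.smul_apply, hs.smul, tf_smul_left, tf_smul_right,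
      (h.th hσ X).2 hK, mul_neg]
  · rw [Liex.th_mul h (D.G.inv_mem hσ) hσ, inv_mul_cancel, Liex.th_one h]
  · rw [Liex.th_mul h hσ (D.G.inv_mem hσ), mul_inv_cancel, Liex.th_one h]

theorem ED.OK.ta (h : D.OK) : TA D.G D.th := by
  refine ⟨h.opn.mono h.le, fun σ hσ => Liex.th_semi h hσ,
    fun σ hσ τ hτ X => Liex.th_mul h hσ hτ X, fun X => ?_⟩
  have := fd_J
  have hs : ∀ σ ∈ D.K, Semi σ (D.f σ) := fun σ hσ => (h.sim σ (h.le hσ)).toSemi
  let b := Module.finBasis Om J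
  obtain ⟨H, hH, h1⟩ := Smo.unif hs h.smo b
  obtain ⟨H', hH', h2⟩ := Smo.unif hs h.smo fun i => X (b i)
  refine ⟨H ⊓ H' ⊓ D.K, (hH.inf hH').inf h.opn, fun σ hσ hG =>
    h.th_eq hG ⟨fun hK x => ?_, fun hK => absurd hσ.2 hK⟩⟩
  rw [← b.sum_repr x]
  simp only [map_sum, map_smul, (hs σ hK).sum, (hs σ hK).smul, h1 σ hσ.1.1 hK, h2 σ hσ.1.2 hK]

theorem ED.OK.th_lie (h : D.OK) (hσ : σ ∈ D.G) {X : Module.End Om J} (hX : Lie X) :
    Lie (D.th σ X) := by
  by_cases hK : σ ∈ D.K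
  · exact hX.semi (h.sim σ hσ) ((h.th hσ X).1 hK)
  · obtain ⟨Y, hY⟩ := Liex.exists_conj (h.sim σ hσ).toSemi X
    refine (hX.semi (h.sim σ hσ) hY).neg.tr fun x y => ?_
    obtain ⟨u, rfl⟩ := (h.sim σ hσ).bij.2 y
    rw [(h.th hσ X).2 hK, LinearMap.neg_apply, tf_neg_right, hY]

theorem ED.OK.th_mul (h : D.OK) (hσ : σ ∈ D.G) (X Y : Module.End Om J) :
    (σ ∈ D.K → D.th σ (X * Y) = D.th σ X * D.th σ Y) ∧
      (σ ∉ D.K → D.th σ (X * Y) = -(D.th σ Y * D.th σ X)) := by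
  refine ⟨fun hK => h.th_eq hσ ⟨fun _ x => ?_, fun h1 => absurd hK h1⟩,
    fun hK => h.th_eq hσ ⟨fun h1 => absurd h1 hK, fun _ x y => ?_⟩⟩
  · rw [Module.End.mul_apply, Module.End.mul_apply, (h.th hσ Y).1 hK, (h.th hσ X).1 hK]
  · rw [LinearMap.neg_apply, Module.End.mul_apply, Module.End.mul_apply, tf_neg_left,
      (h.th hσ Y).2 hK, (h.th hσ X).2 hK, neg_neg]

theorem ED.OK.th_br (h : D.OK) (hσ : σ ∈ D.G) (X Y : Module.End Om J) :
    D.th σ (X * Y - Y * X) = D.th σ X * D.th σ Y - D.th σ Y * D.th σ X := by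
  rw [(Liex.th_semi h hσ).sub]
  by_cases hK : σ ∈ D.K
  · rw [(h.th_mul hσ X Y).1 hK, (h.th_mul hσ Y X).1 hK]
  · rw [(h.th_mul hσ X Y).2 hK, (h.th_mul hσ Y X).2 hK]
    abel

theorem Liex.th_tr (h : D.OK) (hσ : σ ∈ D.G) (X : Module.End Om J) :
    (σ ∈ D.K → LinearMap.trace Om J (D.th σ X) = σ (LinearMap.trace Om J X)) ∧
      (σ ∉ D.K → LinearMap.trace Om J (D.th σ X) = -σ (LinearMap.trace Om J X)) ∧
      finrank Om (LinearMap.range (D.th σ X)) = finrank Om (LinearMap.range X) := by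
  have := fd_J
  have hs := (h.sim σ hσ).toSemi
  by_cases hK : σ ∈ D.K
  · have h1 := trace_semi hs ((h.th hσ X).1 hK)
    exact ⟨fun _ => h1.1, fun h2 => absurd hK h2, h1.2⟩
  · obtain ⟨Y, hY⟩ := Liex.exists_conj hs X
    obtain ⟨Z, hZ, h1, h2⟩ := exists_tr Y
    have h3 := trace_semi hs hY
    have h4 : D.th σ X = -Z := h.th_eq hσ ⟨fun h5 => absurd h5 hK, fun _ x y => by
      rw [LinearMap.neg_apply, tf_neg_left, hZ, hY]⟩
    refine ⟨fun h5 => absurd h5 hK, fun _ => ?_, ?_⟩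
    · rw [h4, map_neg, h1, h3.1]
    · rw [h4, LinearMap.range_neg, h2, h3.2]

theorem ED.OK.th_trace (h : D.OK) (hσ : σ ∈ D.G) (X Y : Module.End Om J) :
    LinearMap.trace Om J (D.th σ X * D.th σ Y) = σ (LinearMap.trace Om J (X * Y)) := by
  by_cases hK : σ ∈ D.K
  · rw [← (h.th_mul hσ X Y).1 hK, (Liex.th_tr h hσ _).1 hK]
  · have := fd_J
    have h1 := (Liex.th_tr h hσ (Y * X)).2.1 hK
    rw [(h.th_mul hσ Y X).2 hK, map_neg, neg_inj] at h1
    rw [h1, LinearMap.trace_mul_comm]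

theorem ED.OK.th_rank (h : D.OK) (hσ : σ ∈ D.G) (X : Module.End Om J) :
    finrank Om (LinearMap.range (D.th σ X)) = finrank Om (LinearMap.range X) :=
  (Liex.th_tr h hσ X).2.2

theorem Liex.ex3_comm {f : J → J} (hf : Semi σ f) {X Y : Module.End Om J}
    (h : ∀ x, Y (f x) = f (X x)) (x : J) : ex3 Y (f x) = f (ex3 X x) := by
  rw [Liex.ex3_apply, Liex.ex3_apply, hf.add, hf.add, hf.smul, h, h, map_inv₀, map_ofNat]

theorem Liex.ex3_tf {f : J → J} (hf : Semi σ f) {X Y : Module.End Om J}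
    (h : ∀ x y, tf (Y x) (f y) = tf x (f (X y))) (x y : J) :
    tf (ex3 Y x) (f y) = tf x (f (ex3 X y)) := by
  rw [Liex.ex3_apply, Liex.ex3_apply, hf.add, hf.add, hf.smul, tf_add_left, tf_add_left,
    tf_smul_left, tf_add_right, tf_add_right, tf_smul_right, h, h, h, map_inv₀, map_ofNat]

theorem ED.OK.th_ad (h : D.OK) (hσ : σ ∈ D.G) (X E : Module.End Om J) :
    D.th σ (ex3 X * E * ex3 (-X)) = ex3 (D.th σ X) * D.th σ E * ex3 (-D.th σ X) := by
  have hs := (h.sim σ hσ).toSemi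
  refine h.th_eq hσ ⟨fun hK x => ?_, fun hK x y => ?_⟩
  · have h1 := (h.th hσ X).1 hK
    have h2 : ∀ x, (-D.th σ X) (D.f σ x) = D.f σ ((-X) x) := fun x => by
      rw [LinearMap.neg_apply, LinearMap.neg_apply, h1, hs.neg]
    simp only [Module.End.mul_apply]
    rw [Liex.ex3_comm hs h2, (h.th hσ E).1 hK, Liex.ex3_comm hs h1]
  · have h1 : ∀ x y, tf (D.th σ X x) (D.f σ y) = tf x (D.f σ ((-X) y)) := fun x y => by
      rw [LinearMap.neg_apply, hs.neg, tf_neg_right, (h.th hσ X).2 hK]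
    have h2 : ∀ x y, tf ((-D.th σ X) x) (D.f σ y) = tf x (D.f σ (X y)) := fun x y => by
      rw [LinearMap.neg_apply, tf_neg_left, (h.th hσ X).2 hK, neg_neg]
    simp only [Module.End.mul_apply]
    rw [Liex.ex3_tf hs h1, (h.th hσ E).2 hK, Liex.ex3_tf hs h2]

theorem ED.OK.th_vo (h : D.OK) (hσ : σ ∈ D.G) (a b : J) :
    (σ ∈ D.K → D.th σ (voL a b) = voL (D.f σ a) (dag σ (D.f σ) b)) ∧
      (σ ∉ D.K → D.th σ (voL a b) = -voL (dag σ (D.f σ) b) (D.f σ a)) := by
  refine ⟨fun hK => h.th_eq hσ ⟨fun _ x => vo_sim (h.sim σ hσ) a b x, fun h1 => absurd hK h1⟩,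
    fun hK => h.th_eq hσ ⟨fun h1 => absurd h1 hK, fun _ x y => ?_⟩⟩
  change tf (-vo _ _ x) _ = -tf x (D.f σ (vo a b y))
  rw [tf_neg_left, tf_vo, vo_sim (h.sim σ hσ)]

theorem ED.OK.th_conj (h : D.OK) (hσ : σ ∈ D.G) (ψ : J ≃ₗ[Om] J) (X : Module.End Om J) :
    (D.conj ψ).th σ (ψ.symm.conj X) = ψ.symm.conj (D.th σ X) := by
  have hs := (h.sim σ hσ).toSemi
  have h0 := hs.comp (semi_lin ψ)
  by_cases hK : σ ∈ D.K
  · have h1 : (D.conj ψ).f σ = fun x => ψ.symm (D.f σ (ψ x)) := funext fun x => if_pos hK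
    refine Liex.th_eq ?_ ⟨fun _ x => ?_, fun h2 => absurd hK h2⟩
    · have := (semi_lin ψ.symm).comp h0
      rwa [one_mul, mul_one, ← h1] at this
    · simp only [h1, LinearEquiv.conj_apply_apply, LinearEquiv.symm_symm,
        LinearEquiv.apply_symm_apply, (h.th hσ X).1 hK]
  · have h1 : (D.conj ψ).f σ = fun x => dag 1 ψ.symm (D.f σ (ψ x)) := funext fun x => if_neg hK
    refine Liex.th_eq ?_ ⟨fun h2 => absurd h2 hK, fun _ x y => ?_⟩
    · have := (semi_lin ψ.symm).dag.comp h0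
      rwa [one_mul, mul_one, ← h1] at this
    · simp only [h1, LinearEquiv.conj_apply_apply, LinearEquiv.symm_symm, tf_dag_symm,
        LinearEquiv.apply_symm_apply, (h.th hσ X).2 hK]

theorem Liex.uni {H : Subgroup (J ≃ₗ[Om] J)} {X : Module.End Om J} (h3 : X * X * X = 0)
    (h0 : X ≠ 0) {ψ : J ≃ₗ[Om] J} (h : ∀ x, ψ x = ex3 X x) (hH : ψ ∈ H) : ¬ AniL H := by
  intro ha
  have e : ∀ x, X (X (X x)) = 0 := LinearMap.congr_fun h3
  have h1 : ∀ x, ψ x - x = X x + (2⁻¹ : Om) • X (X x) := fun x => by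
    rw [h, Liex.ex3_apply]
    abel
  have h2 := ha ψ hH ⟨3, fun x => by simp [h1, e]⟩
  refine h0 (LinearMap.ext fun x => ?_)
  have h4 : ∀ x, X x + (2⁻¹ : Om) • X (X x) = 0 := fun x => by
    rw [← h1, h2]
    exact sub_self x
  have h5 := h4 (X x)
  have h6 := h4 x
  rw [e, smul_zero, add_zero] at h5
  rwa [h5, smul_zero, add_zero] at h6

/-- A rational nilpotent element gives a unipotent element. -/
theorem ED.OK.uni (h : D.OK) {X : Module.End Om J} (hX : Lie X) (h3 : X * X * X = 0) (h0 : X ≠ 0)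
    (hf : ∀ σ ∈ D.G, D.Th σ X X) : ¬ AniL D.grp := by
  obtain ⟨ψ, h1, h2, h4⟩ := exists_ex3 hX h3
  refine Liex.uni h3 h0 h2 ⟨h1, fun σ hσ x => ?_, fun σ hσ hK x y => ?_⟩
  · rw [h2, h2, Liex.ex3_comm (h.sim σ (h.le hσ)).toSemi ((hf σ (h.le hσ)).1 hσ)]
  · have hs := (h.sim σ hσ).toSemi
    have h5 : ∀ x y, tf (X x) (D.f σ y) = tf x (D.f σ ((-X) y)) := fun x y => by
      rw [LinearMap.neg_apply, hs.neg, tf_neg_right, (hf σ hσ).2 hK]
    rw [h2 x, Liex.ex3_tf hs h5, ← h4, ψ.symm_apply_apply]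

theorem FD.uni {D : FD} (h : D.OK) {X : Module.End Om J} (hX : Lie X) (h3 : X * X * X = 0)
    (h0 : X ≠ 0) (he : ∀ i, X (ee i) = 0) (hf : ∀ σ ∈ D.G, ∀ x, X (D.f σ x) = D.f σ (X x)) :
    ¬ AniL D.grp := by
  obtain ⟨ψ, h1, h2, -⟩ := exists_ex3 hX h3
  refine Liex.uni h3 h0 h2 ⟨h1, fun i => ?_, fun σ hσ x => ?_⟩
  · rw [h2, Liex.ex3_apply, he, map_zero, smul_zero, add_zero, add_zero]
  · rw [h2, h2, Liex.ex3_comm (h.sim σ hσ).toSemi (hf σ hσ)]

end Vale.Agent.P011Z.Cl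

end
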