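import Vale.Agent.P011Z.Cl.ZD
import Vale.Agent.P011Z.Cl.Pf.B

/-!
Classification of the forms: block Pf.
-/

open Matrix Module

noncomputable section

namespace Vale.Agent.P011Z.Cl

open Vale.Agent.P011.D4 Vale.Agent.P011.D4.Oct Vale.Agent.P011.E6 Vale.Agent.P011.E6.Alb

open Pfx

theorem Pfx.pf_eq {w : Matrix I6 I6 Om} (hw : wᵀ = -w) : pf w = pf6 w := by
  have h2 := alt_apply hw (2, 0) (0, 0)
  have h3 := alt_apply hw (2, 1) (0, 0)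
  have h4 := alt_apply hw (2, 0) (0, 1)
  have h5 := alt_apply hw (2, 1) (0, 1)
  have m1 := fun x y => (z_mul x y).1
  have m2 := fun x y => (z_mul x y).2.1
  have m3 := fun x y => (z_mul x y).2.2.1
  have m4 := fun x y => (z_mul x y).2.2.2
  have z1 := fun p m a b => (z_zorn p m a b).1
  have z2 := fun p m a b => (z_zorn p m a b).2.1
  have z3 := fun p m a b => (z_zorn p m a b).2.2.1
  have z4 := fun p m a b => (z_zorn p m a b).2.2.2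
  simp only [pf, d6, cub_eq, dg_jm, sl_jm, norm_z, bil_z, z_one, m1, m2, m3, m4, z1, z2, z3, z4,
    Fin.sum_univ_three, pf6]
  simp [h2, h3, h4, h5, crossProduct, dotProduct, Fin.sum_univ_three]
  ring

theorem pf_sq {w : Matrix I6 I6 Om} (hw : wᵀ = -w) : pf w ^ 2 = w.det := by
  rw [pf_eq hw, pf6_sq hw]

theorem pf_congr (P : Matrix I6 I6 Om) {w : Matrix I6 I6 Om} (hw : wᵀ = -w) :
    pf (Pᵀ * w * P) = P.det * pf w := by
  rw [pf_eq hw, pf_eq (alt_congr P hw), pf6_congr P hw]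

variable {σ : Gq} {B : Matrix (Fin 2) (Fin 2) Om} {P : Matrix I6 I6 Om} {μ : Om}

theorem six_gl6 (x : J) : up (gl6 σ B P μ x) = P *ᵥ (B 0 0 • (σ ∘ up x) + B 0 1 • (σ ∘ um x)) ∧
    om6 (gl6 σ B P μ x) = μ • (Pᵀ⁻¹ * (om6 x).map σ * P⁻¹) ∧
    um (gl6 σ B P μ x) = P *ᵥ (B 1 0 • (σ ∘ up x) + B 1 1 • (σ ∘ um x)) :=
  six_d6 _ _ (alt_mid μ P (mp_alt σ (om6_alt x)))

theorem Pfx.dets (hμ : μ ≠ 0) (h : μ ^ 2 = B.det * P.det) : B.det ≠ 0 ∧ P.det ≠ 0 :=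
  mul_ne_zero_iff.1 (h ▸ pow_ne_zero 2 hμ)

theorem Pfx.cub_six' (x : J) : cub x = pf6 (om6 x) + up x ⬝ᵥ (om6 x *ᵥ um x) := by
  rw [cub_six, pf_eq (om6_alt x)]

theorem Pfx.pf6_mid (hP : P.det ≠ 0) (μ : Om) {w : Matrix I6 I6 Om} (hw : wᵀ = -w) :
    P.det * pf6 (μ • (Pᵀ⁻¹ * w * P⁻¹)) = μ ^ 3 * pf6 w := by
  rw [pf6_smul, ← transpose_nonsing_inv, pf6_congr _ hw, det_nonsing_inv, Ring.inverse_eq_inv']
  field_simp

theorem Pfx.cub_gl6 (hμ : μ ≠ 0) (h : μ ^ 2 = B.det * P.det) (x : J) :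
    cub (gl6 σ B P μ x) = μ * B.det * σ (cub x) := by
  obtain ⟨-, hP⟩ := dets hμ h
  have hw := mp_alt σ (om6_alt x)
  have h1 := pf6_mid hP μ hw
  rw [cub_six', cub_six', (six_gl6 x).1, (six_gl6 x).2.1, (six_gl6 x).2.2, dot_congr, map_add,
    ← pf6_map, cmp_dot, cmp_mulVec, Matrix.mul_smul, Matrix.smul_mul, mid_cancel hP, smul_mulVec,
    dotProduct_smul, dot_comb, alt_dot_self hw, alt_dot_self hw, alt_dot hw (σ ∘ up x), det_fin_two,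
    smul_eq_mul]
  rw [det_fin_two] at h
  refine mul_left_cancel₀ hP ?_
  linear_combination h1 + μ * pf6 ((om6 x).map σ) * h

theorem gl6_gl6 (τ : Gq) (C : Matrix (Fin 2) (Fin 2) Om) (Q : Matrix I6 I6 Om) (ν : Om) (x : J) :
    gl6 σ B P μ (gl6 τ C Q ν x) =
      gl6 (σ * τ) (B * C.map σ) (P * Q.map σ) (μ * σ ν) x := by
  refine six_ext ?_ ?_ ?_
  · rw [(six_gl6 _).1, (six_gl6 x).1, (six_gl6 x).1, (six_gl6 x).2.2]
    simp only [cmp_mulVec, cmp_add, cmp_smul, cmp_cmp, ← mulVec_mulVec, mul_apply,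
      Fin.sum_univ_two, map_apply, mulVec_add, mulVec_smul]
    module
  · rw [(six_gl6 _).2.1, (six_gl6 x).2.1, (six_gl6 x).2.1]
    simp only [mp_smul, mp_mul, mp_inv, mp_tr, mp_mp, transpose_mul, Matrix.mul_inv_rev,
      Matrix.mul_smul, Matrix.smul_mul, smul_smul, Matrix.mul_assoc]
  · rw [(six_gl6 _).2.2, (six_gl6 x).1, (six_gl6 x).2.2, (six_gl6 x).2.2]
    simp only [cmp_mulVec, cmp_add, cmp_smul, cmp_cmp, ← mulVec_mulVec, mul_apply,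
      Fin.sum_univ_two, map_apply, mulVec_add, mulVec_smul]
    module

theorem gl6_one (x : J) : gl6 σ 1 1 1 x = aj σ x := by
  refine six_ext ?_ ?_ ?_
  · rw [(six_gl6 x).1, (six_aj σ x).1]
    simp
  · rw [(six_gl6 x).2.1, (six_aj σ x).2.1]
    simp
  · rw [(six_gl6 x).2.2, (six_aj σ x).2.2]
    simp

theorem Pfx.aj_one (x : J) : aj 1 x = x :=
  six_ext (six_aj 1 x).1 (six_aj 1 x).2.1 (six_aj 1 x).2.2

theorem Pfx.aj_aj (σ τ : Gq) (x : J) : aj σ (aj τ x) = aj (σ * τ) x := by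
  rw [← gl6_one, ← gl6_one, ← gl6_one, gl6_gl6, mp_id, mp_id, map_one, mul_one, mul_one, mul_one]

theorem Pfx.sim_aj (σ : Gq) : Sim σ (aj σ) := (al_props (oa_semi σ) (oa_mul σ)).1

theorem Pfx.gl6_add (x y : J) : gl6 σ B P μ (x + y) = gl6 σ B P μ x + gl6 σ B P μ y := by
  refine six_ext ?_ ?_ ?_
  · rw [six_lin.1.map_add, (six_gl6 _).1, (six_gl6 _).1, (six_gl6 _).1, six_lin.1.map_add,
      six_lin.2.1.map_add]
    simp only [cmp_add, mulVec_add, mulVec_smul]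
    module
  · rw [six_lin.2.2.map_add, (six_gl6 _).2.1, (six_gl6 _).2.1, (six_gl6 _).2.1,
      six_lin.2.2.map_add, mp_add, Matrix.mul_add, Matrix.add_mul, smul_add]
  · rw [six_lin.2.1.map_add, (six_gl6 _).2.2, (six_gl6 _).2.2, (six_gl6 _).2.2, six_lin.1.map_add,
      six_lin.2.1.map_add]
    simp only [cmp_add, mulVec_add, mulVec_smul]
    module

theorem Pfx.gl6_smul (t : Om) (x : J) : gl6 σ B P μ (t • x) = σ t • gl6 σ B P μ x := by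
  refine six_ext ?_ ?_ ?_
  · rw [six_lin.1.map_smul, (six_gl6 _).1, (six_gl6 _).1, six_lin.1.map_smul,
      six_lin.2.1.map_smul]
    simp only [cmp_smul, mulVec_add, mulVec_smul]
    module
  · rw [six_lin.2.2.map_smul, (six_gl6 _).2.1, (six_gl6 _).2.1,
      six_lin.2.2.map_smul, mp_smul, Matrix.mul_smul, Matrix.smul_mul, smul_comm]
  · rw [six_lin.2.1.map_smul, (six_gl6 _).2.2, (six_gl6 _).2.2, six_lin.1.map_smul,
      six_lin.2.1.map_smul]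
    simp only [cmp_smul, mulVec_add, mulVec_smul]
    module

theorem Pfx.gl6_inv (hμ : μ ≠ 0) (h : μ ^ 2 = B.det * P.det) (x : J) :
    gl6 1 B⁻¹ P⁻¹ μ⁻¹ (gl6 1 B P μ x) = x ∧ gl6 1 B P μ (gl6 1 B⁻¹ P⁻¹ μ⁻¹ x) = x := by
  obtain ⟨hB, hP⟩ := dets hμ h
  constructor
  · rw [gl6_gl6, mp_one, mp_one, nonsing_inv_mul _ (Ne.isUnit hB), nonsing_inv_mul _ (Ne.isUnit hP),
      AlgEquiv.one_apply, inv_mul_cancel₀ hμ, gl6_one, mul_one, aj_one]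
  · rw [gl6_gl6, mp_one, mp_one, mul_nonsing_inv _ (Ne.isUnit hB), mul_nonsing_inv _ (Ne.isUnit hP),
      AlgEquiv.one_apply, mul_inv_cancel₀ hμ, gl6_one, mul_one, aj_one]

theorem Pfx.gl6_aj (x : J) : gl6 1 B P μ (aj σ x) = gl6 σ B P μ x := by
  rw [← gl6_one, gl6_gl6, mp_one, mp_one, map_one, mul_one, mul_one, mul_one, one_mul]

theorem gl6_props (hμ : μ ≠ 0) (h : μ ^ 2 = B.det * P.det) : Sim σ (gl6 σ B P μ) ∧
    ∀ x, cub (gl6 σ B P μ x) = μ * B.det * σ (cub x) := by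
  refine ⟨⟨⟨gl6_add, gl6_smul, ?_⟩, _, mul_ne_zero hμ (dets hμ h).1, cub_gl6 hμ h⟩, cub_gl6 hμ h⟩
  have h1 : gl6 σ B P μ = gl6 1 B P μ ∘ aj σ := funext fun x => (gl6_aj x).symm
  rw [h1]
  exact (Function.bijective_iff_has_inverse.2 ⟨gl6 1 B⁻¹ P⁻¹ μ⁻¹, fun x => (gl6_inv hμ h x).1,
    fun x => (gl6_inv hμ h x).2⟩).comp (sim_aj σ).bij

theorem exists_gl6 (hμ : μ ≠ 0) (h : μ ^ 2 = B.det * P.det) : ∃ ψ : J ≃ₗ[Om] J, Sim 1 ψ ∧
    (∀ x, ψ x = gl6 1 B P μ x) ∧ ∀ x, ψ.symm x = gl6 1 B⁻¹ P⁻¹ μ⁻¹ x := by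
  have h1 : Sim 1 (gl6 1 B P μ) := (gl6_props hμ h).1
  obtain ⟨ψ, hψ⟩ := h1.toSemi.lin
  refine ⟨ψ, (funext hψ : ⇑ψ = gl6 1 B P μ) ▸ h1, hψ, fun x => ?_⟩
  rw [ψ.symm_apply_eq, hψ, (gl6_inv hμ h x).2]

theorem dag_gl6 (hμ : μ ≠ 0) (h : μ ^ 2 = B.det * P.det) (x : J) :
    dag σ (gl6 σ B P μ) x = gl6 σ (B.det⁻¹ • B) (-(j6 * Pᵀ⁻¹ * j6)) μ⁻¹ x := by
  obtain ⟨hB, hP⟩ := dets hμ h
  obtain ⟨j1, j2, -, j4⟩ := j6_props
  have p1 : Pᵀ * Pᵀ⁻¹ = 1 := mul_nonsing_inv _ (by rw [det_transpose]; exact Ne.isUnit hP)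
  have p2 : Pᵀ⁻¹ * Pᵀ = 1 := nonsing_inv_mul _ (by rw [det_transpose]; exact Ne.isUnit hP)
  have p3 : P⁻¹ * P = 1 := nonsing_inv_mul _ (Ne.isUnit hP)
  have j3 : ∀ A : Matrix I6 I6 Om, j6 * (j6 * A) = -A := fun A => by
    rw [← Matrix.mul_assoc, j2, Matrix.neg_mul, Matrix.one_mul]
  have q1 : Pᵀ * j6 * -(j6 * Pᵀ⁻¹ * j6) = j6 := by
    simp only [Matrix.mul_neg, Matrix.mul_assoc, j3, neg_neg]
    rw [← Matrix.mul_assoc, p1, Matrix.one_mul]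
  have q2 : (-(j6 * Pᵀ⁻¹ * j6))⁻¹ = -(j6 * Pᵀ * j6) := by
    refine inv_eq_right_inv ?_
    simp only [Matrix.mul_neg, Matrix.neg_mul, Matrix.mul_assoc, j3, neg_neg]
    rw [← Matrix.mul_assoc Pᵀ⁻¹, p2, Matrix.one_mul, j2, neg_neg]
  have q3 : (-(j6 * Pᵀ⁻¹ * j6))ᵀ⁻¹ = -(j6 * P * j6) := by
    rw [← transpose_nonsing_inv, q2]
    simp [j1, Matrix.mul_assoc]
  refine dag_eq (gl6_props hμ h).1.toSemi fun y => ?_
  have q4 : (j6 * (μ • (Pᵀ⁻¹ * (om6 y).map σ * P⁻¹)) * j6 *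
      (μ⁻¹ • (-(j6 * P * j6) * (om6 x).map σ * -(j6 * Pᵀ * j6)))).trace =
      (j6 * (om6 y).map σ * j6 * (om6 x).map σ).trace := by
    have e1 : j6 * (μ • (Pᵀ⁻¹ * (om6 y).map σ * P⁻¹)) * j6 *
        (μ⁻¹ • (-(j6 * P * j6) * (om6 x).map σ * -(j6 * Pᵀ * j6))) =
        (j6 * Pᵀ⁻¹) * ((om6 y).map σ * j6 * (om6 x).map σ * -(j6 * Pᵀ * j6)) := by
      simp only [Matrix.mul_smul, Matrix.smul_mul, smul_smul, inv_mul_cancel₀ hμ, one_smul,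
        Matrix.mul_neg, Matrix.neg_mul, Matrix.mul_assoc, j3, neg_neg]
      rw [← Matrix.mul_assoc P⁻¹, p3, Matrix.one_mul]
    rw [e1, trace_mul_comm]
    simp only [Matrix.mul_neg, Matrix.neg_mul, Matrix.mul_assoc, j3, neg_neg, p1, Matrix.mul_one]
    rw [trace_mul_comm j6]
    simp only [Matrix.mul_assoc]
  rw [tf_six, tf_six, (six_gl6 y).1, (six_gl6 y).2.1, (six_gl6 y).2.2, (six_gl6 x).1,
    (six_gl6 x).2.1, (six_gl6 x).2.2, q2, q3, q4, dot_congr, dot_congr, q1, dot_comb, dot_comb]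
  simp only [map_add, map_sub, map_mul, map_inv₀, map_ofNat, cmp_dot, cmp_mulVec, mp_trace, mp_mul,
    j4, Matrix.smul_apply, smul_eq_mul]
  have hB' : B.det⁻¹ * (B 0 0 * B 1 1 - B 0 1 * B 1 0) = 1 := by
    rw [← det_fin_two, inv_mul_cancel₀ hB]
  linear_combination ((σ ∘ um y) ⬝ᵥ (j6 *ᵥ (σ ∘ up x)) - (σ ∘ up y) ⬝ᵥ (j6 *ᵥ (σ ∘ um x))) * hB'

theorem smul_gl6 {t : Om} (ht : t ≠ 0) (x : J) :
    t • gl6 σ B P μ x = gl6 σ B (t • P) (t ^ 3 * μ) x := by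
  refine six_ext ?_ ?_ ?_
  · rw [six_lin.1.map_smul, (six_gl6 _).1, (six_gl6 _).1, smul_mulVec]
  · rw [six_lin.2.2.map_smul, (six_gl6 _).2.1, (six_gl6 _).2.1, transpose_smul, smul_inv0 ht,
      smul_inv0 ht]
    simp only [Matrix.mul_smul, Matrix.smul_mul, smul_smul]
    congr 1
    field_simp
  · rw [six_lin.2.1.map_smul, (six_gl6 _).2.2, (six_gl6 _).2.2, smul_mulVec]

theorem Pfx.alt_zero : (0 : Matrix I6 I6 Om)ᵀ = -0 := by simp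

/-- Uniqueness of the parameters. -/
theorem gl6_unique (hμ : μ ≠ 0) (h : μ ^ 2 = B.det * P.det) {C : Matrix (Fin 2) (Fin 2) Om}
    {Q : Matrix I6 I6 Om} {ν : Om} (he : ∀ x, gl6 σ B P μ x = gl6 σ C Q ν x) :
    ∃ t : Om, t ≠ 0 ∧ C = t • B ∧ P = t • Q ∧ μ = t ^ 2 * ν := by
  obtain ⟨hB, hP⟩ := dets hμ h
  have hs : ∀ u : I6 → Om, σ ∘ (⇑σ⁻¹ ∘ u) = u := fun u => by
    rw [cmp_cmp, mul_inv_cancel, cmp_one]
  have k0 : ∀ u : I6 → Om, (B 0 0 • P) *ᵥ u = (C 0 0 • Q) *ᵥ u ∧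
      (B 1 0 • P) *ᵥ u = (C 1 0 • Q) *ᵥ u := fun u => by
    have h1 := six_d6 (⇑σ⁻¹ ∘ u) 0 alt_zero
    have h2 := congrArg up (he (d6 (⇑σ⁻¹ ∘ u) 0 0))
    have h3 := congrArg um (he (d6 (⇑σ⁻¹ ∘ u) 0 0))
    rw [(six_gl6 _).1, (six_gl6 _).1, h1.1, h1.2.2, hs, cmp_zero] at h2
    rw [(six_gl6 _).2.2, (six_gl6 _).2.2, h1.1, h1.2.2, hs, cmp_zero] at h3
    simpa [smul_mulVec, mulVec_smul] using And.intro h2 h3
  have k1 : ∀ u : I6 → Om, (B 0 1 • P) *ᵥ u = (C 0 1 • Q) *ᵥ u ∧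
      (B 1 1 • P) *ᵥ u = (C 1 1 • Q) *ᵥ u := fun u => by
    have h1 := six_d6 0 (⇑σ⁻¹ ∘ u) alt_zero
    have h2 := congrArg up (he (d6 0 0 (⇑σ⁻¹ ∘ u)))
    have h3 := congrArg um (he (d6 0 0 (⇑σ⁻¹ ∘ u)))
    rw [(six_gl6 _).1, (six_gl6 _).1, h1.1, h1.2.2, hs, cmp_zero] at h2
    rw [(six_gl6 _).2.2, (six_gl6 _).2.2, h1.1, h1.2.2, hs, cmp_zero] at h3
    simpa [smul_mulVec, mulVec_smul] using And.intro h2 h3
  have k : ∀ i j, B i j • P = C i j • Q := by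
    simp only [Fin.forall_fin_two]
    exact ⟨⟨ext_mulVec fun u => (k0 u).1, ext_mulVec fun u => (k1 u).1⟩,
      ext_mulVec fun u => (k0 u).2, ext_mulVec fun u => (k1 u).2⟩
  obtain ⟨i, j, hij⟩ : ∃ i j, B i j ≠ 0 := by
    by_contra hn
    push Not at hn
    exact hB (by simp [det_fin_two, hn])
  have hPQ : P = (C i j / B i j) • Q := by
    rw [div_eq_inv_mul, ← smul_smul, ← k, smul_smul, inv_mul_cancel₀ hij, one_smul]
  generalize C i j / B i j = t at hPQ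
  have hd : P.det = t ^ 6 * Q.det := by
    rw [hPQ, det_smul]
    rfl
  have ht : t ≠ 0 := by
    rintro rfl
    exact hP (by rw [hd]; simp)
  have hQ : Q.det ≠ 0 := fun h0 => hP (by rw [hd, h0, mul_zero])
  have hQ0 : Q ≠ 0 := by
    rintro rfl
    exact hQ det_zero
  refine ⟨t, ht, ?_, hPQ, ?_⟩
  · ext a b
    have h1 := k a b
    rw [hPQ, smul_smul] at h1
    rw [Matrix.smul_apply, smul_eq_mul, mul_comm]
    exact (smul_left_injective Om hQ0 h1).symm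
  · have h1 := six_d6 0 0 j6_props.1
    have h2 := congrArg om6 (he (d6 0 j6 0))
    rw [(six_gl6 _).2.1, (six_gl6 _).2.1, h1.2.1, j6_props.2.2.2, hPQ, transpose_smul,
      smul_inv0 ht, smul_inv0 ht] at h2
    simp only [Matrix.mul_smul, Matrix.smul_mul, smul_smul] at h2
    have h3 : Qᵀ⁻¹ * j6 * Q⁻¹ ≠ 0 := fun h0 => by
      have h4 := mid_cancel hQ j6
      have h5 := j6_props.2.2.1
      rw [← h4, h0, Matrix.mul_zero, Matrix.zero_mul, det_zero] at h5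
      exact zero_ne_one h5
    have h4 : μ * (t⁻¹ * t⁻¹) = ν := smul_left_injective Om h3 h2
    rw [← h4]
    field_simp

theorem Pfx.d6_split (u v : I6 → Om) {w : Matrix I6 I6 Om} (hw : wᵀ = -w) :
    d6 u w v = d6 u 0 0 + d6 0 w 0 + d6 0 0 v := by
  have h1 := six_d6 u v hw
  have h2 := six_d6 u 0 alt_zero
  have h3 := six_d6 0 0 hw
  have h4 := six_d6 0 v alt_zero
  refine six_ext ?_ ?_ ?_
  · rw [six_lin.1.map_add, six_lin.1.map_add, h1.1, h2.1, h3.1, h4.1, add_zero, add_zero]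
  · rw [six_lin.2.2.map_add, six_lin.2.2.map_add, h1.2.1, h2.2.1, h3.2.1, h4.2.1, zero_add,
      add_zero]
  · rw [six_lin.2.1.map_add, six_lin.2.1.map_add, h1.2.2, h2.2.2, h3.2.2, h4.2.2, zero_add,
      zero_add]

theorem Pfx.d6_lin : IsLinearMap Om (fun u => d6 u 0 0) ∧ IsLinearMap Om fun v => d6 0 0 v := by
  have h1 := fun u v => (six_d6 u v alt_zero).1
  have h2 := fun u v => (six_d6 u v alt_zero).2.1
  have h3 := fun u v => (six_d6 u v alt_zero).2.2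
  refine ⟨⟨fun x y => ?_, fun c x => ?_⟩, fun x y => ?_, fun c x => ?_⟩ <;>
    refine six_ext ?_ ?_ ?_ <;>
    simp only [six_lin.1.map_add, six_lin.2.1.map_add, six_lin.2.2.map_add, six_lin.1.map_smul,
      six_lin.2.1.map_smul, six_lin.2.2.map_smul, h1, h2, h3, add_zero, smul_zero]

theorem Pfx.dst_lin {f : J → J} (hf : Sim 1 f) (h : Up6 f) : ∃ (B : Matrix (Fin 2) (Fin 2) Om)
    (P : Matrix I6 I6 Om) (μ : Om), μ ≠ 0 ∧ μ ^ 2 = B.det * P.det ∧ B 0 1 = 0 ∧ B 1 0 = 0 ∧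
      ∀ x, f x = gl6 1 B P μ x := by
  obtain ⟨l, hl0, hl⟩ := hf.mult
  obtain ⟨ψ, hψ⟩ := hf.toSemi.lin
  obtain ⟨P, hP⟩ : ∃ P : Matrix I6 I6 Om, ∀ u, P *ᵥ u = up (f (d6 u 0 0)) :=
    ⟨LinearMap.toMatrix' (six_lin.1.mk' _ ∘ₗ ψ.toLinearMap ∘ₗ d6_lin.1.mk' _), fun u => by
      rw [LinearMap.toMatrix'_mulVec, ← hψ]
      rfl⟩
  obtain ⟨Q, hQ⟩ : ∃ Q : Matrix I6 I6 Om, ∀ v, Q *ᵥ v = um (f (d6 0 0 v)) :=
    ⟨LinearMap.toMatrix' (six_lin.2.1.mk' _ ∘ₗ ψ.toLinearMap ∘ₗ d6_lin.2.mk' _), fun u => by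
      rw [LinearMap.toMatrix'_mulVec, ← hψ]
      rfl⟩
  have key : ∀ (u v : I6 → Om) (w : Matrix I6 I6 Om), wᵀ = -w →
      up (f (d6 u w v)) = P *ᵥ u ∧ om6 (f (d6 u w v)) = om6 (f (d6 0 w 0)) ∧
        um (f (d6 u w v)) = Q *ᵥ v := fun u v w hw => by
    have h2 := six_d6 u 0 alt_zero
    have h3 := six_d6 0 0 hw
    have h4 := six_d6 0 v alt_zero
    have a2 := h.p _ h2.2.1 h2.2.2
    have a3 := h.o _ h3.1 h3.2.2
    have a4 := h.m _ h4.2.1 h4.1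
    rw [d6_split u v hw, hf.add, hf.add]
    refine ⟨?_, ?_, ?_⟩
    · rw [six_lin.1.map_add, six_lin.1.map_add, hP, a3.1, a4.2, add_zero, add_zero]
    · rw [six_lin.2.2.map_add, six_lin.2.2.map_add, a2.1, a4.1, zero_add, add_zero]
    · rw [six_lin.2.1.map_add, six_lin.2.1.map_add, hQ, a2.2, a3.2, zero_add, zero_add]
  have cb : ∀ (u v : I6 → Om) (w : Matrix I6 I6 Om), wᵀ = -w →
      pf6 (om6 (f (d6 0 w 0))) + u ⬝ᵥ ((Pᵀ * om6 (f (d6 0 w 0)) * Q) *ᵥ v) =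
        l * (pf6 w + u ⬝ᵥ (w *ᵥ v)) := fun u v w hw => by
    have h1 := hl (d6 u w v)
    have h2 := key u v w hw
    have h3 := six_d6 u v hw
    rwa [cub_six', cub_six', h2.1, h2.2.1, h2.2.2, h3.1, h3.2.1, h3.2.2, dot_congr,
      AlgEquiv.one_apply] at h1
  have c1 : ∀ w : Matrix I6 I6 Om, wᵀ = -w → pf6 (om6 (f (d6 0 w 0))) = l * pf6 w :=
    fun w hw => by simpa using cb 0 0 w hw
  have c2 : ∀ w : Matrix I6 I6 Om, wᵀ = -w → Pᵀ * om6 (f (d6 0 w 0)) * Q = l • w :=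
    fun w hw => ext_dot fun u v => by
      rw [smul_mulVec, dotProduct_smul, smul_eq_mul]
      linear_combination cb u v w hw - c1 w hw
  have hd : P.det ≠ 0 ∧ Q.det ≠ 0 := by
    have h1 := congrArg det (c2 j6 j6_props.1)
    rw [det_mul, det_mul, det_transpose, det_smul, j6_props.2.2.1, mul_one] at h1
    have h2 := mul_ne_zero_iff.1 (h1 ▸ pow_ne_zero _ hl0)
    exact ⟨(mul_ne_zero_iff.1 h2.1).1, h2.2⟩
  have p1 : Pᵀ * Pᵀ⁻¹ = 1 := mul_nonsing_inv _ (by rw [det_transpose]; exact Ne.isUnit hd.1)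
  have p2 : Pᵀ⁻¹ * Pᵀ = 1 := nonsing_inv_mul _ (by rw [det_transpose]; exact Ne.isUnit hd.1)
  have p3 : P⁻¹ * P = 1 := nonsing_inv_mul _ (Ne.isUnit hd.1)
  have p4 : Q * Q⁻¹ = 1 := mul_nonsing_inv _ (Ne.isUnit hd.2)
  have c3 : ∀ w : Matrix I6 I6 Om, wᵀ = -w → om6 (f (d6 0 w 0)) = l • (Pᵀ⁻¹ * w * Q⁻¹) :=
    fun w hw => by
      rw [← Matrix.smul_mul, ← Matrix.mul_smul, ← c2 w hw]
      simp only [← Matrix.mul_assoc, p2, Matrix.one_mul]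
      rw [Matrix.mul_assoc, p4, Matrix.mul_one]
  obtain ⟨r, hr⟩ : ∃ r : Om, Q⁻¹ * P = r • 1 := scalar_of_alt fun w hw => by
    have h1 := om6_alt (f (d6 0 w 0))
    rw [c3 w hw, transpose_smul, ← smul_neg] at h1
    have h2 := congrArg (fun A => Pᵀ * A * P) (smul_right_injective _ hl0 h1)
    simp only [transpose_mul, transpose_nonsing_inv, transpose_transpose, hw, Matrix.neg_mul,
      Matrix.mul_neg, neg_inj, Matrix.mul_assoc, p3, Matrix.mul_one] at h2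
    rw [← Matrix.mul_assoc Pᵀ Pᵀ⁻¹, p1, Matrix.one_mul] at h2
    rw [← h2, transpose_mul, transpose_nonsing_inv, Matrix.mul_assoc]
  have hPQ : P = r • Q := by
    rw [← Matrix.one_mul P, ← p4, Matrix.mul_assoc, hr, Matrix.mul_smul, Matrix.mul_one]
  have hr0 : r ≠ 0 := by
    rintro rfl
    exact hd.1 (by rw [hPQ, zero_smul, det_zero])
  have hQP : Q = r⁻¹ • P := by rw [hPQ, smul_smul, inv_mul_cancel₀ hr0, one_smul]
  have c4 : ∀ w : Matrix I6 I6 Om, wᵀ = -w → om6 (f (d6 0 w 0)) = (l * r) • (Pᵀ⁻¹ * w * P⁻¹) :=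
    fun w hw => by
      rw [c3 w hw, hQP, smul_inv0 (inv_ne_zero hr0), inv_inv, Matrix.mul_smul, smul_smul]
  refine ⟨!![1, 0; 0, r⁻¹], P, l * r, mul_ne_zero hl0 hr0, ?_, rfl, rfl, fun x => ?_⟩
  · have h1 := pf6_mid hd.1 (l * r) j6_props.1
    rw [← c4 j6 j6_props.1, c1 j6 j6_props.1, pf6_j6] at h1
    rw [det_fin_two_of]
    refine mul_left_cancel₀ (mul_ne_zero hl0 hr0) ?_
    have h2 := mul_inv_cancel₀ hr0
    linear_combination -h1 - l * P.det * h2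
  · have h1 := key (up x) (um x) (om6 x) (om6_alt x)
    rw [d6_eta] at h1
    refine six_ext ?_ ?_ ?_
    · rw [h1.1, (six_gl6 x).1]
      simp [cmp_one]
    · rw [h1.2.1, (six_gl6 x).2.1, c4 _ (om6_alt x), mp_one]
    · rw [h1.2.2, (six_gl6 x).2.2, hQP]
      simp [cmp_one, smul_mulVec, mulVec_smul]

/-- Similarities which preserve the three parts. -/
theorem dst_up {f : J → J} (hf : Sim σ f) (h : Up6 f) : ∃ (B : Matrix (Fin 2) (Fin 2) Om)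
    (P : Matrix I6 I6 Om) (μ : Om), μ ≠ 0 ∧ μ ^ 2 = B.det * P.det ∧ B 0 1 = 0 ∧ B 1 0 = 0 ∧
      ∀ x, f x = gl6 σ B P μ x := by
  have h1 := hf.comp (sim_aj σ⁻¹)
  rw [mul_inv_cancel] at h1
  have h2 := up6_al σ⁻¹
  obtain ⟨B, P, μ, a1, a2, a3, a4, a5⟩ := dst_lin h1
    ⟨fun x b1 b2 => h.p _ (h2.p x b1 b2).1 (h2.p x b1 b2).2,
      fun x b1 b2 => h.m _ (h2.m x b1 b2).1 (h2.m x b1 b2).2,
      fun x b1 b2 => h.o _ (h2.o x b1 b2).1 (h2.o x b1 b2).2⟩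
  refine ⟨B, P, μ, a1, a2, a3, a4, fun x => ?_⟩
  rw [← gl6_aj, ← a5, aj_aj, inv_mul_cancel, aj_one]

theorem dst_sw {f : J → J} (hf : Sim σ f) (h : Sw6 f) : ∃ (B : Matrix (Fin 2) (Fin 2) Om)
    (P : Matrix I6 I6 Om) (μ : Om), μ ≠ 0 ∧ μ ^ 2 = B.det * P.det ∧ B 0 0 = 0 ∧ B 1 1 = 0 ∧
      ∀ x, f x = gl6 σ B P μ x := by
  have hj : (1 : Om) ^ 2 = j2.det * (1 : Matrix I6 I6 Om).det := by simp [j2]
  have h1 := hf.comp (gl6_props (σ := 1) one_ne_zero hj).1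
  rw [mul_one] at h1
  have s1 : ∀ x, up (gl6 1 j2 1 1 x) = um x := fun x => by
    rw [(six_gl6 x).1]
    simp [j2, cmp_one]
  have s2 : ∀ x, om6 (gl6 1 j2 1 1 x) = om6 x := fun x => by
    rw [(six_gl6 x).2.1]
    simp [mp_one]
  have s3 : ∀ x, um (gl6 1 j2 1 1 x) = -up x := fun x => by
    rw [(six_gl6 x).2.2]
    simp [j2, cmp_one]
  obtain ⟨B, P, μ, a1, a2, a3, a4, a5⟩ := dst_up h1
    ⟨fun x b1 b2 => h.m _ ((s2 x).trans b1) ((s1 x).trans b2),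
      fun x b1 b2 => h.p _ ((s2 x).trans b1) (by rw [s3, b2, neg_zero]),
      fun x b1 b2 => h.o _ ((s1 x).trans b2) (by rw [s3, b1, neg_zero])⟩
  have hi : j2⁻¹ = !![0, -1; 1, 0] := inv_eq_right_inv (by
    ext i j
    fin_cases i <;> fin_cases j <;> simp [j2])
  refine ⟨B * j2⁻¹.map σ, P, μ, a1, ?_, ?_, ?_, fun x => ?_⟩
  · rw [a2, det_mul, mp_det, hi]
    simp
  · simp [hi, mul_apply, a3]
  · simp [hi, mul_apply, a4]
  · have h2 := (gl6_inv one_ne_zero hj x).2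
    have h3 := a5 (gl6 1 j2⁻¹ 1⁻¹ 1⁻¹ x)
    rw [h2, gl6_gl6, inv_one, inv_one, mp_id, map_one, mul_one, mul_one, mul_one] at h3
    exact h3

end Vale.Agent.P011Z.Cl

end
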