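import Vale.Agent.P011Z.Cl.Dat
import Vale.Agent.P011Z.Cl.Pf
import Vale.Agent.P011Z.Cl.Apx
import Vale.Agent.P011Z.Cl.Lie
import Vale.Agent.P011.Arith.Landherr
import Vale.Agent.P011Z.Cl.D4d.C

/-!
Classification of the forms: block D4d.
-/

open Matrix Module

noncomputable section

namespace Vale.Agent.P011Z.Cl

open Vale.Agent.P011.D4 Vale.Agent.P011.D4.Oct Vale.Agent.P011.E6 Vale.Agent.P011.E6.Alb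

variable {D : FD} {d : Om} {q : Fin 3 → Om} {H : Matrix (Fin 3) (Fin 3) Om}

/-- Moves in the Levi subgroup. -/
theorem mv_gl3 (h : D.OK) (hd : D.Qd d) (hn : D.NF d q H) {R : Matrix (Fin 3) (Fin 3) Om}
    {V : Fin 3 → Om} {κ : Om} (hR : ∀ σ ∈ D.G, σ d = d → R.map σ = R)
    (hV : ∀ σ ∈ D.G, σ d = d → ∀ i, σ (V i) = V (D.π σ i)) (hV0 : ∀ i, V i ≠ 0)
    (hdet : R.det = V 0 * V 1 * V 2) (hκ : Fx D.G κ) (hκ0 : κ ≠ 0) {s : Gq} (hs : s ∈ D.G)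
    (h1 : D.π s = 1) (h2 : s d = -d) : ∃ ψ : J ≃ₗ[Om] J, Sim 1 ψ ∧ Prm 1 ψ ∧
      (D.conj ψ).NF d (fun i => q i / (κ * V i * s (V i))) (κ • (Rᵀ * H * R.map s)) :=
  D4dx.mv_gl3 h hd hn hR hV hV0 hdet hκ hκ0 hs h1 h2

/-- The move which changes the signature. -/
theorem mv_b (h : D.OK) (hd : D.Qd d) {g : Fin 3 → Om} (hn : D.NF d q (Matrix.diagonal g))
    (hq : q 0 * q 1 * q 2 = 1) {t : Fin 3 → Om}
    (ht : ∀ σ ∈ D.G, σ d = d → ∀ i, σ (t i) = t (D.π σ i)) {s : Gq} (hs : s ∈ D.G)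
    (h1 : D.π s = 1) (h2 : s d = -d) {n : Om}
    (hz : n = ∏ i, (1 + q i / (g 0 * g 1) * (t i * s (t i)))) (hz0 : n ≠ 0) :
    ∃ ψ : J ≃ₗ[Om] J, Sim 1 ψ ∧ Prm 1 ψ ∧
      (D.conj ψ).NF d q (Matrix.diagonal ![g 0 / n, g 1 * n, g 2]) :=
  D4dx.mv_b h hd hn hq ht hs h1 h2 hz hz0

theorem qs_of (h : D.OK) (hd : D.Qd d) (hn : D.NF d q H) (hq : q 0 * q 1 * q 2 = 1)
    {ι : Om →+* ℂ} {γ : Gq} (hγ : Cj ι γ) (hG : γ ∈ D.G) (h2 : γ d = -d)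
    (hp : ∀ i, D.π γ i = i → 0 < (ι (q i)).re) {a : Fin 3 → Om} (ha : a ≠ 0)
    (hi : a ⬝ᵥ (H *ᵥ (γ ∘ a)) = 0) : D.QS γ :=
  D4dx.qs_of h hd hn hq hγ hG h2 hp ha hi

theorem not_ani_of (h : D.OK) (hd : D.Qd d) (hn : D.NF d q H) {s : Gq} (hs : s ∈ D.G)
    (h2 : s d = -d) {a : Fin 3 → Om} (ha : a ≠ 0) (hf : ∀ σ ∈ D.G, σ d = d → σ ∘ a = a)
    (hi : a ⬝ᵥ (H *ᵥ (s ∘ a)) = 0) : ¬ AniL D.grp :=
  D4dx.not_ani_of h hd hn hs h2 ha hf hi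

end Vale.Agent.P011Z.Cl

end
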