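import Vale.Agent.P011Z.Cl.D4a
import Vale.Agent.P011Z.Cl.D4b
import Vale.Agent.P011Z.Cl.D4c
import Vale.Agent.P011Z.Cl.D4d
import Vale.Agent.P011Z.Cl.D4e.Her

/-!
Classification of the forms: block D4e.
-/

open Matrix Module

noncomputable section

namespace Vale.Agent.P011Z.Cl

open Vale.Agent.P011.D4 Vale.Agent.P011.D4.Oct Vale.Agent.P011.E6 Vale.Agent.P011.E6.Alb

namespace D4ex

open Pfx

variable {D : FD} {d : Om} {q g : Fin 3 → Om} {H : Matrix (Fin 3) (Fin 3) Om}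

/-- The normal form is reached by a change of coordinates. -/
def Rch (D : FD) (d : Om) (q : Fin 3 → Om) (H : Matrix (Fin 3) (Fin 3) Om) : Prop :=
  ∃ ψ : J ≃ₗ[Om] J, Sim 1 ψ ∧ Prm 1 ψ ∧ (D.conj ψ).NF d q H

theorem prm_trans {ψ φ : J ≃ₗ[Om] J} (h1 : Prm 1 ψ) (h2 : Prm 1 φ) : Prm 1 (φ.trans ψ) := by
  have h3 := h1.comp (semi_lin ψ) h2
  rwa [mul_one] at h3

theorem Rch.trans {ψ : J ≃ₗ[Om] J} (h1 : Sim 1 ψ) (h2 : Prm 1 ψ) (h : Rch (D.conj ψ) d q H) :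
    Rch D d q H := by
  obtain ⟨φ, h3, h4, h5⟩ := h
  exact ⟨φ.trans ψ, h3.trans h1, prm_trans h2 h4, h5⟩

theorem qd_conj (hd : D.Qd d) (ψ : J ≃ₗ[Om] J) : (D.conj ψ).Qd d := ⟨hd.d0, hd.sq, hd.ex⟩

theorem Rch.qe (h : Rch D d q H) : ∀ σ ∈ D.G, ∀ i, σ (q i) = q (D.π σ i) :=
  h.choose_spec.2.2.qe

theorem Rch.Hf (h : Rch D d q H) : ∀ σ ∈ D.G, σ d = d → H.map σ = H := h.choose_spec.2.2.Hf

theorem Rch.Hs (h : Rch D d q H) : ∀ σ ∈ D.G, σ d = -d → H.map σ = Hᵀ := h.choose_spec.2.2.Hs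

theorem Rch.det (h : Rch D d q H) : q 0 * q 1 * q 2 * H.det = -1 := h.choose_spec.2.2.det

theorem Rch.q0 (h : Rch D d q H) (i : Fin 3) : q i ≠ 0 := fun h1 => by
  have h2 := h.det
  rw [← Prcx.prod_three q i, h1, zero_mul, zero_mul, zero_mul] at h2
  exact one_ne_zero (neg_eq_zero.1 h2.symm)

theorem Rch.det0 (h : Rch D d q H) : H.det ≠ 0 := fun h1 => by
  have h2 := h.det
  rw [h1, mul_zero] at h2
  exact one_ne_zero (neg_eq_zero.1 h2.symm)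

theorem Rch.prod (h : Rch D d q (diagonal g)) (hq : q 0 * q 1 * q 2 = 1) :
    g 0 * g 1 * g 2 = -1 := by
  have h2 := h.det
  rwa [hq, one_mul, det_diagonal, Fin.prod_univ_three] at h2

theorem Rch.g0 (h : Rch D d q (diagonal g)) (i : Fin 3) : g i ≠ 0 := by
  have h2 := h.det0
  rw [det_diagonal] at h2
  exact Finset.prod_ne_zero_iff.1 h2 i (Finset.mem_univ i)

theorem Rch.fx (h : Rch D d q (diagonal g)) (hd : D.Qd d) (i : Fin 3) : Fx D.G (g i) := by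
  intro σ hσ
  have h1 : (diagonal g).map σ = diagonal g := (eq_or_neg (hd.sq σ hσ)).elim (h.Hf σ hσ)
    fun h1 => (h.Hs σ hσ h1).trans (diagonal_transpose g)
  have h2 := congrFun (congrFun h1 i) i
  rwa [map_apply, diagonal_apply_eq] at h2

theorem Rch.re_prod (h : Rch D d q (diagonal g)) (hd : D.Qd d) (hq : q 0 * q 1 * q 2 = 1)
    {ι : Om →+* ℂ} {γ : Gq} (hγ : Cj ι γ) (hG : γ ∈ D.G) :
    (ι (g 0)).re * ((ι (g 1)).re * (ι (g 2)).re) = -1 := by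
  rw [← re_mul hγ (h.fx hd 1 γ hG), ← re_mul hγ (h.fx hd 0 γ hG), ← mul_assoc, h.prod hq]
  simp

/-- The product of the `q i` can be made one. -/
theorem Rch.one (hr : Rch D d q H) (h : D.OK) (hd : D.Qd d) :
    ∃ q H, Rch D d q H ∧ q 0 * q 1 * q 2 = 1 := by
  obtain ⟨s, hs, h1, h2⟩ := hd.ex
  have h3 := hr.q0
  have h4 : Fx D.G (q 0 * q 1 * q 2) := fun σ hσ => by
    rw [← Fin.prod_univ_three, map_prod, ← Equiv.prod_comp (D.π σ) q]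
    exact Finset.prod_congr rfl fun i _ => hr.qe σ hσ i
  have h5 : ∀ i, s (q i) = q i := fun i => by rw [hr.qe s hs, h1, Equiv.Perm.one_apply]
  have h6 := hr.qe
  obtain ⟨ψ, k1, k2, k3⟩ := hr
  refine ⟨_, _, Rch.trans k1 k2 (mv_gl3 (h.conj k1 k2) (qd_conj hd ψ) k3
    (R := diagonal ![(q 0 * q 1 * q 2)⁻¹, 1, 1]) (V := fun i => (q i)⁻¹)
    (fun σ hσ _ => ?_) (fun σ hσ _ i => ?_) (fun i => inv_ne_zero (h3 i)) ?_ h4
    (mul_ne_zero (mul_ne_zero (h3 0) (h3 1)) (h3 2)) hs h1 h2), ?_⟩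
  · rw [diagonal_map (map_zero σ)]
    refine congrArg diagonal (funext fun i => ?_)
    fin_cases i
    · exact (map_inv₀ σ _).trans (congrArg _ (h4 σ hσ))
    · exact map_one σ
    · exact map_one σ
  · rw [map_inv₀, h6 σ hσ]
    rfl
  · rw [det_diagonal, Fin.prod_univ_three]
    change (q 0 * q 1 * q 2)⁻¹ * 1 * 1 = _
    rw [mul_one, mul_one, mul_inv, mul_inv]
  · have a0 := h3 0
    have a1 := h3 1
    have a2 := h3 2
    simp only [map_inv₀, h5]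
    field_simp

/-- Diagonalization. -/
theorem Rch.diag (hr : Rch D d q H) (h : D.OK) (hd : D.Qd d) {s : Gq} (hs : s ∈ D.G)
    (h1 : D.π s = 1) (h2 : s d = -d) {u : Fin 3 → Om} (hu : Kf D.G d u) (ha : hf H s u u ≠ 0) :
    ∃ g, Rch D d q (diagonal g) ∧ g 2 = hf H s u u := by
  obtain ⟨R, g, h3, h4, h5, h6⟩ := ortho h.opn hd.d0 hs h2 hr.Hf hr.Hs hr.det0 hu ha
  obtain ⟨ψ, k1, k2, k3⟩ := hr
  have h7 := mv_gl3 (h.conj k1 k2) (qd_conj hd ψ) k3 (V := fun _ => 1) (κ := 1) h3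
    (fun σ _ _ _ => map_one σ) (fun _ => one_ne_zero) (by rw [h4, mul_one, mul_one])
    (fun σ _ => map_one σ) one_ne_zero hs h1 h2
  simp only [map_one, mul_one, div_one, one_smul, h5] at h7
  exact ⟨g, Rch.trans k1 k2 h7, h6⟩

/-- The last entry can be made negative. -/
theorem Rch.neg (hr : Rch D d q (diagonal g)) (h : D.OK) (hd : D.Qd d)
    (hq : q 0 * q 1 * q 2 = 1) : ∃ g, Rch D d q (diagonal g) ∧
      ∀ ι γ, Cj ι γ → γ ∈ D.G → (ι (d ^ 2)).re < 0 → (ι (g 2)).re < 0 := by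
  obtain ⟨s, hs, h1, h2⟩ := hd.ex
  have h3 : ∀ (σ : Gq) i, Pi.single i 1 ⬝ᵥ (diagonal g *ᵥ (σ ∘ Pi.single i 1)) = g i :=
    fun σ i => by simp [mulVec_diagonal]
  obtain ⟨u, hu, h4, h5⟩ := apxK h.opn hd.d0 hd.sq hs h2 (ta_pi (kd_opn h.opn) (Fin 3))
    (pol_dot (diagonal g) pol_fst pol_snd).neg
    (fun x hx σ hσ => by
      rw [map_neg]
      exact congrArg _ (hf_fx hd.sq hs h2 hr.Hf hr.Hs (kf_iff.1 hx) σ hσ))
    ⟨Pi.single 0 1, fun σ _ => funext fun i => by simp [Pi.single_apply],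
      neg_ne_zero.2 (by rw [h3]; exact hr.g0 0)⟩
    fun ι γ k1 k2 _ => by
      obtain ⟨i, hi⟩ : ∃ i, (ι (g i)).re < 0 := by
        by_contra k4
        push Not at k4
        have k5 := hr.re_prod hd hq k1 k2
        have k6 := mul_nonneg (k4 0) (mul_nonneg (k4 1) (k4 2))
        linarith
      refine ⟨Pi.single i 1, ?_⟩
      simp only [cmp_cmp, h3, map_neg, Complex.neg_re]
      exact neg_pos.2 hi
  obtain ⟨g', h6, h7⟩ := hr.diag h hd hs h1 h2 (kf_iff.1 hu) (neg_ne_zero.1 h4)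
  refine ⟨g', h6, fun ι γ k1 k2 k3 => ?_⟩
  have h8 := h5 ι γ k1 k2 k3
  rw [map_neg, Complex.neg_re] at h8
  rw [h7]
  exact neg_pos.1 h8

theorem ta_perm (h : D.OK) :
    TA (kd D.G d) fun σ (t : Fin 3 → Om) j => σ (t ((D.π σ)⁻¹ j)) := by
  refine ⟨kd_opn h.opn, fun σ _ => ⟨fun x y => funext fun i => map_add σ _ _,
    fun t x => funext fun i => map_mul σ _ _, Function.bijective_iff_has_inverse.2
      ⟨fun t j => σ⁻¹ (t (D.π σ j)), fun t => funext fun j => ?_, fun t => funext fun j => ?_⟩⟩,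
    fun σ hσ τ hτ t => funext fun j => ?_, fun t => ?_⟩
  · simp only [Cubx.inv_ap, Prcx.inv_app]
  · simp only [Cubx.ap_inv, Prcx.app_inv]
  · rw [h.pmul σ hσ.1 τ hτ.1, _root_.mul_inv_rev]
    rfl
  · obtain ⟨N, hN, h1⟩ := h.ker
    obtain ⟨H, hH, h2⟩ := opn_fin t
    refine ⟨N ⊓ H, hN.inf hH, fun σ h3 _ => funext fun j => ?_⟩
    rw [((h1 σ).1 h3.1).2, inv_one, Equiv.Perm.one_apply, h2 σ h3.2]

/-- The move with prescribed signs. -/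
theorem Rch.mv (hr : Rch D d q (diagonal g)) (h : D.OK) (hd : D.Qd d)
    (hq : q 0 * q 1 * q 2 = 1) {ε : Om} (hε : Fx D.G ε) (h0 : ε ≠ 0)
    (hl : ∀ ι γ, Cj ι γ → γ ∈ D.G → (ι (d ^ 2)).re < 0 → (ι ε).re < 0 →
      0 < (ι (g 0)).re * (ι (g 1)).re ∧ ∃ i, D.π γ i = i ∧ (ι (q i)).re ≤ 0) :
    ∃ n, Rch D d q (diagonal ![g 0 / n, g 1 * n, g 2]) ∧
      ∀ ι γ, Cj ι γ → γ ∈ D.G → (ι (d ^ 2)).re < 0 → 0 < (ι ε).re * (ι n).re := by
  obtain ⟨s, hs, h1, h2⟩ := hd.ex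
  have h3 : ∀ t : Fin 3 → Om, Fv (kd D.G d) (fun σ t j => σ (t ((D.π σ)⁻¹ j))) t →
      ∀ σ ∈ D.G, σ d = d → ∀ i, σ (t i) = t (D.π σ i) := fun t ht σ hσ h3 i => by
    have h4 := congrFun (ht σ ⟨hσ, h3⟩) (D.π σ i)
    simp only [Prcx.inv_app] at h4
    exact h4
  have hi : D.π s⁻¹ = 1 := by
    have h4 := h.pmul _ hs _ (inv_mem hs)
    rwa [mul_inv_cancel, h.one.1, h1, one_mul, eq_comm] at h4
  have h4 : ∀ σ ∈ D.G, D.π (s⁻¹ * σ) = D.π σ := fun σ hσ => by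
    rw [h.pmul _ (inv_mem hs) _ hσ, hi, one_mul]
  have h5 : ∀ σ ∈ D.G, D.π (σ * s) = D.π σ := fun σ hσ => by
    rw [h.pmul _ hσ _ hs, h1, mul_one]
  have hc : ∀ σ ∈ D.G, ∀ i, σ (q i / (g 0 * g 1)) = q (D.π σ i) / (g 0 * g 1) := fun σ hσ i => by
    rw [map_div₀, map_mul, hr.qe σ hσ, hr.fx hd 0 σ hσ, hr.fx hd 1 σ hσ]
  obtain ⟨t, ht, h6, h7⟩ := apxK h.opn hd.d0 hd.sq hs h2 (ta_perm h)
    (p := fun y => ε * ∏ i, (1 + q i / (g 0 * g 1) * (y.1 i * y.2 i)))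
    ((Pol.const _).mul (Pol.prod _ fun i _ => (Pol.const _).add ((Pol.const _).mul
      ((pol_fst (LinearMap.proj i)).mul (pol_snd (LinearMap.proj i))))))
    (fun x hx σ hσ => by
      have k1 : ∀ i, σ (x i * s (x i)) = x (D.π σ i) * s (x (D.π σ i)) := fun i => by
        rw [map_mul]
        rcases eq_or_neg (hd.sq σ hσ) with k1 | k1
        · have k2 := congrArg s (h3 x hx _ (cnj hs h2 hσ k1).1 (cnj hs h2 hσ k1).2 i)
          rw [h4 _ (mul_mem hσ hs), h5 σ hσ, AlgEquiv.mul_apply, Cubx.ap_inv,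
            AlgEquiv.mul_apply] at k2
          rw [h3 x hx σ hσ k1, k2]
        · have k2 := congrArg s (h3 x hx _ (dv hs h2 hσ k1).1 (dv hs h2 hσ k1).2 i)
          have k3 := h3 x hx _ (mul_mem hσ hs) (sq_fix h2 k1) i
          rw [h4 _ hσ, AlgEquiv.mul_apply, Cubx.ap_inv] at k2
          rw [h5 σ hσ, AlgEquiv.mul_apply] at k3
          rw [k2, k3, mul_comm]
      rw [map_mul, hε σ hσ, map_prod, ← Equiv.prod_comp (D.π σ)
        fun i => 1 + q i / (g 0 * g 1) * (x i * (s ∘ x) i)]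
      refine congrArg _ (Finset.prod_congr rfl fun i _ => ?_)
      rw [map_add, map_one, map_mul, hc σ hσ]
      exact congrArg (fun z => 1 + _ * z) (k1 i))
    ⟨0, (ta_perm h).fv_zero, by simpa using h0⟩
    fun ι γ k1 k2 k3 => by
      rcases (re_ne k1 (hε γ k2) h0).lt_or_gt with k4 | k4
      swap
      · exact ⟨0, by simpa using k4⟩
      obtain ⟨k5, i, k6, k7⟩ := hl ι γ k1 k2 k3 k4
      have k8 : γ (q i) = q i := by rw [hr.qe γ k2, k6]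
      have k9 : (ι (q i / (g 0 * g 1))).re < 0 := by
        rw [re_div k1 _ (by rw [map_mul, hr.fx hd 0 γ k2, hr.fx hd 1 γ k2]),
          re_mul k1 (hr.fx hd 0 γ k2)]
        exact div_neg_of_neg_of_pos (k7.lt_of_ne (re_ne k1 k8 (hr.q0 i))) k5
      obtain ⟨m, hm⟩ := exists_nat_gt (1 + (-(ι (q i / (g 0 * g 1))).re)⁻¹)
      refine ⟨Pi.single i (m : Om), ?_⟩
      have k10 : (D.π γ)⁻¹ i = i := by rw [Equiv.Perm.inv_eq_iff_eq, k6]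
      rw [Finset.prod_eq_single i (fun j _ hj => by simp [hj]) (by simp), re_mul k1 (hε γ k2)]
      refine mul_pos_of_neg_of_neg k4 ?_
      simp only [Function.comp_apply, h4 γ k2, k10, Pi.single_eq_same, map_natCast, map_add,
        map_one, Complex.add_re, Complex.one_re]
      rw [re_mul k1 (by rw [hc γ k2, k6]), ← Nat.cast_mul, map_natCast, Complex.natCast_re,
        Nat.cast_mul]
      generalize (ι (q i / (g 0 * g 1))).re = c at k9 hm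
      have k11 : 0 < (-c)⁻¹ := inv_pos.2 (neg_pos.2 k9)
      have k12 : (-c) * (-c)⁻¹ = 1 := mul_inv_cancel₀ (neg_pos.2 k9).ne'
      have k13 : (-c)⁻¹ < (m : ℝ) * m := by nlinarith
      nlinarith
  obtain ⟨ψ, k1, k2, k3⟩ := hr
  refine ⟨_, Rch.trans k1 k2 (mv_b (h.conj k1 k2) (qd_conj hd ψ) k3 hq (h3 t ht) hs h1 h2 rfl
    (right_ne_zero_of_mul h6)), fun ι γ k4 k5 k6 => ?_⟩
  rw [← re_mul k4 (hε γ k5)]
  exact h7 ι γ k4 k5 k6

theorem Rch.fxn {n : Om} (hr : Rch D d q (diagonal g))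
    (hr' : Rch D d q (diagonal ![g 0 / n, g 1 * n, g 2])) (hd : D.Qd d) : Fx D.G n := by
  intro σ hσ
  have h1 : σ (g 1 * n) = g 1 * n := hr'.fx hd 1 σ hσ
  rw [map_mul, hr.fx hd 1 σ hσ] at h1
  exact mul_left_cancel₀ (hr.g0 1) h1

/-- The form can be made negative definite. -/
theorem Rch.dfn (hr : Rch D d q (diagonal g)) (h : D.OK) (hd : D.Qd d)
    (hq : q 0 * q 1 * q 2 = 1)
    (hn : ∀ ι γ, Cj ι γ → γ ∈ D.G → (ι (d ^ 2)).re < 0 → ¬ D.QS γ)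
    (hg : ∀ ι γ, Cj ι γ → γ ∈ D.G → (ι (d ^ 2)).re < 0 → (ι (g 2)).re < 0) :
    ∃ g, Rch D d q (diagonal g) ∧ ∀ ι γ, Cj ι γ → γ ∈ D.G → (ι (d ^ 2)).re < 0 →
      (ι (g 0)).re < 0 ∧ (ι (g 1)).re < 0 := by
  have h1 : ∀ ι γ, Cj ι γ → γ ∈ D.G → (ι (d ^ 2)).re < 0 → 0 < (ι (g 0)).re * (ι (g 1)).re :=
    fun ι γ k1 k2 k3 => by
      have k4 := hr.re_prod hd hq k1 k2
      have k5 := hg ι γ k1 k2 k3
      by_contra k6
      nlinarith [mul_nonneg_of_nonpos_of_nonpos (not_lt.1 k6) k5.le]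
  obtain ⟨n, h2, h3⟩ := hr.mv h hd hq (ε := -g 0)
    (fun σ hσ => by rw [map_neg, hr.fx hd 0 σ hσ]) (neg_ne_zero.2 (hr.g0 0))
    fun ι γ k1 k2 k3 k4 => by
      refine ⟨h1 ι γ k1 k2 k3, ?_⟩
      by_contra k5
      push Not at k5
      rw [map_neg, Complex.neg_re, neg_lt_zero] at k4
      obtain ⟨z, -, k6, k7⟩ := k1.pos (x := -g 2 / g 0)
        (by rw [map_div₀, map_neg, hr.fx hd 0 γ k2, hr.fx hd 2 γ k2]) (by
          rw [re_div k1 _ (hr.fx hd 0 γ k2), map_neg, Complex.neg_re]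
          exact div_pos (neg_pos.2 (hg ι γ k1 k2 k3)) k4)
      rw [div_eq_iff (hr.g0 0)] at k7
      obtain ⟨ψ, a1, a2, a3⟩ := hr
      refine hn ι γ k1 k2 k3 ((D.qs_conj a1 a2 γ).1 (qs_of (h.conj a1 a2) (qd_conj hd ψ) a3 hq k1
        k2 (neg_d k1 (hd.sq γ k2) k3) k5 (a := ![z, 0, 1])
        (fun k8 => one_ne_zero (congrFun k8 2)) ?_))
      simp only [dotProduct, mulVec_diagonal, Fin.sum_univ_three, Function.comp_apply,
        cons_val_zero, cons_val_one, cons_val_two, Nat.succ_eq_add_one, Nat.reduceAdd, tail_cons,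
        head_cons, k6, map_one]
      linear_combination -k7
  refine ⟨_, h2, fun ι γ k1 k2 k3 => ?_⟩
  have k4 := h3 ι γ k1 k2 k3
  have k5 := h1 ι γ k1 k2 k3
  rw [map_neg, Complex.neg_re] at k4
  change (ι (g 0 / n)).re < 0 ∧ (ι (g 1 * n)).re < 0
  rw [re_div k1 _ (hr.fxn h2 hd γ k2), re_mul k1 (hr.fx hd 1 γ k2), div_neg_iff]
  rcases pos_and_pos_or_neg_and_neg_of_mul_pos k5 with ⟨k6, k7⟩ | ⟨k6, k7⟩
  · have k8 : (ι n).re < 0 := by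
      by_contra k8
      nlinarith [mul_nonneg k6.le (not_lt.1 k8)]
    exact ⟨Or.inl ⟨k6, k8⟩, mul_neg_of_pos_of_neg k7 k8⟩
  · have k8 : 0 < (ι n).re := (pos_iff_pos_of_mul_pos k4).1 (neg_pos.2 k6)
    exact ⟨Or.inr ⟨k6, k8⟩, mul_neg_of_neg_of_pos k7 k8⟩

/-- If no real place is bad then the group is isotropic. -/
theorem Rch.iso (hr : Rch D d q (diagonal g)) (h : D.OK) (hd : D.Qd d)
    (hq : q 0 * q 1 * q 2 = 1) (hg : ∀ ι γ, Cj ι γ → γ ∈ D.G → (ι (d ^ 2)).re < 0 →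
      (ι (g 0)).re < 0 ∧ (ι (g 1)).re < 0)
    (hb : ∀ ι γ, Cj ι γ → γ ∈ D.G → (ι (d ^ 2)).re < 0 → ∃ i, D.π γ i = i ∧ (ι (q i)).re ≤ 0) :
    ¬ AniL D.grp := by
  obtain ⟨s, hs, -, h1⟩ := hd.ex
  obtain ⟨n, h2, h3⟩ := hr.mv h hd hq (ε := -1) (fun σ _ => by rw [map_neg, map_one])
    (neg_ne_zero.2 one_ne_zero) fun ι γ k1 k2 k3 _ =>
      ⟨mul_pos_of_neg_of_neg (hg ι γ k1 k2 k3).1 (hg ι γ k1 k2 k3).2, hb ι γ k1 k2 k3⟩
  obtain ⟨a, h4, h5, h6⟩ := D4ex.iso h.opn hd.d0 hd.sq hs h1 (h2.fx hd) fun ι γ k1 k2 k3 => by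
    have k4 := h3 ι γ k1 k2 k3
    have k5 := hr.re_prod hd hq k1 k2
    obtain ⟨k6, k7⟩ := hg ι γ k1 k2 k3
    simp only [map_neg, map_one, Complex.neg_re, Complex.one_re, neg_mul, one_mul,
      neg_pos] at k4
    change 0 < (ι (g 0 / n)).re ∧ (ι (g 2)).re < 0
    rw [re_div k1 _ (hr.fxn h2 hd γ k2)]
    refine ⟨div_pos_of_neg_of_neg k6 k4, ?_⟩
    by_contra k8
    nlinarith [mul_nonneg (mul_pos_of_neg_of_neg k6 k7).le (not_lt.1 k8)]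
  obtain ⟨ψ, a1, a2, a3⟩ := h2
  rw [← D.ani_conj a1 a2]
  exact not_ani_of (h.conj a1 a2) (qd_conj hd ψ) a3 hs h1 h4 h5 h6

end D4ex

open D4ex

/-- The classification of the anisotropic trialitarian groups. -/
theorem d4_nf {D : FD} (h : D.OK) (ht : D.Tri) (ha : AniL D.grp) :
    ∃ (d : Om) (ψ : J ≃ₗ[Om] J) (q g : Fin 3 → Om), Sim 1 ψ ∧ Prm 1 ψ ∧ D.Qd d ∧
      (D.conj ψ).NF d q (Matrix.diagonal g) ∧ q 0 * q 1 * q 2 = 1 ∧
      (∀ ι γ, Cj ι γ → γ ∈ D.G → (ι (d ^ 2)).re < 0 → (ι (g 0)).re < 0 ∧ (ι (g 1)).re < 0) ∧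
      ∃ ι γ, Cj ι γ ∧ γ ∈ D.G ∧ (ι (d ^ 2)).re < 0 ∧
        ∀ i, D.π γ i = i → 0 < (ι (q i)).re := by
  obtain ⟨d, ψ1, a1, a2, hd, hn, a3⟩ := d4a h ht
  obtain ⟨ψ2, b1, b2, b3, b4⟩ := d4b (h.conj a1 a2) (qd_conj hd ψ1) a3
  obtain ⟨q0, H0, c1⟩ := d4c ((h.conj a1 a2).conj b1 b2) (qd_conj (qd_conj hd ψ1) ψ2) b3 b4
  obtain ⟨q, H, h1, hq⟩ := (Rch.trans a1 a2 ⟨ψ2, b1, b2, c1⟩).one h hd
  obtain ⟨s, hs, h2, h3⟩ := hd.ex
  obtain ⟨u, hu, h4⟩ := exists_u h.opn hd.d0 hs h3 (H := H) fun h4 =>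
    h1.det0 (by rw [h4, det_zero])
  obtain ⟨g1, h5, -⟩ := h1.diag h hd hs h2 h3 hu h4
  obtain ⟨g2, h6, h7⟩ := h5.neg h hd hq
  obtain ⟨g, h8, h9⟩ := h6.dfn h hd hq hn h7
  have h10 := h8.iso h hd hq h9
  obtain ⟨ψ, k1, k2, k3⟩ := h8
  refine ⟨d, ψ, q, g, k1, k2, hd, k3, hq, h9, ?_⟩
  by_contra h11
  push Not at h11
  exact h10 h11 ha

end Vale.Agent.P011Z.Cl

end
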