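import Vale.Agent.P011Z.Cl.Brg
import Vale.Agent.P011Z.Cl.D4e
import Vale.Agent.P011Z.Cl.D4f.D

/-!
Classification of the forms: block D4f.
-/

open Matrix Module

noncomputable section

namespace Vale.Agent.P011Z.Cl

open Vale.Agent.P011.D4 Vale.Agent.P011.D4.Oct Vale.Agent.P011.E6 Vale.Agent.P011.E6.Alb

namespace D4fx

open Vale.Agent.P011.H900 (Tri Twi Swp)

theorem cyc : ∀ π : Equiv.Perm (Fin 3), π 0 = 1 → π 1 = 2 → π * π = Equiv.addRight 2 := by decide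

variable {D : FD} {d : Om} {q g : Fin 3 → Om} {ρ s w : Gq}

/-- The cyclic case. -/
theorem St.three (h3 : MD3) (h : St D d q g ρ s ∅)
    (h1 : ∀ κ γ, Cj κ γ → γ ∈ D.G → (κ (d ^ 2)).re < 0 → (κ (g 0)).re < 0 ∧ (κ (g 1)).re < 0)
    (h2 : ∃ κ γ, Cj κ γ ∧ γ ∈ D.G ∧ (κ (d ^ 2)).re < 0 ∧ ∀ i, D.π γ i = i → 0 < (κ (q i)).re)
    (ha : AniL D.grp) : SimpL D.grp := by
  obtain ⟨F, _, _, ι, N, r, a, b, c, e, t, k⟩ := h.fld
  have h4 := h.core k (P := fun f => Tri c (r ρ) f ∧ Twi c (r ρ) (r s) e t f) (fun f => by simp) ha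
  exact h4.2 (h3 _ _ a b c e t (h.dat k (fun x => by simpa using h.fix k x) h1 h2) h4.1)

/-- The noncyclic case. -/
theorem St.six (h6 : MD6) (h : St D d q g ρ s {w})
    (h1 : ∀ κ γ, Cj κ γ → γ ∈ D.G → (κ (d ^ 2)).re < 0 → (κ (g 0)).re < 0 ∧ (κ (g 1)).re < 0)
    (h2 : ∃ κ γ, Cj κ γ ∧ γ ∈ D.G ∧ (κ (d ^ 2)).re < 0 ∧ ∀ i, D.π γ i = i → 0 < (κ (q i)).re)
    (ha : AniL D.grp) : SimpL D.grp := by
  obtain ⟨F, _, _, ι, N, r, a, b, c, e, t, k⟩ := h.fld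
  obtain ⟨w1, w2, w3⟩ := h.wG w rfl
  have h4 := h.core k (P := fun f => Tri c (r ρ) f ∧ Twi c (r ρ) (r s) e t f ∧ Swp (r w) f)
    (fun f => by simp) ha
  refine h4.2 (h6 _ _ _ a b c e t (h.dat k (fun x => by simpa using h.fix k x) h1 h2)
    (k.aut w1 ?_ fun h5 => ?_) (fun x => ι.injective ?_) (fun x => ι.injective ?_)
    (ι.injective ?_) (ι.injective ?_) h4.1)
  · rw [pow_two]
    exact (k.mem _).2 ⟨D.G.mul_mem w1 w1, by rw [h.ok.pmul _ w1 _ w1, w3, Equiv.swap_mul_self],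
      by rw [AlgEquiv.mul_apply, w2, w2]⟩
  · exact absurd (w3.symm.trans ((k.mem _).1 h5).2.1) (by decide)
  · rw [← k.res s h.sG, ← k.res w w1, ← k.res w w1, ← k.res s h.sG]
    exact k.same h.ok (D.G.mul_mem h.sG w1) (D.G.mul_mem w1 h.sG)
      (by rw [h.ok.pmul _ w1 _ h.sG, h.ok.pmul _ h.sG _ w1, h.sp, mul_one, one_mul])
      (by rw [AlgEquiv.mul_apply, AlgEquiv.mul_apply, h.sd, map_neg, w2, h.sd]) x
  · have h5 := D.G.mul_mem w1 h.rG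
    rw [← k.res ρ h.rG, ← k.res w w1, ← k.res w w1, ← k.res ρ h.rG]
    exact k.same h.ok (D.G.mul_mem h.rG h5) w1
      (by rw [h.ok.pmul _ h.rG _ h5, h.ok.pmul _ w1 _ h.rG, h.rp, w3]; decide)
      (by rw [AlgEquiv.mul_apply, AlgEquiv.mul_apply, h.rd, w2, h.rd]) x
  · rw [← k.res w w1, k.he, w2]
  · rw [← k.res ρ h.rG, ← k.res w w1, k.ht, map_inv₀, map_inv₀, h.nf.qe w w1, h.nf.qe ρ h.rG, w3,
      h.rp]
    rfl

end D4fx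

theorem d4_main (h3 : MD3) (h6 : MD6) {D : FD} (h : D.OK) (ht : D.Tri) (ha : AniL D.grp) :
    SimpL D.grp := by
  obtain ⟨d, ψ, q, g, h1, h2, hd, hn, hq, s1, s2⟩ := d4_nf h ht ha
  rw [← D.simp_conj h1 h2]
  rw [← D.ani_conj h1 h2] at ha
  obtain ⟨σ, hσ, p0, p1⟩ := ht
  obtain ⟨s, hs, sp, sd⟩ := hd.ex
  have k : ∀ W : Set Gq, (∀ w ∈ W, w ∈ D.G ∧ w d = d ∧ D.π w = Equiv.swap 1 2) →
      (∀ σ ∈ D.G, D.π σ = Equiv.swap 1 2 → W.Nonempty) →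
      D4fx.St (D.conj ψ) d q g (σ * σ) s W := fun W w1 w2 =>
    ⟨h.conj h1 h2, hn, hq, hd.d0, hd.sq, D.G.mul_mem hσ hσ, by
      rw [AlgEquiv.mul_apply]
      rcases eq_or_neg (hd.sq σ hσ) with h5 | h5 <;> simp only [h5, map_neg, neg_neg],
      (h.pmul σ hσ σ hσ).trans (D4fx.cyc _ p0 p1), hs, sd, sp, w1, w2⟩
  by_cases hw : ∃ τ ∈ D.G, D.π τ = Equiv.swap 1 2
  · obtain ⟨τ, t1, t2⟩ := hw
    obtain ⟨w, h5⟩ : ∃ w, w ∈ D.G ∧ w d = d ∧ D.π w = Equiv.swap 1 2 := by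
      rcases eq_or_neg (hd.sq τ t1) with h5 | h5
      · exact ⟨τ, t1, h5, t2⟩
      · exact ⟨τ * s, D.G.mul_mem t1 hs, by rw [AlgEquiv.mul_apply, sd, map_neg, h5, neg_neg],
          by rw [h.pmul τ t1 s hs, t2, sp, mul_one]⟩
    exact (k {w} (fun _ h7 => h7 ▸ h5) fun _ _ _ => ⟨w, rfl⟩).six h6 s1 s2 ha
  · exact (k ∅ (fun _ h5 => h5.elim) fun τ t1 t2 => absurd ⟨τ, t1, t2⟩ hw).three h3 s1 s2 ha

end Vale.Agent.P011Z.Cl

end
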