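import Mathlib
import Vale.Agent.P011.E6.Ids
import Vale.Agent.P011.D4.Triple

/-!
Forms of the groups of type `D₄` and `E₆` over number fields: the definitions used in the
classification. Everything happens over an algebraic closure of the rationals; a number field is
given by an open subgroup of the absolute Galois group.
-/

open Matrix

noncomputable section

namespace Vale.Agent.P011Z.Cl

open Vale.Agent.P011.D4 Vale.Agent.P011.D4.Oct Vale.Agent.P011.E6 Vale.Agent.P011.E6.Alb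

/-- The algebraic numbers. -/
def Om : Type := AlgebraicClosure ℚ

instance : Field Om := inferInstanceAs (Field (AlgebraicClosure ℚ))

instance : CharZero Om := inferInstanceAs (CharZero (AlgebraicClosure ℚ))

instance : IsAlgClosed Om := inferInstanceAs (IsAlgClosed (AlgebraicClosure ℚ))

instance : Algebra.IsAlgebraic ℚ Om := by
  have h : @Algebra.IsAlgebraic ℚ Om _ _ (AlgebraicClosure.instAlgebra ℚ) :=
    AlgebraicClosure.isAlgebraic ℚ
  have h1 : (AlgebraicClosure.instAlgebra ℚ : Algebra ℚ Om) = DivisionRing.toRatAlgebra :=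
    Subsingleton.elim _ _
  rw [h1] at h
  exact h

instance : IsAlgClosure ℚ Om := ⟨inferInstance, inferInstance⟩

instance : IsGalois ℚ Om := inferInstance

/-- The absolute Galois group. -/
abbrev Gq : Type := Om ≃ₐ[ℚ] Om

/-- The split octonions. -/
abbrev O : Type := Oct (1 : Omˣ) 1 1

/-- The split Albert algebra. -/
abbrev J : Type := Alb (1 : Omˣ) 1 1

section galois

/-- Open subgroups. -/
def Opn (H : Subgroup Gq) : Prop :=
  ∃ E : IntermediateField ℚ Om, FiniteDimensional ℚ E ∧ E.fixingSubgroup ≤ H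

/-- The number is fixed by the subgroup. -/
def Fx (H : Subgroup Gq) (x : Om) : Prop := ∀ σ ∈ H, σ x = x

/-- The subgroup `H` has index at most two in `G`. -/
def Ix2 (G H : Subgroup Gq) : Prop := ∀ σ ∈ G, ∀ τ ∈ G, (σ * τ ∈ H ↔ (σ ∈ H ↔ τ ∈ H))

/-- A continuous character of order one or three. -/
structure Chi (G : Subgroup Gq) (χ : Gq → Fin 3) : Prop where
  mul : ∀ σ ∈ G, ∀ τ ∈ G, χ (σ * τ) = χ σ + χ τ
  smo : ∃ H, Opn H ∧ ∀ σ ∈ H, σ ∈ G → χ σ = 0

/-- The automorphism `γ` is the complex conjugation for the embedding `ι`. -/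
def Cj (ι : Om →+* ℂ) (γ : Gq) : Prop := ∀ x, ι (γ x) = starRingEnd ℂ (ι x)

variable {V W : Type} [AddCommGroup V] [Module Om V] [AddCommGroup W] [Module Om W]

/-- Semilinear bijections. -/
structure Semi (σ : Gq) (f : V → W) : Prop where
  add : ∀ x y, f (x + y) = f x + f y
  smul : ∀ (t : Om) x, f (t • x) = σ t • f x
  bij : Function.Bijective f

/-- Every vector is fixed by an open subgroup. -/
def Smo (G : Subgroup Gq) (f : Gq → V → V) : Prop :=
  ∀ x, ∃ H, Opn H ∧ ∀ σ ∈ H, σ ∈ G → f σ x = x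

/-- Projective semilinear actions. -/
structure PA (G : Subgroup Gq) (f : Gq → V → V) : Prop where
  opn : Opn G
  semi : ∀ σ ∈ G, Semi σ (f σ)
  coc : ∀ σ ∈ G, ∀ τ ∈ G, ∃ c : Om, ∀ x, f σ (f τ x) = c • f (σ * τ) x
  smo : Smo G f

/-- Semilinear actions. -/
structure TA (G : Subgroup Gq) (f : Gq → V → V) : Prop where
  opn : Opn G
  semi : ∀ σ ∈ G, Semi σ (f σ)
  mul : ∀ σ ∈ G, ∀ τ ∈ G, ∀ x, f σ (f τ x) = f (σ * τ) x
  smo : Smo G f

/-- Fixed vectors. -/
def Fv (G : Subgroup Gq) (f : Gq → V → V) (x : V) : Prop := ∀ σ ∈ G, f σ x = x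

/-- Stable lines. -/
def Line (G : Subgroup Gq) (f : Gq → V → V) (x : V) : Prop :=
  x ≠ 0 ∧ ∀ σ ∈ G, ∃ t : Om, f σ x = t • x

/-- Polynomial functions. -/
def Pol (p : V → Om) : Prop :=
  p ∈ Algebra.adjoin Om (Set.range fun l : V →ₗ[Om] Om => (l : V → Om))

/-- Polynomial maps. -/
def PolM (g : V → W) : Prop := ∀ l : W →ₗ[Om] Om, Pol fun x => l (g x)

end galois

section albert

/-- The diagonal entries. -/
def dg (x : J) : Fin 3 → Om := ![x.d1, x.d2, x.d3]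

/-- The octonion entries (slots). -/
def sl (x : J) : Fin 3 → O := ![x.x1, x.x2, x.x3]

/-- The element with given entries. -/
def jm (d : Fin 3 → Om) (y : Fin 3 → O) : J := ⟨d 0, d 1, d 2, y 0, y 1, y 2⟩

/-- The standard frame. -/
def ee (i : Fin 3) : J := jm (Pi.single i 1) 0

/-- An octonion in the slot `i`. -/
def ins (i : Fin 3) (y : O) : J := jm 0 (Pi.single i y)

/-- The unit element. -/
def j1 : J := jm 1 0

/-- The singular element with all entries one. -/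
def ones : J := jm 1 1

/-- The standard action on the octonions. -/
def oa (σ : Gq) (x : O) : O :=
  ⟨⟨σ x.fst.re, σ x.fst.imI, σ x.fst.imJ, σ x.fst.imK⟩,
    ⟨σ x.snd.re, σ x.snd.imI, σ x.snd.imJ, σ x.snd.imK⟩⟩

/-- A map of the octonions applied to the slots, and `σ` applied to the diagonal. -/
def al (σ : Gq) (a : O → O) (x : J) : J := jm (fun i => σ (dg x i)) fun i => a (sl x i)

/-- The standard action on the Albert algebra. -/
def aj (σ : Gq) : J → J := al σ (oa σ)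

/-- The operator `U`. -/
def uo (a x : J) : J := tf a x • a - cross (adj a) x

/-- Semilinear norm similarities. -/
structure Sim (σ : Gq) (f : J → J) : Prop extends Semi σ f where
  mult : ∃ l : Om, l ≠ 0 ∧ ∀ x, cub (f x) = l * σ (cub x)

/-- The inverse of the adjoint for the trace form. -/
def dag (σ : Gq) (f : J → J) (y : J) : J :=
  @Classical.epsilon J ⟨0⟩ fun z => ∀ x, tf (f x) z = σ (tf x y)

/-- Frames. -/
def Frame (x : Fin 3 → J) : Prop :=
  (∀ i, adj (x i) = 0) ∧ tf (cross (x 0) (x 1)) (x 2) ≠ 0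

/-- The map permutes the lines of the standard frame. -/
def Prm (π : Equiv.Perm (Fin 3)) (f : J → J) : Prop := ∀ i, ∃ t : Om, f (ee i) = t • ee (π i)

/-- The similarity which multiplies the slots by scalars. -/
def sc (z : Fin 3 → Om) (x : J) : J :=
  jm (fun i => z (i + 1) * z (i + 2) / z i * dg x i) fun i => z i • sl x i

/-- The conjugation, for odd permutations. -/
def sgs (π : Equiv.Perm (Fin 3)) (y : O) : O := if Equiv.Perm.sign π = 1 then y else star y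

/-- The map of Hurwitz type. -/
def hur (π : Equiv.Perm (Fin 3)) (σ : Gq) (a : O → O) (x : J) : J :=
  jm (fun j => σ (dg x (π⁻¹ j))) fun j => sgs π (a (sl x (π⁻¹ j)))

/-- Semilinear actions on the octonions by automorphisms. -/
structure HA (G : Subgroup Gq) (α : Gq → O → O) : Prop extends TA G α where
  hom : ∀ σ ∈ G, ∀ x y, α σ (x * y) = α σ x * α σ y

/-- The cyclic map of the models. -/
def phJ (c : Om) (x : J) : J :=
  jm ![c⁻¹ * dg x 2, c * dg x 0, c * dg x 1] ![c • sl x 2, sl x 0, sl x 1]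

/-- The map `x ↦ g x g`. -/
def wtJ (g : Fin 3 → Om) (x : J) : J :=
  jm (fun i => g i ^ 2 * dg x i) fun i => (g (i + 1) * g (i + 2)) • sl x i

/-- The Lie algebra of the group of the norm. -/
def Lie (X : Module.End Om J) : Prop := ∀ x, tf (adj x) (X x) = 0

/-- No unipotent element except one. -/
def AniL (H : Subgroup (J ≃ₗ[Om] J)) : Prop :=
  ∀ g ∈ H, (∃ m : ℕ, ∀ x, (fun y => g y - y)^[m] x = 0) → g = 1

/-- Every noncentral normal subgroup is the whole group. -/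
def SimpL (G : Type) [Group G] : Prop :=
  ∀ N : Subgroup G, N.Normal → ¬ N ≤ Subgroup.center G → N = ⊤

end albert

section data

/-- Descent data for the groups of type `E₆`: the elements of `K` act on the Albert algebra, the
other elements of `G` map it to its dual. -/
structure ED where
  G : Subgroup Gq
  K : Subgroup Gq
  f : Gq → J → J

/-- The axioms. -/
structure ED.OK (D : ED) : Prop where
  opn : Opn D.K
  le : D.K ≤ D.G
  ix : Ix2 D.G D.K
  sim : ∀ σ ∈ D.G, Sim σ (D.f σ)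
  coc : ∀ σ ∈ D.G, ∀ τ ∈ D.K, ∃ c : Om, ∀ x, D.f σ (D.f τ x) = c • D.f (σ * τ) x
  cod : ∀ σ ∈ D.G, ∀ τ ∈ D.G, τ ∉ D.K →
    ∃ c : Om, ∀ x, dag σ (D.f σ) (D.f τ x) = c • D.f (σ * τ) x
  smo : Smo D.K D.f

/-- The group of rational points. -/
def ED.grp (D : ED) : Subgroup (J ≃ₗ[Om] J) where
  carrier := {g | (∀ x, cub (g x) = cub x) ∧ (∀ σ ∈ D.K, ∀ x, g (D.f σ x) = D.f σ (g x)) ∧
    ∀ σ ∈ D.G, σ ∉ D.K → ∀ x y, tf (g x) (D.f σ (g y)) = tf x (D.f σ y)}
  one_mem' := ⟨fun _ => rfl, fun _ _ _ => rfl, fun _ _ _ _ _ => rfl⟩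
  mul_mem' := by
    rintro g h ⟨g1, g2, g3⟩ ⟨h1, h2, h3⟩
    refine ⟨fun x => (g1 _).trans (h1 x), fun σ hσ x => ?_, fun σ hσ hK x y =>
      (g3 σ hσ hK _ _).trans (h3 σ hσ hK x y)⟩
    change g (h _) = D.f σ (g (h x))
    rw [h2 σ hσ, g2 σ hσ]
  inv_mem' := by
    rintro g ⟨g1, g2, g3⟩
    refine ⟨fun x => ?_, fun σ hσ x => ?_, fun σ hσ hK x y => ?_⟩
    · change cub (g.symm x) = _
      rw [← g1, g.apply_symm_apply]
    · change g.symm _ = D.f σ (g.symm x)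
      rw [g.symm_apply_eq, g2 σ hσ, g.apply_symm_apply]
    · change tf (g.symm x) (D.f σ (g.symm y)) = _
      rw [← g3 σ hσ hK, g.apply_symm_apply, g.apply_symm_apply]

open Classical in
/-- Change of coordinates. -/
def ED.conj (D : ED) (ψ : J ≃ₗ[Om] J) : ED :=
  ⟨D.G, D.K, fun σ x =>
    if σ ∈ D.K then ψ.symm (D.f σ (ψ x)) else dag 1 ψ.symm (D.f σ (ψ x))⟩

/-- Extension of the ground field. -/
def ED.res (D : ED) (H : Subgroup Gq) : ED := ⟨D.G ⊓ H, D.K ⊓ H, D.f⟩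

/-- The group splits over the field fixed by `K`. -/
def ED.Spl (D : ED) : Prop :=
  ∃ ψ : J ≃ₗ[Om] J, Sim 1 ψ ∧ ∀ σ ∈ D.K, ∃ t : Om, ∀ x, D.f σ (ψ x) = t • ψ (aj σ x)

/-- The standard frame is stable, and the algebras of the slots are split. -/
structure ED.Frm (D : ED) (χ : Gq → Fin 3) : Prop where
  prm : ∀ σ ∈ D.G, Prm (Equiv.addRight (χ σ)) (D.f σ)
  triv : ∀ i, ∃ y : O, y ≠ 0 ∧ ∀ σ ∈ D.G, χ σ = 0 → ∃ t : Om, D.f σ (ins i y) = t • ins i y

/-- The normal form. -/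
structure ED.NF (D : ED) (χ : Gq → Fin 3) (α : Gq → O → O) (c : Om) (g : Fin 3 → Om) : Prop where
  ha : HA D.G α
  c0 : c ≠ 0
  cK : Fx D.K c
  g0 : ∀ i, g i ≠ 0
  gF : ∀ σ ∈ D.G, χ σ = 0 → ∀ i, σ (g i) = g i
  base : ∀ σ ∈ D.K, χ σ = 0 → ∃ t : Om, ∀ x, D.f σ x = t • al σ (α σ) x
  rho : ∀ ρ ∈ D.K, χ ρ = 1 → ∃ t : Om, ∀ x, D.f ρ x = t • phJ c (al ρ (α ρ) x)
  dual : ∀ s ∈ D.G, s ∉ D.K → χ s = 0 → ∃ t : Om, ∀ x, D.f s x = t • wtJ g (al s (α s) x)
  wei : ∀ ρ ∈ D.K, χ ρ = 1 → ∀ s ∈ D.G, s ∉ D.K → ∃ t : Om, (∀ σ ∈ D.G, χ σ = 0 → σ t = t) ∧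
    g 1 = t * ρ (g 0) ∧ g 2 = t * ρ (g 1) ∧ g 0 = c * s c * t * ρ (g 2)

/-- `Y` is the image of `X` under the action of `σ` on the endomorphisms. -/
def ED.Th (D : ED) (σ : Gq) (X Y : Module.End Om J) : Prop :=
  (σ ∈ D.K → ∀ x, Y (D.f σ x) = D.f σ (X x)) ∧
    (σ ∉ D.K → ∀ x y, tf (Y x) (D.f σ y) = -tf x (D.f σ (X y)))

/-- The action on the endomorphisms. -/
def ED.th (D : ED) (σ : Gq) (X : Module.End Om J) : Module.End Om J :=
  Classical.epsilon (D.Th σ X)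

/-- Descent data for the groups of type `D₄`. -/
structure FD where
  G : Subgroup Gq
  π : Gq → Equiv.Perm (Fin 3)
  f : Gq → J → J

/-- The axioms. -/
structure FD.OK (D : FD) : Prop where
  opn : Opn D.G
  pmul : ∀ σ ∈ D.G, ∀ τ ∈ D.G, D.π (σ * τ) = D.π σ * D.π τ
  sim : ∀ σ ∈ D.G, Sim σ (D.f σ)
  prm : ∀ σ ∈ D.G, Prm (D.π σ) (D.f σ)
  coc : ∀ σ ∈ D.G, ∀ τ ∈ D.G, ∃ z : Fin 3 → Om, (∀ i, z i ≠ 0) ∧
    ∀ x, D.f σ (D.f τ x) = sc z (D.f (σ * τ) x)
  smo : Smo D.G D.f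

/-- The group of rational points. -/
def FD.grp (D : FD) : Subgroup (J ≃ₗ[Om] J) where
  carrier := {g | (∀ x, cub (g x) = cub x) ∧ (∀ i, g (ee i) = ee i) ∧
    ∀ σ ∈ D.G, ∀ x, g (D.f σ x) = D.f σ (g x)}
  one_mem' := ⟨fun _ => rfl, fun _ => rfl, fun _ _ _ => rfl⟩
  mul_mem' := by
    rintro g h ⟨g1, g2, g3⟩ ⟨h1, h2, h3⟩
    refine ⟨fun x => (g1 _).trans (h1 x), fun i => ?_, fun σ hσ x => ?_⟩
    · change g (h _) = _
      rw [h2, g2]
    · change g (h _) = D.f σ (g (h x))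
      rw [h3 σ hσ, g3 σ hσ]
  inv_mem' := by
    rintro g ⟨g1, g2, g3⟩
    refine ⟨fun x => ?_, fun i => ?_, fun σ hσ x => ?_⟩
    · change cub (g.symm x) = _
      rw [← g1, g.apply_symm_apply]
    · change g.symm _ = _
      rw [g.symm_apply_eq, g2]
    · change g.symm _ = D.f σ (g.symm x)
      rw [g.symm_apply_eq, g3 σ hσ, g.apply_symm_apply]

/-- Change of coordinates. -/
def FD.conj (D : FD) (ψ : J ≃ₗ[Om] J) : FD := ⟨D.G, D.π, fun σ x => ψ.symm (D.f σ (ψ x))⟩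

/-- Extension of the ground field. -/
def FD.res (D : FD) (H : Subgroup Gq) : FD := ⟨D.G ⊓ H, D.π, D.f⟩

/-- The algebra of the slot `i` is split. -/
def FD.Triv (D : FD) (i : Fin 3) : Prop :=
  ∃ y : O, y ≠ 0 ∧ ∀ σ ∈ D.G, D.π σ i = i → ∃ t : Om, D.f σ (ins i y) = t • ins i y

/-- The datum is of Hurwitz type. -/
def FD.Hur (D : FD) (α : Gq → O → O) : Prop :=
  HA D.G α ∧ ∀ σ ∈ D.G, ∃ z : Fin 3 → Om, (∀ i, z i ≠ 0) ∧
    ∀ x, D.f σ x = sc z (hur (D.π σ) σ (α σ) x)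

/-- The datum is trialitarian. -/
def FD.Tri (D : FD) : Prop := ∃ σ ∈ D.G, D.π σ 0 = 1 ∧ D.π σ 1 = 2

/-- The map of `γ` fixes a point of the hexagon. -/
def FD.QS (D : FD) (γ : Gq) : Prop :=
  ∃ p : Fin 3 → O, (∀ i, p i ≠ 0) ∧ adj (jm 0 p) = 0 ∧
    ∃ z : Fin 3 → Om, (∀ i, z i ≠ 0) ∧ D.f γ (jm 0 p) = sc z (jm 0 p)

/-- The datum is standard on the stabilizer of `d`. -/
def FD.Std (D : FD) (d : Om) : Prop :=
  ∀ σ ∈ D.G, σ d = d → ∃ z : Fin 3 → Om, (∀ i, z i ≠ 0) ∧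
    ∀ x, D.f σ x = sc z (hur (D.π σ) σ (oa σ) x)

/-- The quadratic extension generated by `d` is disjoint from the splitting field of the
permutation. -/
structure FD.Qd (D : FD) (d : Om) : Prop where
  d0 : d ≠ 0
  sq : Fx D.G (d ^ 2)
  ex : ∃ s ∈ D.G, D.π s = 1 ∧ s d = -d

end data

section zorn

/-- Zorn coordinates. -/
def zp (x : O) : Om := x.fst.re + x.fst.imI

/-- Zorn coordinates. -/
def zm (x : O) : Om := x.fst.re - x.fst.imI

/-- Zorn coordinates. -/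
def za (x : O) : Fin 3 → Om :=
  ![x.fst.imJ + x.fst.imK, x.snd.re + x.snd.imI, x.snd.imK - x.snd.imJ]

/-- Zorn coordinates. -/
def zb (x : O) : Fin 3 → Om :=
  ![x.fst.imJ - x.fst.imK, x.snd.re - x.snd.imI, x.snd.imJ + x.snd.imK]

/-- The octonion with given Zorn coordinates. -/
def zorn (p m : Om) (a b : Fin 3 → Om) : O :=
  ⟨⟨(p + m) / 2, (p - m) / 2, (a 0 + b 0) / 2, (a 0 - b 0) / 2⟩,
    ⟨(a 1 + b 1) / 2, (a 1 - b 1) / 2, (b 2 - a 2) / 2, (a 2 + b 2) / 2⟩⟩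

/-- The idempotent `e₊`. -/
def ep : O := zorn 1 0 0 0

/-- The idempotent `e₋`. -/
def em : O := zorn 0 1 0 0

/-- The similarities which fix the lines of `e₊` and `e₋` in the slots; `det R = V₀ V₁ V₂`. -/
def gl3 (R : Matrix (Fin 3) (Fin 3) Om) (V : Fin 3 → Om) (x : J) : J :=
  jm (fun i => V i * dg x i) fun i => zorn (V (i + 2) * zp (sl x i)) (V (i + 1) * zm (sl x i))
    (R *ᵥ za (sl x i)) ((V (i + 1) * V (i + 2)) • (Rᵀ⁻¹ *ᵥ zb (sl x i)))

/-- The map of the normal form which exchanges the lines of `e₊` and `e₋`;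
`q₀ q₁ q₂ det H = -1`. -/
def swJ (s : Gq) (q : Fin 3 → Om) (H : Matrix (Fin 3) (Fin 3) Om) (x : J) : J :=
  jm (fun i => q i * s (dg x i)) fun i =>
    zorn (q (i + 2) * s (zm (sl x i))) (q (i + 1) * s (zp (sl x i)))
      (Hᵀ⁻¹ *ᵥ (s ∘ zb (sl x i))) ((q (i + 1) * q (i + 2)) • (H *ᵥ (s ∘ za (sl x i))))

/-- The elements which move `d` and fix the slots exchange the lines of `e₊` and `e₋`. -/
def FD.Swp (D : FD) (d : Om) : Prop :=
  ∀ s ∈ D.G, s d = -d → D.π s = 1 → ∀ i, (∃ t : Om, D.f s (ins i ep) = t • ins i em) ∧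
    ∃ t : Om, D.f s (ins i em) = t • ins i ep

/-- The normal form of a trialitarian datum. -/
structure FD.NF (D : FD) (d : Om) (q : Fin 3 → Om) (H : Matrix (Fin 3) (Fin 3) Om) : Prop where
  std : D.Std d
  sw : ∀ s ∈ D.G, s d = -d → D.π s = 1 → ∃ z : Fin 3 → Om, (∀ i, z i ≠ 0) ∧
    ∀ x, D.f s x = sc z (swJ s q H x)
  qe : ∀ σ ∈ D.G, ∀ i, σ (q i) = q (D.π σ i)
  Hf : ∀ σ ∈ D.G, σ d = d → H.map σ = H
  Hs : ∀ σ ∈ D.G, σ d = -d → H.map σ = Hᵀ
  det : q 0 * q 1 * q 2 * H.det = -1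

/-- The index set of the double six. -/
abbrev I6 : Type := Fin 3 × Fin 2

/-- The standard symplectic matrix of degree two. -/
def j2 : Matrix (Fin 2) (Fin 2) Om := !![0, 1; -1, 0]

/-- The standard symplectic matrix of degree six. -/
def j6 : Matrix I6 I6 Om := fun q r => if q.1 = r.1 then j2 q.2 r.2 else 0

/-- The first six coordinates. -/
def up (x : J) : I6 → Om := fun q => ![za (sl x q.1) 0, zb (sl x q.1) 1] q.2

/-- The last six coordinates. -/
def um (x : J) : I6 → Om := fun q => ![-za (sl x q.1) 1, zb (sl x q.1) 0] q.2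

/-- A block of the alternating matrix. -/
def yb (y : O) : Matrix (Fin 2) (Fin 2) Om := !![-za y 2, zp y; -zm y, zb y 2]

/-- The fifteen other coordinates, as an alternating matrix. -/
def om6 (x : J) : Matrix I6 I6 Om := fun q r =>
  if q.1 = r.1 then dg x q.1 * j2 q.2 r.2
  else if r.1 = q.1 + 1 then yb (sl x (q.1 + 2)) q.2 r.2 else -yb (sl x (q.1 + 1)) r.2 q.2

/-- The element with given coordinates (for an alternating matrix `w`). -/
def d6 (u : I6 → Om) (w : Matrix I6 I6 Om) (v : I6 → Om) : J :=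
  jm (fun i => w (i, 0) (i, 1)) fun i => zorn (w (i + 1, 0) (i + 2, 1)) (-w (i + 1, 1) (i + 2, 0))
    ![u (i, 0), -v (i, 0), -w (i + 1, 0) (i + 2, 0)] ![v (i, 1), u (i, 1), w (i + 1, 1) (i + 2, 1)]

/-- The Pfaffian. -/
def pf (w : Matrix I6 I6 Om) : Om := cub (d6 0 w 0)

/-- The similarities which respect the double six; `μ ^ 2 = det B det P`. -/
def gl6 (σ : Gq) (B : Matrix (Fin 2) (Fin 2) Om) (P : Matrix I6 I6 Om) (μ : Om)
    (x : J) : J :=
  d6 (P *ᵥ (B 0 0 • (σ ∘ up x) + B 0 1 • (σ ∘ um x))) (μ • (Pᵀ⁻¹ * (om6 x).map σ * P⁻¹))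
    (P *ᵥ (B 1 0 • (σ ∘ up x) + B 1 1 • (σ ∘ um x)))

/-- The map preserves the three parts of the double six. -/
structure Up6 (f : J → J) : Prop where
  p : ∀ x, om6 x = 0 → um x = 0 → om6 (f x) = 0 ∧ um (f x) = 0
  m : ∀ x, om6 x = 0 → up x = 0 → om6 (f x) = 0 ∧ up (f x) = 0
  o : ∀ x, up x = 0 → um x = 0 → up (f x) = 0 ∧ um (f x) = 0

/-- The map exchanges the two sixes. -/
structure Sw6 (f : J → J) : Prop where
  p : ∀ x, om6 x = 0 → um x = 0 → om6 (f x) = 0 ∧ up (f x) = 0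
  m : ∀ x, om6 x = 0 → up x = 0 → om6 (f x) = 0 ∧ um (f x) = 0
  o : ∀ x, up x = 0 → um x = 0 → up (f x) = 0 ∧ um (f x) = 0

/-- The datum respects the double six, and the form on the plane is definite at the real places
which are complex in the quadratic extension. -/
structure ED.S6 (D : ED) (B : Gq → Matrix (Fin 2) (Fin 2) Om) (P : Gq → Matrix I6 I6 Om)
    (μ : Gq → Om) : Prop where
  ne : ∀ σ ∈ D.G, μ σ ≠ 0
  det : ∀ σ ∈ D.G, μ σ ^ 2 = (B σ).det * (P σ).det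
  eq : ∀ σ ∈ D.G, ∀ x, D.f σ x = gl6 σ (B σ) (P σ) (μ σ) x
  sgn : ∀ ι γ, Cj ι γ → γ ∈ D.G → γ ∉ D.K → 0 < (ι ((B γ).det / B γ 1 0 ^ 2)).re

/-- The root element from the last six to the first six. -/
def Ep (x : J) : J := d6 (um x) 0 0

/-- The root element from the first six to the last six. -/
def Em (x : J) : J := d6 0 0 (up x)

/-- The nilradical of the parabolic subalgebra of the first six. -/
structure Np (X : Module.End Om J) : Prop where
  lie : Lie X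
  p : ∀ x, om6 x = 0 → um x = 0 → X x = 0
  o : ∀ x, um x = 0 → om6 (X x) = 0
  m : ∀ x, um (X x) = 0

/-- The exponential of an endomorphism of cube zero. -/
def ex3 (X : Module.End Om J) : Module.End Om J := 1 + X + (2⁻¹ : Om) • (X * X)

/-- Descent data for unitary groups: for `σ` in `K` the matrix of a semilinear map, for the other
`σ` the matrix of a sesquilinear form. -/
structure UD {n : Type} [Fintype n] [DecidableEq n] (G K : Subgroup Gq)
    (P : Gq → Matrix n n Om) : Prop where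
  opn : Opn K
  le : K ≤ G
  ix : Ix2 G K
  ne : ∀ σ ∈ G, (P σ).det ≠ 0
  coc : ∀ σ ∈ G, ∀ τ ∈ K, ∃ c : Om, P σ * (P τ).map σ = c • P (σ * τ)
  cod : ∀ σ ∈ G, ∀ τ ∈ G, τ ∉ K → ∃ c : Om, (P τ).map σ = c • ((P σ)ᵀ * P (σ * τ))
  smo : ∃ H, Opn H ∧ ∀ σ ∈ H, σ ∈ K → ∃ c : Om, P σ = c • (1 : Matrix n n Om)

end zorn

end Vale.Agent.P011Z.Cl

end
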