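import Vale.Agent.P011Z.Cl.Pol

/-!
Classification of the forms: block Ext.
-/

open Matrix Module

noncomputable section

namespace Vale.Agent.P011Z.Cl

open Vale.Agent.P011.D4 Vale.Agent.P011.D4.Oct Vale.Agent.P011.E6 Vale.Agent.P011.E6.Alb

/-- A chart: an additive map from a vector space over a number field which maps a basis to a
basis. -/
structure Chart {E V W : Type} [Field E] [AddCommGroup V] [Module E V] [AddCommGroup W]
    [Module Om W] (ι : E →+* Om) (j : V → W) : Prop where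
  add : ∀ x y, j (x + y) = j x + j y
  smul : ∀ (t : E) x, j (t • x) = ι t • j x
  bas : ∃ (n : ℕ) (b : Basis (Fin n) E V) (b' : Basis (Fin n) Om W), ∀ i, j (b i) = b' i

variable {E V V' W W' : Type} [Field E] [NumberField E] [AddCommGroup V] [Module E V]
  [AddCommGroup V'] [Module E V'] [AddCommGroup W] [Module Om W] [AddCommGroup W'] [Module Om W']
  {ι : E →+* Om} {j : V → W} {j' : V' → W'}

namespace Extx

/-- The chart as a semilinear map. -/
def sm (h : Chart ι j) : V →ₛₗ[ι] W := ⟨⟨j, h.add⟩, h.smul⟩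

omit [NumberField E] in
theorem j_sum (h : Chart ι j) {κ : Type} (s : Finset κ) (t : κ → E) (x : κ → V) :
    j (∑ i ∈ s, t i • x i) = ∑ i ∈ s, ι (t i) • j (x i) := by
  change sm h _ = _
  rw [map_sum]
  exact Finset.sum_congr rfl fun i _ => h.smul _ _

omit [NumberField E] in
theorem j_eq (h : Chart ι j) {n : ℕ} {b : Basis (Fin n) E V} {b' : Basis (Fin n) Om W}
    (hb : ∀ i, j (b i) = b' i) (t : Fin n → E) :
    j (b.equivFun.symm t) = b'.equivFun.symm fun i => ι (t i) := by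
  rw [Basis.equivFun_symm_apply, Basis.equivFun_symm_apply, j_sum h]
  simp only [hb]

omit [NumberField E] in
theorem repr_j (h : Chart ι j) {n : ℕ} {b : Basis (Fin n) E V} {b' : Basis (Fin n) Om W}
    (hb : ∀ i, j (b i) = b' i) (x : V) : b'.equivFun (j x) = fun i => ι (b.equivFun x i) := by
  rw [← b'.equivFun.eq_symm_apply, ← j_eq h hb, b.equivFun.symm_apply_apply]

omit [NumberField E] in
theorem eq0 (h : Chart ι j) {σ : Om → Om} {f g : W → W'} (f1 : ∀ x y, f (x + y) = f x + f y)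
    (f2 : ∀ (t : Om) x, f (t • x) = σ t • f x) (g1 : ∀ x y, g (x + y) = g x + g y)
    (g2 : ∀ (t : Om) x, g (t • x) = σ t • g x) (hfg : ∀ x, f (j x) = g (j x)) (y : W) :
    f y = g y := by
  obtain ⟨n, b, b', hb⟩ := h.bas
  rw [← b'.sum_repr y]
  change AddMonoidHom.mk' f f1 _ = AddMonoidHom.mk' g g1 _
  rw [map_sum, map_sum]
  refine Finset.sum_congr rfl fun i _ => ?_
  change f _ = g _
  rw [f2, g2, ← hb, hfg]

omit [NumberField E] in
theorem ext0 (h : Chart ι j) (h' : Chart ι j') {r : E → E} {σ : Gq}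
    (hσ : ∀ t, σ (ι t) = ι (r t)) {φ : V → V'}
    (hφ : ∀ (t : E) x y, φ (t • x + y) = r t • φ x + φ y) :
    ∃ f : W → W', (∀ x y, f (x + y) = f x + f y) ∧ (∀ (t : Om) x, f (t • x) = σ t • f x) ∧
      ∀ x, f (j x) = j' (φ x) := by
  obtain ⟨n, b, b', hb⟩ := h.bas
  have r1 : r 1 = 1 := ι.injective (by rw [← hσ, map_one, map_one])
  have φ1 : ∀ x y, φ (x + y) = φ x + φ y := fun x y => by
    simpa only [one_smul, r1] using hφ 1 x y
  have φ0 : φ 0 = 0 := (AddMonoidHom.mk' φ φ1).map_zero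
  have φ2 : ∀ t x, φ (t • x) = r t • φ x := fun t x => by
    simpa only [add_zero, φ0] using hφ t x 0
  refine ⟨fun y => ∑ i, σ (b'.equivFun y i) • j' (φ (b i)), fun x y => ?_, fun t x => ?_,
    fun x => ?_⟩
  · simp only [map_add, Pi.add_apply, add_smul, Finset.sum_add_distrib]
  · simp only [map_smul, Pi.smul_apply, smul_eq_mul, map_mul, mul_smul, Finset.smul_sum]
  · simp only [repr_j h hb, hσ, ← j_sum h', ← φ2]
    congr 1
    conv_rhs => rw [← b.sum_equivFun x]
    exact (map_sum (AddMonoidHom.mk' φ φ1) _ _).symm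

end Extx

open Extx

theorem Chart.inj (h : Chart ι j) : Function.Injective j := by
  obtain ⟨n, b, b', hb⟩ := h.bas
  intro x y hxy
  have h1 := repr_j h hb x
  rw [hxy, repr_j h hb] at h1
  exact b.equivFun.injective (funext fun i => ι.injective (congrFun h1 i).symm)

theorem Chart.span (h : Chart ι j) : Submodule.span Om (Set.range j) = ⊤ := by
  obtain ⟨n, b, b', hb⟩ := h.bas
  refine top_le_iff.1 (b'.span_eq ▸ Submodule.span_mono ?_)
  rintro _ ⟨i, rfl⟩
  exact ⟨b i, hb i⟩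

theorem Chart.fd (h : Chart ι j) : FiniteDimensional Om W := by
  obtain ⟨n, b, b', -⟩ := h.bas
  exact Module.Finite.of_basis b'

theorem Chart.eq_semi (h : Chart ι j) {σ : Gq} {f g : W → W'} (hf : Semi σ f) (hg : Semi σ g)
    (hfg : ∀ x, f (j x) = g (j x)) (y : W) : f y = g y :=
  eq0 h hf.add hf.smul hg.add hg.smul hfg y

/-- Extension of semilinear bijections. -/
theorem Chart.ext_semi (h : Chart ι j) (h' : Chart ι j') {r : E → E} {σ : Gq}
    (hσ : ∀ t, σ (ι t) = ι (r t)) {φ : V → V'} (hb : φ.Bijective)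
    (hφ : ∀ (t : E) x y, φ (t • x + y) = r t • φ x + φ y) :
    ∃ f : W → W', Semi σ f ∧ ∀ x, f (j x) = j' (φ x) := by
  let ρ : E →+* E :=
    { toFun := r
      map_one' := ι.injective (by rw [← hσ, map_one, map_one])
      map_mul' := fun a b => ι.injective (by rw [map_mul, ← hσ, ← hσ, ← hσ, map_mul, map_mul])
      map_zero' := ι.injective (by rw [← hσ, map_zero, map_zero])
      map_add' := fun a b => ι.injective (by rw [map_add, ← hσ, ← hσ, ← hσ, map_add, map_add]) }
  have hr : Function.Surjective r :=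
    (Algebra.IsAlgebraic.algHom_bijective (K := ℚ) ρ.toRatAlgHom).2
  choose r' hr' using hr
  obtain ⟨ψ, h1, h2⟩ := Function.bijective_iff_has_inverse.1 hb
  obtain ⟨f, f1, f2, f3⟩ := ext0 h h' hσ hφ
  obtain ⟨g, g1, g2, g3⟩ := ext0 h' h (r := r') (σ := σ⁻¹) (φ := ψ)
    (fun t => by rw [← hr' t, ← hσ, hr']; exact σ.symm_apply_apply _)
    fun t x y => hb.1 (by rw [hφ, hr', h2, h2, h2])
  refine ⟨f, ⟨f1, f2, Function.bijective_iff_has_inverse.2 ⟨g, fun y => ?_, fun y => ?_⟩⟩, f3⟩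
  · exact eq0 h (σ := id) (f := fun y => g (f y)) (g := id) (fun x y => by rw [f1, g1])
      (fun t x => by rw [f2, g2]; exact congrArg (· • _) (σ.symm_apply_apply t))
      (fun _ _ => rfl) (fun _ _ => rfl) (fun x => by rw [f3, g3, h1]; rfl) y
  · exact eq0 h' (σ := id) (f := fun y => f (g y)) (g := id) (fun x y => by rw [g1, f1])
      (fun t x => by rw [g2, f2]; exact congrArg (· • _) (σ.apply_symm_apply t))
      (fun _ _ => rfl) (fun _ _ => rfl) (fun x => by rw [g3, f3, h2]; rfl) y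

/-- The action of the chart. -/
theorem Chart.act (h : Chart ι j) {H : Subgroup Gq} (hH : ∀ σ, σ ∈ H ↔ ∀ t, σ (ι t) = ι t) :
    ∃ τ : Gq → W → W, TA H τ ∧ ∀ y, Fv H τ y ↔ ∃ x, j x = y := by
  obtain ⟨n, b, b', hb⟩ := h.bas
  obtain ⟨H', o1, o2, o3⟩ := opn_emb ι
  obtain rfl : H = H' := Subgroup.ext fun σ => (hH σ).trans (o2 σ).symm
  have hm : ∀ (σ τ : Gq) (y : W), b'.equivFun.symm (σ ∘ b'.equivFun
      (b'.equivFun.symm (τ ∘ b'.equivFun y))) = b'.equivFun.symm ((σ * τ :) ∘ b'.equivFun y) := by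
    intro σ τ y
    rw [b'.equivFun.apply_symm_apply]
    rfl
  have h1 : ∀ y : W, b'.equivFun.symm ((1 : Gq) ∘ b'.equivFun y) = y :=
    b'.equivFun.symm_apply_apply
  refine ⟨fun σ y => b'.equivFun.symm (σ ∘ b'.equivFun y), ⟨o1, fun σ _ => ⟨fun x y => ?_,
    fun t x => ?_, Function.bijective_iff_has_inverse.2
      ⟨fun y => b'.equivFun.symm ((σ⁻¹ :) ∘ b'.equivFun y), fun y => ?_, fun y => ?_⟩⟩,
    fun σ _ τ _ y => hm σ τ y, fun y => ?_⟩, fun y => ⟨fun hy => ?_, ?_⟩⟩
  · rw [← map_add, map_add b'.equivFun]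
    exact congrArg _ (funext fun i => map_add σ _ _)
  · rw [← map_smul, map_smul b'.equivFun]
    exact congrArg _ (funext fun i => map_mul σ _ _)
  · exact (hm σ⁻¹ σ y).trans (by rw [inv_mul_cancel, h1])
  · exact (hm σ σ⁻¹ y).trans (by rw [mul_inv_cancel, h1])
  · obtain ⟨N, n1, n2⟩ := opn_fin (b'.equivFun y)
    exact ⟨N, n1, fun σ hσ _ => b'.equivFun.symm_apply_eq.2 (funext (n2 σ hσ))⟩
  · choose t ht using fun i => (o3 (b'.equivFun y i)).1 fun σ hσ =>
      congrFun (b'.equivFun.symm_apply_eq.1 (hy σ hσ)) i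
    exact ⟨b.equivFun.symm t, by rw [j_eq h hb, funext ht]; exact b'.equivFun.symm_apply_apply y⟩
  · rintro ⟨x, rfl⟩ σ hσ
    refine b'.equivFun.symm_apply_eq.2 ?_
    rw [repr_j h hb]
    exact funext fun i => (hH σ).1 hσ _

/-- Extension of linear automorphisms. -/
theorem Chart.ext (h : Chart ι j) : ∃ X : (V ≃ₗ[E] V) →* (W ≃ₗ[Om] W), Function.Injective X ∧
    (∀ g x, X g (j x) = j (g x)) ∧
    (∀ G : W ≃ₗ[Om] W, (∀ x, ∃ y, G (j x) = j y) → ∃ g, X g = G) ∧
    ∀ g, (∃ m : ℕ, ∀ x, (fun y => g y - y)^[m] x = 0) ↔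
      ∃ m : ℕ, ∀ x, (fun y => X g y - y)^[m] x = 0 := by
  have hu : ∀ f g : W →ₗ[Om] W, (∀ x, f (j x) = g (j x)) → ∀ y, f y = g y := fun f g =>
    eq0 h (σ := id) f.map_add f.map_smul g.map_add g.map_smul
  have hX : ∀ g : V ≃ₗ[E] V, ∃ G : W ≃ₗ[Om] W, ∀ x, G (j x) = j (g x) := by
    intro g
    obtain ⟨f, f1, f2⟩ := h.ext_semi h (r := id) (σ := 1) (fun _ => rfl) g.bijective
      fun t x y => by rw [map_add, map_smul]; rfl
    obtain ⟨G, hG⟩ := f1.lin
    exact ⟨G, fun x => (hG _).trans (f2 x)⟩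
  choose X hX using hX
  refine ⟨MonoidHom.mk' X fun g g' => LinearEquiv.ext (hu (X (g * g')).toLinearMap
    (X g * X g').toLinearMap fun x => ?_), fun g g' hg => LinearEquiv.ext fun x => h.inj ?_, hX,
    fun G hG => ?_, fun g => ?_⟩
  · change X (g * g') (j x) = X g (X g' (j x))
    rw [hX, hX, hX]
    rfl
  · rw [← hX, ← hX]
    exact congrArg (fun G : W ≃ₗ[Om] W => G (j x)) hg
  · choose g hg using hG
    obtain ⟨n, b, -⟩ := h.bas
    have := Module.Finite.of_basis b
    let l : V →ₗ[E] V :=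
      { toFun := g
        map_add' := fun x y => h.inj (by rw [h.add, ← hg, ← hg, ← hg, h.add, map_add])
        map_smul' := fun t x => h.inj (by
          rw [RingHom.id_apply, h.smul, ← hg, ← hg, h.smul, map_smul]) }
    refine ⟨LinearEquiv.ofInjectiveEndo l fun x y hxy => h.inj (G.injective ?_),
      LinearEquiv.ext (hu (X _).toLinearMap G.toLinearMap fun x => (hX _ x).trans (hg x).symm)⟩
    rw [hg, hg]
    exact congrArg j hxy
  · have h1 : ∀ m x, (fun y => X g y - y)^[m] (j x) = j ((fun y => g y - y)^[m] x) := by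
      intro m
      induction m with
      | zero => exact fun _ => rfl
      | succ m ih =>
        intro x
        rw [Function.iterate_succ_apply, Function.iterate_succ_apply, ← ih, hX]
        exact congrArg _ (map_sub (sm h) _ _).symm
    have h0 : j 0 = 0 := (sm h).map_zero
    refine exists_congr fun m => ⟨fun hm y => ?_, fun hm x => h.inj ?_⟩
    · refine (Module.End.pow_apply ((X g).toLinearMap - 1) m y).symm.trans
        (hu _ 0 (fun x => ?_) y)
      exact (Module.End.pow_apply _ m _).trans ((h1 m x).trans (by rw [hm, h0]; rfl))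
    · rw [← h1, h0]
      exact hm _

/-- The points over the number field are Zariski dense. -/
theorem Chart.pol (h : Chart ι j) {p : W → Om} (hp : Pol p) (h0 : ∀ x, p (j x) = 0) (y : W) :
    p y = 0 := by
  have := h.fd
  obtain ⟨H, -, o2, -⟩ := opn_emb ι
  obtain ⟨τ, h1, h2⟩ := h.act o2
  by_contra hy
  obtain ⟨x, x1, x2⟩ := den h1 hp ⟨y, hy⟩
  obtain ⟨x, rfl⟩ := (h2 x).1 x1
  exact x2 (h0 x)

end Vale.Agent.P011Z.Cl

end
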