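import Vale.Agent.P011Z.Cl.Brg
import Vale.Agent.P011Z.Cl.Com

/-!
Classification of the forms: block IniD.
-/

open Matrix Module

noncomputable section

namespace Vale.Agent.P011Z.Cl

open Vale.Agent.P011.D4 Vale.Agent.P011.D4.Oct Vale.Agent.P011.E6 Vale.Agent.P011.E6.Alb

namespace IniDx

theorem idx_eq {σ : Gq} {f : J → J} (hf : Semi σ f) {i j j' : Fin 3} {t s : Om}
    (h : f (ee i) = t • ee j) (h' : f (ee i) = s • ee j') : j = j' := by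
  by_contra h1
  have h2 := congrArg (fun w => dg w j) (h.symm.trans h')
  simp only [Prcx.dg_smul, Prcx.dg_ee, if_true, if_neg h1, mul_one, mul_zero] at h2
  exact hf.ne (Prcx.ee_ne i) (by rw [h, h2, zero_smul])

theorem prm_of {σ : Gq} {f : J → J} (hf : Semi σ f)
    (h : ∀ i, ∃ (j : Fin 3) (t : Om), f (ee i) = t • ee j) : ∃ π, Prm π f := by
  choose p t hp using h
  have hi : Function.Injective p := fun i i' h => by
    by_contra h1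
    have h2 : σ⁻¹ (t i') • ee i = σ⁻¹ (t i) • ee i' := hf.bij.1 (by
      rw [hf.smul, hf.smul, hp, hp, Cubx.ap_inv, Cubx.ap_inv, h, smul_comm])
    have h3 := congrArg (fun w => dg w i) h2
    simp only [Prcx.dg_smul, Prcx.dg_ee, if_true, if_neg h1, mul_one, mul_zero, map_eq_zero] at h3
    exact hf.ne (Prcx.ee_ne i') (by rw [hp, h3, zero_smul])
  exact ⟨Equiv.ofBijective p (Finite.injective_iff_bijective.1 hi), fun i => ⟨t i, hp i⟩⟩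

variable {F : Type} [Field F] [NumberField F] {ι : F →+* Om} {i j l : O}

/-- Extension of semilinear similarities. -/
theorem ext_sml (hT : Trp ι (1 : F) 1 1 i j l) {r : F → F} {σ : Gq} (hσ : ∀ t, σ (ι t) = ι (r t))
    {φ : Js F → Js F} (hφ : Sml r φ) :
    ∃ f, Sim σ f ∧ ∀ x, f (ja ι i j l x) = ja ι i j l (φ x) := by
  obtain ⟨h1, h2, m, h3⟩ := hφ
  obtain ⟨f, hf, e⟩ := hT.chartA.ext_semi hT.chartA hσ h1 h2
  have hi : PolM fun x : J => x := PolM.lin LinearMap.id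
  have h4 : ∀ y, cub (f y) = ι m * σ (cub y) := fun y => by
    have h5 := hT.chartA.pol (((Pol.cub hi).semi hf).sub ((Pol.const (σ⁻¹ (ι m))).mul (Pol.cub hi)))
      (fun x => by
        rw [e, hT.cub, hT.cub, h3, map_mul, ← hσ, map_mul, Cubx.inv_ap, sub_self]) y
    rw [← Cubx.ap_inv σ (cub (f y)), sub_eq_zero.1 h5, map_mul, Cubx.ap_inv]
  refine ⟨f, ⟨hf, ι m, fun h0 => ?_, h4⟩, e⟩
  obtain ⟨y, hy⟩ := hf.bij.2 j1
  have h5 := h4 y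
  rw [hy, Cubx.cub_j1, h0, zero_mul] at h5
  exact one_ne_zero h5

end IniDx

open IniDx in
/-- The datum of a form. -/
theorem datum_D {k F : Type} [Field k] [Field F] [NumberField F] [Algebra k F]
    (θ : (F ≃ₐ[k] F) →* MulAut (P011.H900.grp (Spin (F := F)))) (h : FormD θ) :
    ∃ (D : FD) (ι : F →+* Om) (j : Js F → J) (e : Fix θ ≃* D.grp), D.OK ∧ D.Tri ∧ Chart ι j ∧
      (∀ g x, (e g).1 (j x) = j (g.1.1 x)) ∧ ∀ t : k, Fx D.G (ι (algebraMap k F t)) := by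
  classical
  obtain ⟨ι⟩ := exists_emb F
  obtain ⟨H, oH, mH, fH⟩ := opn_emb ι
  obtain ⟨i, j, l, hT, hoa, hee, -, haj⟩ := trp_std (ι := ι)
  have hc := hT.chartA
  have saj : ∀ σ : Gq, Sim σ (aj σ) := fun σ => (al_props (oa_semi σ) (oa_mul σ)).1
  have fix : ∀ σ ∈ H, ∀ x : Js F, aj σ (ja ι i j l x) = ja ι i j l x := fun σ hσ x =>
    haj σ id ((mH σ).1 hσ) x
  have sl1 : ∀ (g : J ≃ₗ[Om] J) {σ : Gq} {f : J → J}, Semi σ f → Semi σ fun x => g (f x) :=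
    fun g σ f hf => by simpa only [one_mul] using (semi_lin g).comp hf
  have sl2 : ∀ (g : J ≃ₗ[Om] J) {σ : Gq} {f : J → J}, Semi σ f → Semi σ fun x => f (g x) :=
    fun g σ f hf => by simpa only [mul_one] using hf.comp (semi_lin g)
  obtain ⟨-, e, he⟩ := xfer (Spin (F := F)) (FD.grp ⟨H, 1, aj⟩) (ja ι i j l) hc.inj
    (fun f hf => by
      obtain ⟨g, g1, g2⟩ := hT.ext f hf.1
      refine ⟨g, ⟨g1, fun n => by rw [← hee, g2, hf.2], fun σ hσ => ?_⟩, g2⟩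
      exact hc.eq_semi (sl1 g (saj σ).toSemi) (sl2 g (saj σ).toSemi) fun x => by
        change g (aj σ _) = aj σ _
        rw [fix σ hσ, g2, fix σ hσ])
    (fun g hg => by
      obtain ⟨f, f1, f2⟩ := hT.res g hg.1 fun x => by
        obtain ⟨y, hy⟩ := ((hT.fix (ha_oa oH) fH (fun σ _ => (hoa σ).1) (fun σ _ => (hoa σ).2.1)
          fun σ _ => (hoa σ).2.2).2 (g (ja ι i j l x))).1 fun σ hσ =>
            (hg.2.2 σ hσ _).symm.trans (congrArg g (fix σ hσ x))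
        exact ⟨y, hy.symm⟩
      exact ⟨f, ⟨f1, fun n => hc.inj (by rw [← f2, hee, hg.2.1])⟩, f2⟩)
    fun g _ hg => LinearEquiv.ext (hc.eq_semi (semi_lin g) (semi_lin 1) hg)
  have rel : ∀ {r : F → F} {σ : Gq} {φ : Js F → Js F} {α}, (∀ t, σ (ι t) = ι (r t)) → Sml r φ →
      Inn φ α → ∃ f, (Sim σ f ∧ ∀ g x, (e (α g)).1 (f x) = f ((e g).1 x)) ∧
        ∀ x, f (ja ι i j l x) = ja ι i j l (φ x) := by
    intro r σ φ α hσ h1 h2
    obtain ⟨f, f1, f2⟩ := ext_sml hT hσ h1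
    exact ⟨f, ⟨f1, fun g => hc.eq_semi (sl1 _ f1.toSemi) (sl2 _ f1.toSemi) fun x => by
      rw [f2, he, he, f2, h2]⟩, f2⟩
  have uniq : ∀ {σ : Gq} {f f' : J → J} {α : MulAut (P011.H900.grp (Spin (F := F)))},
      (Sim σ f ∧ ∀ g x, (e (α g)).1 (f x) = f ((e g).1 x)) →
      (Sim σ f' ∧ ∀ g x, (e (α g)).1 (f' x) = f' ((e g).1 x)) →
      ∃ z : Fin 3 → Om, (∀ n, z n ≠ 0) ∧ ∀ x, f x = sc z (f' x) := by
    intro σ f f' α h1 h2
    obtain ⟨u, u1, u2, u3⟩ := h2.1.inv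
    have h3 := h1.1.comp u1
    rw [mul_inv_cancel] at h3
    obtain ⟨z, z0, hz⟩ := com_D h3 fun g g1 g2 y => by
      obtain ⟨s, hs⟩ := e.surjective ⟨g, g1.1, g2, fun σ _ => g1.2 σ⟩
      obtain ⟨s, rfl⟩ := α.surjective s
      obtain rfl : (e (α s)).1 = g := congrArg Subtype.val hs
      rw [← u3 y, h2.2, u2, u2, h1.2]
    exact ⟨z, z0, fun x => by rw [← hz, u2]⟩
  let G : Subgroup Gq :=
    { carrier := {σ | ∃ r : F ≃ₐ[k] F, ∀ t, σ (ι t) = ι (r t)}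
      one_mem' := ⟨1, fun _ => rfl⟩
      mul_mem' := by
        rintro σ τ ⟨r, hr⟩ ⟨s, hs⟩
        exact ⟨r * s, fun t => by rw [AlgEquiv.mul_apply, hs, hr, AlgEquiv.mul_apply]⟩
      inv_mem' := by
        rintro σ ⟨r, hr⟩
        refine ⟨r⁻¹, fun t => σ.injective ?_⟩
        rw [Cubx.ap_inv, hr]
        exact congrArg ι (r.apply_symm_apply t).symm }
  have hHG : H ≤ G := fun σ hσ => ⟨1, (mH σ).1 hσ⟩
  have ex : ∀ σ : Gq, ∃ (r : F ≃ₐ[k] F) (π : Equiv.Perm (Fin 3)) (f : J → J),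
      (σ ∈ G → (∀ t, σ (ι t) = ι (r t)) ∧
        (Sim σ f ∧ ∀ g x, (e (θ r g)).1 (f x) = f ((e g).1 x)) ∧ Prm π f) ∧
      (σ ∈ H → f = aj σ) := by
    intro σ
    by_cases h1 : σ ∈ H
    · refine ⟨1, 1, aj σ, fun _ => ⟨(mH σ).1 h1, ⟨saj σ, fun g x => ?_⟩, fun n => ⟨1, ?_⟩⟩,
        fun _ => rfl⟩
      · rw [map_one]
        exact (e g).2.2.2 σ h1 x
      · rw [one_smul, Equiv.Perm.one_apply, ← hee, fix σ h1]
    by_cases h2 : σ ∈ G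
    · obtain ⟨r, hr⟩ := h2
      obtain ⟨φ, φ1, φ2, φ3⟩ := h.1 r
      obtain ⟨f, f1, f2⟩ := rel hr φ1 φ2
      obtain ⟨π, hπ⟩ := prm_of f1.1.toSemi fun n => by
        obtain ⟨m, t, ht⟩ := φ3 n
        exact ⟨m, ι t, by rw [← hee, f2, ht, hc.smul, hee]⟩
      exact ⟨r, π, f, fun _ => ⟨hr, f1, hπ⟩, fun h3 => absurd h3 h1⟩
    · exact ⟨1, 1, id, fun h3 => absurd h3 h2, fun h3 => absurd h3 h1⟩
  choose ρ π f h1 h2 using ex
  have ρu : ∀ σ ∈ G, ∀ r : F ≃ₐ[k] F, (∀ t, σ (ι t) = ι (r t)) → ρ σ = r := fun σ hσ r hr =>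
    AlgEquiv.ext fun t => ι.injective (((h1 σ hσ).1 t).symm.trans (hr t))
  have ρs : ∀ r : F ≃ₐ[k] F, ∃ σ ∈ G, ρ σ = r := fun r => by
    obtain ⟨σ, hσ⟩ := exists_ext ι (ι.comp (r : F →+* F))
    exact ⟨σ, ⟨r, hσ⟩, ρu σ ⟨r, hσ⟩ r hσ⟩
  have coc : ∀ σ ∈ G, ∀ τ ∈ G, ∃ z : Fin 3 → Om, (∀ n, z n ≠ 0) ∧
      ∀ x, f σ (f τ x) = sc z (f (σ * τ) x) := fun σ hσ τ hτ => by
    refine uniq ⟨(h1 σ hσ).2.1.1.comp (h1 τ hτ).2.1.1, fun g x => ?_⟩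
      (h1 _ (G.mul_mem hσ hτ)).2.1
    rw [ρu _ (G.mul_mem hσ hτ) (ρ σ * ρ τ) fun t => by
      rw [AlgEquiv.mul_apply, (h1 τ hτ).1, (h1 σ hσ).1, AlgEquiv.mul_apply], map_mul,
      MulAut.mul_apply, (h1 σ hσ).2.1.2, (h1 τ hτ).2.1.2]
  have ok : FD.OK ⟨G, π, f⟩ := by
    refine ⟨oH.mono hHG, fun σ hσ τ hτ => ?_, fun σ hσ => (h1 σ hσ).2.1.1,
      fun σ hσ => (h1 σ hσ).2.2, coc, fun x => ?_⟩
    · obtain ⟨z, z0, hz⟩ := coc σ hσ τ hτ
      have a := Prm.comp (h1 σ hσ).2.1.1.toSemi (h1 σ hσ).2.2 (h1 τ hτ).2.2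
      have b := Prm.comp (sc_sim z0).1.toSemi (sc_sim z0).2 (h1 _ (G.mul_mem hσ hτ)).2.2
      rw [one_mul, ← funext hz] at b
      exact Prm.unique ((h1 σ hσ).2.1.1.comp (h1 τ hτ).2.1.1).toSemi b a
    · obtain ⟨N, n1, n2⟩ := (ta_aj oH).smo x
      refine ⟨N ⊓ H, n1.inf oH, fun σ hσ _ => ?_⟩
      change f σ x = x
      rw [h2 σ hσ.2, n2 σ hσ.1 hσ.2]
  have tri : FD.Tri ⟨G, π, f⟩ := by
    obtain ⟨r, φ, t, u, φ1, φ2, φ3, φ4⟩ := h.2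
    obtain ⟨σ, hσ, rfl⟩ := ρs r
    obtain ⟨f', f1, f2⟩ := rel (h1 σ hσ).1 φ1 φ2
    obtain ⟨z, z0, hz⟩ := uniq f1 (h1 σ hσ).2.1
    have b := Prm.comp (sc_sim z0).1.toSemi (sc_sim z0).2 (h1 σ hσ).2.2
    rw [one_mul, ← funext hz] at b
    obtain ⟨s0, b0⟩ := b 0
    obtain ⟨s1, b1⟩ := b 1
    exact ⟨σ, hσ, idx_eq f1.1.toSemi b0 (t := s0) (s := ι t) (by rw [← hee, f2, φ3, hc.smul, hee]),
      idx_eq f1.1.toSemi b1 (s := ι u) (by rw [← hee, f2, φ4, hc.smul, hee])⟩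
  have mem : ∀ g, g ∈ Fix θ ↔ (e g).1 ∈ FD.grp ⟨G, π, f⟩ := fun g => by
    refine Subgroup.mem_iInf.trans ⟨fun hg => ⟨(e g).2.1, (e g).2.2.1, fun σ hσ x => ?_⟩,
      fun hg r => ?_⟩
    · have a : θ (ρ σ) g = g := hg (ρ σ)
      have b := (h1 σ hσ).2.1.2 g x
      rwa [a] at b
    · obtain ⟨σ, hσ, rfl⟩ := ρs r
      refine e.injective (Subtype.ext (LinearEquiv.ext fun y => ?_))
      obtain ⟨x, rfl⟩ := (h1 σ hσ).2.1.1.bij.2 y
      exact ((h1 σ hσ).2.1.2 g x).trans (hg.2.2 σ hσ x).symm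
  have sur : ∀ g ∈ FD.grp ⟨G, π, f⟩, ∃ s, (e s).1 = g := fun g hg => by
    obtain ⟨s, hs⟩ := e.surjective ⟨g, hg.1, hg.2.1, fun σ hσ x => by
      have a := hg.2.2 σ (hHG hσ) x
      change g (f σ x) = f σ (g x) at a
      rwa [h2 σ hσ] at a⟩
    exact ⟨s, congrArg Subtype.val hs⟩
  let E : Fix θ →* FD.grp ⟨G, π, f⟩ := MonoidHom.codRestrict
    ((Subgroup.subtype _).comp (e.toMonoidHom.comp (Fix θ).subtype)) _ fun g => (mem g.1).1 g.2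
  have hE : Function.Bijective E := by
    refine ⟨fun a b hab => Subtype.ext (e.injective (Subtype.ext
      (congrArg (fun w : FD.grp ⟨G, π, f⟩ => w.1) hab))), fun g => ?_⟩
    obtain ⟨s, hs⟩ := sur g.1 g.2
    exact ⟨⟨s, (mem s).2 (hs ▸ g.2)⟩, Subtype.ext hs⟩
  refine ⟨⟨G, π, f⟩, ι, ja ι i j l, MulEquiv.ofBijective E hE, ok, tri, hc, fun g x => he g.1 x,
    fun t σ hσ => ?_⟩
  rw [(h1 σ hσ).1, AlgEquiv.commutes]

theorem form_D (hD : ∀ D : FD, D.OK → D.Tri → AniL D.grp → SimpL D.grp) {k F : Type} [Field k]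
    [Field F] [NumberField F] [Algebra k F]
    (θ : (F ≃ₐ[k] F) →* MulAut (P011.H900.grp (Spin (F := F)))) (h : FormD θ) : Smp (Fix θ) := by
  obtain ⟨D, ι, j, e, ok, tri, hc, he, -⟩ := datum_D θ h
  intro hu
  refine simpL_equiv e.symm (hD _ ok tri fun g hg ⟨m, hm⟩ => ?_)
  obtain ⟨s, hs⟩ := e.surjective ⟨g, hg⟩
  obtain rfl : (e s).1 = g := congrArg Subtype.val hs
  have a : ∀ n x, (fun y => (e s).1 y - y)^[n] (j x) = j ((fun y => s.1.1 y - y)^[n] x) :=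
    fun n => by
      induction n with
      | zero => exact fun _ => rfl
      | succ n ih =>
        intro x
        rw [Function.iterate_succ_apply, Function.iterate_succ_apply, ← ih, he]
        exact congrArg _ (map_sub (Extx.sm hc) _ _).symm
  have b : s = 1 := Subtype.ext (hu s.1 s.2 ⟨m, fun x => hc.inj (by
    rw [← a, hm]
    exact (Extx.sm hc).map_zero.symm)⟩)
  rw [b, map_one]
  rfl

end Vale.Agent.P011Z.Cl

end
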