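import Vale.Agent.P011Z.Cl.IniE.Ext

/-!
Classification of the forms: block IniE.
-/

open Matrix Module

noncomputable section

namespace Vale.Agent.P011Z.Cl

open Vale.Agent.P011.D4 Vale.Agent.P011.D4.Oct Vale.Agent.P011.E6 Vale.Agent.P011.E6.Alb

open IniEx in
/-- The datum of a Galois action. -/
theorem datum_E {k F : Type} [Field k] [Field F] [NumberField F] [Algebra k F]
    (θ : (F ≃ₐ[k] F) →* MulAut (P011.H900.grp (P011.H900.Cub (a := (1 : F)) (b := 1) 1)))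
    (h : ∀ σ : F ≃ₐ[k] F, ∃ f, Sml σ f ∧ (Inn f (θ σ) ∨ Dua f (θ σ))) :
    ∃ (D : ED) (ι : F →+* Om) (j : Js F → J) (e : Fix θ ≃* D.grp), D.OK ∧ Chart ι j ∧
      (∀ g x, (e g).1 (j x) = j (g.1.1 x)) ∧ (∀ t : k, Fx D.G (ι (algebraMap k F t))) ∧
      (D.Spl → ∃ ψ, Sml id ψ ∧ ∀ (σ : F ≃ₐ[k] F) f, Sml σ f → Inn f (θ σ) →
        ∃ t : F, ∀ x, f (ψ x) = t • ψ (ajs σ x)) := by
  obtain ⟨ι, j, H, hS⟩ := exists_std F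
  obtain ⟨X, x1, x2, x3, x4⟩ := hS.grp
  have hX : ∀ g, RatE g → ∃ a, X a = g := fun g hg => x4 g hg.1 fun σ _ => hg.2 σ
  have u1 : ∀ (σ : Gq) (r r' : F ≃ₐ[k] F), (∀ t, σ (ι t) = ι (r t)) → (∀ t, σ (ι t) = ι (r' t)) →
      r = r' := fun σ r r' a b => AlgEquiv.ext fun t => ι.injective ((a t).symm.trans (b t))
  obtain ⟨G, hG⟩ : ∃ G : Subgroup Gq, ∀ σ, σ ∈ G ↔ ∃ r : F ≃ₐ[k] F, ∀ t, σ (ι t) = ι (r t) := by
    refine ⟨⟨⟨⟨{σ | ∃ r : F ≃ₐ[k] F, ∀ t, σ (ι t) = ι (r t)}, ?_⟩, 1, fun _ => rfl⟩, ?_⟩,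
      fun _ => Iff.rfl⟩
    · rintro σ τ ⟨r, hr⟩ ⟨s, hs⟩
      exact ⟨r * s, fun t => by rw [AlgEquiv.mul_apply, hs, hr, AlgEquiv.mul_apply]⟩
    · rintro σ ⟨r, hr⟩
      refine ⟨r⁻¹, fun t => σ.injective ?_⟩
      rw [Cubx.ap_inv, hr]
      exact congrArg ι (r.apply_symm_apply t).symm
  have hle : H ≤ G := fun σ hσ => (hG σ).2 ⟨1, (hS.mem σ).1 hσ⟩
  choose! ρ hρ using fun σ => (hG σ).1
  have r1 : ∀ σ ∈ G, ∀ τ ∈ G, ρ (σ * τ) = ρ σ * ρ τ := fun σ hσ τ hτ =>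
    u1 _ _ _ (hρ _ (mul_mem hσ hτ)) fun t => by
      rw [AlgEquiv.mul_apply, hρ τ hτ, hρ σ hσ, AlgEquiv.mul_apply]
  have r2 : ∀ σ ∈ H, ρ σ = 1 := fun σ hσ => u1 _ _ _ (hρ σ (hle hσ)) ((hS.mem σ).1 hσ)
  have r3 : ∀ r : F ≃ₐ[k] F, ∃ σ ∈ G, ρ σ = r := fun r => by
    obtain ⟨σ, hσ⟩ := exists_ext ι (ι.comp (r : F →+* F))
    exact ⟨σ, (hG σ).2 ⟨r, hσ⟩, u1 _ _ _ (hρ σ ((hG σ).2 ⟨r, hσ⟩)) hσ⟩
  have i1 : ∀ σ ∈ H, In X (θ (ρ σ)) (aj σ) := fun σ hσ =>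
    hS.inn x2 (semi_aj σ) (φ := id) (hS.fix hσ) (by rw [r2 σ hσ, map_one]; exact fun _ _ => rfl)
  have ef : ∀ σ ∈ G, ∃ T, Sim σ T ∧ (In X (θ (ρ σ)) T ∨ Du X (θ (ρ σ)) T) ∧
      (σ ∈ H → ∀ x, T x = aj σ x) := fun σ hσ => by
    by_cases hH : σ ∈ H
    · exact ⟨aj σ, (al_props (oa_semi σ) (oa_mul σ)).1, Or.inl (i1 σ hH), fun _ _ => rfl⟩
    · obtain ⟨φ, a1, a2⟩ := h (ρ σ)
      obtain ⟨T, b1, b2⟩ := hS.sim (hρ σ hσ) a1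
      exact ⟨T, b1, a2.imp (hS.inn x2 b1.toSemi b2) (hS.dua x2 b1.toSemi b2),
        fun a => absurd a hH⟩
  choose! f f1 f2 f3 using ef
  have f4 : ∀ σ ∈ H, ∀ x, f σ x = aj σ x := fun σ hσ => f3 σ (hle hσ) hσ
  obtain ⟨K, hD, hK⟩ := exists_ed hX hS.opn hle (α := fun σ => θ (ρ σ))
    (fun σ hσ τ hτ => by rw [r1 σ hσ τ hτ, map_mul]; rfl) f1 f2
    (fun σ hσ => (funext (f4 σ hσ) : f σ = aj σ) ▸ i1 σ hσ) f4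
  have hHK : H ≤ K := fun σ hσ =>
    (hK σ).2 ⟨hle hσ, (funext (f4 σ hσ) : f σ = aj σ) ▸ i1 σ hσ⟩
  have d1 : ∀ σ ∈ G, σ ∉ K → Du X (θ (ρ σ)) (f σ) := fun σ hσ a =>
    (f2 σ hσ).resolve_left fun b => a ((hK σ).2 ⟨hσ, b⟩)
  have m0 : ∀ a, a ∈ Fix θ ↔ ∀ r, θ r a = a := fun a => Subgroup.mem_iInf
  have m1 : ∀ a, a ∈ Fix θ ↔ X a ∈ (ED.mk G K f).grp := fun a => by
    rw [m0]
    refine ⟨fun ha => ⟨x3 a, fun σ hσ x => ?_, fun σ hσ hn x y => ?_⟩, fun ha r => ?_⟩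
    · have b := ((hK σ).1 hσ).2 a x
      rw [ha] at b
      exact b.symm
    · have b := du_iff.1 (d1 σ hσ hn) a x y
      rwa [ha] at b
    · obtain ⟨σ, hσ, rfl⟩ := r3 r
      refine x1 (LinearEquiv.ext fun x => ?_)
      by_cases hn : σ ∈ K
      · obtain ⟨y, rfl⟩ := (f1 σ hσ).bij.2 x
        exact (((hK σ).1 hn).2 a y).symm.trans (ha.2.1 σ hn y).symm
      · refine eq_of_tf fun w => ?_
        obtain ⟨y, rfl⟩ := (f1 σ hσ).bij.2 w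
        obtain ⟨y, rfl⟩ := (X a).surjective y
        exact (du_iff.1 (d1 σ hσ hn) a x y).trans (ha.2.2 σ hσ hn x y).symm
  have m2 : ∀ g ∈ (ED.mk G K f).grp, ∃ a ∈ Fix θ, X a = g := fun g hg => by
    obtain ⟨a, rfl⟩ := x4 g hg.1 fun σ hσ x => by
      rw [← f4 σ hσ, ← f4 σ hσ]
      exact hg.2.1 σ (hHK hσ) x
    exact ⟨a, (m1 a).2 hg, rfl⟩
  have m3 : (Fix θ).map X = (ED.mk G K f).grp :=
    Subgroup.ext fun g => ⟨fun ⟨a, a1, a2⟩ => a2 ▸ (m1 a).1 a1, m2 g⟩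
  refine ⟨ED.mk G K f, ι, j, ((Fix θ).equivMapOfInjective X x1).trans (MulEquiv.subgroupCongr m3),
    hD, hS.ch, fun g => x2 g.1, fun t σ hσ => ?_, ?_⟩
  · rw [hρ σ hσ, AlgEquiv.commutes]
  · rintro ⟨ψ, p1, p2⟩
    obtain ⟨φ, q1, q2⟩ := hS.spl p1 fun σ hσ => (p2 σ (hHK hσ)).imp fun t ht x => by
      rw [← f4 σ hσ]
      exact ht x
    refine ⟨φ, q1, fun r g a1 a2 => ?_⟩
    obtain ⟨σ, hσ, rfl⟩ := r3 r
    obtain ⟨T, b1, b2⟩ := hS.sim (hρ σ hσ) a1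
    have b3 := hS.inn x2 b1.toSemi b2 a2
    have b4 := (f2 σ hσ).resolve_right (not_both hX b1.toSemi (f1 σ hσ).toSemi b3)
    obtain ⟨c, hc⟩ := uniq hX (f1 σ hσ).toSemi b1.toSemi b4 b3
    obtain ⟨t, ht⟩ := p2 σ ((hK σ).2 ⟨hσ, b4⟩)
    exact q2 σ _ g T (c * t) (hρ σ hσ) b1.toSemi b2 fun x => by
      rw [hc, mul_smul]
      exact congrArg _ (ht x)

theorem form_E (hE : ∀ D : ED, D.OK → ¬ D.Spl → AniL D.grp → SimpL D.grp) {k F : Type} [Field k]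
    [Field F] [NumberField F] [Algebra k F]
    (θ : (F ≃ₐ[k] F) →* MulAut (P011.H900.grp (P011.H900.Cub (a := (1 : F)) (b := 1) 1)))
    (h : FormE θ) : Smp (Fix θ) := by
  intro hA
  obtain ⟨D, ι, j, e, h1, h2, h3, -, h4⟩ := datum_E θ h.1
  refine simpL_equiv e.symm (hE D h1 (fun h5 => h.2 (h4 h5)) fun g hg hu => ?_)
  obtain ⟨a, ha⟩ := e.surjective ⟨g, hg⟩
  have h5 : a = 1 := Subtype.ext (hA a.1 a.2 (IniEx.uni h2 (h3 a) (by rw [ha]; exact hu)))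
  rw [h5, map_one] at ha
  exact (congrArg Subtype.val ha).symm

end Vale.Agent.P011Z.Cl

end
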