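import Vale.Agent.P011Z.Cl.JM4
import Vale.Agent.P011Z.Cl.IniE
import Vale.Agent.P011Z.Cl.IniD
import Vale.Agent.P011Z.Cl.SpecG

/-!
Classification of the forms: block JM5.
-/

open Matrix Module

noncomputable section

namespace Vale.Agent.P011Z.Cl

open Vale.Agent.P011.D4 Vale.Agent.P011.D4.Oct Vale.Agent.P011.E6 Vale.Agent.P011.E6.Alb

variable {k F : Type} [Field k] [Field F] [NumberField F] [Algebra k F]

omit [NumberField F] in
theorem JM5x.retr {V : Type} [AddCommGroup V] [Module F V] {ι : F →+* Om} {j : V → J}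
    (hj : Chart ι j) : ∃ ρ : J →+ V, (∀ t y, ρ (ι t • y) = t • ρ y) ∧ ∀ x, ρ (j x) = x := by
  obtain ⟨n, b, b', hb⟩ := hj.bas
  let _ : Algebra F Om := ι.toAlgebra
  obtain ⟨l, hl⟩ := (Algebra.linearMap F Om).exists_leftInverse_of_injective
    (LinearMap.ker_eq_bot.2 ι.injective)
  have h1 : ∀ t, l (ι t) = t := fun t => LinearMap.congr_fun hl t
  have h2 : ∀ t y, l (ι t * y) = t * l y := fun t y => l.map_smul t y
  let ρ : J →+ V := AddMonoidHom.mk' (fun y => ∑ i, l (b'.repr y i) • b i) fun x y => by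
    simp only [map_add, Finsupp.add_apply, add_smul, Finset.sum_add_distrib]
  have h3 : ∀ t y, ρ (ι t • y) = t • ρ y := fun t y => by
    change ∑ i, l (b'.repr (ι t • y) i) • b i = t • ∑ i, l (b'.repr y i) • b i
    simp only [map_smul, Finsupp.smul_apply, smul_eq_mul, h2, mul_smul, Finset.smul_sum]
  refine ⟨ρ, h3, fun x => ?_⟩
  have h4 : ∀ i, ρ (b' i) = b i := fun i => by
    change ∑ m, l (b'.repr (b' i) m) • b m = _
    rw [Finset.sum_eq_single i (fun m _ hm => by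
      rw [b'.repr_self, Finsupp.single_eq_of_ne hm, map_zero, zero_smul]) (by simp),
      b'.repr_self, Finsupp.single_eq_same, ← map_one ι, h1, one_smul]
  have h5 : j x = ∑ i, ι (b.repr x i) • b' i := by
    let s : V →ₛₗ[ι] J := ⟨⟨j, hj.add⟩, hj.smul⟩
    change s x = _
    conv_lhs => rw [← b.sum_repr x, map_sum]
    exact Finset.sum_congr rfl fun i _ => by rw [← hb]; exact hj.smul _ _
  rw [h5, map_sum]
  simp only [h3, h4]
  exact b.sum_repr x

theorem not_coch {V H : Type} [AddCommGroup V] [Module F V] [Module k V] [IsScalarTower k F V]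
    [Group H] {ι : F →+* Om} {j : V → J} (hj : Chart ι j) {v : H → V → V}
    {S : Subgroup (J ≃ₗ[Om] J)} (e : H ≃* S) (he : ∀ g x, (e g).1 (j x) = j (v g x))
    {G : Subgroup Gq} (hk : ∀ t : k, Fx G (ι (algebraMap k F t))) (hr : Rk0 k v) :
    ¬ Coch G S := by
  rintro ⟨c, s, p, h1, h2, h3⟩
  obtain ⟨ρ, r1, r2⟩ := JM5x.retr hj
  let i : kˣ →* Omˣ := Units.map (ι.comp (algebraMap k F)).toMonoidHom
  let c' : kˣ →* H := e.symm.toMonoidHom.comp ((c.comp i).codRestrict S fun t => h3 _ (hk t.1))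
  have h4 : ∀ t, (e (c' t)).1 = c (i t) := fun t => congrArg Subtype.val (e.apply_symm_apply _)
  have h5 := hr c' s (fun m x => ρ (p m (j x))) fun t => funext fun x => by
    rw [← r2 (v _ x), ← he, h4, h1, map_sum, Finset.sum_apply]
    refine Finset.sum_congr rfl fun m _ => ?_
    rw [← map_zpow i, Pi.smul_apply, ← algebraMap_smul F (t ^ m).1, ← r1]
    rfl
  have : CharZero k := (algebraMap k F).charZero
  refine h2 (i (Units.mk0 2 two_ne_zero)) (map_ofNat (ι.comp (algebraMap k F)) 2) ?_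
  rw [← h4, h5, MonoidHom.one_apply, map_one]
  rfl

theorem form_E' (hE : ∀ D : ED, D.OK → ¬ D.Spl → AniL D.grp → SimpL D.grp)
    (θ : (F ≃ₐ[k] F) →* MulAut (P011.H900.grp (P011.H900.Cub (a := (1 : F)) (b := 1) 1)))
    (h : FormE θ) (hr : Rk0 k fun g : Fix θ => (g.1.1 : Js F → Js F)) : Prj (Fix θ) := by
  obtain ⟨D, ι, j, e, h1, h2, h3, h4, h5⟩ := datum_E θ h.1
  exact simpL_equiv e.symm (hE D h1 (fun h6 => h.2 (h5 h6))
    (not_not.1 fun h6 => not_coch h2 e h3 h4 hr (h1.coch h6)))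

theorem form_D' (hD : ∀ D : FD, D.OK → D.Tri → AniL D.grp → SimpL D.grp)
    (θ : (F ≃ₐ[k] F) →* MulAut (P011.H900.grp (Spin (F := F)))) (h : FormD θ)
    (hr : Rk0 k fun g : Fix θ => (g.1.1 : Js F → Js F)) : Prj (Fix θ) := by
  obtain ⟨D, ι, j, e, h1, h0, h2, h3, h4⟩ := datum_D θ h
  exact simpL_equiv e.symm (hD D h1 h0 (not_not.1 fun h6 => not_coch h2 e h3 h4 hr (h1.coch h6)))

end Vale.Agent.P011Z.Cl

end
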