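import Vale.Agent.P011Z.Cl.Sgn
import Vale.Agent.P011Z.Cl.Apx
import Vale.Agent.P011Z.Cl.Gen.A

/-!
Classification of the forms: block Gen.
-/

open Matrix Module

noncomputable section

namespace Vale.Agent.P011Z.Cl

open Vale.Agent.P011.D4 Vale.Agent.P011.D4.Oct Vale.Agent.P011.E6 Vale.Agent.P011.E6.Alb

namespace Genx

variable {V W : Type} [AddCommGroup V] [Module Om V] [AddCommGroup W] [Module Om W]

/-- The image of a subspace under a semilinear bijection. -/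
theorem exists_img {s : Gq} {f : V → W} (hf : Semi s f) (S : Submodule Om V) :
    ∃ (T : Submodule Om W) (φ : S → T), Semi s φ ∧ ∀ x, (φ x : W) = f x := by
  let T : Submodule Om W :=
    { carrier := f '' S
      add_mem' := by
        rintro _ _ ⟨x, hx, rfl⟩ ⟨y, hy, rfl⟩
        exact ⟨x + y, S.add_mem hx hy, hf.add x y⟩
      zero_mem' := ⟨0, S.zero_mem, hf.zero⟩
      smul_mem' := by
        rintro t _ ⟨x, hx, rfl⟩
        exact ⟨s⁻¹ t • x, S.smul_mem _ hx, by rw [hf.smul, Cubx.ap_inv]⟩ }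
  refine ⟨T, fun x => ⟨f x, x, x.2, rfl⟩, ⟨fun x y => Subtype.ext (hf.add x y),
    fun t x => Subtype.ext (hf.smul t x),
    fun x y hxy => Subtype.ext (hf.bij.1 (congrArg Subtype.val hxy)), ?_⟩, fun _ => rfl⟩
  rintro ⟨_, x, hx, rfl⟩
  exact ⟨⟨x, hx⟩, rfl⟩

theorem mem_ix {G H : Subgroup Gq} (hx : Ix2 G H) {s σ : Gq} (hs : s ∈ G) (hsH : s ∉ H)
    (hσ : σ ∈ G) (h : σ ∉ H) : s⁻¹ * σ ∈ G ⊓ H :=
  ⟨G.mul_mem (G.inv_mem hs) hσ,
    (hx _ (G.inv_mem hs) _ hσ).2 (iff_of_false (fun h2 => hsH (H.inv_mem_iff.1 h2)) h)⟩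

/-- The orbit of a vector which is fixed by a subgroup of index two. -/
theorem orbit {G H : Subgroup Gq} {f : Gq → V → V} (h : TA G f) (hx : Ix2 G H) {s : Gq}
    (hs : s ∈ G) (hsH : s ∉ H) {x : V} (h0 : Fv (G ⊓ H) f x) {σ : Gq} (hσ : σ ∈ G) :
    (σ ∈ H → f σ x = x ∧ f σ (f s x) = f s x) ∧ (σ ∉ H → f σ x = f s x ∧ f σ (f s x) = x) := by
  have k : ∀ τ ∈ G, τ ∉ H → f τ x = f s x := fun τ hτ hH => by
    have h1 := mem_ix hx hs hsH hτ hH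
    rw [← h0 _ h1, h.mul s hs _ h1.1, mul_inv_cancel_left, h0 _ h1]
  have h2 := hx σ hσ s hs
  refine ⟨fun hH => ⟨h0 σ ⟨hσ, hH⟩, ?_⟩, fun hH => ⟨k σ hσ hH, ?_⟩⟩
  · rw [h.mul σ hσ s hs]
    exact k _ (mul_mem hσ hs) fun h3 => hsH ((h2.1 h3).1 hH)
  · rw [h.mul σ hσ s hs]
    exact h0 _ ⟨mul_mem hσ hs, h2.2 (iff_of_false hH hsH)⟩

theorem pol_mul {g h : V → Module.End Om J} (hg : PolM g) (hh : PolM h) :
    PolM fun x => g x * h x := by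
  have := fd_J
  exact PolM.bil (LinearMap.mul Om (Module.End Om J)) hg hh

theorem pol_ex3 {g : V → Module.End Om J} (hg : PolM g) : PolM fun x => ex3 (g x) :=
  ((PolM.const 1).add hg).add (PolM.smul (Pol.const _) (pol_mul hg hg))

theorem pol_ad {g : V → Module.End Om J} (hg : PolM g) (E : Module.End Om J) :
    PolM fun x => adE (g x) E := by
  have h1 : PolM fun x => -g x := (PolM.lin (-LinearMap.id)).comp hg
  exact pol_mul (pol_mul (pol_ex3 hg) (PolM.const E)) (pol_ex3 h1)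

theorem ad_smul (X E : Module.End Om J) (t : Om) : adE X (t • E) = t • adE X E := by
  rw [adE, adE, mul_smul_comm, smul_mul_assoc]

theorem ad_zero (E : Module.End Om J) : adE 0 E = E := by simp [adE, ex3]

theorem ad_em {X : Module.End Om J} (hX : Np X) :
    Lie (adE X EmL) ∧ finrank Om (LinearMap.range (adE X EmL)) = 6 := by
  have := fd_J
  obtain ⟨ψ, h1, h2, h3⟩ := exists_ex3 hX.lie hX.cube
  have h4 : Sim 1 ψ := sim_of_cub (l := 1) fun x => by rw [h1, one_mul]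
  have h5 : ∀ x, adE X EmL (ψ x) = ψ (EmL x) := fun x => by
    change ex3 X (EmL (ex3 (-X) (ψ x))) = _
    rw [← h3, ← h2, ψ.symm_apply_apply]
  exact ⟨lie_em.semi h4 h5, (trace_semi h4.toSemi h5).2.trans rank_em.1⟩

/-- A rational point of the big cell. -/
theorem cell {D : ED} (h : D.OK) {H : Subgroup Gq} (hH : Opn H) (hx : Ix2 D.G H) {s : Gq}
    (hs : s ∈ D.G) (hsH : s ∉ H) (hu : ∀ σ ∈ D.G, σ ∈ H → Up6 (D.f σ))
    (hc : ∀ ι γ, Cj ι γ → γ ∈ D.G → γ ∉ H) :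
    ∃ (t : Om) (X : Module.End Om J), t ≠ 0 ∧ Np X ∧ Fv (D.G ⊓ H) D.th (t • adE X EmL) ∧
      LinearMap.trace Om J (t • adE X EmL * D.th s (t • adE X EmL)) ≠ 0 ∧
      ∀ ι γ, Cj ι γ → γ ∈ D.G → γ ∉ D.K →
        0 < (ι (-LinearMap.trace Om J (t • adE X EmL * D.th s (t • adE X EmL)))).re := by
  have := fd_J
  have ta := h.ta
  have t1 : TA (D.G ⊓ H) D.th := ta.mono (h.opnG.inf hH) inf_le_left
  have hs1 : s ∉ D.G ⊓ H := fun h1 => hsH h1.2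
  obtain ⟨t, ht, hE⟩ := t1.line ⟨em_ne, fun σ hσ => em_th h hσ.1 (hu σ hσ.1 hσ.2)⟩
  obtain ⟨S, hS⟩ := exists_np
  obtain ⟨g, hg, eg⟩ := t1.restrict S fun σ hσ X hX =>
    (hS _).2 (np_th h hσ.1 (hu σ hσ.1 hσ.2) ((hS X).1 hX))
  obtain ⟨T, φ, hφ, eφ⟩ := exists_img (ta.semi s hs) S
  obtain ⟨p, hp, ep⟩ : ∃ p : S × T → Om, Pol p ∧ ∀ (X : S) (Y : T), p (X, Y) =
      -LinearMap.trace Om J (adE X (t • EmL) * adE Y (D.th s (t • EmL))) :=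
    ⟨_, (pol_mul (pol_ad (PolM.lin (S.subtype ∘ₗ LinearMap.fst Om S T)) _)
      (pol_ad (PolM.lin (T.subtype ∘ₗ LinearMap.snd Om S T)) _) (LinearMap.trace Om J)).neg,
      fun _ _ => rfl⟩
  have had : ∀ σ ∈ D.G, ∀ X E, D.th σ (adE X E) = adE (D.th σ X) (D.th σ E) :=
    fun σ hσ X E => h.th_ad hσ X E
  have e1 : ∀ X : S, p (X, φ X) =
      -LinearMap.trace Om J (t • adE X EmL * D.th s (t • adE X EmL)) := fun X => by
    rw [ep, eφ, ← had s hs, ad_smul]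
  have e2 : ∀ X : S, Fv (D.G ⊓ H) g X → Fv (D.G ⊓ H) D.th (t • adE X EmL) := fun X hX σ hσ => by
    rw [← ad_smul, had σ hσ.1, hE σ hσ, ← eg σ hσ, hX σ hσ]
  suffices h1 : ∃ X : S, Fv (D.G ⊓ H) g X ∧ p (X, φ X) ≠ 0 ∧
      ∀ ι γ, Cj ι γ → γ ∈ D.G → γ ∉ D.K → 0 < (ι (p (X, φ X))).re by
    obtain ⟨X, h1, h2, h3⟩ := h1
    rw [e1] at h2 h3
    exact ⟨t, X, ht, (hS _).1 X.2, e2 X h1, neg_ne_zero.1 h2, h3⟩
  by_cases hR : ∃ ι γ, Cj ι γ ∧ γ ∈ D.G ∧ γ ∉ D.K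
  · have hk : ∀ X, Fv (D.G ⊓ H) g X → Fx D.G (p (X, φ X)) := fun X hX σ hσ => by
      have h1 := orbit ta hx hs hsH (e2 X hX) hσ
      rw [e1, map_neg, ← h.th_trace hσ]
      by_cases h2 : σ ∈ H
      · rw [(h1.1 h2).1, (h1.1 h2).2]
      · rw [(h1.2 h2).1, (h1.2 h2).2, LinearMap.trace_mul_comm]
    have hl : ∀ ι ∈ {ι | ∃ γ, Cj ι γ ∧ γ ∈ D.G ∧ γ ∉ D.K}, ∃ γ, Cj ι γ ∧ γ ∈ D.G ∧
        γ ∉ D.G ⊓ H ∧ ∃ y, 0 < (ι (p (y, φ (g (s⁻¹ * γ) y)))).re := by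
      rintro ι ⟨γ, hγ, hG, hK⟩
      have h1 := hc ι γ hγ hG
      have h2 := mem_ix hx hs hsH hG h1
      obtain ⟨X, hX, h3⟩ := sgn_loc h hγ hG hK
      refine ⟨γ, hγ, hG, fun h4 => h1 h4.2, ⟨X, (hS X).2 hX⟩, ?_⟩
      rw [ep, eφ, eg _ h2, ta.mul s hs _ h2.1, mul_inv_cancel_left,
        ← ((orbit ta hx hs hsH hE hG).2 h1).1, ← had γ hG, ad_smul, (ta.semi γ hG).smul,
        smul_mul_smul_comm, map_smul, smul_eq_mul, ← mul_neg, re_norm hγ ht, map_neg,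
        Complex.neg_re]
      exact neg_pos.2 h3
    obtain ⟨X, h1, h2⟩ := apx (G := D.G) inf_le_left (fun σ hσ τ hτ => by
      simpa only [Subgroup.mem_inf, hσ, hτ, mul_mem hσ hτ, true_and] using hx σ hσ τ hτ) hg hs hs1
      hφ hp hk _ hl
    obtain ⟨ι, hι⟩ := hR
    refine ⟨X, h1, fun h3 => ?_, fun ι γ a b c => h2 ι ⟨γ, a, b, c⟩⟩
    have h4 := h2 ι hι
    rw [h3, map_zero, Complex.zero_re] at h4
    exact lt_irrefl _ h4
  · obtain ⟨X, hX, h1⟩ := np_ne (h.th_lie hs (lie_em.smul t))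
      ((ta.semi s hs).ne (smul_ne_zero ht em_ne))
    obtain ⟨Y, h2, h3⟩ := den2' hg hs1 hφ hp ⟨(⟨X, (hS X).2 hX⟩, 0), by
      rw [ep, ZeroMemClass.coe_zero, ad_zero, ad_smul, smul_mul_assoc, map_smul, smul_eq_mul]
      exact neg_ne_zero.2 (mul_ne_zero ht h1)⟩
    exact ⟨Y, h2, h3, fun ι γ a b c => absurd ⟨ι, γ, a, b, c⟩ hR⟩

end Genx

/-- A rational double six. -/
theorem gen {D : ED} (h : D.OK) {H : Subgroup Gq} (hH : Opn H) (hx : Ix2 D.G H) {s : Gq}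
    (hs : s ∈ D.G) (hsH : s ∉ H) (hu : ∀ σ ∈ D.G, σ ∈ H → Up6 (D.f σ))
    (hc : ∀ ι γ, Cj ι γ → γ ∈ D.G → γ ∉ H) :
    ∃ (ψ : J ≃ₗ[Om] J) (B : Gq → Matrix (Fin 2) (Fin 2) Om) (P : Gq → Matrix I6 I6 Om)
      (μ : Gq → Om), Sim 1 ψ ∧ (D.conj ψ).S6 B P μ := by
  have := fd_J
  obtain ⟨t, X, ht, hX, h1, h2, h3⟩ := Genx.cell h hH hx hs hsH hu hc
  have hsm := (h.ta.semi s hs).smul t (adE X EmL)
  obtain ⟨ψ, a, h4, ha, h5, h6⟩ := sl2_pos hX (h.th_lie hs (Genx.ad_em hX).1)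
    ((h.th_rank hs _).trans (Genx.ad_em hX).2).le fun h7 => h2 (by
      rw [hsm, smul_mul_smul_comm, map_smul, h7, smul_zero])
  have hψ : Sim 1 ψ := sim_of_cub (l := 1) fun x => by rw [h4, one_mul]
  have hb : s t * a ≠ 0 := mul_ne_zero ((map_ne_zero_iff _ s.injective).2 ht) ha
  rw [h6, smul_smul, ← map_smul] at hsm
  rw [hsm] at h3
  rw [← h5, ← map_smul] at h1 h3 hsm
  have k : ∀ σ ∈ D.G, ∀ E F, D.th σ (ψ.conj E) = ψ.conj F → (D.conj ψ).th σ E = F :=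
    fun σ hσ E F e => by
      have h7 := h.th_conj hσ ψ (ψ.conj E)
      rwa [e, LinearEquiv.conj_symm_conj, LinearEquiv.conj_symm_conj] at h7
  have o := fun σ hσ => Genx.orbit h.ta hx hs hsH h1 (σ := σ) hσ
  rw [hsm] at o
  obtain ⟨B, P, μ, h7⟩ := Genx.s6_of (H := H) (h.conj hψ) ht hb
    (fun σ hσ h8 => ⟨k σ hσ _ _ ((o σ hσ).1 h8).1, k σ hσ _ _ ((o σ hσ).1 h8).2⟩)
    (fun σ hσ h8 => ⟨k σ hσ _ _ ((o σ hσ).2 h8).1, k σ hσ _ _ ((o σ hσ).2 h8).2⟩)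
    fun ι γ hγ hG hK => ⟨hc ι γ hγ hG, by
      have h8 := h3 ι γ hγ hG hK
      rw [Module.End.mul_eq_comp, ← LinearEquiv.conj_comp, LinearMap.trace_conj',
        ← Module.End.mul_eq_comp, smul_mul_smul_comm, map_smul, LinearMap.trace_mul_comm,
        trace_ep_em, smul_eq_mul, ← neg_mul, map_mul, map_ofNat, Complex.mul_re] at h8
      simpa using h8⟩
  exact ⟨ψ, B, P, μ, hψ, h7⟩

end Vale.Agent.P011Z.Cl

end
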