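import Vale.Agent.P011Z.Cl.O2b
import Vale.Agent.P011Z.Cl.O2c.Sign
import Vale.Agent.P011Z.Cl.O2c.Loc

/-!
Classification of the forms: block O2c.
-/

open Matrix Module

noncomputable section

namespace Vale.Agent.P011Z.Cl

open Vale.Agent.P011.D4 Vale.Agent.P011.D4.Oct Vale.Agent.P011.E6 Vale.Agent.P011.E6.Alb

variable {D : ED} {B : Gq → Matrix (Fin 2) (Fin 2) Om} {P : Gq → Matrix I6 I6 Om} {μ : Gq → Om}
  {χ : Gq → Fin 3}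

/-- The Gram relation for another element of the nontrivial coset. -/
theorem O2cx.gm_move (h : D.OK) (h6 : D.S6 B P μ) (hχ : Chi D.G χ) {s γ : Gq} (hs : s ∈ D.G)
    (hsK : s ∉ D.K) (h0 : χ s = 0) (hγ : γ ∈ D.G) (hK : γ ∉ D.K) (h1 : χ γ = 0) {z : Fin 3 → J}
    (hz : Z6 D χ z) : ∃ a : Fin 3 → Om, (∀ i, a i ≠ 0) ∧
      ∀ (e : Fin 3 → Om) (m : Matrix I6 I6 Om), (∀ τ ∈ D.K, P τ * m.map τ = m * P τ) →
        Gm s (B s) (P s) z e m → Gm γ (B γ) (P γ) z (fun i => e i * a i) m := by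
  obtain ⟨τ, hτ, rfl⟩ : ∃ τ ∈ D.K, γ = s * τ :=
    ⟨_, Lanx.inv_mul_mem_K (s6_ud h h6) hs hsK hγ hK, (mul_inv_cancel_left _ _).symm⟩
  have hτG := h.le hτ
  rw [hχ.mul s hs τ hτG, h0, zero_add] at h1
  choose t ht using hz.eqv τ hτ
  rw [h1] at ht
  have h2 := O2bx.eqv_mat h6 hτG ht
  obtain ⟨c, r, hc, h3, h4⟩ := O2ax.coc h h6 hs hτ
  have hr : r ≠ 0 := Lanx.ne_of_smul h4 (by
    rw [det_mul]
    exact mul_ne_zero (Pfx.dets (h6.ne s hs) (h6.det s hs)).2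
      (Lanx.det_map_ne s (Pfx.dets (h6.ne τ hτG) (h6.det τ hτG)).2))
  have h5 := mul_ne_zero hr hc
  refine ⟨fun i => s (t i) / (r * c), fun i => div_ne_zero
    ((map_ne_zero s).2 (O2bx.t_ne h hz.det hτG ht i)) h5, fun e m hm hg => ?_⟩
  have h7 : P τ * (m * qz z).map τ * bk (fun _ => (B τ)ᵀ) = m * qz z * O2bx.pm 0 t := by
    rw [Matrix.map_mul, ← mul_assoc, hm τ hτ, mul_assoc m, mul_assoc m, h2, mul_assoc]
  have h8 : (P τ).map s * (m * qz z).map (s * τ : Gq) * (bk fun _ => (B τ)ᵀ).map s =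
      (m * qz z).map s * O2bx.pm 0 fun i => s (t i) := by
    rw [← O2bx.pm_map, ← Matrix.map_mul, ← h7, Matrix.map_mul (f := s),
      Matrix.map_mul (f := s)]
    rfl
  refine smul_right_injective _ h5 ?_
  calc (r * c) • ((qz z)ᵀ * (j6 * P (s * τ)) * (m * qz z).map (s * τ : Gq) *
        bk fun _ => (B (s * τ))ᵀ)
      = (qz z)ᵀ * (j6 * r • P (s * τ)) * (m * qz z).map (s * τ : Gq) *
        c • bk fun _ => (B (s * τ))ᵀ := by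
        simp only [Matrix.mul_smul, Matrix.smul_mul, smul_smul, mul_comm c r]
    _ = (qz z)ᵀ * (j6 * P s) * ((P τ).map s * (m * qz z).map (s * τ : Gq) *
        (bk fun _ => (B τ)ᵀ).map s * bk fun _ => (B s)ᵀ) := by
        rw [← h4, ← O2bx.bk_rel h3]
        simp only [mul_assoc]
    _ = (bk fun i => e i • j2) * O2bx.pm 0 fun i => s (t i) := by
        rw [h8, mul_assoc _ (O2bx.pm _ _), O2bx.pm_bk, ← hg]
        simp only [mul_assoc]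
    _ = (r * c) • bk fun i => (e i * (s (t i) / (r * c))) • j2 := by
        rw [O2bx.bk_pm0, O2bx.bk_smul]
        refine congrArg bk (funext fun i => ?_)
        rw [smul_smul, smul_smul, mul_left_comm, mul_div_cancel₀ _ h5, mul_comm]

/-- The choice of the signs. -/
theorem gm_sign (h : D.OK) (h6 : D.S6 B P μ) (hχ : Chi D.G χ) {s : Gq} (hs : s ∈ D.G)
    (hsK : s ∉ D.K) (h0 : χ s = 0) {z : Fin 3 → J} (hz : Z6 D χ z)
    (he : ∀ i, tf (z i) (D.f s (z i)) ≠ 0) : ∃ l : Fin 3 → Om, (∀ i, l i ≠ 0) ∧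
      (∀ σ ∈ D.G, ∀ i, σ (l i) = l (i + χ σ)) ∧
      ∀ m, Gm s (B s) (P s) z (fun i => l i * tf (z i) (D.f s (z i))) m →
        ∀ ι γ, Cj ι γ → γ ∈ D.G → γ ∉ D.K → ∃ Y : Matrix I6 I6 Om, Y.det ≠ 0 ∧
          Yᵀ * (j6 * P γ) * Y.map γ = j6 * P γ * m.map γ := by
  have hU := s6_ud h h6
  have hpt : ∀ {m : Matrix I6 I6 Om}, (∀ τ ∈ D.K, P τ * m.map τ = m * P τ) →
      ∀ τ ∈ D.K, pt D.K P τ * m.map τ = m * pt D.K P τ := fun hm τ hτ => by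
    rw [O2ax.pt_K hτ, hm τ hτ]
  have h1 : ∀ ι : Om →+* ℂ, ∃ p : Fin 3 → Prop, ∀ γ, Cj ι γ → γ ∈ D.G → γ ∉ D.K →
      ∀ (l : Fin 3 → Om) (m : Matrix I6 I6 Om), (∀ i, l i ≠ 0) →
        (∀ σ ∈ D.G, ∀ i, σ (l i) = l (i + χ σ)) → (∀ i, p i ↔ (ι (l i)).re < 0) →
        Gm s (B s) (P s) z (fun i => l i * tf (z i) (D.f s (z i))) m →
        O2cx.Cg γ (pt D.K P γ) (pt D.K P γ * m.map γ) := by
    intro ι
    obtain ⟨γ, hj⟩ := exists_cj ι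
    by_cases h2 : γ ∈ D.G ∧ γ ∉ D.K
    swap
    · exact ⟨fun _ => True, fun γ' h3 h4 h5 => absurd (h3.unique hj ▸ ⟨h4, h5⟩) h2⟩
    obtain ⟨hγ, hK⟩ := h2
    have h2 := O2cx.chi_sq hχ hγ hj.sq
    obtain ⟨a, ha, h3⟩ := O2cx.gm_move h h6 hχ hs hsK h0 hγ hK h2 hz
    obtain ⟨c, hc⟩ := Lanx.herm_scalar hU hγ hK hj.sq
    obtain ⟨p, hp⟩ := O2cx.loc hj (hU.ne γ hγ) hz.det hc (h6.sgn ι γ hj hγ hK)
      fun i => mul_ne_zero (he i) (ha i)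
    refine ⟨p, fun γ' h4 _ _ l m hl0 hl h5 hm => ?_⟩
    obtain rfl := hj.unique h4
    obtain ⟨k1, k2, w, k3, k4, k5⟩ := gm_props h h6 hχ hs hsK h0 hz he hl0 hl hm
    refine hp l m hl0 (fun i => by rw [hl γ hγ, h2, add_zero]) h5 ?_ ?_
      ⟨w, k3, by rw [k5, Lanx.out_eq hU hs hsK hγ hK k4]⟩
    · have k6 := h3 _ m k1 hm
      simp only [mul_assoc (l _)] at k6
      rw [O2ax.pt_nK hK]
      exact k6
    · have k6 := Lanx.inv_mul_mem_K hU hs hsK hγ hK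
      have k7 := Lanx.Rl.coc hU hs k6 (hpt k1 _ k6) (w := mᵀ) (by
        rw [Lanx.Rl, O2ax.pt_nK hsK, k2])
      rwa [mul_inv_cancel_left] at k7
  choose ε hε using h1
  obtain ⟨l, hl0, hl, h1⟩ := O2cx.exists_l h.opnG hχ ε
  refine ⟨l, hl0, hl, fun m hm ι γ hj hγ hK => ?_⟩
  obtain ⟨ι₀, σ, hσ, rfl, h2⟩ := h1 ι
  obtain ⟨γ₀, h3⟩ := exists_cj ι₀
  obtain rfl := (h3.comp σ).unique hj
  have h4 : γ₀ ∈ D.G := by
    have h5 := mul_mem (mul_mem hσ hγ) (inv_mem hσ)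
    rwa [← mul_assoc, mul_inv_cancel_left, mul_inv_cancel_right] at h5
  have h5 : γ₀ ∉ D.K := fun h5 => hK (by
    rw [h.ix _ (mul_mem (inv_mem hσ) h4) _ hσ, h.ix _ (inv_mem hσ) _ h4, inv_mem_iff]
    exact ⟨fun h7 => h7.2 h5, fun h7 => iff_of_true h7 h5⟩)
  have h7 := O2cx.inv_G hU h4 h5 hσ (hpt (gm_props h h6 hχ hs hsK h0 hz he hl0 hl hm).1)
    (hε ι₀ γ₀ h3 h4 h5 l m hl0 hl (h2 γ₀ h3 h4) hm)
  rwa [O2ax.pt_nK hK] at h7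

theorem o2 (h : D.OK) (h6 : D.S6 B P μ) (hχ : Chi D.G χ) (hK : ¬ D.G ≤ D.K)
    (hl : ∃ x, x ≠ 0 ∧ ∀ σ ∈ D.K, χ σ = 0 → ∃ t : Om, D.f σ x = t • x) :
    ∃ ψ : J ≃ₗ[Om] J, Sim 1 ψ ∧ (D.conj ψ).Frm χ := by
  obtain ⟨s₀, h1, h2⟩ := SetLike.not_le_iff_exists.1 hK
  obtain ⟨s, hs, hsK, h0⟩ := hχ.ix2' h.ix h1 h2
  obtain ⟨z, hz, he⟩ := exists_z6 h h6 hχ hs hsK h0 hl
  obtain ⟨l, hl0, hl, h3⟩ := gm_sign h h6 hχ hs hsK h0 hz he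
  obtain ⟨m, hm0, hm⟩ := exists_gm h6 hs hz.det fun i => mul_ne_zero (hl0 i) (he i)
  obtain ⟨k1, k2, w, k3, k4, k5⟩ := gm_props h h6 hχ hs hsK h0 hz he hl0 hl hm
  obtain ⟨y, h4, h5, h7⟩ := lan (s6_ud h h6) hs hsK (m := 1) (t := m)
    (fun τ _ => Lanx.rl_one τ) (fun τ hτ => by rw [O2ax.pt_K hτ, k1 τ hτ])
    (by rw [O2cx.map_one', transpose_one, mul_one, one_mul]) (by rw [O2ax.pt_nK hsK, k2])
    (by rw [det_one]; exact one_ne_zero) ⟨w, k3, k4, by rw [det_one, mul_one, k5]⟩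
    fun ι γ hj hγ hγK => by
      rw [O2cx.map_one', mul_one, O2ax.pt_nK hγK]
      exact h3 m hm ι γ hj hγ hγK
  rw [O2cx.map_one', mul_one, O2ax.pt_nK hsK] at h7
  exact frm_of_z6 h h6 hχ hs hsK h0 hz hm h4
    (fun τ hτ => by rw [← O2ax.pt_K (P := P) hτ, h5 τ hτ]) h7

end Vale.Agent.P011Z.Cl

end
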