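import Vale.Agent.P011Z.Cl.Fnf
import Vale.Agent.P011Z.Cl.Gen
import Vale.Agent.P011Z.Cl.O2c
import Vale.Agent.P011Z.Cl.Br3

/-!
Classification of the forms: block Out.
-/

open Matrix Module

noncomputable section

namespace Vale.Agent.P011Z.Cl

open Vale.Agent.P011.D4 Vale.Agent.P011.D4.Oct Vale.Agent.P011.E6 Vale.Agent.P011.E6.Alb

namespace Outx

variable {D : ED} {χ : Gq → Fin 3}

theorem hl_conj (ψ : J ≃ₗ[Om] J)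
    (hl : ∃ x, x ≠ 0 ∧ ∀ σ ∈ D.K, χ σ = 0 → ∃ t : Om, D.f σ x = t • x) :
    ∃ x, x ≠ 0 ∧ ∀ σ ∈ (D.conj ψ).K, χ σ = 0 → ∃ t : Om, (D.conj ψ).f σ x = t • x := by
  obtain ⟨x, h1, h2⟩ := hl
  refine ⟨ψ.symm x, (semi_lin ψ.symm).ne h1, fun σ hσ h3 => (h2 σ hσ h3).imp fun t ht => ?_⟩
  rw [D.conj_K ψ hσ, ψ.apply_symm_apply, ht, map_smul]

theorem up_of_frm (h : D.OK) (hχ : Chi D.G χ)
    (hf : ∃ ψ : J ≃ₗ[Om] J, Sim 1 ψ ∧ (D.conj ψ).Frm χ) (hc : ∀ ι γ, Cj ι γ → γ ∉ D.G) :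
    ∃ ψ : J ≃ₗ[Om] J, Sim 1 ψ ∧ ∀ σ ∈ D.G, Up6 ((D.conj ψ).f σ) := by
  obtain ⟨ψ1, h1, h2⟩ := hf
  obtain ⟨ψ2, α, c, g, h3, h4⟩ := fnf (h.conj h1) hχ h2
  obtain ⟨φ, h5, h6⟩ := tri_imag h4.ha hc
  obtain ⟨ψ3, h7, h8⟩ := h4.split h.le h5 h6
  rw [ED.conj_conj, ED.conj_conj] at h8
  have h9 := h7.trans (h3.trans h1)
  exact ⟨_, h9, fun σ hσ => h8.up6 (h.conj h9) hχ hσ⟩

theorem frm_of_up (h : D.OK) (hK : ¬ D.G ≤ D.K) (hχ : Chi D.G χ)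
    (hl : ∃ x, x ≠ 0 ∧ ∀ σ ∈ D.K, χ σ = 0 → ∃ t : Om, D.f σ x = t • x) {H : Subgroup Gq}
    (hH : Opn H) (hx : Ix2 D.G H) {s : Gq} (hs : s ∈ D.G) (hsH : s ∉ H) {ψ : J ≃ₗ[Om] J}
    (hψ : Sim 1 ψ) (hu : ∀ σ ∈ D.G, σ ∈ H → Up6 ((D.conj ψ).f σ))
    (hc : ∀ ι γ, Cj ι γ → γ ∈ D.G → γ ∉ H) :
    ∃ ψ : J ≃ₗ[Om] J, Sim 1 ψ ∧ (D.conj ψ).Frm χ := by
  obtain ⟨ψ2, B, P, μ, h1, h2⟩ := gen (h.conj hψ) hH hx hs hsH hu hc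
  rw [ED.conj_conj] at h2
  have h3 := h1.trans hψ
  obtain ⟨ψ3, h4, h5⟩ := o2 (h.conj h3) h2 hχ hK (hl_conj _ hl)
  rw [ED.conj_conj] at h5
  exact ⟨_, h4.trans h3, h5⟩

theorem not_real {n : ℕ} (hn : 0 < n) {d : Om} (hd : d ^ 2 = -(n : Om)) {ι : Om →+* ℂ} {γ : Gq}
    (h : Cj ι γ) : γ d ≠ d := by
  intro h1
  have h2 := congrArg (fun x => (ι x).re) hd
  simp only [pow_two, map_mul, Complex.mul_re, h.real.1 h1, map_neg, map_natCast,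
    Complex.neg_re, Complex.natCast_re] at h2
  have h3 : (0 : ℝ) < n := Nat.cast_pos.2 hn
  nlinarith [mul_self_nonneg (ι d).re]

end Outx

open Outx

theorem out_frm {D : ED} (h : D.OK) (hK : ¬ D.G ≤ D.K) {χ : Gq → Fin 3} (hχ : Chi D.G χ)
    (hl : ∃ x, x ≠ 0 ∧ ∀ σ ∈ D.K, χ σ = 0 → ∃ t : Om, D.f σ x = t • x) :
    ∃ ψ : J ≃ₗ[Om] J, Sim 1 ψ ∧ (D.conj ψ).Frm χ := by
  obtain ⟨N, hN, h1⟩ := (hχ.mono h.le).ker h.opn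
  obtain ⟨n, d, hn, hd, σ0, h2, h3⟩ := exists_neg hN
  have h4 := ((h1 σ0).1 h2).1
  have hd2 : ∀ σ : Gq, σ (d ^ 2) = d ^ 2 := fun σ => by rw [hd, map_neg, map_natCast]
  have hd0 : -d ≠ d := fun h5 => by
    have h6 : d = 0 := by linear_combination (-2⁻¹ : Om) * h5
    rw [h6, zero_pow two_ne_zero, zero_eq_neg, Nat.cast_eq_zero] at hd
    exact hn.ne' hd
  have hH := opn_stab d
  have hc : ∀ ι γ, Cj ι γ → γ ∉ MulAction.stabilizer Gq d := fun ι γ h5 => not_real hn hd h5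
  have k1 := h.res hH
  have k2 : Chi (D.res (MulAction.stabilizer Gq d)).G χ := hχ.mono inf_le_left
  have k3 : ∃ x, x ≠ 0 ∧ ∀ σ ∈ (D.res (MulAction.stabilizer Gq d)).K, χ σ = 0 →
      ∃ t : Om, D.f σ x = t • x := hl.imp fun x hx => ⟨hx.1, fun σ hσ => hx.2 σ hσ.1⟩
  obtain ⟨s, hs, hsK⟩ : ∃ s ∈ (D.res (MulAction.stabilizer Gq d)).G,
      s ∉ (D.res (MulAction.stabilizer Gq d)).K := by
    obtain ⟨s, hs, hsK⟩ := SetLike.not_le_iff_exists.1 hK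
    rcases eq_or_neg (hd2 s) with h5 | h5
    · exact ⟨s, ⟨hs, h5⟩, fun h6 => hsK h6.1⟩
    · refine ⟨s * σ0, ⟨mul_mem hs (h.le h4), ?_⟩,
        fun h6 => hsK (((h.ix s hs σ0 (h.le h4)).1 h6.1).2 h4)⟩
      change s (σ0 d) = d
      rw [h3, map_neg, h5, neg_neg]
  obtain ⟨ψ1, k4, k5⟩ := up_of_frm k1.inner (k2.mono k1.le)
    (inn k1.inner le_rfl (k2.mono k1.le) k3) fun ι γ h5 h6 => hc ι γ h5 h6.2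
  obtain ⟨ψ2, k6, k7⟩ := up_of_frm k1 k2
    (frm_of_up k1 (fun h5 => hsK (h5 hs)) k2 k3 k1.opn k1.ix hs hsK k4 (fun σ _ h5 => k5 σ h5)
      fun ι γ h5 h6 _ => hc ι γ h5 h6.2) fun ι γ h5 h6 => hc ι γ h5 h6.2
  refine frm_of_up h hK hχ hl hH (ix2_stab fun σ _ => hd2 σ) (h.le h4)
    (fun h5 => hd0 (h3.symm.trans h5)) k6 (fun σ h5 h6 => ?_) fun ι γ h5 _ => hc ι γ h5
  rw [← funext (D.conj_res ψ2 h6)]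
  exact k7 σ ⟨h5, h6⟩

/-- The classification of the groups of type `E₆`. -/
theorem e6_nf {D : ED} (h : D.OK) : ∃ (χ : Gq → Fin 3) (ψ : J ≃ₗ[Om] J) (α : Gq → O → O) (c : Om)
    (g : Fin 3 → Om), Chi D.G χ ∧ Sim 1 ψ ∧ (D.conj ψ).NF χ α c g ∧
      ((∀ σ ∈ D.G, χ σ = 0) ∨ (∃ ρ ∈ D.K, χ ρ = 1) ∧ ¬ ∃ x, Line D.K D.f x) := by
  obtain ⟨χ, hχ, hl, h1⟩ : ∃ χ : Gq → Fin 3, Chi D.G χ ∧
      (∃ x, x ≠ 0 ∧ ∀ σ ∈ D.K, χ σ = 0 → ∃ t : Om, D.f σ x = t • x) ∧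
      ((∀ σ ∈ D.G, χ σ = 0) ∨ (∃ ρ ∈ D.K, χ ρ = 1) ∧ ¬ ∃ x, Line D.K D.f x) := by
    by_cases h1 : ∃ x, Line D.K D.f x
    · exact ⟨fun _ => 0, ⟨fun _ _ _ _ => (add_zero _).symm, ⊤, opn_top, fun _ _ _ => rfl⟩,
        h1.imp fun x hx => ⟨hx.1, fun σ hσ _ => hx.2 σ hσ⟩, Or.inl fun _ _ => rfl⟩
    · have := fd_J
      obtain ⟨χ, h2, h3, h4⟩ := br3 h.le h.ix h.pa (N := cub) (Pol.cub (PolM.lin LinearMap.id))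
        cub_smul ⟨j1, by rw [Cubx.cub_j1]; exact one_ne_zero⟩
        fun σ hσ => (h.sim σ (h.le hσ)).mult.imp fun _ h2 => h2.2
      exact ⟨χ, h2, h4, Or.inr ⟨h3, h1⟩⟩
  obtain ⟨ψ, h2, h3⟩ : ∃ ψ : J ≃ₗ[Om] J, Sim 1 ψ ∧ (D.conj ψ).Frm χ := by
    by_cases hK : D.G ≤ D.K
    · exact inn h hK hχ hl
    · exact out_frm h hK hχ hl
  obtain ⟨φ, α, c, g, h4, h5⟩ := fnf (h.conj h2) hχ h3
  rw [ED.conj_conj] at h5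
  exact ⟨χ, _, α, c, g, hχ, h4.trans h2, h5, h1⟩

end Vale.Agent.P011Z.Cl

end
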