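import Vale.Agent.P011Z.Cl.Fnf
import Vale.Agent.P011Z.Cl.Lie
import Vale.Agent.P011Z.Cl.Apx
import Vale.Agent.P011Z.Cl.Uni3.Core
import Vale.Agent.P011Z.Cl.Uni3.Crd

/-!
Classification of the forms: block Uni3.
-/

open Matrix Module

noncomputable section

namespace Vale.Agent.P011Z.Cl

open Vale.Agent.P011.D4 Vale.Agent.P011.D4.Oct Vale.Agent.P011.E6 Vale.Agent.P011.E6.Alb

namespace Uni3x

variable {G K : Subgroup Gq} {α : Gq → O → O} {g : Fin 3 → Om} {s γ : Gq} {ι : Om →+* ℂ}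

theorem fx_tr (hx : Ix2 G K) (hs : s ∈ G) (hsK : s ∉ K) {z : Om} (hz : Fx K z) :
    Fx G (z + s z) := by
  intro σ hσ
  have hi : s⁻¹ ∉ K := fun h => hsK (inv_mem_iff.1 h)
  rw [map_add]
  by_cases h : σ ∈ K
  · have h1 : s⁻¹ * (σ * s) ∈ K := (hx _ (inv_mem hs) _ (mul_mem hσ hs)).2
      (iff_of_false hi fun h2 => hsK (((hx σ hσ s hs).1 h2).1 h))
    have h2 : σ (s z) = s ((s⁻¹ * (σ * s)) z) := (s.apply_symm_apply _).symm
    rw [h2, hz _ h1, hz σ h]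
  · have h1 : s⁻¹ * σ ∈ K := (hx _ (inv_mem hs) _ hσ).2 (iff_of_false hi h)
    have h2 : σ z = s ((s⁻¹ * σ) z) := (s.apply_symm_apply _).symm
    have h3 : σ (s z) = z := hz _ ((hx σ hσ s hs).2 (iff_of_false h hsK))
    rw [h2, hz _ h1, h3, add_comm]

theorem exists_real (hγ : Cj ι γ) (hg : ∀ i, g i ≠ 0) (hf : ∀ i, γ (g i) = g i) :
    ∃ r : Fin 3 → ℝ, (∀ i, r i ≠ 0) ∧ ∀ i, ι (g i) = r i := by
  have h1 : ∀ i, ι (g i) = (ι (g i)).re := fun i => Complex.ext rfl (hγ.real.1 (hf i))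
  refine ⟨fun i => (ι (g i)).re, fun i h => hg i (ι.injective ?_), h1⟩
  rw [h1, map_zero, Complex.ofReal_eq_zero]
  exact h

/-- At a definite place the weights have different signs. -/
theorem sgn (h : HA G α) (hγ : Cj ι γ) (hγG : γ ∈ G) (hd : ∀ y, α γ y = y → norm y = 0 → y = 0)
    {r : Fin 3 → ℝ} (r0 : ∀ i, r i ≠ 0) (hr : ∀ i, ι (g i) = r i) {x : J} (hx : x ≠ 0)
    (hi : tf x (wtJ g (al γ (α γ) x)) = 0) : ∃ i, r (i + 1) * r (i + 2) < 0 := by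
  by_contra hc
  push Not at hc
  have h1 : ∀ i, 0 < r (i + 1) * r (i + 2) := fun i =>
    lt_of_le_of_ne (hc i) (mul_ne_zero (r0 _) (r0 _)).symm
  have h2 : ∀ y, α γ (α γ y) = y := fun y => by
    rw [h.mul γ hγG γ hγG, hγ.sq]
    exact h.toTA.one y
  have h3 : ∀ y, y ≠ 0 → 0 < (ι (bil y (α γ y))).re := fun y hy =>
    def_pos hγ (h.semi γ hγG) (h.hom γ hγG) h2 hd hy
  have h4 : ∀ y, 0 ≤ (ι (bil y (α γ y))).re := fun y => by
    by_cases hy : y = 0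
    · rw [hy, bil_zero_left, map_zero, Complex.zero_re]
    · exact (h3 y hy).le
  have h5 : ∀ d : Om, 0 ≤ (ι (d * γ d)).re := fun d => by
    by_cases hy : d = 0
    · rw [hy, zero_mul, map_zero, Complex.zero_re]
    · exact (hγ.norm_pos hy).le
  have h6 : ∑ i, (r i * r i * (ι (dg x i * γ (dg x i))).re +
      r (i + 1) * r (i + 2) * (ι (bil (sl x i) (α γ (sl x i)))).re) = 0 := by
    have h7 := congrArg (fun z => (ι z).re) hi
    simp only [tf_eq, wtJ, dg_jm, sl_jm, Prcx.dg_al, Prcx.sl_al, bil_smul_right, map_sum,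
      Complex.re_sum, map_zero, Complex.zero_re] at h7
    rw [← h7]
    refine Finset.sum_congr rfl fun i _ => ?_
    rw [mul_left_comm (dg x i), pow_two, map_add, map_mul ι (g i * g i), map_mul ι (g i),
      map_mul ι (g (i + 1) * _), map_mul ι (g (i + 1)), hr, hr, hr, ← Complex.ofReal_mul,
      ← Complex.ofReal_mul, Complex.add_re, Complex.re_ofReal_mul, Complex.re_ofReal_mul]
  rw [Finset.sum_eq_zero_iff_of_nonneg fun i _ =>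
    add_nonneg (mul_nonneg (mul_self_nonneg _) (h5 _)) (mul_nonneg (h1 i).le (h4 _))] at h6
  refine hx (j_ext (fun i => ?_) fun i => ?_)
  · by_contra h7
    rw [Prcx.dg_zero] at h7
    exact (add_pos_of_pos_of_nonneg (mul_pos (mul_self_pos.2 (r0 i)) (hγ.norm_pos h7))
      (mul_nonneg (h1 i).le (h4 _))).ne' (h6 i (Finset.mem_univ i))
  · by_contra h7
    rw [Prcx.sl_zero] at h7
    exact (add_pos_of_nonneg_of_pos (mul_nonneg (mul_self_nonneg _) (h5 _))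
      (mul_pos (h1 i) (h3 _ h7))).ne' (h6 i (Finset.mem_univ i))

/-- A vector whose complement is indefinite at the given places. -/
theorem exists_u (hK : Opn K) (hle : K ≤ G) (hx : Ix2 G K) (hs : s ∈ G) (hsK : s ∉ K)
    (hg : ∀ i, g i ≠ 0) (hf : ∀ σ ∈ G, ∀ i, σ (g i) = g i) (R : Set (Om →+* ℂ))
    (hR : ∀ ι ∈ R, ∃ γ, Cj ι γ ∧ γ ∈ G ∧ γ ∉ K ∧ ∃ r : Fin 3 → ℝ, (∀ i, r i ≠ 0) ∧
      (∀ i, ι (g i) = r i) ∧ ∃ i, r (i + 1) * r (i + 2) < 0) :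
    ∃ u : Fin 3 → Om, (∀ σ ∈ G, ∀ i, σ (u i) = u i) ∧ (g * u) ⬝ᵥ u ≠ 0 ∧
      ∀ ι ∈ R, 0 < (ι (-(g 0 * g 1 * g 2 * ((g * u) ⬝ᵥ u)))).re := by
  rcases R.eq_empty_or_nonempty with rfl | ⟨ι0, h0⟩
  · refine ⟨![1, 0, 0], fun σ _ i => ?_, ?_, fun _ h => absurd h (Set.notMem_empty _)⟩
    · fin_cases i <;> simp
    · simpa [dotProduct, Fin.sum_univ_three] using hg 0
  have hp : Pol fun q : (Fin 3 → Om) × (Fin 3 → Om) =>
      -(g 0 * g 1 * g 2) * ∑ i, g i * (q.1 i + q.2 i) ^ 2 :=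
    (Pol.const _).mul (Pol.sum _ fun i _ => (Pol.const _).mul
      (((Pol.lin ((LinearMap.proj i : (Fin 3 → Om) →ₗ[Om] Om) ∘ₗ
          LinearMap.fst Om (Fin 3 → Om) (Fin 3 → Om))).add
        (Pol.lin ((LinearMap.proj i : (Fin 3 → Om) →ₗ[Om] Om) ∘ₗ
          LinearMap.snd Om (Fin 3 → Om) (Fin 3 → Om)))).pow 2))
  have h1 : ∀ x : Fin 3 → Om, Fv K (fun σ (u : Fin 3 → Om) => σ ∘ u) x →
      ∀ σ ∈ G, ∀ i, σ (x i + s (x i)) = x i + s (x i) := fun x h σ hσ i =>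
    fx_tr hx hs hsK (fun τ hτ => congrFun (h τ hτ) i) σ hσ
  obtain ⟨x, h2, h3⟩ := apx hle hx (ta_pi hK (Fin 3)) hs hsK
    ((ta_pi (hK.mono hle) (Fin 3)).semi s hs) hp (fun x h σ hσ => by
      simp only [Function.comp_apply, map_mul, map_neg, map_sum, map_pow, hf σ hσ, h1 x h σ hσ])
    R fun ι hι => by
      obtain ⟨γ, k1, k2, k3, r, r0, hr, i, hi⟩ := hR ι hι
      refine ⟨γ, k1, k2, k3, Pi.single i 1, ?_⟩
      have k4 := mul_pos (mul_self_pos.2 (r0 i)) (neg_pos.2 hi)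
      have k5 : ι (-(g 0 * g 1 * g 2) * (g i * (1 + 1) ^ 2)) =
          ((-(r 0 * r 1 * r 2) * (r i * (1 + 1) ^ 2) : ℝ) : ℂ) := by
        simp only [map_mul, map_neg, map_pow, map_add, map_one, hr]
        push_cast
        rfl
      rw [Finset.sum_eq_single i (fun j _ hj => by simp [Pi.single_eq_of_ne hj]) (by simp)]
      simp only [Function.comp_apply, Pi.single_eq_same, map_one]
      rw [k5, Complex.ofReal_re]
      fin_cases i <;> simp only [Fin.zero_eta, Fin.mk_one, Fin.reduceFinMk, Fin.isValue,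
        Fin.reduceAdd, zero_add] at k4 ⊢ <;> nlinarith
  have h4 : -(g 0 * g 1 * g 2 * ((g * fun i => x i + s (x i)) ⬝ᵥ fun i => x i + s (x i))) =
      -(g 0 * g 1 * g 2) * ∑ i, g i * (x i + s (x i)) ^ 2 := by
    simp only [dotProduct, Fin.sum_univ_three, Pi.mul_apply]
    ring
  refine ⟨fun i => x i + s (x i), h1 x h2, fun h5 => ?_, fun ι hι => by rw [h4]; exact h3 ι hι⟩
  have h6 := h3 ι0 h0
  rw [h5, mul_zero, neg_zero] at h4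
  simp only [Function.comp_apply] at h6
  rw [← h4, map_zero, Complex.zero_re] at h6
  exact lt_irrefl _ h6

theorem exists_perp {a : Fin 3 → Om} (hf : ∀ σ ∈ G, ∀ i, σ (a i) = a i) :
    ∃ w : Fin 3 → Om, w ≠ 0 ∧ a ⬝ᵥ w = 0 ∧ ∀ σ ∈ G, ∀ i, σ (w i) = w i := by
  by_cases h : a 0 = 0
  · refine ⟨![1, 0, 0], fun h1 => one_ne_zero (congrFun h1 0), ?_, fun σ _ i => ?_⟩
    · simp [dotProduct, Fin.sum_univ_three, h]
    · fin_cases i <;> simp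
  · refine ⟨![-a 1, a 0, 0], fun h1 => h (congrFun h1 1), ?_, fun σ hσ i => ?_⟩
    · simp [dotProduct, Fin.sum_univ_three, mul_comm]
    · fin_cases i <;> simp [hf σ hσ]

theorem exists_iso {u w : Fin 3 → Om} {z : Om} (hg : ∀ i, γ (g i) = g i)
    (hu : ∀ i, γ (u i) = u i) (hw : ∀ i, γ (w i) = w i) (w0 : w ≠ 0) (h1 : (g * u) ⬝ᵥ w = 0)
    (z0 : z ≠ 0) (hz : γ z = z) (h2 : -(g 0 * g 1 * g 2 * ((g * u) ⬝ᵥ u)) = z ^ 2) :
    ∃ w : Fin 3 → Om, w ≠ 0 ∧ (g * u) ⬝ᵥ w = 0 ∧ (g * w) ⬝ᵥ w = 0 ∧ ∀ i, γ (w i) = w i := by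
  by_cases h : (g * w) ⬝ᵥ w = 0
  · exact ⟨w, w0, h1, h, hw⟩
  refine ⟨z • w + crossProduct (g * u) (g * w), fun h3 => ?_, ?_, ?_, fun i => ?_⟩
  · have h4 := congrArg (fun y => (g * w) ⬝ᵥ y) h3
    simp only [dotProduct_add, dotProduct_smul, dot_cross_self, dotProduct_zero, add_zero,
      smul_eq_mul] at h4
    exact mul_ne_zero z0 h h4
  · rw [dotProduct_add, dotProduct_smul, h1, dot_self_cross, smul_zero, add_zero]
  · simp only [dotProduct, Fin.sum_univ_three, Pi.mul_apply, Pi.add_apply, Pi.smul_apply,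
      smul_eq_mul, cross_apply, cons_val_zero, cons_val_one, cons_val_two, head_cons,
      tail_cons, Nat.succ_eq_add_one, Nat.reduceAdd, Fin.isValue] at h1 h2 ⊢
    linear_combination (-(g 0 * w 0 * w 0 + g 1 * w 1 * w 1 + g 2 * w 2 * w 2)) * h2 -
      (g 0 * g 1 * g 2 * (g 0 * u 0 * w 0 + g 1 * u 1 * w 1 + g 2 * u 2 * w 2)) * h1
  · fin_cases i <;> simp [cross_apply, hg, hu, hw, hz]

/-- A pure isotropic fixed octonion. -/
theorem exists_pure (h : HA G α) (hγ : γ ∈ G) {y : O} (y0 : y ≠ 0) (hy : α γ y = y)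
    (hn : norm y = 0) : ∃ x : O, x ≠ 0 ∧ α γ x = x ∧ norm x = 0 ∧ bil x 1 = 0 := by
  let H : Subgroup Gq :=
    { carrier := {σ | σ ∈ G ∧ α σ y = y}
      one_mem' := ⟨G.one_mem, h.toTA.one y⟩
      mul_mem' := fun {σ τ} h1 h2 => ⟨mul_mem h1.1 h2.1, by rw [← h.mul σ h1.1 τ h2.1, h2.2, h1.2]⟩
      inv_mem' := fun {σ} h1 => ⟨inv_mem h1.1, by
        conv_lhs => rw [← h1.2, h.mul _ (inv_mem h1.1) σ h1.1, inv_mul_cancel, h.toTA.one]⟩ }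
  obtain ⟨N, hN, h1⟩ := h.smo y
  have hH : Opn H := (hN.inf h.opn).mono fun σ hσ => ⟨hσ.2, h1 σ hσ.1 hσ.2⟩
  obtain ⟨φ, h2, h3⟩ := tri_split (h.mono hH fun σ hσ => hσ.1) y0 (fun σ hσ => hσ.2) hn
  obtain ⟨a1, -, an, ab⟩ := hom_props (semi_lin φ) h2
  refine ⟨φ (zorn 0 0 ![1, 0, 0] 0), (semi_lin φ).ne fun h4 => ?_, ?_, ?_, ?_⟩
  · have h5 := congrFun (congrArg za h4) 0
    rw [ZDx.za_zorn, ZDx.za_zero] at h5
    exact one_ne_zero h5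
  · rw [h3 γ ⟨hγ, hy⟩]
    congr 1
    apply ext8 <;> simp [oa, zorn, map_ofNat]
  · rw [an, norm_z]
    simp [ZDx.zp_zorn, ZDx.zb_zorn]
  · rw [← a1, ab, bil_z, z_one]
    simp [ZDx.zp_zorn, ZDx.zm_zorn, ZDx.za_zorn, ZDx.zb_zorn]

theorem zorn_lin : IsLinearMap Om fun p : (Fin 3 → Om) × (Fin 3 → Om) => zorn 0 0 p.1 p.2 := by
  refine ⟨fun x y => ?_, fun t x => ?_⟩
  · apply ext8 <;> simp [zorn] <;> ring
  · apply ext8 <;> simp [zorn] <;> ring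

end Uni3x

open Uni3x in
/-- If the hermitian form is isotropic then the group is isotropic. -/
theorem uni3 {D : ED} {χ : Gq → Fin 3} {α : Gq → O → O} {c : Om} {g : Fin 3 → Om}
    (hn : D.NF χ α c g) (h : D.OK) (h0 : ∀ σ ∈ D.G, χ σ = 0) {s : Gq} (hs : s ∈ D.G)
    (hsK : s ∉ D.K) {x : J} (hx : x ≠ 0) (hf : ∀ σ ∈ D.K, al σ (α σ) x = x)
    (hi : tf x (wtJ g (al s (α s) x)) = 0) : ¬ AniL D.grp := by
  have ha := hn.ha
  have hg := hn.g0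
  have hgF : ∀ σ ∈ D.G, ∀ i, σ (g i) = g i := fun σ hσ => hn.gF σ hσ (h0 σ hσ)
  obtain ⟨u, hu, hm0, hpos⟩ := exists_u h.opn h.le h.ix hs hsK hg hgF
    {ι | ∃ γ, Cj ι γ ∧ γ ∈ D.G ∧ γ ∉ D.K ∧ ∀ y, α γ y = y → norm y = 0 → y = 0} (by
      rintro ι ⟨γ, k1, k2, k3, k4⟩
      obtain ⟨r, r0, hr⟩ := exists_real k1 hg (hgF γ k2)
      refine ⟨γ, k1, k2, k3, r, r0, hr, sgn ha k1 k2 k4 r0 hr hx ?_⟩
      have k5 : s⁻¹ * γ ∈ D.K :=
        (h.ix _ (inv_mem hs) _ k2).2 (iff_of_false (fun k6 => hsK (inv_mem_iff.1 k6)) k3)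
      rw [← mul_inv_cancel_left s γ, ← al_al ha hs (h.le k5), hf _ k5, hi])
  have hΔ : g 0 * g 1 * g 2 ≠ 0 := mul_ne_zero (mul_ne_zero (hg 0) (hg 1)) (hg 2)
  have hgu : ∀ σ ∈ D.G, ∀ i, σ ((g * u) i) = (g * u) i := fun σ hσ i => by
    rw [Pi.mul_apply, map_mul, hgF σ hσ, hu σ hσ]
  have a0 : g * u ≠ 0 := fun h1 => hm0 (by rw [h1, zero_dotProduct])
  have hfx : Fx D.G (-(g 0 * g 1 * g 2 * ((g * u) ⬝ᵥ u))) := fun σ hσ => by
    simp only [dotProduct, map_neg, map_mul, map_sum, hgF σ hσ, hu σ hσ, hgu σ hσ]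
  have hc0 : -(g 0 * g 1 * g 2 * ((g * u) ⬝ᵥ u)) ≠ 0 := neg_ne_zero.2 (mul_ne_zero hΔ hm0)
  have hfe : ∀ σ ∈ D.G, al σ (α σ) (rk u) = rk u := fun σ hσ => al_rk ha hσ (hu σ hσ)
  have hcm : (-(g 0 * g 1 * g 2 * ((g * u) ⬝ᵥ u)))⁻¹ ^ 2 * (g 0 * g 1 * g 2) ^ 2 *
      tf (rk u) (wtJ g (rk u)) = 1 := by
    rw [wt_rk, tf_rk, dotProduct_comm u, mul_assoc, ← mul_pow, ← neg_sq (g 0 * g 1 * g 2 * _),
      ← mul_pow, inv_mul_cancel₀ hc0, one_pow]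
  have hpv : ∀ y : O, bil y 1 = 0 → ∃ z, cross (wtJ g (rk u)) z = pv (g * u) y := fun y hy =>
    ⟨pv ((-((g * u) ⬝ᵥ u))⁻¹ • u) y, by
      rw [wt_rk, cross_pv _ _ hy, dotProduct_smul, smul_eq_mul, ← mul_neg,
        inv_mul_cancel₀ (neg_ne_zero.2 hm0), one_smul]⟩
  obtain ⟨w1, w0, hw1, hw2⟩ := exists_perp hgu
  obtain ⟨v, w, k1, k2, k3, k4, k5⟩ := exists_vw hn h h0 (adj_rk u) hfe
    (fun σ hσ => by rw [map_inv₀, hfx σ hσ]) hcm ((pv_lin (g * u)).mk' _ ∘ₗ zorn_lin.mk' _)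
    (by
      rw [← LinearMap.ker_eq_bot, LinearMap.ker_eq_bot']
      intro p hp
      have h1 : zorn 0 0 p.1 p.2 = 0 := pv_ne a0 hp
      exact Prod.ext (by rw [← ZDx.za_zorn 0 0 p.1 p.2, h1, ZDx.za_zero]; rfl)
        (by rw [← ZDx.zb_zorn 0 0 p.1 p.2, h1, ZDx.zb_zero]; rfl))
    (fun p => hpv (zorn 0 0 p.1 p.2) (by
      rw [bil_z, z_one]
      simp [ZDx.zp_zorn, ZDx.zm_zorn, ZDx.za_zorn, ZDx.zb_zorn]))
    fun ι γ h1 h2 => by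
      by_cases h3 : γ ∈ D.K
      · exact ⟨rk w1, rk_ne w0, by rw [wt_rk]; exact rk_mem hm0 hw1, adj_rk w1,
          fun _ => al_rk ha h2 (hw2 γ h2), fun h4 => absurd h3 h4⟩
      by_cases h4 : ∀ y, α γ y = y → norm y = 0 → y = 0
      · obtain ⟨z, z0, hz, hz2⟩ := h1.pos (hfx γ h2) (hpos ι ⟨γ, h1, h2, h3, h4⟩)
        obtain ⟨w, w0, l1, l2, l3⟩ := exists_iso (hgF γ h2) (hu γ h2) (hw2 γ h2) w0 hw1 z0 hz hz2
        refine ⟨rk w, rk_ne w0, by rw [wt_rk]; exact rk_mem hm0 l1, adj_rk w,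
          fun h5 => absurd h5 h3, fun _ => ?_⟩
        rw [al_rk ha h2 l3, wt_rk, wt_rk, rk_iso l1 l2, smul_smul, inv_mul_cancel₀ hc0, one_smul]
      · push Not at h4
        obtain ⟨y, l1, l2, l3⟩ := h4
        obtain ⟨y, y0, m1, m2, m3⟩ := exists_pure ha h2 l3 l1 l2
        refine ⟨pv (g * u) y, fun h5 => y0 (pv_ne a0 h5), hpv y m3, adj_pv _ m3 m2,
          fun h5 => absurd h5 h3, fun _ => ?_⟩
        rw [al_pv ha h2 (hgu γ h2), m1, wt_pv, wt_rk, cross_smul_right, cross_pv _ _ m3, smul_smul,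
          smul_smul, mul_assoc, mul_neg, inv_mul_cancel₀ hc0, one_smul]
  exact core hn h h0 (adj_rk u) hfe hcm k1 k2 k3 k4 k5

end Vale.Agent.P011Z.Cl

end
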