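import Vale.Agent.P011Z.Cl.Brg
import Vale.Agent.P011Z.Cl.Out
import Vale.Agent.P011Z.Cl.Uni3

/-!
Classification of the forms: block Tre.
-/

open Matrix Module

noncomputable section

namespace Vale.Agent.P011Z.Cl

open Vale.Agent.P011.D4 Vale.Agent.P011.D4.Oct Vale.Agent.P011.E6 Vale.Agent.P011.E6.Alb

namespace Trex

section group

variable {G K : Subgroup Gq} {χ : Gq → Fin 3} {σ τ : Gq}

theorem chi_one (h : Chi G χ) : χ 1 = 0 := by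
  have h1 := h.mul 1 G.one_mem 1 G.one_mem
  rw [mul_one] at h1
  exact left_eq_add.1 h1

theorem chi_inv (h : Chi G χ) (hσ : σ ∈ G) : χ σ⁻¹ = -χ σ := by
  have h1 := h.mul σ⁻¹ (inv_mem hσ) σ hσ
  rw [inv_mul_cancel, chi_one h] at h1
  exact eq_neg_of_add_eq_zero_left h1.symm

theorem ix_conj (h : Ix2 G K) (hσ : σ ∈ G) (hτ : τ ∈ G) (hK : τ ∈ K) : σ⁻¹ * τ * σ ∈ K := by
  rw [h _ (mul_mem (inv_mem hσ) hτ) σ hσ, h _ (inv_mem hσ) τ hτ, inv_mem_iff]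
  tauto

theorem ix_comm (h : Ix2 G K) (hσ : σ ∈ G) (hτ : τ ∈ G) : (τ * σ)⁻¹ * (σ * τ) ∈ K := by
  rw [h _ (inv_mem (mul_mem hτ hσ)) _ (mul_mem hσ hτ), inv_mem_iff, h _ hτ _ hσ, h _ hσ _ hτ]
  tauto

theorem gen_G (h : Ix2 G K) (hle : K ≤ G) {s : Gq} (hs : s ∈ G) (hsK : s ∉ K) {P : Gq → Prop}
    (hm : ∀ σ ∈ G, ∀ τ ∈ G, P σ → P τ → P (σ * τ)) (h1 : ∀ σ ∈ K, P σ) (h2 : P s) :
    ∀ σ ∈ G, P σ := by
  intro σ hσ
  by_cases hK : σ ∈ K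
  · exact h1 σ hK
  · have h3 : s⁻¹ * σ ∈ K :=
      (h _ (inv_mem hs) _ hσ).2 (iff_of_false (fun h4 => hsK (inv_mem_iff.1 h4)) hK)
    have h4 := hm s hs _ (hle h3) h2 (h1 _ h3)
    rwa [mul_inv_cancel_left] at h4

theorem gen_K (h : Chi K χ) {ρ : Gq} (hρ : ρ ∈ K) (hρ1 : χ ρ = 1) {P : Gq → Prop}
    (hm : ∀ σ ∈ K, ∀ τ ∈ K, P σ → P τ → P (σ * τ)) (h1 : ∀ σ ∈ K, χ σ = 0 → P σ) (h2 : P ρ) :
    ∀ σ ∈ K, P σ := by
  have key : ∀ k : Fin 3, (∀ σ ∈ K, χ σ = k → P σ) → ∀ σ ∈ K, χ σ = k + 1 → P σ := by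
    intro k hk σ hσ h3
    have h4 : ρ⁻¹ * σ ∈ K := mul_mem (inv_mem hρ) hσ
    have h5 := hm ρ hρ _ h4 h2 (hk _ h4 (by
      rw [h.mul _ (inv_mem hρ) _ hσ, chi_inv h hρ, hρ1, h3, add_comm, add_neg_cancel_right]))
    rwa [mul_inv_cancel_left] at h5
  intro σ hσ
  have h3 : χ σ = 0 ∨ χ σ = 0 + 1 ∨ χ σ = 0 + 1 + 1 := by
    generalize χ σ = k
    revert k
    decide
  rcases h3 with h3 | h3 | h3
  · exact h1 σ hσ h3
  · exact key 0 h1 σ hσ h3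
  · exact key _ (key 0 h1) σ hσ h3

end group

/-- The setting: a datum in normal form, with a chart over the splitting field. -/
structure Ctx (D : ED) (χ : Gq → Fin 3) (α : Gq → O → O) (c₀ : Om) (g₀ : Fin 3 → Om)
    (N : Subgroup Gq) {F : Type} [Field F] (ι : F →+* Om) (a b c : F) (i j l : O)
    (r : Gq → F → F) : Prop where
  ok : D.OK
  chi : Chi D.G χ
  nf : D.NF χ α c₀ g₀
  opn : Opn N
  mem : ∀ σ, σ ∈ N ↔ σ ∈ D.K ∧ χ σ = 0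
  fx : ∀ y, Fx N y ↔ ∃ t, ι t = y
  trp : Trp ι a b c i j l
  fi : Fv D.G α i
  fj : Fv D.G α j
  fl : Fv D.G α l
  res : ∀ σ ∈ D.G, (∀ t, σ (ι t) = ι (r σ t)) ∧ ∀ x y, r σ (x + y) = r σ x + r σ y ∧
    r σ (x * y) = r σ x * r σ y

variable {D : ED} {χ : Gq → Fin 3} {α : Gq → O → O} {c₀ : Om} {g₀ : Fin 3 → Om}

theorem exists_ctx (h : D.OK) (hχ : Chi D.G χ) (hn : D.NF χ α c₀ g₀) :
    ∃ (N : Subgroup Gq) (F : Type) (_ : Field F) (_ : NumberField F) (ι : F →+* Om) (a b c : F)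
      (i j l : O) (r : Gq → F → F), Ctx D χ α c₀ g₀ N ι a b c i j l r := by
  obtain ⟨N, hN, hm⟩ := (hχ.mono h.le).ker h.opn
  obtain ⟨i, j, l, A, B, C, ht, hi, hj, hl⟩ := hn.ha.triple
  have hF : ∀ y, Fx N y ↔ ∃ t, (IntermediateField.fixedField N).val.toRingHom t = y := fun y =>
    ⟨fun hy => ⟨⟨y, mem_fix.2 hy⟩, rfl⟩, fun ⟨t, ht⟩ => ht ▸ mem_fix.1 t.2⟩
  have key : ∀ (y : O) (u : Om), Fv D.G α y → norm y = -u →
      ∃ t, (IntermediateField.fixedField N).val.toRingHom t = u := fun y u hy hu => by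
    refine (hF u).1 fun σ hσ => ?_
    have h1 := Trix.fx_norm hn.ha hy σ (h.le ((hm σ).1 hσ).1)
    rwa [hu, map_neg, neg_inj] at h1
  obtain ⟨a, ha⟩ := key i A hi ht.norm_i
  obtain ⟨b, hb⟩ := key j B hj ht.norm_j
  obtain ⟨c, hc⟩ := key l C hl ht.norm_l
  obtain ⟨r, hr⟩ := exists_res (G := D.G) hF fun σ hσ τ hτ => by
    obtain ⟨h1, h2⟩ := (hm τ).1 hτ
    refine (hm _).2 ⟨ix_conj h.ix hσ (h.le h1) h1, ?_⟩
    rw [hχ.mul _ (mul_mem (inv_mem hσ) (h.le h1)) _ hσ, hχ.mul _ (inv_mem hσ) _ (h.le h1), h2,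
      chi_inv hχ hσ, add_zero, neg_add_cancel]
  exact ⟨N, _, inferInstance, hN.nf, _, a, b, c, i, j, l, r,
    h, hχ, hn, hN, hm, hF, ⟨A, B, C, ht, ha, hb, hc⟩, hi, hj, hl, hr⟩

variable {N : Subgroup Gq} {F : Type} [Field F] [NumberField F] {ι : F →+* Om} {a b c : F}
  {i j l : O} {r : Gq → F → F} (h : Ctx D χ α c₀ g₀ N ι a b c i j l r) {σ ρ s : Gq}

include h

namespace Ctx

omit [NumberField F] in
theorem le : N ≤ D.G := fun σ hσ => h.ok.le ((h.mem σ).1 hσ).1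

omit [NumberField F] in
theorem act (hσ : σ ∈ N) (t : F) : σ (ι t) = ι t := (h.fx _).2 ⟨t, rfl⟩ σ hσ

theorem fix : (∀ y, Fv N α y ↔ ∃ x : P011.H900.Oc a b, jo ι i j l x = y) ∧
    ∀ y, (∀ σ ∈ N, al σ (α σ) y = y) ↔ ∃ x : P011.H900.Al a b, ja ι i j l x = y :=
  h.trp.fix (h.nf.ha.mono h.opn h.le) h.fx (fun σ hσ => h.fi σ (h.le hσ))
    (fun σ hσ => h.fj σ (h.le hσ)) fun σ hσ => h.fl σ (h.le hσ)

omit [NumberField F] in
theorem ne_zero (hσ : σ ∈ D.G) {t : Om} {f : J → J} (ht : ∀ x, D.f σ x = t • f x) : t ≠ 0 := by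
  rintro rfl
  exact (h.ok.sim σ hσ).toSemi.ne (Prcx.ee_ne 0) (by rw [ht, zero_smul])

omit [NumberField F] in
theorem aut (hσ : σ ∈ D.G) (hN : σ ∉ N) {n : ℕ} (hn : σ ^ n ∈ N) : P011.H900.Aut n (r σ) := by
  refine ⟨(h.res σ hσ).2, funext fun t => ι.injective ?_, fun h1 => hN (h.opn.mem fun y hy => ?_)⟩
  · have h1 : ∀ (m : ℕ) t, (σ ^ m) (ι t) = ι ((r σ)^[m] t) := by
      intro m
      induction m with
      | zero => exact fun _ => rfl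
      | succ m ih =>
        intro t
        rw [pow_succ, Function.iterate_succ_apply, ← ih, ← (h.res σ hσ).1]
        rfl
    rw [← h1]
    exact h.act hn t
  · obtain ⟨t, rfl⟩ := (h.fx y).1 hy
    rw [(h.res σ hσ).1, h1]
    rfl

omit [NumberField F] in
theorem aut3 (hρ : ρ ∈ D.K) (h1 : χ ρ = 1) : P011.H900.Aut 3 (r ρ) := by
  have hG := h.ok.le hρ
  refine h.aut hG (fun h2 => ?_) ((h.mem _).2 ⟨pow_mem hρ 3, ?_⟩)
  · rw [((h.mem ρ).1 h2).2] at h1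
    exact absurd h1 (by decide)
  · rw [pow_three, h.chi.mul _ hG _ (mul_mem hG hG), h.chi.mul _ hG _ hG, h1]
    decide

omit [NumberField F] in
theorem aut2 (hs : s ∈ D.G) (hK : s ∉ D.K) (h0 : χ s = 0) : P011.H900.Aut 2 (r s) := by
  refine h.aut hs (fun h2 => hK ((h.mem s).1 h2).1) ((h.mem _).2 ⟨?_, ?_⟩)
  · rw [pow_two, h.ok.ix s hs s hs]
  · rw [pow_two, h.chi.mul _ hs _ hs, h0, add_zero]

omit [NumberField F] in
theorem comm (hρ : ρ ∈ D.G) (hs : s ∈ D.G) (x : F) : r ρ (r s x) = r s (r ρ x) := by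
  have h1 : (s * ρ)⁻¹ * (ρ * s) ∈ N := by
    refine (h.mem _).2 ⟨ix_comm h.ok.ix hρ hs, ?_⟩
    rw [h.chi.mul _ (inv_mem (mul_mem hs hρ)) _ (mul_mem hρ hs), chi_inv h.chi (mul_mem hs hρ),
      h.chi.mul _ hs _ hρ, h.chi.mul _ hρ _ hs, add_comm (χ s), neg_add_cancel]
  refine ι.injective ?_
  rw [← (h.res ρ hρ).1, ← (h.res s hs).1, ← (h.res s hs).1, ← (h.res ρ hρ).1]
  have h2 := congrArg (fun y => (s * ρ) y) (h.act h1 x)
  simp only [← AlgEquiv.mul_apply, mul_inv_cancel_left] at h2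
  exact h2

omit [NumberField F] in
theorem fix_of (hσ : σ ∈ D.G) {t : F} (ht : σ (ι t) = ι t) : r σ t = t :=
  ι.injective (by rw [← (h.res σ hσ).1, ht])

omit [NumberField F] in
theorem abc (hσ : σ ∈ D.G) : r σ a = a ∧ r σ b = b ∧ r σ c = c := by
  obtain ⟨A, B, C, ht, ha, hb, hc⟩ := h.trp
  have key : ∀ (y : O) (u : F), Fv D.G α y → norm y = -ι u → r σ u = u := fun y u hy hu => by
    have h1 := Trix.fx_norm h.nf.ha hy σ hσ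
    rw [hu, map_neg, neg_inj] at h1
    exact h.fix_of hσ h1
  exact ⟨key i a h.fi (ha ▸ ht.norm_i), key j b h.fj (hb ▸ ht.norm_j),
    key l c h.fl (hc ▸ ht.norm_l)⟩

theorem jo_r (hσ : σ ∈ D.G) (x : P011.H900.Oc a b) :
    α σ (jo ι i j l x) = jo ι i j l (P011.H900.ap (r σ) x) :=
  jo_ap (h.nf.ha.semi σ hσ) (h.nf.ha.hom σ hσ) (h.fi σ hσ) (h.fj σ hσ) (h.fl σ hσ)
    (h.res σ hσ).1 x

theorem jo_iso {x : P011.H900.Oc a b} (hx : x ≠ 0)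
    (h0 : P011.H900.re (P011.H900.om c x (P011.H900.oc x)) = 0) :
    jo ι i j l x ≠ 0 ∧ norm (jo ι i j l x) = 0 ∧ ∀ σ ∈ D.K, χ σ = 0 →
      α σ (jo ι i j l x) = jo ι i j l x := by
  refine ⟨fun h1 => hx (h.trp.chart.inj ?_), by rw [h.trp.norm, h0, map_zero], fun σ hσ h1 =>
    (h.fix.1 _).2 ⟨x, rfl⟩ σ ((h.mem σ).2 ⟨hσ, h1⟩)⟩
  rw [h1]
  exact (Extx.sm h.trp.chart).map_zero.symm

omit [NumberField F] in
theorem mul_fix (y : O) : ∀ σ ∈ D.G, ∀ τ ∈ D.G, α σ y = y → α τ y = y → α (σ * τ) y = y :=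
  fun σ hσ τ hτ h1 h2 => by rw [← h.nf.ha.mul σ hσ τ hτ, h2, h1]

omit [NumberField F] in
theorem exists_e : ∃ e, ι e = c₀ := (h.fx _).1 fun σ hσ => h.nf.cK σ ((h.mem σ).1 hσ).1

omit [NumberField F] in
theorem exists_g : ∃ g : Fin 3 → F, ι ∘ g = g₀ := by
  choose g hg using fun n => (h.fx (g₀ n)).1 fun σ hσ =>
    h.nf.gF σ (h.le hσ) ((h.mem σ).1 hσ).2 n
  exact ⟨g, funext hg⟩

omit [NumberField F] in
theorem nnm (hρ : ρ ∈ D.K) (h1 : χ ρ = 1) (hl : ¬ ∃ x, Line D.K D.f x) {e : F} (he : ι e = c₀) :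
    P011.H900.Nnm (r ρ) e := by
  have hG := h.ok.le hρ
  refine ⟨h.fix_of hG (he ▸ h.nf.cK ρ hρ), fun x hx => hl (h.nf.line h.ok h.chi hρ h1 (z := ι x)
    (fun σ hσ h2 => h.act ((h.mem σ).2 ⟨hσ, h2⟩) x) ?_)⟩
  rw [(h.res ρ hG).1, (h.res ρ hG).1, ← map_mul, ← map_mul, hx, he]

omit [NumberField F] in
theorem wei (hρ : ρ ∈ D.K) (h1 : χ ρ = 1) (hs : s ∈ D.G) (hK : s ∉ D.K) (h0 : χ s = 0) {e : F}
    (he : ι e = c₀) {g : Fin 3 → F} (hg : ι ∘ g = g₀) :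
    ∃ t, P011.H900.Wei (r ρ) (r s) e t g := by
  have hG := h.ok.le hρ
  obtain ⟨t₀, t1, t2, t3, t4⟩ := h.nf.wei ρ hρ h1 s hs hK
  obtain ⟨t, rfl⟩ := (h.fx t₀).1 fun σ hσ => t1 σ (h.le hσ) ((h.mem σ).1 hσ).2
  subst he hg
  refine ⟨t, fun n => h.fix_of hs (h.nf.gF s hs h0 n), fun h2 => h.nf.g0 0 ?_,
    h.fix_of hs (t1 s hs h0), ι.injective ?_, ι.injective ?_, ι.injective ?_⟩
  · rw [Function.comp_apply, h2, map_zero]
  · rw [map_mul, ← (h.res ρ hG).1]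
    exact t2
  · rw [map_mul, ← (h.res ρ hG).1]
    exact t3
  · rw [map_mul, map_mul, map_mul, ← (h.res ρ hG).1, ← (h.res s hs).1]
    exact t4

variable {g : J ≃ₗ[Om] J}

theorem com_of (hσ : σ ∈ D.G)
    (h1 : ∀ x : P011.H900.Al a b, g (D.f σ (ja ι i j l x)) = D.f σ (g (ja ι i j l x))) (x : J) :
    g (D.f σ x) = D.f σ (g x) := by
  have h2 := (semi_lin g).comp (h.ok.sim σ hσ).toSemi
  have h3 := (h.ok.sim σ hσ).toSemi.comp (semi_lin g)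
  rw [one_mul] at h2
  rw [mul_one] at h3
  exact h.trp.chartA.eq_semi h2 h3 h1 x

/-- The maps which commute with the action of `N` are those which preserve the chart. -/
theorem base_iff : (∀ σ ∈ D.K, χ σ = 0 → ∀ x, g (D.f σ x) = D.f σ (g x)) ↔
    ∀ x : P011.H900.Al a b, ∃ y : P011.H900.Al a b, g (ja ι i j l x) = ja ι i j l y := by
  have h0 : ∀ σ ∈ N, ∀ x : P011.H900.Al a b, al σ (α σ) (ja ι i j l x) = ja ι i j l x :=
    fun σ hσ x => (h.fix.2 _).2 ⟨x, rfl⟩ σ hσ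
  refine ⟨fun h1 x => ?_, fun h1 σ hσ h2 => h.com_of (h.ok.le hσ) fun x => ?_⟩
  · obtain ⟨y, hy⟩ := (h.fix.2 (g (ja ι i j l x))).1 fun σ hσ => by
      obtain ⟨h2, h3⟩ := (h.mem σ).1 hσ
      obtain ⟨t, ht⟩ := h.nf.base σ h2 h3
      have h4 := h1 σ h2 h3 (ja ι i j l x)
      rw [ht, ht, h0 σ hσ, map_smul] at h4
      exact (smul_right_injective J (h.ne_zero (h.ok.le h2) ht) h4).symm
    exact ⟨y, hy.symm⟩
  · obtain ⟨t, ht⟩ := h.nf.base σ hσ h2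
    obtain ⟨y, hy⟩ := h1 x
    have h3 := (h.mem σ).2 ⟨hσ, h2⟩
    rw [ht, ht, h0 σ h3, map_smul, hy, h0 σ h3]

variable {f : P011.H900.Al a b → P011.H900.Al a b}

theorem rho_iff (hρ : ρ ∈ D.K) (h1 : χ ρ = 1) {e : F} (he : ι e = c₀)
    (hf : ∀ x, g (ja ι i j l x) = ja ι i j l (f x)) :
    (∀ σ ∈ D.K, ∀ x, g (D.f σ x) = D.f σ (g x)) ↔ P011.H900.Ph (r ρ) e f := by
  have hG := h.ok.le hρ
  obtain ⟨t, ht⟩ := h.nf.rho ρ hρ h1
  have h2 : ∀ x : P011.H900.Al a b,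
      D.f ρ (ja ι i j l x) = t • ja ι i j l (P011.H900.ph (r ρ) e x) := fun x => by
    rw [ht, ← he, ja_ph (h.nf.ha.semi ρ hG) (h.nf.ha.hom ρ hG) (h.fi ρ hG) (h.fj ρ hG)
      (h.fl ρ hG) (h.res ρ hG).1]
  refine ⟨fun h3 x => h.trp.chartA.inj (smul_right_injective J (h.ne_zero hG ht) ?_), fun h3 =>
    gen_K (h.chi.mono h.ok.le) hρ h1 (fun σ hσ τ hτ h4 h5 x => ?_)
      (h.base_iff.2 fun x => ⟨f x, hf x⟩) (h.com_of hG fun x => ?_)⟩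
  · have h4 := h3 ρ hρ (ja ι i j l x)
    rwa [h2, map_smul, hf, hf, h2] at h4
  · obtain ⟨u, hu⟩ := h.ok.coc σ (h.ok.le hσ) τ hτ
    have h6 := Datx.ne_zero (h.ok.sim σ (h.ok.le hσ)).toSemi (h.ok.sim τ (h.ok.le hτ)).toSemi hu
    refine smul_right_injective J h6 ?_
    change u • _ = u • _
    rw [← map_smul, ← hu, ← hu, h4, h5]
  · rw [h2, map_smul, hf, hf, h2, h3]

theorem her_eq (hs : s ∈ D.G) {w : Fin 3 → F} (hw : ι ∘ w = g₀) (x y : P011.H900.Al a b) :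
    tf (ja ι i j l x) (wtJ g₀ (al s (α s) (ja ι i j l y))) = ι (P011.H900.her c (r s) w x y) := by
  rw [← hw]
  exact h.trp.her (h.nf.ha.semi s hs) (h.nf.ha.hom s hs) (h.fi s hs) (h.fj s hs) (h.fl s hs)
    (h.res s hs).1 w x y

theorem dual_iff (hs : s ∈ D.G) (hK : s ∉ D.K) (h0 : χ s = 0) {w : Fin 3 → F} (hw : ι ∘ w = g₀)
    (hf : ∀ x, g (ja ι i j l x) = ja ι i j l (f x)) :
    (∀ x y, tf (g x) (D.f s (g y)) = tf x (D.f s y)) ↔ P011.H900.Her c (r s) w f := by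
  obtain ⟨t, ht⟩ := h.nf.dual s hs hK h0
  have h2 : ∀ x y : P011.H900.Al a b, tf (ja ι i j l x) (D.f s (ja ι i j l y)) =
      t * ι (P011.H900.her c (r s) w x y) := fun x y => by
    rw [ht, tf_smul_right, h.her_eq hs hw]
  have h3 := (h.ok.sim s hs).toSemi
  refine ⟨fun h4 x y => ι.injective (mul_left_cancel₀ (h.ne_zero hs ht) ?_), fun h4 x y => ?_⟩
  · rw [← h2, ← h2, ← hf, ← hf, h4]
  · refine Extx.eq0 h.trp.chartA (σ := s) (f := fun y => tf (g x) (D.f s (g y)))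
      (g := fun y => tf x (D.f s y)) (fun y z => ?_) (fun u y => ?_) (fun y z => ?_)
      (fun u y => ?_) (fun y => ?_) y
    · rw [map_add, h3.add, tf_add_right]
    · rw [map_smul, h3.smul, tf_smul_right, smul_eq_mul]
    · rw [h3.add, tf_add_right]
    · rw [h3.smul, tf_smul_right, smul_eq_mul]
    · refine Extx.eq0 h.trp.chartA (σ := id) (f := fun x => tf (g x) (D.f s (g (ja ι i j l y))))
        (g := fun x => tf x (D.f s (ja ι i j l y))) (fun y z => ?_) (fun u y => ?_)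
        (fun y z => ?_) (fun u y => ?_) (fun x => ?_) x
      · rw [map_add, tf_add_left]
      · rw [map_smul, tf_smul_left, smul_eq_mul, id]
      · rw [tf_add_left]
      · rw [tf_smul_left, smul_eq_mul, id]
      · rw [hf, hf, h2, h2, h4]

/-- Comparison of the group of the datum with the group of a model. -/
theorem fin {P : (P011.H900.Al a b → P011.H900.Al a b) → Prop}
    (h1 : ∀ (g : J ≃ₗ[Om] J) (f : P011.H900.Al a b → P011.H900.Al a b),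
      (∀ x, cub (g x) = cub x) → (∀ x, g (ja ι i j l x) = ja ι i j l (f x)) → (g ∈ D.grp ↔ P f)) :
    (AniL D.grp → Ani fun f => P011.H900.Cub c f ∧ P f) ∧
      ((Simp fun f => P011.H900.Cub c f ∧ P f) → SimpL D.grp) := by
  obtain ⟨-, e, he⟩ := xfer (fun f => P011.H900.Cub c f ∧ P f) D.grp (ja ι i j l) h.trp.chartA.inj
    (fun f hf => by
      obtain ⟨g, g1, g2⟩ := h.trp.ext f hf.1
      exact ⟨g, (h1 g f g1 g2).2 hf.2, g2⟩)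
    (fun g hg => by
      obtain ⟨f, f1, f2⟩ := h.trp.res g hg.1 (h.base_iff.1 fun σ hσ _ => hg.2.1 σ hσ)
      exact ⟨f, ⟨f1, (h1 g f hg.1 f2).1 hg⟩, f2⟩)
    fun g _ hg => LinearEquiv.ext
      (h.trp.chartA.eq_semi (semi_lin g) (semi_lin (1 : J ≃ₗ[Om] J)) hg)
  refine ⟨fun ha f hf => e.injective (Subtype.ext ?_), simpL_equiv e⟩
  rw [map_one]
  exact ha _ (e f).2 (uni_span (map_sub (Extx.sm h.trp.chartA)) h.trp.chartA.span (he f) hf)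

theorem case1 (h1 : ME1) (hs : ¬ D.Spl) (ha : AniL D.grp) (h0 : ∀ σ ∈ D.G, χ σ = 0) {s : Gq}
    (hG : s ∈ D.G) (hK : s ∉ D.K) : SimpL D.grp := by
  obtain ⟨w, hw⟩ := h.exists_g
  refine (h.fin (P := P011.H900.Her c (r s) w) fun g f g1 g2 => ?_).2
    (h1 (r s) a b c w (h.aut2 hG hK (h0 s hG)) ⟨by simpa using h.abc hG, fun x _ hx => ?_⟩
      (fun n => h.fix_of hG ?_) fun x hx => ?_)
  · rw [← h.dual_iff hG hK (h0 s hG) hw g2]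
    exact ⟨fun hg => hg.2.2 s hG hK, h.ok.mem_grp hG hK g1 fun σ hσ =>
      h.base_iff.2 (fun x => ⟨f x, g2 x⟩) σ hσ (h0 σ (h.ok.le hσ))⟩
  · by_contra h2
    obtain ⟨h3, h4, h5⟩ := h.jo_iso h2 hx
    exact hs (h.nf.spl h.ok h0 h3 (fun σ hσ => h5 σ hσ (h0 σ (h.ok.le hσ))) h4)
  · subst hw
    exact h.nf.gF s hG (h0 s hG) n
  · by_contra h2
    refine uni3 h.nf h.ok h0 hG hK (x := ja ι i j l x) (fun h3 => h2 (h.trp.chartA.inj ?_))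
      (fun σ hσ => (h.fix.2 _).2 ⟨x, rfl⟩ σ ((h.mem σ).2 ⟨hσ, h0 σ (h.ok.le hσ)⟩)) ?_ ha
    · rw [h3]
      exact (Extx.sm h.trp.chartA).map_zero.symm
    · rw [h.her_eq hG hw, hx, map_zero]

theorem fix_K (hρ : ρ ∈ D.K) (h1 : χ ρ = 1) {x : P011.H900.Oc a b}
    (h2 : ∀ σ ∈ D.K, χ σ = 0 → α σ (jo ι i j l x) = jo ι i j l x)
    (h3 : P011.H900.ap (r ρ) x = x) : Fv D.K α (jo ι i j l x) :=
  gen_K (h.chi.mono h.ok.le) hρ h1
    (fun σ hσ τ hτ => h.mul_fix _ σ (h.ok.le hσ) τ (h.ok.le hτ)) h2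
    (by rw [h.jo_r (h.ok.le hρ), h3])

theorem case2 (h2 : ME2) (ha : AniL D.grp) (hρ : ρ ∈ D.K) (h1 : χ ρ = 1)
    (hl : ¬ ∃ x, Line D.K D.f x) (hK : D.G ≤ D.K) : SimpL D.grp := by
  obtain ⟨e, he⟩ := h.exists_e
  refine (h.fin (P := P011.H900.Ph (r ρ) e) fun g f g1 g2 => ?_).2
    (h2 (r ρ) a b c e (h.aut3 hρ h1) ⟨by simpa using h.abc (h.ok.le hρ), fun x h3 hx => ?_⟩
      (h.nnm hρ h1 hl he))
  · rw [← h.rho_iff hρ h1 he g2]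
    exact ⟨fun hg => hg.2.1, fun hg => ⟨g1, hg, fun σ hσ h3 => absurd (hK hσ) h3⟩⟩
  · by_contra h4
    obtain ⟨h5, h6, h7⟩ := h.jo_iso h4 hx
    exact h.nf.not_ani h.ok h.chi h5
      (fun σ hσ => h.fix_K hρ h1 h7 (h3 _ (by simp)) σ (hK hσ)) h6 ha

theorem case3 (h3 : ME3) (ha : AniL D.grp) (hρ : ρ ∈ D.K) (h1 : χ ρ = 1)
    (hl : ¬ ∃ x, Line D.K D.f x) (hG : s ∈ D.G) (hK : s ∉ D.K) (h0 : χ s = 0) : SimpL D.grp := by
  obtain ⟨e, he⟩ := h.exists_e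
  obtain ⟨w, hw⟩ := h.exists_g
  obtain ⟨t, ht⟩ := h.wei hρ h1 hG hK h0 he hw
  have h2 := h.fin (P := fun f => P011.H900.Her c (r s) w f ∧ P011.H900.Ph (r ρ) e f)
    fun g f g1 g2 => by
      rw [← h.dual_iff hG hK h0 hw g2, ← h.rho_iff hρ h1 he g2]
      exact ⟨fun hg => ⟨hg.2.2 s hG hK, hg.2.1⟩, fun hg => h.ok.mem_grp hG hK g1 hg.2 hg.1⟩
  refine h2.2 (h3 (r ρ) (r s) a b c e t w (h.aut3 hρ h1) (h.aut2 hG hK h0)
    (h.comm (h.ok.le hρ) hG) ⟨?_, fun x h4 hx => ?_⟩ (h.nnm hρ h1 hl he) ht (h2.1 ha))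
  · simpa using ⟨h.abc (h.ok.le hρ), h.abc hG⟩
  · by_contra h5
    obtain ⟨h6, h7, h8⟩ := h.jo_iso h5 hx
    refine h.nf.not_ani h.ok h.chi h6 (gen_G h.ok.ix h.ok.le hG hK (h.mul_fix _)
      (h.fix_K hρ h1 h8 (h4 _ (by simp))) ?_) h7 ha
    rw [h.jo_r hG, h4 _ (by simp)]

end Ctx

end Trex

theorem e6_main (h1 : ME1) (h2 : ME2) (h3 : ME3) {D : ED} (h : D.OK) (hs : ¬ D.Spl)
    (ha : AniL D.grp) : SimpL D.grp := by
  obtain ⟨χ, ψ, α, c₀, g₀, hχ, hψ, hn, hd⟩ := e6_nf h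
  rw [← D.simp_conj hψ]
  rw [← D.ani_conj hψ] at ha
  rw [← D.spl_conj hψ] at hs
  rw [← D.line_conj ψ le_rfl] at hd
  obtain ⟨N, F, _, _, ι, a, b, c, i, j, l, r, hc⟩ := Trex.exists_ctx (h.conj hψ) hχ hn
  by_cases hK : D.G ≤ D.K
  · rcases hd with hd | ⟨⟨ρ, hρ, hρ1⟩, hl⟩
    · exact absurd ha (hn.not_ani' (h.conj hψ) hK hd)
    · exact hc.case2 h2 ha hρ hρ1 hl hK
  · obtain ⟨s, hG, hK⟩ := SetLike.not_le_iff_exists.1 hK
    obtain ⟨s, hG, hK, h0⟩ := hχ.ix2' h.ix hG hK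
    rcases hd with hd | ⟨⟨ρ, hρ, hρ1⟩, hl⟩
    · exact hc.case1 h1 hs ha hd hG hK
    · exact hc.case3 h3 ha hρ hρ1 hl hG hK h0

end Vale.Agent.P011Z.Cl

end
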