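import Vale.Agent.P011Z.ClauseA
import Vale.Agent.P011Z.TrEFin
import Vale.Agent.P011Z.ModD4
import Vale.Agent.P011Z.ModE6
import Vale.Agent.P011.H984.Full.BrgDFin
import Vale.Agent.P011.H742.E3N
import Vale.Agent.P011.H261.Rl.Fin
import Vale.Agent.P011Z.Cl.Tre
import Vale.Agent.P011Z.Cl.D4f
import Vale.Agent.P011Z.Cl.JM5
import Vale.Agent.P011Z.Cl.A6

/-!
Classification of the forms: the statements on the models hold.
-/

namespace Vale.Agent.P011Z.Cl

theorem ma (k F : Type) [Field k] [Field F] (n : ℕ) : MA k F n :=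
  fun _ _ _ _ _ _ _ _ _ _ _ _ f h => clause_out h f

theorem md3 : MD3 := fun _ _ _ _ _ _ _ h ha => simp_d3 h ha (Vale.Agent.P011.H984.d3 h)

theorem md6 : MD6 := fun _ _ _ _ _ _ _ _ h h1 h2 h3 h4 h5 ha =>
  simp_d4 h h1 h2 h3 h4 h5 ha (Vale.Agent.P011.H984.d4 h h1 h2 h3 h4 h5)

theorem me1 : ME1 := fun _ _ _ _ _ => simp_e1_of sim1

theorem me2 : ME2 := fun _ _ _ _ _ => simp_e2_of sim2

theorem me3 : ME3 := fun _ _ _ _ _ _ _ _ h1 h2 h3 h4 h5 h6 ha => simp_e3 h1 h2 h3 h4 h5 h6 ha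
  (Vale.Agent.P011.H742.e3n_of Vale.Agent.P011.H261.Rl.old3n h1 h2 h3 h4 h5 h6)

variable {k F : Type} [Field k] [Field F] [Algebra k F] [FiniteDimensional k F] [NumberField k]

theorem fin_D (θ : (F ≃ₐ[k] F) →* MulAut (P011.H900.grp (Spin (F := F)))) (h : FormD θ)
    (hr : Rk0 k fun g : Fix θ => (g.1.1 : Js F → Js F)) : Prj (Fix θ) :=
  haveI := NumberField.of_module_finite k F
  form_D' (fun _ => d4_main md3 md6) θ h hr

theorem fin_E (θ : (F ≃ₐ[k] F) →* MulAut (P011.H900.grp (P011.H900.Cub (a := (1 : F)) (b := 1) 1)))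
    (h : FormE θ) (hr : Rk0 k fun g : Fix θ => (g.1.1 : Js F → Js F)) : Prj (Fix θ) :=
  haveI := NumberField.of_module_finite k F
  form_E' (fun _ => e6_main me1 me2 me3) θ h hr

end Vale.Agent.P011Z.Cl
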