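import Vale.Agent.P011Z.Cl.Hur
import Vale.Agent.P011Z.Cl.Fnf.Csq

/-!
Classification of the forms: block Fnf.
-/

open Matrix Module

noncomputable section

namespace Vale.Agent.P011Z.Cl

open Vale.Agent.P011.D4 Vale.Agent.P011.D4.Oct Vale.Agent.P011.E6 Vale.Agent.P011.E6.Alb

variable {D : ED} {χ : Gq → Fin 3}

theorem fnf (h : D.OK) (hχ : Chi D.G χ) (hf : D.Frm χ) :
    ∃ (ψ : J ≃ₗ[Om] J) (α : Gq → O → O) (c : Om) (g : Fin 3 → Om),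
      Sim 1 ψ ∧ (D.conj ψ).NF χ α c g := by
  obtain ⟨ψ, α, h1, h2, h3⟩ := hur_main (h.fd hχ hf.prm) fun i => by
    obtain ⟨y, hy, h4⟩ := hf.triv i
    exact ⟨y, hy, fun σ hσ h5 => h4 σ hσ (add_eq_left.1 h5)⟩
  obtain ⟨z, hz⟩ := Fnfx.df_of_hur h1 h2 h3
  obtain ⟨φ, c, g, h4, h5⟩ := hz.main (h.conj h1) hχ
  rw [ED.conj_conj] at h5
  exact ⟨φ.trans ψ, α, c, g, h4.trans h1, h5⟩

end Vale.Agent.P011Z.Cl

end
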