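import Vale.Agent.P011Z.Cl.Frm.Tv

/-!
Classification of the forms: block Frm.
-/

open Matrix Module

noncomputable section

namespace Vale.Agent.P011Z.Cl

open Vale.Agent.P011.D4 Vale.Agent.P011.D4.Oct Vale.Agent.P011.E6 Vale.Agent.P011.E6.Alb

namespace Frmx

theorem adj_of {x : J} (h1 : ∀ i, dg x (i + 1) * dg x (i + 2) = norm (sl x i))
    (h2 : ∀ i, star (sl x (i + 1) * sl x (i + 2)) = dg x i • sl x i) : adj x = 0 :=
  j_ext (fun i => by rw [dg_adj, h1, sub_self, dg_zero]) fun i => by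
    rw [sl_adj, h2, sub_self, sl_zero]

theorem adj_ee (i : Fin 3) : adj (ee i) = 0 := by
  refine adj_of (fun l => ?_) fun l => ?_
  · rw [sl_ee, Oct.norm_zero, dg_ee, dg_ee]
    by_cases h : l + 1 = i
    · rw [if_neg (fun h' : l + 2 = i => n21 l (h'.trans h.symm)), mul_zero]
    · rw [if_neg h, zero_mul]
  · rw [sl_ee, sl_ee, sl_ee, mul_zero, star_zero, smul_zero]

theorem ee_ne (i : Fin 3) : ee i ≠ 0 := fun h => by
  have h1 := dg_ee i i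
  rw [h, dg_zero, if_pos rfl] at h1
  exact zero_ne_one h1

/-- The big cell of the singular elements. -/
def zz (y₁ y₂ : O) : J := jm ![1, norm y₂, norm y₁] ![star (y₁ * y₂), y₁, y₂]

theorem adj_zz (y₁ y₂ : O) : adj (zz y₁ y₂) = 0 := by
  refine adj_of (fun l => ?_) fun l => ?_
  · rw [zz, dg_jm, sl_jm]
    fin_cases l
    · change norm y₂ * norm y₁ = norm (star (y₁ * y₂))
      rw [Oct.norm_star, Oct.norm_mul, mul_comm]
    · change norm y₁ * 1 = norm y₁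
      rw [mul_one]
    · change 1 * norm y₂ = norm y₂
      rw [one_mul]
  · rw [zz, dg_jm, sl_jm]
    fin_cases l
    · change star (y₁ * y₂) = (1 : Om) • star (y₁ * y₂)
      rw [one_smul]
    · change star (y₂ * star (y₁ * y₂)) = norm y₂ • y₁
      rw [star_mul, star_star, mul_mul_star]
    · change star (star (y₁ * y₂) * y₁) = norm y₁ • y₂
      rw [star_mul, star_star, star_mul_mul]

theorem dg_zz (y₁ y₂ : O) : dg (zz y₁ y₂) 0 = 1 := rfl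

theorem tf_zz (y₁ y₂ : O) (a : J) : tf (zz y₁ y₂) a = dg a 0 + norm y₂ * dg a 1 +
    norm y₁ * dg a 2 + bil (star (y₁ * y₂)) (sl a 0) + bil y₁ (sl a 1) + bil y₂ (sl a 2) := by
  change 1 * a.d1 + norm y₂ * a.d2 + norm y₁ * a.d3 + bil (star (y₁ * y₂)) a.x1 + bil y₁ a.x2 +
    bil y₂ a.x3 = _
  rw [one_mul]
  rfl

/-- A quadratic function which vanishes identically. -/
theorem quad_zero {d : Om} {u : O} (h : ∀ y : O, bil y u + norm y * d = 0) : d = 0 ∧ u = 0 := by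
  have h1 : d = 0 := by
    have e1 := h 1
    have e2 := h (-1)
    rw [bil_neg_left, Oct.norm_neg] at e2
    rw [Oct.norm_one] at e1 e2
    linear_combination (e1 + e2) / 2
  refine ⟨h1, eq_zero_of_bil fun y => ?_⟩
  have e := h y
  rwa [h1, mul_zero, add_zero, bil_comm] at e

theorem exists_zz {a : J} (ha : a ≠ 0) : ∃ y₁ y₂, tf (zz y₁ y₂) a ≠ 0 := by
  by_contra h
  simp only [not_exists, not_not, tf_zz] at h
  have h0 : dg a 0 = 0 := by simpa using h 0 0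
  obtain ⟨h1, h2⟩ := quad_zero (d := dg a 1) (u := sl a 2) fun y => by
    have e := h 0 y
    simp only [h0, zero_mul, star_zero, bil_zero_left, Oct.norm_zero] at e
    linear_combination e
  obtain ⟨h3, h4⟩ := quad_zero (d := dg a 2) (u := sl a 1) fun y => by
    have e := h y 0
    simp only [h0, mul_zero, star_zero, bil_zero_left, Oct.norm_zero] at e
    linear_combination e
  have h5 : sl a 0 = 0 := eq_zero_of_bil fun y => by
    have e := h (star y) 1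
    simp only [h0, h1, h2, h3, h4, mul_zero, mul_one, star_star, bil_zero_right, add_zero,
      zero_add] at e
    rwa [bil_comm]
  refine ha (j_ext (fun i => ?_) fun i => ?_)
  · rw [dg_zero]
    fin_cases i
    exacts [h0, h1, h3]
  · rw [sl_zero]
    fin_cases i
    exacts [h5, h4, h2]

theorem uo_sing {a : J} (ha : adj a = 0) (x : J) : uo a x = tf a x • a := by
  rw [uo, ha, cross_zero_left, sub_zero]

theorem uo_smul (t : Om) (a x : J) : uo (t • a) x = t ^ 2 • uo a x := by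
  rw [uo, uo, tf_smul_left, adj_smul, cross_smul_left, smul_smul, smul_sub, smul_smul]
  congr 2
  ring

theorem adj_uo_sing (a : J) {x : J} (hx : adj x = 0) : adj (uo a x) = 0 := by
  rw [adj_uo, hx, (uo_lin _).map_zero]

theorem exists_sq (c : Om) : ∃ g : Om, g ^ 2 = c := IsAlgClosed.exists_pow_nat_eq c two_pos

theorem wtJ_lin (g : Fin 3 → Om) : IsLinearMap Om (wtJ g) := by
  refine ⟨fun x y => j_ext (fun l => ?_) fun l => ?_, fun t x => j_ext (fun l => ?_) fun l => ?_⟩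
  · simp only [wtJ, dg_add, dg_jm, mul_add]
  · simp only [wtJ, sl_add, sl_jm, smul_add]
  · simp only [wtJ, dg_smul, dg_jm]
    ring
  · simp only [wtJ, sl_smul, sl_jm]
    rw [smul_comm]

theorem wtJ_wtJ {g h : Fin 3 → Om} (hg : ∀ i, g i * h i = 1) (x : J) : wtJ g (wtJ h x) = x := by
  refine j_ext (fun l => ?_) fun l => ?_
  · simp only [wtJ, dg_jm]
    rw [← mul_assoc, ← mul_pow, hg, one_pow, one_mul]
  · simp only [wtJ, sl_jm]
    rw [smul_smul, mul_mul_mul_comm, hg, hg, one_mul, one_smul]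

theorem cub_wtJ (g : Fin 3 → Om) (x : J) : cub (wtJ g x) = (g 0 * g 1 * g 2) ^ 2 * cub x := by
  change g 0 ^ 2 * x.d1 * (g 1 ^ 2 * x.d2) * (g 2 ^ 2 * x.d3) -
    g 0 ^ 2 * x.d1 * norm ((g 1 * g 2) • x.x1) - g 1 ^ 2 * x.d2 * norm ((g 2 * g 0) • x.x2) -
    g 2 ^ 2 * x.d3 * norm ((g 0 * g 1) • x.x3) +
    bil ((g 1 * g 2) • x.x1 * (g 2 * g 0) • x.x2 * (g 0 * g 1) • x.x3) 1 = _
  simp only [cub, Oct.norm_smul, smul_mul_oct, mul_smul_oct, bil_smul_left]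
  ring

theorem wtJ_ee (g : Fin 3 → Om) (i : Fin 3) : wtJ g (ee i) = g i ^ 2 • ee i := by
  refine j_ext (fun l => ?_) fun l => ?_
  · simp only [wtJ, dg_jm, dg_smul, dg_ee]
    by_cases h : l = i
    · rw [h]
    · rw [if_neg h, mul_zero, mul_zero]
  · simp only [wtJ, sl_jm, sl_smul, sl_ee, smul_zero]

theorem exists_wtJ {g : Fin 3 → Om} (hg : ∀ i, g i ≠ 0) : ∃ ψ : J ≃ₗ[Om] J,
    (∀ x, cub (ψ x) = (g 0 * g 1 * g 2) ^ 2 * cub x) ∧ ∀ i, ψ (ee i) = g i ^ 2 • ee i := by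
  refine ⟨LinearEquiv.ofLinearMap ((wtJ_lin g).mk' _) ((wtJ_lin fun i => (g i)⁻¹).mk' _) ?_ ?_,
    cub_wtJ g, wtJ_ee g⟩
  · ext1 x
    exact wtJ_wtJ (fun i => mul_inv_cancel₀ (hg i)) x
  · ext1 x
    exact wtJ_wtJ (fun i => inv_mul_cancel₀ (hg i)) x

theorem cub_symm {ψ : J ≃ₗ[Om] J} (h : ∀ y, cub (ψ y) = cub y) (y : J) :
    cub (ψ.symm y) = cub y := by
  rw [← h, ψ.apply_symm_apply]

theorem sing_trans0 {x : J} (hx : adj x = 0) (h0 : dg x 0 ≠ 0) :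
    ∃ ψ : J ≃ₗ[Om] J, (∀ y, cub (ψ y) = cub y) ∧ ψ (ee 0) = x := by
  obtain ⟨φ, h1, -, h2⟩ := pivot hx 0 h0
  obtain ⟨g, hg⟩ := exists_sq (dg x 0)
  have hg0 : g ≠ 0 := by
    rintro rfl
    exact h0 (by rw [← hg, zero_pow two_ne_zero])
  obtain ⟨χ, k1, k2⟩ := exists_wtJ (g := ![g, g⁻¹, 1]) fun i => by
    fin_cases i
    exacts [hg0, inv_ne_zero hg0, one_ne_zero]
  refine ⟨χ.trans φ.symm, fun y => ?_, ?_⟩
  · rw [LinearEquiv.trans_apply, cub_symm h1, k1]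
    change (g * g⁻¹ * 1) ^ 2 * _ = _
    rw [mul_inv_cancel₀ hg0, one_mul, one_pow, one_mul]
  · rw [LinearEquiv.trans_apply, k2, φ.symm_apply_eq, h2, ← hg]
    rfl

/-- The inverse of the adjoint of a map which preserves the norm. -/
theorem exists_dag {ψ : J ≃ₗ[Om] J} (h : ∀ y, cub (ψ y) = cub y) : ∃ φ : J ≃ₗ[Om] J,
    (∀ y, cub (φ y) = cub y) ∧ (∀ x y, tf (ψ x) (φ y) = tf x y) ∧
      (∀ x, adj (φ x) = ψ (adj x)) ∧ ∀ x y, cross (ψ x) (ψ y) = φ (cross x y) := by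
  have hs := semi_lin ψ
  have h' : ∀ y, cub (ψ y) = 1 * (1 : Gq) (cub y) := fun y => by rw [h, one_mul]; rfl
  obtain ⟨φ, hφ⟩ := hs.dag.lin
  have h1 : ∀ y, cub (dag 1 ψ y) = 1 * (1 : Gq) (cub y) := fun y => by
    rw [cub_dag hs one_ne_zero h', inv_one]
  refine ⟨φ, fun y => ?_, fun x y => ?_, fun x => ?_, fun x y => ?_⟩
  · rw [hφ, h1, one_mul]
    rfl
  · rw [hφ, dag_tf hs]
    rfl
  · rw [hφ, adj_sim hs.dag h1, one_smul, dag_dag hs]
  · rw [hφ, cross_sim hs h', one_smul]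

theorem sing_map {ψ : J ≃ₗ[Om] J} (h : ∀ y, cub (ψ y) = cub y) {x : J} (hx : adj x = 0) :
    adj (ψ x) = 0 :=
  (sim_of_cub (l := 1) fun y => by rw [h, one_mul]).sing.2 hx

theorem frame_map {ψ : J ≃ₗ[Om] J} (h : ∀ y, cub (ψ y) = cub y) {x : Fin 3 → J} (hx : Frame x) :
    Frame fun i => ψ (x i) := by
  obtain ⟨φ, -, h1, -, h2⟩ := exists_dag h
  refine ⟨fun i => sing_map h (hx.1 i), ?_⟩
  rw [h2, tf_comm, h1, tf_comm]
  exact hx.2

theorem tf_cross_ee (x y : J) :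
    tf (cross (ee 0) x) y = dg x 2 * dg y 1 + dg x 1 * dg y 2 - bil (sl x 0) (sl y 0) := by
  rw [tf_cross, tf_comm, tf_ee]
  change x.d2 * y.d3 + y.d2 * x.d3 - bil x.x1 y.x1 = x.d3 * y.d2 + x.d2 * y.d3 - bil x.x1 y.x1
  ring

end Frmx

open Frmx

theorem sing_span : Submodule.span Om {x : J | adj x = 0} = ⊤ := by
  by_contra h
  obtain ⟨l, h1, h2⟩ := Submodule.exists_le_ker_of_lt_top _ (lt_top_iff_ne_top.2 h)
  obtain ⟨a, ha⟩ := exists_tf l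
  have h0 : a ≠ 0 := by
    rintro rfl
    exact h1 (LinearMap.ext fun x => by rw [ha, tf_zero_right, LinearMap.zero_apply])
  obtain ⟨y₁, y₂, hy⟩ := exists_zz h0
  exact hy ((ha _).symm.trans (h2 (Submodule.subset_span (adj_zz y₁ y₂))))

/-- Finitely many nonzero functionals do not vanish at some singular vector. -/
theorem sing_two {ι : Type} [Finite ι] (a : ι → J) (ha : ∀ i, a i ≠ 0) :
    ∃ z : J, adj z = 0 ∧ ∀ i, tf z (a i) ≠ 0 := by
  have := Fintype.ofFinite ι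
  have hp : PolM fun y : J => uo y (ee 0) := PolM.uo (PolM.lin LinearMap.id) (PolM.const _)
  obtain ⟨y, hy⟩ := Pol.prod_ne Finset.univ (p := fun i (y : J) => tf (uo y (ee 0)) (a i))
    (fun i _ => Pol.tf hp (PolM.const _)) fun i _ => by
      obtain ⟨y₁, y₂, hy⟩ := exists_zz (ha i)
      refine ⟨zz y₁ y₂, ?_⟩
      rwa [uo_sing (adj_zz y₁ y₂), tf_ee, dg_zz, one_smul]
  exact ⟨_, adj_uo_sing y (adj_ee 0), fun i => hy i (Finset.mem_univ i)⟩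

theorem sing_trans {x : J} (hx : adj x = 0) (h0 : x ≠ 0) :
    ∃ ψ : J ≃ₗ[Om] J, (∀ y, cub (ψ y) = cub y) ∧ ψ (ee 0) = x := by
  obtain ⟨y₁, y₂, hy⟩ := exists_zz h0
  obtain ⟨ψ, h1, h2⟩ := sing_trans0 (adj_zz y₁ y₂) (by rw [dg_zz]; exact one_ne_zero)
  obtain ⟨φ, k1, k2, -⟩ := exists_dag h1
  obtain ⟨χ, e1, e2⟩ := sing_trans0 (sing_map (cub_symm k1) hx) (by
    rwa [← tf_ee, tf_comm, ← k2, h2, φ.apply_symm_apply])
  refine ⟨χ.trans φ, fun y => (k1 _).trans (e1 y), ?_⟩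
  rw [LinearEquiv.trans_apply, e2, φ.apply_symm_apply]

theorem sing_adj {x : J} (hx : adj x = 0) : ∃ w, adj w = x := by
  by_cases h0 : x = 0
  · exact ⟨0, by rw [adj_zero, h0]⟩
  obtain ⟨ψ, h1, h2⟩ := sing_trans hx h0
  obtain ⟨φ, -, -, k, -⟩ := exists_dag h1
  refine ⟨φ (jm ![0, 1, 1] 0), ?_⟩
  rw [k, ← h2]
  congr 1
  refine j_ext (fun i => ?_) fun i => ?_
  · rw [dg_adj, dg_jm, sl_jm, dg_ee]
    fin_cases i <;> simp
  · rw [sl_adj, sl_jm, sl_ee]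
    simp

theorem frame_ee : Frame ee := by
  refine ⟨adj_ee, ?_⟩
  rw [tf_cross_ee]
  simp [dg_ee, sl_ee]

theorem frame_trans {x : Fin 3 → J} (hx : Frame x) :
    ∃ ψ : J ≃ₗ[Om] J, Sim 1 ψ ∧ ∀ i, ψ (ee i) = x i := by
  have h0 : x 0 ≠ 0 := fun h => hx.2 (by rw [h, cross_zero_left, tf_zero_left])
  obtain ⟨ψ₁, a1, a2⟩ := sing_trans (hx.1 0) h0
  have hy := frame_map (cub_symm a1) hx
  have y0 : ψ₁.symm (x 0) = ee 0 := by rw [ψ₁.symm_apply_eq, a2]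
  obtain ⟨a, ha⟩ : ∃ a : O, dg (ψ₁.symm (x 1)) 1 +
      (bil a (sl (ψ₁.symm (x 1)) 0) + norm a * dg (ψ₁.symm (x 1)) 2) ≠ 0 := by
    by_contra h
    simp only [not_exists, not_not] at h
    have h1 : dg (ψ₁.symm (x 1)) 1 = 0 := by simpa using h 0
    obtain ⟨h2, h3⟩ := quad_zero (d := dg (ψ₁.symm (x 1)) 2) (u := sl (ψ₁.symm (x 1)) 0)
      fun y => by
        have e := h y
        rwa [h1, zero_add] at e
    refine hy.2 ?_
    simp only [y0, tf_cross_ee, h1, h2, h3, zero_mul, bil_zero_left, add_zero, sub_zero]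
  obtain ⟨ψ₂, b1, b2, b3⟩ := exists_tB 2 a
  have hz := frame_map b1 hy
  have z0 : ψ₂ (ψ₁.symm (x 0)) = ee 0 := by rw [y0, b2 0 (by decide)]
  have z1 : dg (ψ₂ (ψ₁.symm (x 1))) 1 ≠ 0 := fun h => ha ((b3 _).2.2.2.symm.trans h)
  obtain ⟨ψ₃, c1, c2, c3⟩ := pivot (hz.1 1) 1 z1
  have hw := frame_map c1 hz
  have w0 : ψ₃ (ψ₂ (ψ₁.symm (x 0))) = ee 0 := by rw [z0, c2 0 (by decide)]
  have w2 : dg (ψ₃ (ψ₂ (ψ₁.symm (x 2)))) 2 ≠ 0 := fun h => hw.2 (by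
    simp only [w0, c3, tf_cross_ee, h, dg_smul, sl_smul, dg_ee, sl_ee]
    simp)
  obtain ⟨ψ₄, d1, d2, d3⟩ := pivot (hw.1 2) 2 w2
  obtain ⟨g₁, hg₁⟩ := exists_sq (dg (ψ₂ (ψ₁.symm (x 1))) 1)
  obtain ⟨g₂, hg₂⟩ := exists_sq (dg (ψ₃ (ψ₂ (ψ₁.symm (x 2)))) 2)
  have hg : ∀ i, ![1, g₁, g₂] i ≠ 0 := fun i => by
    fin_cases i
    · exact one_ne_zero
    · rintro (rfl : g₁ = 0)
      exact z1 (by rw [← hg₁, zero_pow two_ne_zero])
    · rintro (rfl : g₂ = 0)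
      exact w2 (by rw [← hg₂, zero_pow two_ne_zero])
  obtain ⟨χ, e1, e2⟩ := exists_wtJ hg
  refine ⟨χ.trans (ψ₄.symm.trans (ψ₃.symm.trans (ψ₂.symm.trans ψ₁))),
    sim_of_cub (l := (1 * g₁ * g₂) ^ 2) fun y => ?_, fun i => ?_⟩
  · simp only [LinearEquiv.trans_apply]
    rw [a1, cub_symm b1, cub_symm c1, cub_symm d1, e1]
    rfl
  · simp only [LinearEquiv.trans_apply]
    rw [← ψ₁.eq_symm_apply, ψ₂.symm_apply_eq, ψ₃.symm_apply_eq, ψ₄.symm_apply_eq, e2]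
    fin_cases i
    · change (1 : Om) ^ 2 • ee 0 = ψ₄ (ψ₃ (ψ₂ (ψ₁.symm (x 0))))
      rw [w0, d2 0 (by decide), one_pow, one_smul]
    · change g₁ ^ 2 • ee 1 = ψ₄ (ψ₃ (ψ₂ (ψ₁.symm (x 1))))
      rw [c3, map_smul, d2 1 (by decide), hg₁]
    · change g₂ ^ 2 • ee 2 = ψ₄ (ψ₃ (ψ₂ (ψ₁.symm (x 2))))
      rw [d3, hg₂]

/-- A dense family of singular vectors which is compatible with all similarities that fix the
line of `x₀`. -/
theorem sden {x₀ : J} (hx : adj x₀ = 0) (h0 : x₀ ≠ 0) : ∃ F : J × J → J, PolM F ∧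
    (∀ y, adj (F y) = 0) ∧ (∀ x, adj x = 0 → ∃ y, F y = x) ∧
    ∀ (σ : Gq) (f : J → J), Sim σ f → (∃ t : Om, f x₀ = t • x₀) →
      ∃ t : Om, t ≠ 0 ∧ ∀ y : J × J, F (f y.1, f y.2) = t • f (F y) := by
  refine ⟨fun y => uo y.1 (uo (adj y.2) x₀), PolM.uo (PolM.lin (LinearMap.fst Om J J))
    (PolM.uo (PolM.adj (PolM.lin (LinearMap.snd Om J J))) (PolM.const _)),
    fun y => adj_uo_sing _ (adj_uo_sing _ hx), fun x hs => ?_, ?_⟩
  · by_cases h1 : x = 0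
    · exact ⟨(0, 0), (uo_sing adj_zero _).trans (by rw [h1, smul_zero])⟩
    obtain ⟨z, hz, h2⟩ := sing_two ![x₀, x] fun i => by
      fin_cases i
      exacts [h0, h1]
    obtain ⟨w, rfl⟩ := sing_adj hz
    have h3 : tf (adj w) x₀ * tf (adj w) x ≠ 0 := mul_ne_zero (h2 0) (h2 1)
    obtain ⟨c, hc⟩ := exists_sq (tf (adj w) x₀ * tf (adj w) x)⁻¹
    refine ⟨(c • x, w), ?_⟩
    change uo (c • x) (uo (adj w) x₀) = x
    rw [uo_smul, uo_sing hz, uo_sing hs, tf_smul_right, tf_comm x, smul_smul, hc,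
      inv_mul_cancel₀ h3, one_smul]
  · rintro σ f hf ⟨t, ht⟩
    obtain ⟨l, hl0, hl⟩ := hf.mult
    have ht0 : t ≠ 0 := by
      rintro rfl
      exact hf.toSemi.ne h0 (by rw [ht, zero_smul])
    have h1 : x₀ = t⁻¹ • f x₀ := by rw [ht, smul_smul, inv_mul_cancel₀ ht0, one_smul]
    refine ⟨l ^ 2 * t⁻¹, mul_ne_zero (pow_ne_zero 2 hl0) (inv_ne_zero ht0), fun y => ?_⟩
    have h2 : uo (adj (f y.2)) x₀ = (l ^ 2 * t⁻¹) • dag σ f (uo (adj y.2) x₀) := by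
      rw [← uo_dag hf, adj_sim hf.toSemi hl, uo_smul, mul_smul, ← (uo_lin _).map_smul t⁻¹, ← h1]
    change uo (f y.1) (uo (adj (f y.2)) x₀) = _
    rw [h2, (uo_lin _).map_smul, uo_sim hf]

end Vale.Agent.P011Z.Cl

end
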