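import Vale.Agent.P011Z.Cl.Defs

/-!
Classification of the forms: block Gal1.
-/

open Matrix Module

noncomputable section

namespace Vale.Agent.P011Z.Cl

open Vale.Agent.P011.D4 Vale.Agent.P011.D4.Oct Vale.Agent.P011.E6 Vale.Agent.P011.E6.Alb

theorem opn_iff {H : Subgroup Gq} : Opn H ↔ IsOpen (H : Set Gq) := by
  refine ⟨fun ⟨E, _, h⟩ => Subgroup.isOpen_mono h E.fixingSubgroup_isOpen, fun h => ?_⟩
  exact (krullTopology_mem_nhds_one_iff ℚ Om _).1 (h.mem_nhds H.one_mem)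

theorem Opn.mono {H H' : Subgroup Gq} (h : Opn H) (hle : H ≤ H') : Opn H' := by
  obtain ⟨E, h1, h2⟩ := h
  exact ⟨E, h1, h2.trans hle⟩

theorem Opn.inf {H H' : Subgroup Gq} (h : Opn H) (h' : Opn H') : Opn (H ⊓ H') :=   opn_iff.2 ((opn_iff.1 h).inter (opn_iff.1 h'))

theorem opn_top : Opn ⊤ := opn_iff.2 isOpen_univ

theorem opn_iInf {ι : Type} [Finite ι] {H : ι → Subgroup Gq} (h : ∀ i, Opn (H i)) :
    Opn (⨅ i, H i) := by
  rw [opn_iff, Subgroup.coe_iInf]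
  exact isOpen_iInter_of_finite fun i => opn_iff.1 (h i)

theorem opn_stab (x : Om) : Opn (MulAction.stabilizer Gq x) := opn_iff.2 (stabilizer_isOpen_of_isIntegral x)

theorem opn_fin {ι : Type} [Finite ι] (x : ι → Om) : ∃ H, Opn H ∧ ∀ σ ∈ H, ∀ i, σ (x i) = x i := ⟨_, opn_iInf fun i => opn_stab (x i), fun _ h i => Subgroup.mem_iInf.1 h i⟩

theorem Opn.core {H : Subgroup Gq} (h : Opn H) : ∃ N, Opn N ∧ N ≤ H ∧ N.Normal := by
  obtain ⟨E, h1, h2, h3⟩ := (krullTopology_mem_nhds_one_iff_of_normal ℚ Om _).1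
    ((opn_iff.1 h).mem_nhds H.one_mem)
  exact ⟨_, ⟨E, h1, le_rfl⟩, h3, (InfiniteGalois.normal_iff_isGalois E).2 ⟨⟩⟩

theorem Opn.fix_fix' {H : Subgroup Gq} (h : Opn H) :
    (IntermediateField.fixedField H).fixingSubgroup = H :=
  InfiniteGalois.fixingSubgroup_fixedField ⟨H, H.isClosed_of_isOpen (opn_iff.1 h)⟩

theorem Opn.fd' {H : Subgroup Gq} (h : Opn H) :
    FiniteDimensional ℚ (IntermediateField.fixedField H) :=
  (InfiniteGalois.isOpen_iff_finite _).1 (by rw [h.fix_fix']; exact opn_iff.1 h)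

theorem Opn.finiteIndex {H : Subgroup Gq} (h : Opn H) : H.FiniteIndex := by
  have := h.fd'
  refine ⟨?_⟩
  rw [← h.fix_fix', ← IntermediateField.finrank_eq_fixingSubgroup_index]
  exact Module.finrank_pos.ne'

theorem Opn.fd {H : Subgroup Gq} (h : Opn H) :
    FiniteDimensional ℚ (IntermediateField.fixedField H) := h.fd'

theorem Opn.nf {H : Subgroup Gq} (h : Opn H) : NumberField (IntermediateField.fixedField H) := by
  have := h.fd
  exact NumberField.of_module_finite ℚ _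

theorem mem_fix {H : Subgroup Gq} {x : Om} : x ∈ IntermediateField.fixedField H ↔ Fx H x := IntermediateField.mem_fixedField_iff H x

theorem Opn.fix_fix {H : Subgroup Gq} (h : Opn H) :
    (IntermediateField.fixedField H).fixingSubgroup = H := h.fix_fix'

theorem Opn.mem {H : Subgroup Gq} (h : Opn H) {σ : Gq} (hσ : ∀ x, Fx H x → σ x = x) : σ ∈ H := by
  rw [← h.fix_fix, IntermediateField.mem_fixingSubgroup_iff]
  exact fun x hx => hσ x (mem_fix.1 hx)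

theorem Opn.finrank {H : Subgroup Gq} (h : Opn H) :
    finrank ℚ (IntermediateField.fixedField H) = H.index := by
  rw [IntermediateField.finrank_eq_fixingSubgroup_index, h.fix_fix]

theorem exists_lift {E L : Type} [Field E] [Field L] [IsAlgClosed L] (ι : E →+* Om)
    (φ : E →+* L) : ∃ ψ : Om →+* L, ∀ x, ψ (ι x) = φ x := by
  have : CharZero E := ι.charZero
  let := ι.toAlgebra
  let := φ.toAlgebra
  have : Algebra.IsAlgebraic E Om := Algebra.IsAlgebraic.tower_top (K := ℚ) E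
  exact ⟨(IsAlgClosed.lift : Om →ₐ[E] L), (IsAlgClosed.lift : Om →ₐ[E] L).commutes⟩

theorem exists_gq (ψ : Om →+* Om) : ∃ σ : Gq, ∀ x, σ x = ψ x :=
  ⟨AlgEquiv.ofBijective ψ.toRatAlgHom (Algebra.IsAlgebraic.algHom_bijective _), fun _ => rfl⟩

theorem exists_conj (ι ι' : Om →+* ℂ) : ∃ τ : Gq, ∀ x, ι' x = ι (τ x) := by
  let := ι.toAlgebra
  obtain ⟨τ, hτ⟩ := exists_gq (ι'.toRatAlgHom.restrictNormal Om : Om →ₐ[ℚ] Om)
  exact ⟨τ, fun x => by
    rw [hτ]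
    exact (ι'.toRatAlgHom.restrictNormal_commutes Om x).symm⟩

/-- Two embeddings of a number field are conjugate. -/
theorem exists_ext {E : Type} [Field E] [NumberField E] (ι ι' : E →+* Om) :
    ∃ σ : Gq, ∀ x, σ (ι x) = ι' x := by
  obtain ⟨ψ, h⟩ := exists_lift ι ι'
  obtain ⟨σ, hσ⟩ := exists_gq ψ
  exact ⟨σ, fun x => (hσ _).trans (h x)⟩

theorem exists_emb (E : Type) [Field E] [NumberField E] : Nonempty (E →+* Om) := ⟨(IsAlgClosed.lift : E →ₐ[ℚ] Om)⟩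

theorem opn_emb {E : Type} [Field E] [NumberField E] (ι : E →+* Om) :
    ∃ H, Opn H ∧ (∀ σ, σ ∈ H ↔ ∀ x, σ (ι x) = ι x) ∧ ∀ y, Fx H y ↔ ∃ x, ι x = y := by
  have h1 : FiniteDimensional ℚ ι.toRatAlgHom.fieldRange :=
    (AlgEquiv.ofInjectiveField ι.toRatAlgHom).toLinearEquiv.finiteDimensional
  refine ⟨ι.toRatAlgHom.fieldRange.fixingSubgroup, ⟨_, h1, le_rfl⟩, fun σ => ?_, fun y => ?_⟩
  · rw [IntermediateField.mem_fixingSubgroup_iff]
    exact ⟨fun h x => h _ ⟨x, rfl⟩, by rintro h _ ⟨x, rfl⟩; exact h x⟩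
  · rw [← mem_fix, InfiniteGalois.fixedField_fixingSubgroup]
    exact Iff.rfl

theorem exists_cj (ι : Om →+* ℂ) : ∃ γ, Cj ι γ := by
  obtain ⟨τ, h⟩ := exists_conj ι ((starRingEnd ℂ).comp ι)
  exact ⟨τ, fun x => (h x).symm⟩

theorem Cj.unique {ι : Om →+* ℂ} {γ γ' : Gq} (h : Cj ι γ) (h' : Cj ι γ') : γ = γ' := AlgEquiv.ext fun x => ι.injective ((h x).trans (h' x).symm)

theorem Cj.sq {ι : Om →+* ℂ} {γ : Gq} (h : Cj ι γ) : γ * γ = 1 := AlgEquiv.ext fun x => ι.injective (by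
    rw [AlgEquiv.mul_apply, h, h, Complex.conj_conj, AlgEquiv.one_apply])

theorem Cj.comp {ι : Om →+* ℂ} {γ : Gq} (h : Cj ι γ) (τ : Gq) :
    Cj (ι.comp (τ : Om →+* Om)) (τ⁻¹ * γ * τ) := fun x => by
  change ι ((τ * (τ⁻¹ * γ * τ)) x) = starRingEnd ℂ (ι (τ x))
  rw [← mul_assoc, mul_inv_cancel_left, AlgEquiv.mul_apply, h]

theorem Cj.real {ι : Om →+* ℂ} {γ : Gq} (h : Cj ι γ) {x : Om} : γ x = x ↔ (ι x).im = 0 := by
  rw [← Complex.conj_eq_iff_im, ← h x, ι.injective.eq_iff]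

theorem Cj.norm_pos {ι : Om →+* ℂ} {γ : Gq} (h : Cj ι γ) {z : Om} (hz : z ≠ 0) :
    0 < (ι (z * γ z)).re := by
  rw [map_mul, h, Complex.mul_conj, Complex.ofReal_re]
  exact Complex.normSq_pos.2 ((map_ne_zero ι).2 hz)

theorem Cj.pos {ι : Om →+* ℂ} {γ : Gq} (h : Cj ι γ) {x : Om} (hx : γ x = x)
    (hp : 0 < (ι x).re) : ∃ z, z ≠ 0 ∧ γ z = z ∧ x = z ^ 2 := by
  obtain ⟨z, rfl⟩ := IsAlgClosed.exists_pow_nat_eq x two_pos
  rw [h.real, map_pow, pow_two, Complex.mul_im] at hx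
  rw [map_pow, pow_two, Complex.mul_re] at hp
  refine ⟨z, ?_, h.real.2 ?_, rfl⟩
  · rintro rfl
    simp at hp
  · by_contra h1
    have h2 : (ι z).re = 0 := by
      refine (mul_eq_zero.1 (?_ : (ι z).re * (ι z).im = 0)).resolve_right h1
      linarith
    rw [h2] at hp
    nlinarith [mul_self_nonneg (ι z).im]

/-- Real places come from complex conjugations. -/
theorem exists_iota {H : Subgroup Gq} (h : Opn H) (φ : IntermediateField.fixedField H →+* ℝ) :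
    ∃ ι γ, Cj ι γ ∧ γ ∈ H ∧ ∀ x : IntermediateField.fixedField H, ι x = φ x := by
  obtain ⟨ι, hι⟩ := exists_lift (IntermediateField.fixedField H).subtype (Complex.ofRealHom.comp φ)
  obtain ⟨γ, hγ⟩ := exists_cj ι
  refine ⟨ι, γ, hγ, h.mem fun x hx => hγ.real.2 ?_, hι⟩
  exact (congrArg Complex.im (hι ⟨x, mem_fix.2 hx⟩)).trans (Complex.ofReal_im _)

theorem exists_phi {H : Subgroup Gq} {ι : Om →+* ℂ} {γ : Gq} (h : Cj ι γ) (hγ : γ ∈ H) :
    ∃ φ : IntermediateField.fixedField H →+* ℝ, ∀ x : IntermediateField.fixedField H,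
      ι x = φ x := by
  have h1 : NumberField.ComplexEmbedding.IsReal (ι.comp (IntermediateField.fixedField H).subtype) :=
    NumberField.ComplexEmbedding.isReal_iff.2 (RingHom.ext
      fun x : IntermediateField.fixedField H => (h x.1).symm.trans (congrArg ι (mem_fix.1 x.2 γ hγ)))
  exact ⟨h1.embedding, fun x => (h1.coe_embedding_apply x).symm⟩

theorem exists_tau {H : Subgroup Gq} (h : Opn H) {ι ι' : Om →+* ℂ}
    (hι : ∀ x, Fx H x → ι x = ι' x) : ∃ τ ∈ H, ∀ x, ι' x = ι (τ x) := by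
  obtain ⟨τ, hτ⟩ := exists_conj ι ι'
  exact ⟨τ, h.mem fun x hx => ι.injective ((hτ x).symm.trans (hι x hx).symm), hτ⟩

/-- Numbers with prescribed signs at the real places. -/
theorem exists_sign {H : Subgroup Gq} (h : Opn H) (R : Set (Om →+* ℂ))
    (hR : ∀ ι ∈ R, ∀ τ ∈ H, ι.comp (τ : Om →+* Om) ∈ R) :
    ∃ x, x ≠ 0 ∧ Fx H x ∧ ∀ ι γ, Cj ι γ → γ ∈ H → (ι ∈ R ↔ (ι x).re < 0) := by
  classical
  have := h.nf
  set F := IntermediateField.fixedField H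
  let s : NumberField.InfinitePlace F → F := fun v =>
    if ∃ ι ∈ R, NumberField.InfinitePlace.mk (RingHom.comp ι F.subtype) = v then -1 else 1
  obtain ⟨x, hx⟩ := Metric.denseRange_iff.1 (NumberField.InfinitePlace.denseRange_algebraMap_pi F)
    (fun v => WithAbs.toAbs _ (s v)) 1 one_pos
  rw [dist_pi_lt_iff one_pos] at hx
  have h1 : ∀ v : NumberField.InfinitePlace F, v (s v - x) < 1 := fun v => by
    have h2 := hx v
    rw [dist_eq_norm] at h2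
    exact h2
  refine ⟨x, fun h0 => ?_, mem_fix.1 x.2, fun ι γ hγ hH => ?_⟩
  · obtain ⟨v⟩ : Nonempty (NumberField.InfinitePlace F) := inferInstance
    have h2 := h1 v
    rw [show x = 0 from Subtype.ext h0, sub_zero] at h2
    simp only [s] at h2
    split_ifs at h2
    · rw [← v.norm_embedding_eq, map_neg, map_one, _root_.norm_neg, NormOneClass.norm_one] at h2
      exact lt_irrefl _ h2
    · rw [map_one] at h2
      exact lt_irrefl _ h2
  · have h2 := h1 (NumberField.InfinitePlace.mk (ι.comp F.subtype))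
    rw [NumberField.InfinitePlace.apply, map_sub] at h2
    have h3 := abs_lt.1 ((Complex.abs_re_le_norm _).trans_lt h2)
    rw [Complex.sub_re] at h3
    change _ < _ - (ι x).re ∧ _ - (ι x).re < _ at h3
    simp only [s] at h3
    split_ifs at h3 with h4
    · rw [map_neg, map_one, Complex.neg_re, Complex.one_re] at h3
      refine iff_of_true ?_ (by linarith [h3.1])
      obtain ⟨ι₀, h5, h6⟩ := h4
      obtain ⟨τ, hτ, h7⟩ := exists_tau h (ι := ι₀) (ι' := ι) fun y hy => by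
        rcases NumberField.InfinitePlace.mk_eq_iff.1 h6 with h8 | h8
        · exact RingHom.congr_fun h8 ⟨y, mem_fix.2 hy⟩
        · have h9 : starRingEnd ℂ (ι₀ y) = ι y := RingHom.congr_fun h8 ⟨y, mem_fix.2 hy⟩
          rw [← Complex.conj_conj (ι₀ y), h9, ← hγ, hy γ hH]
      rw [show ι = ι₀.comp (τ : Om →+* Om) from RingHom.ext h7]
      exact hR _ h5 τ hτ
    · rw [map_one, Complex.one_re] at h3
      exact iff_of_false (fun h5 => h4 ⟨ι, h5, rfl⟩) (by linarith [h3.2])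

theorem eq_or_neg {σ : Gq} {d : Om} (h : σ (d ^ 2) = d ^ 2) : σ d = d ∨ σ d = -d :=
  sq_eq_sq_iff_eq_or_eq_neg.1 (by rw [← map_pow, h])

/-- An imaginary quadratic field which is not contained in a given number field. -/
theorem exists_neg {N : Subgroup Gq} (h : Opn N) :
    ∃ (n : ℕ) (d : Om), 0 < n ∧ d ^ 2 = -(n : Om) ∧ ∃ σ ∈ N, σ d = -d := by
  by_contra hn
  push Not at hn
  have := h.finiteIndex
  choose d hd using fun p : Nat.Primes => IsAlgClosed.exists_pow_nat_eq (-((p : ℕ) : Om)) two_pos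
  have h1 : ∀ p (σ : Gq), σ (d p) = d p ∨ σ (d p) = -d p := fun p σ =>
    eq_or_neg (by rw [hd, map_neg, map_natCast])
  have h2 : ∀ p (σ : Gq), σ (d p) = (σ : Gq ⧸ N).out (d p) := fun p σ => by
    obtain ⟨n, h3⟩ := QuotientGroup.mk_out_eq_mul N σ
    rw [h3, AlgEquiv.mul_apply, (h1 p n).resolve_right (hn p _ p.2.pos (hd p) n n.2)]
  obtain ⟨p, q, hpq, h3⟩ := Finite.exists_ne_map_eq_of_infinite
    fun p : Nat.Primes => {c : Gq ⧸ N | c.out (d p) = d p}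
  obtain ⟨r, hr⟩ := (InfiniteGalois.mem_range_algebraMap_iff_fixed (k := ℚ) (d p * d q)).2
    fun σ => by
      have h4 : σ (d p) = d p ↔ σ (d q) = d q := by
        rw [h2 p σ, h2 q σ]
        exact Set.ext_iff.1 h3 σ
      rw [map_mul]
      by_cases h5 : σ (d p) = d p
      · rw [h5, h4.1 h5]
      · rw [(h1 p σ).resolve_left h5, (h1 q σ).resolve_left (mt h4.2 h5), neg_mul_neg]
  have h4 : (((p : ℕ) * q : ℕ) : ℚ) = r * r := (algebraMap ℚ Om).injective (by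
    rw [map_mul, hr, map_natCast, ← pow_two, mul_pow, hd, hd]
    push_cast
    ring)
  obtain ⟨m, hm⟩ := Rat.isSquare_natCast_iff.1 ⟨r, h4⟩
  obtain ⟨k, rfl⟩ : (p : ℕ) ∣ m := p.2.dvd_of_dvd_pow (n := 2) ⟨q, by rw [pow_two, hm]⟩
  have h5 : (q : ℕ) = p * (k * k) := Nat.eq_of_mul_eq_mul_left p.2.pos (by rw [hm]; ring)
  exact hpq (Subtype.ext ((Nat.prime_dvd_prime_iff_eq p.2 q.2).1 ⟨_, h5⟩))

theorem ix2_stab {G : Subgroup Gq} {d : Om} (hd : Fx G (d ^ 2)) :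
    Ix2 G (MulAction.stabilizer Gq d) := by
  intro σ hσ τ hτ
  simp only [MulAction.mem_stabilizer_iff, AlgEquiv.smul_def, AlgEquiv.mul_apply]
  rcases eq_or_ne d 0 with rfl | h0
  · simp
  have h1 : -d ≠ d := fun h => h0 (by linear_combination (-2⁻¹ : Om) * h)
  rcases eq_or_neg (hd σ hσ) with h2 | h2 <;> rcases eq_or_neg (hd τ hτ) with h3 | h3 <;>
    simp [h1, h2, h3]

theorem Ix2.delta {G H : Subgroup Gq} (hG : Opn G) (hH : Opn H) (h : Ix2 G H) :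
    ∃ δ : Om, δ ≠ 0 ∧ (∀ σ ∈ G, σ ∈ H → σ δ = δ) ∧ ∀ σ ∈ G, σ ∉ H → σ δ = -δ := by
  by_cases h0 : ∃ s ∈ G, s ∉ H
  swap
  · exact ⟨1, one_ne_zero, fun σ _ _ => map_one σ, fun σ h1 h2 => absurd ⟨σ, h1, h2⟩ h0⟩
  obtain ⟨s, hs, hs'⟩ := h0
  obtain ⟨x, hx, hx'⟩ : ∃ x, Fx (G ⊓ H) x ∧ s x ≠ x := by
    by_contra h1
    push Not at h1
    exact hs' ((hG.inf hH).mem h1).2
  have h1 : ∀ σ ∈ G, σ ∉ H → σ x = s x := fun σ h1 h2 => by
    have h3 : s⁻¹ * σ ∈ H := (h _ (inv_mem hs) _ h1).2 (iff_of_false (mt inv_mem_iff.1 hs') h2)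
    conv_rhs => rw [← hx _ ⟨G.mul_mem (G.inv_mem hs) h1, h3⟩, ← AlgEquiv.mul_apply, mul_inv_cancel_left]
  refine ⟨x - s x, sub_ne_zero.2 hx'.symm, fun σ h2 h3 => ?_, fun σ h2 h3 => ?_⟩
  · rw [map_sub, hx σ ⟨h2, h3⟩, ← AlgEquiv.mul_apply,
      h1 _ (mul_mem h2 hs) fun h4 => hs' (((h _ h2 _ hs).1 h4).1 h3)]
  · rw [map_sub, h1 σ h2 h3, ← AlgEquiv.mul_apply,
      hx _ ⟨mul_mem h2 hs, (h _ h2 _ hs).2 (iff_of_false h3 hs')⟩, neg_sub]

theorem Chi.ker {G : Subgroup Gq} {χ : Gq → Fin 3} (hG : Opn G) (h : Chi G χ) :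
    ∃ N, Opn N ∧ ∀ σ, σ ∈ N ↔ σ ∈ G ∧ χ σ = 0 := by
  have h1 : χ 1 = 0 := by
    have := h.mul 1 G.one_mem 1 G.one_mem
    rw [mul_one] at this
    exact left_eq_add.1 this
  obtain ⟨H, hH, h2⟩ := h.smo
  refine ⟨⟨⟨⟨{σ | σ ∈ G ∧ χ σ = 0}, fun ha hb => ⟨mul_mem ha.1 hb.1, ?_⟩⟩, G.one_mem, h1⟩,
    fun {σ} ha => ⟨inv_mem ha.1, ?_⟩⟩, (hG.inf hH).mono fun σ hσ => ⟨hσ.1, h2 σ hσ.2 hσ.1⟩,
    fun _ => Iff.rfl⟩
  · rw [h.mul _ ha.1 _ hb.1, ha.2, hb.2, add_zero]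
  · have := h.mul σ ha.1 _ (inv_mem ha.1)
    rwa [mul_inv_cancel, h1, ha.2, zero_add, eq_comm] at this

theorem Chi.mono {G H : Subgroup Gq} {χ : Gq → Fin 3} (h : Chi G χ) (hle : H ≤ G) : Chi H χ := ⟨fun σ hσ τ hτ => h.mul σ (hle hσ) τ (hle hτ),
    h.smo.imp fun _ h1 => ⟨h1.1, fun σ h2 h3 => h1.2 σ h2 (hle h3)⟩⟩

/-- Subgroups of index two still surject. -/
theorem Chi.ix2 {G H : Subgroup Gq} {χ : Gq → Fin 3} (h : Chi G χ) (hx : Ix2 G H) {ρ : Gq}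
    (hρ : ρ ∈ G) (j : Fin 3) (hj : χ ρ = j) : ∃ τ ∈ G, τ ∈ H ∧ χ τ = j := by
  have h1 := mul_mem hρ hρ
  have h2 := (hx _ hρ _ hρ).2 Iff.rfl
  refine ⟨ρ * ρ * (ρ * ρ), mul_mem h1 h1, mul_mem h2 h2, ?_⟩
  rw [h.mul _ h1 _ h1, h.mul _ hρ _ hρ, hj]
  clear hj
  revert j
  decide

theorem Chi.ix2' {G H : Subgroup Gq} {χ : Gq → Fin 3} (h : Chi G χ) (hx : Ix2 G H) {s : Gq}
    (hs : s ∈ G) (hH : s ∉ H) : ∃ τ ∈ G, τ ∉ H ∧ χ τ = 0 := by
  have h1 := mul_mem hs hs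
  have h2 := (hx _ hs _ hs).2 Iff.rfl
  refine ⟨s * (s * s), mul_mem hs h1, fun h3 => hH (((hx _ hs _ h1).1 h3).2 h2), ?_⟩
  rw [h.mul _ hs _ h1, h.mul _ hs _ hs]
  generalize χ s = j
  revert j
  decide

end Vale.Agent.P011Z.Cl

end
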