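import Vale.Agent.P011Z.Cl.Gal1

/-!
Classification of the forms: block Gal2.
-/

open Matrix Module

noncomputable section

namespace Vale.Agent.P011Z.Cl

open Vale.Agent.P011.D4 Vale.Agent.P011.D4.Oct Vale.Agent.P011.E6 Vale.Agent.P011.E6.Alb

variable {V W X : Type} [AddCommGroup V] [Module Om V] [AddCommGroup W] [Module Om W]
  [AddCommGroup X] [Module Om X] {G : Subgroup Gq} {f : Gq → V → V}

theorem Semi.zero {σ : Gq} {f : V → W} (h : Semi σ f) : f 0 = 0 := by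
  have := h.smul 0 0
  simpa using this

theorem Semi.neg {σ : Gq} {f : V → W} (h : Semi σ f) (x : V) : f (-x) = -f x := by
  have := h.smul (-1) x
  simpa using this

theorem Semi.sub {σ : Gq} {f : V → W} (h : Semi σ f) (x y : V) : f (x - y) = f x - f y := by
  rw [sub_eq_add_neg, h.add, h.neg, sub_eq_add_neg]

theorem Semi.sum {σ : Gq} {f : V → W} (h : Semi σ f) {ι : Type} (s : Finset ι) (x : ι → V) :
    f (∑ i ∈ s, x i) = ∑ i ∈ s, f (x i) := by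
  classical
  induction s using Finset.induction_on with
  | empty => simpa using h.zero
  | insert a s ha ih => rw [Finset.sum_insert ha, Finset.sum_insert ha, h.add, ih]

theorem Semi.ne {σ : Gq} {f : V → W} (h : Semi σ f) {x : V} (hx : x ≠ 0) : f x ≠ 0 :=
  fun h0 => hx (h.bij.1 (h0.trans h.zero.symm))

theorem Semi.comp {σ τ : Gq} {f : W → X} {g : V → W} (hf : Semi σ f) (hg : Semi τ g) :
    Semi (σ * τ) fun x => f (g x) :=
  ⟨fun x y => by rw [hg.add, hf.add], fun t x => by rw [hg.smul, hf.smul]; rfl,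
    hf.bij.comp hg.bij⟩

theorem Semi.inv {σ : Gq} {f : V → W} (h : Semi σ f) :
    ∃ g : W → V, Semi σ⁻¹ g ∧ (∀ x, g (f x) = x) ∧ ∀ y, f (g y) = y := by
  have h1 : ∀ y, f ((Equiv.ofBijective f h.bij).symm y) = y :=
    (Equiv.ofBijective f h.bij).apply_symm_apply
  refine ⟨(Equiv.ofBijective f h.bij).symm, ⟨fun x y => h.bij.1 ?_, fun t x => h.bij.1 ?_,
    (Equiv.ofBijective f h.bij).symm.bijective⟩,
    (Equiv.ofBijective f h.bij).symm_apply_apply, h1⟩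
  · rw [h.add, h1, h1, h1]
  · rw [h.smul, h1, h1]
    have : σ (σ⁻¹ t) = t := σ.apply_symm_apply t
    rw [this]

theorem Semi.smul' {σ : Gq} {f : V → W} (h : Semi σ f) {t : Om} (ht : t ≠ 0) :
    Semi σ fun x => t • f x :=
  ⟨fun x y => by rw [h.add, smul_add], fun s x => by rw [h.smul, smul_comm],
    (MulAction.bijective (Units.mk0 t ht)).comp h.bij⟩

theorem Semi.lin {f : V → W} (h : Semi 1 f) : ∃ g : V ≃ₗ[Om] W, ∀ x, g x = f x :=
  ⟨LinearEquiv.ofBijective ⟨⟨f, h.add⟩, h.smul⟩ h.bij, fun _ => rfl⟩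

theorem semi_lin (g : V ≃ₗ[Om] W) : Semi 1 g := ⟨g.map_add, g.map_smul, g.bijective⟩

theorem TA.one (h : TA G f) (x : V) : f 1 x = x := by
  have := h.mul 1 G.one_mem 1 G.one_mem x
  rw [mul_one] at this
  exact (h.semi 1 G.one_mem).bij.1 this

theorem TA.pa (h : TA G f) : PA G f :=
  ⟨h.opn, h.semi, fun σ hσ τ hτ => ⟨1, fun x => by rw [one_smul, h.mul σ hσ τ hτ]⟩, h.smo⟩

theorem TA.mono (h : TA G f) {H : Subgroup Gq} (hH : Opn H) (hle : H ≤ G) : TA H f :=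
  ⟨hH, fun σ hσ => h.semi σ (hle hσ), fun σ hσ τ hτ => h.mul σ (hle hσ) τ (hle hτ),
    fun x => (h.smo x).imp fun _ hK => ⟨hK.1, fun σ h1 h2 => hK.2 σ h1 (hle h2)⟩⟩

theorem PA.mono (h : PA G f) {H : Subgroup Gq} (hH : Opn H) (hle : H ≤ G) : PA H f :=
  ⟨hH, fun σ hσ => h.semi σ (hle hσ), fun σ hσ τ hτ => h.coc σ (hle hσ) τ (hle hτ),
    fun x => (h.smo x).imp fun _ hK => ⟨hK.1, fun σ h1 h2 => hK.2 σ h1 (hle h2)⟩⟩

/-- Smoothness is uniform in finite dimension. -/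
theorem Smo.unif [FiniteDimensional Om V] (hs : ∀ σ ∈ G, Semi σ (f σ)) (h : Smo G f) {n : ℕ}
    (b : Fin n → V) : ∃ H, Opn H ∧ ∀ σ ∈ H, σ ∈ G → ∀ i, f σ (b i) = b i := by
  have _ := hs
  choose H hH using fun i => h (b i)
  exact ⟨⨅ i, H i, opn_iInf fun i => (hH i).1,
    fun σ hσ hG i => (hH i).2 σ (Subgroup.mem_iInf.1 hσ i) hG⟩

theorem Smo.conj [FiniteDimensional Om V] (hs : ∀ σ ∈ G, Semi σ (f σ)) (h : Smo G f)
    (ψ : W ≃ₗ[Om] V) : Smo G fun σ x => ψ.symm (f σ (ψ x)) := by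
  have _ := hs
  intro x
  obtain ⟨H, hH, hx⟩ := h (ψ x)
  refine ⟨H, hH, fun σ h1 h2 => ?_⟩
  change ψ.symm (f σ (ψ x)) = x
  rw [hx σ h1 h2, ψ.symm_apply_apply]

/-- Galois descent. -/
theorem TA.span (h : TA G f) : Submodule.span Om {x | Fv G f x} = ⊤ := by
  classical
  refine eq_top_iff.2 fun x _ => ?_
  by_contra hx
  obtain ⟨l, hl, hk⟩ := Submodule.exists_le_ker_of_notMem hx
  obtain ⟨H, hH, hHx⟩ := h.smo x
  have hN : Opn (H ⊓ G) := hH.inf h.opn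
  have key : ∀ t, Fx (H ⊓ G) t → ∀ σ τ : G, σ⁻¹ * τ ∈ (H ⊓ G).subgroupOf G →
      f σ (t • x) = f τ (t • x) := by
    intro t ht σ τ hm
    have hm' : ((σ⁻¹ * τ : G) : Gq) ∈ H ⊓ G := hm
    have h1 : f (σ⁻¹ * τ : G) (t • x) = t • x := by
      rw [(h.semi _ hm'.2).smul, ht _ hm', hHx _ hm'.1 hm'.2]
    have h2 := h.mul σ σ.2 _ hm'.2 (t • x)
    rw [h1] at h2
    rw [h2]
    simp
  have := hN.finiteIndex
  have : Fintype (G ⧸ (H ⊓ G).subgroupOf G) := Fintype.ofFinite _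
  have hy : ∀ t, Fx (H ⊓ G) t →
      Fv G f (∑ q : G ⧸ (H ⊓ G).subgroupOf G, f (q.out : G) (t • x)) := by
    intro t ht τ hτ
    rw [(h.semi τ hτ).sum, ← Equiv.sum_comp (MulAction.toPerm (⟨τ, hτ⟩ : G))
      (fun q : G ⧸ (H ⊓ G).subgroupOf G => f (q.out : G) (t • x))]
    refine Finset.sum_congr rfl fun q _ => ?_
    rw [h.mul τ hτ _ (q.out).2]
    refine key t ht (⟨τ, hτ⟩ * q.out) _ (QuotientGroup.eq.1 ?_)
    rw [QuotientGroup.out_eq']
    exact MulAction.Quotient.mk_smul_out ((H ⊓ G).subgroupOf G) (⟨τ, hτ⟩ : G) q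
  let φ : (G ⧸ (H ⊓ G).subgroupOf G) → (IntermediateField.fixedField (H ⊓ G) →* Om) := fun q =>
    { toFun := fun t => ((q.out : G) : Gq) t
      map_one' := by simp
      map_mul' := fun s t => by simp }
  have hφ : Function.Injective φ := by
    intro q q' hq
    rw [← QuotientGroup.out_eq' q, ← QuotientGroup.out_eq' q', QuotientGroup.eq]
    refine hN.mem fun t ht => ?_
    have h1 : ((q.out : G) : Gq) t = ((q'.out : G) : Gq) t :=
      DFunLike.congr_fun hq ⟨t, mem_fix.2 ht⟩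
    change ((q.out : G) : Gq).symm (((q'.out : G) : Gq) t) = t
    rw [← h1, AlgEquiv.symm_apply_apply]
  have hli := (linearIndependent_monoidHom (IntermediateField.fixedField (H ⊓ G)) Om).comp φ hφ
  have h0 := Fintype.linearIndependent_iff.1 hli (fun q => l (f (q.out : G) x)) (by
    funext t
    have h1 := hk (Submodule.subset_span (hy t (mem_fix.1 t.2)))
    rw [LinearMap.mem_ker, map_sum] at h1
    rw [Finset.sum_apply, Pi.zero_apply, ← h1]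
    refine Finset.sum_congr rfl fun q _ => ?_
    rw [(h.semi _ (q.out).2).smul, map_smul, smul_eq_mul, mul_comm]
    rfl) ((1 : G) : G ⧸ (H ⊓ G).subgroupOf G)
  have h2 := key 1 (fun σ _ => map_one σ) _ 1
    (QuotientGroup.eq.1 (QuotientGroup.out_eq' ((1 : G) : G ⧸ (H ⊓ G).subgroupOf G)))
  rw [one_smul] at h2
  rw [h2] at h0
  exact hl ((congrArg l (h.one x)).symm.trans h0)

theorem TA.basis [FiniteDimensional Om V] (h : TA G f) :
    ∃ b : Basis (Fin (finrank Om V)) Om V, ∀ i, Fv G f (b i) := by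
  obtain ⟨s, hs, hsp, hli⟩ := exists_linearIndependent Om {x | Fv G f x}
  rw [h.span] at hsp
  have : Fintype s := hli.setFinite.fintype
  let B : Basis s Om V := Basis.mk hli (by rw [Subtype.range_coe, hsp])
  refine ⟨B.reindex (Fintype.equivFinOfCardEq (finrank_eq_card_basis B).symm), fun i => ?_⟩
  rw [Basis.reindex_apply, Basis.mk_apply]
  exact hs (Subtype.prop _)

theorem TA.repr (h : TA G f) {ι : Type} (b : Basis ι Om V) (hb : ∀ i, Fv G f (b i)) {σ : Gq}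
    (hσ : σ ∈ G) (x : V) (i : ι) : b.repr (f σ x) i = σ (b.repr x i) := by
  classical
  have hx : x ∈ Submodule.span Om (Set.range b) := b.span_eq ▸ Submodule.mem_top
  induction hx using Submodule.span_induction with
  | mem y hy =>
    obtain ⟨j, rfl⟩ := hy
    rw [hb j σ hσ, b.repr_self, Finsupp.single_apply]
    split_ifs <;> simp
  | zero => simp [(h.semi σ hσ).zero]
  | add y z _ _ hy hz => simp [(h.semi σ hσ).add, hy, hz]
  | smul t y _ hy => simp [(h.semi σ hσ).smul, hy]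

theorem Gal2x.restrict (h : TA G f) (S : Submodule Om V) (hS : ∀ σ ∈ G, ∀ x ∈ S, f σ x ∈ S) :
    ∃ g : Gq → S → S, TA G g ∧ ∀ σ ∈ G, ∀ x : S, (g σ x : V) = f σ x := by
  classical
  obtain ⟨g, he⟩ : ∃ g : Gq → S → S, ∀ σ ∈ G, ∀ x : S, (g σ x : V) = f σ x :=
    ⟨fun σ x => if hσ : σ ∈ G then ⟨f σ x, hS σ hσ x x.2⟩ else x,
      fun σ hσ x => by simp only [dif_pos hσ]⟩
  refine ⟨g, ⟨h.opn, fun σ hσ =>
    ⟨fun x y => Subtype.ext ?_, fun t x => Subtype.ext ?_, fun x y hxy => Subtype.ext ?_,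
      fun y => ⟨⟨f σ⁻¹ y, hS _ (G.inv_mem hσ) y y.2⟩, Subtype.ext ?_⟩⟩,
    fun σ hσ τ hτ x => Subtype.ext ?_, fun x => ?_⟩, he⟩
  · rw [Submodule.coe_add, he σ hσ, he σ hσ, he σ hσ, Submodule.coe_add, (h.semi σ hσ).add]
  · rw [Submodule.coe_smul, he σ hσ, he σ hσ, Submodule.coe_smul, (h.semi σ hσ).smul]
  · have h1 := congrArg Subtype.val hxy
    simp only [he σ hσ] at h1
    exact (h.semi σ hσ).bij.1 h1
  · simp only [he σ hσ]
    rw [h.mul σ hσ _ (G.inv_mem hσ), mul_inv_cancel, h.one]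
  · rw [he σ hσ, he τ hτ, he _ (G.mul_mem hσ hτ), h.mul σ hσ τ hτ]
  · obtain ⟨H, hH, h1⟩ := h.smo x
    exact ⟨H, hH, fun σ h2 h3 => Subtype.ext ((he σ h3 x).trans (h1 σ h2 h3))⟩

theorem TA.sub (h : TA G f) (S : Submodule Om V) (hS : ∀ σ ∈ G, ∀ x ∈ S, f σ x ∈ S) :
    S ≤ Submodule.span Om {x | x ∈ S ∧ Fv G f x} := by
  obtain ⟨g, hg, he⟩ := Gal2x.restrict h S hS
  intro x hx
  have h1 : (⟨x, hx⟩ : S) ∈ Submodule.span Om {y | Fv G g y} := hg.span ▸ Submodule.mem_top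
  have h2 := Submodule.mem_map_of_mem (f := S.subtype) h1
  rw [Submodule.map_span] at h2
  refine Submodule.span_mono ?_ h2
  rintro _ ⟨y, hy, rfl⟩
  exact ⟨y.2, fun σ hσ => (he σ hσ y).symm.trans (congrArg Subtype.val (hy σ hσ))⟩

theorem TA.exists_fixed (h : TA G f) (S : Submodule Om V) (hS : ∀ σ ∈ G, ∀ x ∈ S, f σ x ∈ S)
    (h0 : S ≠ ⊥) : ∃ x ∈ S, x ≠ 0 ∧ Fv G f x := by
  by_contra hc
  refine h0 (eq_bot_iff.2 ((h.sub S hS).trans (Submodule.span_le.2 fun x hx => ?_)))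
  by_contra h1
  exact hc ⟨x, hx.1, h1, hx.2⟩

/-- Hilbert 90. -/
theorem h90 (hG : Opn G) (l : Gq → Om) (h0 : ∀ σ ∈ G, l σ ≠ 0)
    (hm : ∀ σ ∈ G, ∀ τ ∈ G, l (σ * τ) = l σ * σ (l τ))
    (hs : ∃ H, Opn H ∧ ∀ σ ∈ H, σ ∈ G → l σ = 1) : ∃ z, z ≠ 0 ∧ ∀ σ ∈ G, l σ * σ z = z := by
  have h : TA G fun σ (z : Om) => l σ * σ z := by
    refine ⟨hG, fun σ hσ => ⟨fun x y => by rw [map_add, mul_add], fun t x => ?_,
      (mulLeft_bijective₀ _ (h0 σ hσ)).comp σ.bijective⟩, fun σ hσ τ hτ x => ?_, fun x => ?_⟩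
    · simp only [smul_eq_mul, map_mul]
      ring
    · rw [hm σ hσ τ hτ, map_mul, mul_assoc]
      rfl
    · obtain ⟨H, hH, h1⟩ := hs
      refine ⟨H ⊓ MulAction.stabilizer Gq x, hH.inf (opn_stab x), fun σ h2 h3 => ?_⟩
      rw [h1 σ h2.1 h3, one_mul]
      exact h2.2
  obtain ⟨z, -, hz, h1⟩ := h.exists_fixed ⊤ (fun _ _ _ _ => Submodule.mem_top) top_ne_bot
  exact ⟨z, hz, h1⟩

theorem TA.line (h : TA G f) {x : V} (hx : Line G f x) : ∃ t : Om, t ≠ 0 ∧ Fv G f (t • x) := by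
  choose! t ht using hx.2
  have hi := smul_left_injective Om hx.1
  obtain ⟨z, hz, h1⟩ := h90 h.opn t
    (fun σ hσ h0 => (h.semi σ hσ).ne hx.1 (by rw [ht σ hσ, h0, zero_smul]))
    (fun σ hσ τ hτ => hi (by
      change t (σ * τ) • x = (t σ * σ (t τ)) • x
      rw [← ht _ (G.mul_mem hσ hτ), ← h.mul σ hσ τ hτ, ht τ hτ, (h.semi σ hσ).smul, ht σ hσ,
        smul_smul, mul_comm]))
    ((h.smo x).imp fun H hH => ⟨hH.1, fun σ h1 h2 => hi (by
      change t σ • x = (1 : Om) • x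
      rw [← ht σ h2, hH.2 σ h1 h2, one_smul])⟩)
  refine ⟨z, hz, fun σ hσ => ?_⟩
  rw [(h.semi σ hσ).smul, ht σ hσ, smul_smul, mul_comm, h1 σ hσ]

/-- A stable line makes the action a true one. -/
theorem PA.norm (h : PA G f) {x : V} (hx : Line G f x) :
    ∃ b : Gq → Om, (∀ σ ∈ G, b σ ≠ 0) ∧ TA G (fun σ y => b σ • f σ y) ∧
      ∀ σ ∈ G, b σ • f σ x = x := by
  choose! t ht using hx.2
  have hi := smul_left_injective Om hx.1
  have h0 : ∀ σ ∈ G, t σ ≠ 0 :=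
    fun σ hσ h0 => (h.semi σ hσ).ne hx.1 (by rw [ht σ hσ, h0, zero_smul])
  refine ⟨fun σ => (t σ)⁻¹, fun σ hσ => inv_ne_zero (h0 σ hσ), ⟨h.opn,
    fun σ hσ => (h.semi σ hσ).smul' (inv_ne_zero (h0 σ hσ)), fun σ hσ τ hτ y => ?_, fun y => ?_⟩,
    fun σ hσ => ?_⟩
  · obtain ⟨c, hc⟩ := h.coc σ hσ τ hτ
    have h1 : σ (t τ) * t σ = c * t (σ * τ) := hi (by
      change (σ (t τ) * t σ) • x = (c * t (σ * τ)) • x
      rw [← smul_smul, ← smul_smul, ← ht _ (G.mul_mem hσ hτ), ← hc, ht τ hτ,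
        (h.semi σ hσ).smul, ht σ hσ])
    have h2 := h0 σ hσ
    have h3 : σ (t τ) ≠ 0 := (map_ne_zero σ).2 (h0 τ hτ)
    have h4 := h0 _ (G.mul_mem hσ hτ)
    have h5 : (t σ)⁻¹ * ((σ (t τ))⁻¹ * c) = (t (σ * τ))⁻¹ := by
      field_simp
      linear_combination -h1
    change (t σ)⁻¹ • f σ ((t τ)⁻¹ • f τ y) = (t (σ * τ))⁻¹ • f (σ * τ) y
    rw [(h.semi σ hσ).smul, hc, map_inv₀, smul_smul, smul_smul, mul_assoc, h5]
  · obtain ⟨H, hH, h1⟩ := h.smo x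
    obtain ⟨K, hK, h2⟩ := h.smo y
    refine ⟨H ⊓ K, hH.inf hK, fun σ h3 h4 => ?_⟩
    have h5 : t σ = 1 := hi (by
      change t σ • x = (1 : Om) • x
      rw [← ht σ h4, h1 σ h3.1 h4, one_smul])
    change (t σ)⁻¹ • f σ y = y
    rw [h5, inv_one, one_smul, h2 σ h3.2 h4]
  · change (t σ)⁻¹ • f σ x = x
    rw [ht σ hσ, smul_smul, inv_mul_cancel₀ (h0 σ hσ), one_smul]

theorem ta_pi (hG : Opn G) (ι : Type) [Finite ι] : TA G fun σ (u : ι → Om) => σ ∘ u := by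
  refine ⟨hG, fun σ _ => ⟨fun x y => funext fun i => map_add σ _ _,
    fun t x => funext fun i => map_mul σ _ _, σ.bijective.comp_left⟩, fun _ _ _ _ _ => rfl,
    fun x => ?_⟩
  obtain ⟨H, hH, h1⟩ := opn_fin x
  exact ⟨H, hH, fun σ h2 _ => funext (h1 σ h2)⟩

/-- The action on a stable subspace. -/
theorem TA.restrict (h : TA G f) (S : Submodule Om V) (hS : ∀ σ ∈ G, ∀ x ∈ S, f σ x ∈ S) :
    ∃ g : Gq → S → S, TA G g ∧ ∀ σ ∈ G, ∀ x : S, (g σ x : V) = f σ x :=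
  Gal2x.restrict h S hS

end Vale.Agent.P011Z.Cl

end
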