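import Vale.Agent.P011Z.Cl.Red1
import Vale.Agent.P011Z.Cl.Dat

/-!
Classification of the forms: block Hur.
-/

open Matrix Module

noncomputable section

namespace Vale.Agent.P011Z.Cl

open Vale.Agent.P011.D4 Vale.Agent.P011.D4.Oct Vale.Agent.P011.E6 Vale.Agent.P011.E6.Alb

namespace Hurx

theorem ins_ne {i : Fin 3} {y : O} (hy : y ≠ 0) : ins i y ≠ 0 := fun h =>
  hy (Prcx.ins_inj (h.trans (Prcx.ins_zero i).symm))

theorem oct_one : (1 : O) ≠ 0 := fun h => by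
  have h1 := congrArg Oct.norm h
  rw [Oct.norm_one, Oct.norm_zero] at h1
  exact one_ne_zero h1

theorem sc_one (x : J) : sc 1 x = x := (sc_const one_ne_zero x).trans (one_smul _ x)

theorem sc_eq {σ : Gq} {f : J → J} {π : Equiv.Perm (Fin 3)} (hf : Sim σ f) (hp : Prm π f)
    {y : Fin 3 → O} (hy : ∀ i, y i ≠ 0) {z w : Fin 3 → Om}
    (h : ∀ i, sc z (f (ins i (y i))) = sc w (f (ins i (y i)))) : z = w := by
  obtain ⟨t, ht, h1⟩ := hp.slot hf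
  refine sc_unique (y := fun j => t (π⁻¹ j) (y (π⁻¹ j))) (fun j => (ht _).ne (hy _)) fun j => ?_
  have h2 := h (π⁻¹ j)
  rwa [h1, Prcx.app_inv] at h2

theorem adj_ones : adj ones = 0 := by
  refine Frmx.adj_of (fun i => ?_) fun i => ?_
  · rw [ones, dg_jm, sl_jm, Pi.one_apply, Pi.one_apply, Pi.one_apply, Oct.norm_one, mul_one]
  · rw [ones, dg_jm, sl_jm, Pi.one_apply, Pi.one_apply, Pi.one_apply, Pi.one_apply, one_smul,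
      mul_one, star_one]

/-- A system of lines in the slots which is permuted by the datum. -/
theorem lines {D : FD} (h : D.OK) (ht : ∀ i, D.Triv i) : ∃ y : Fin 3 → O, (∀ i, y i ≠ 0) ∧
    ∀ σ ∈ D.G, ∀ i, ∃ t : Om, D.f σ (ins i (y i)) = t • ins (D.π σ i) (y (D.π σ i)) := by
  choose Y hY h1 using ht
  let r : Fin 3 → Fin 3 := fun j => Classical.epsilon fun i => ∃ s ∈ D.G, D.π s i = j
  have hr : ∀ j, ∃ s ∈ D.G, D.π s (r j) = j := fun j =>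
    Classical.epsilon_spec (p := fun i => ∃ s ∈ D.G, D.π s i = j)
      ⟨j, 1, D.G.one_mem, by rw [h.one.1, Equiv.Perm.one_apply]⟩
  have hi : ∀ σ ∈ D.G, ∀ j, D.π σ⁻¹ (D.π σ j) = j := fun σ hσ j => by
    rw [← Equiv.Perm.mul_apply, ← h.pmul _ (inv_mem hσ) _ hσ, inv_mul_cancel, h.one.1,
      Equiv.Perm.one_apply]
  have hr2 : ∀ σ ∈ D.G, ∀ j, r (D.π σ j) = r j := fun σ hσ j => by
    refine congrArg Classical.epsilon (funext fun i => propext ⟨?_, ?_⟩)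
    · rintro ⟨s, hs, h2⟩
      exact ⟨σ⁻¹ * s, mul_mem (inv_mem hσ) hs, by
        rw [h.pmul _ (inv_mem hσ) _ hs, Equiv.Perm.mul_apply, h2, hi σ hσ]⟩
    · rintro ⟨s, hs, h2⟩
      exact ⟨σ * s, mul_mem hσ hs, by rw [h.pmul _ hσ _ hs, Equiv.Perm.mul_apply, h2]⟩
  choose s hs h2 using hr
  have h3 : ∀ j, ∃ y : O, y ≠ 0 ∧ D.f (s j) (ins (r j) (Y (r j))) = ins j y := fun j => by
    obtain ⟨t, ht, h4⟩ := (h.prm _ (hs j)).slot (h.sim _ (hs j))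
    exact ⟨_, (ht _).ne (hY _), by rw [h4, h2]⟩
  choose y hy h4 using h3
  refine ⟨y, hy, fun σ hσ j => ?_⟩
  have hn : (s (D.π σ j))⁻¹ * (σ * s j) ∈ D.G := mul_mem (inv_mem (hs _)) (mul_mem hσ (hs _))
  obtain ⟨t, h5⟩ := h1 (r j) _ hn (by
    rw [h.pmul _ (inv_mem (hs _)) _ (mul_mem hσ (hs _)), h.pmul _ hσ _ (hs _),
      Equiv.Perm.mul_apply, Equiv.Perm.mul_apply, h2]
    have h5 := hi _ (hs (D.π σ j)) (r (D.π σ j))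
    rwa [h2, hr2 σ hσ] at h5)
  obtain ⟨z, hz, h6⟩ := h.coc _ hσ _ (hs j)
  obtain ⟨w, hw, h7⟩ := h.coc _ (hs (D.π σ j)) _ hn
  have h8 := h7 (ins (r j) (Y (r j)))
  rw [mul_inv_cancel_left, h5, (h.sim _ (hs _)).smul, ← hr2 σ hσ j, h4, hr2 σ hσ j] at h8
  have h9 := congrArg (sc w⁻¹) h8
  rw [(Prcx.sc_inv hw _).2] at h9
  refine ⟨s (D.π σ j) t * (w⁻¹ (D.π σ j) * z (D.π σ j)), ?_⟩
  rw [← h4 j, h6, ← h9, (sc_lin _).map_smul, (sc_lin _).map_smul, sc_ins, (sc_lin _).map_smul,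
    sc_ins, smul_smul, smul_smul, mul_assoc]

/-- The normalised datum is an action. -/
theorem norm_ta {D : FD} (h : D.OK) (ht : ∀ i, D.Triv i) : ∃ z : Gq → Fin 3 → Om,
    (∀ σ ∈ D.G, ∀ i, z σ i ≠ 0) ∧ TA D.G fun σ x => sc (z σ) (D.f σ x) := by
  obtain ⟨y, hy, h1⟩ := lines h ht
  have h2 : ∀ σ, ∃ z : Fin 3 → Om, σ ∈ D.G → (∀ i, z i ≠ 0) ∧
      ∀ i, sc z (D.f σ (ins i (y i))) = ins (D.π σ i) (y (D.π σ i)) := fun σ => by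
    by_cases hσ : σ ∈ D.G
    · choose t h3 using h1 σ hσ
      have h4 : ∀ i, t i ≠ 0 := fun i h5 =>
        (h.sim σ hσ).toSemi.ne (ins_ne (hy i)) (by rw [h3, h5, zero_smul])
      refine ⟨fun j => (t ((D.π σ)⁻¹ j))⁻¹, fun _ => ⟨fun j => inv_ne_zero (h4 _), fun i => ?_⟩⟩
      rw [h3, (sc_lin _).map_smul, sc_ins, Prcx.inv_app, smul_smul, mul_inv_cancel₀ (h4 i),
        one_smul]
    · exact ⟨1, fun h3 => absurd h3 hσ⟩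
  choose z hz using h2
  refine ⟨z, fun σ hσ => (hz σ hσ).1, h.opn, fun σ hσ => ?_, fun σ hσ τ hτ => ?_, fun x => ?_⟩
  · have h3 := (sc_sim (hz σ hσ).1).1.toSemi.comp (h.sim σ hσ).toSemi
    rwa [one_mul] at h3
  · obtain ⟨u, hu, h3⟩ := h.coc σ hσ τ hτ
    have h4 : ∀ x, sc (z σ) (D.f σ (sc (z τ) (D.f τ x))) =
        sc (z σ * ((fun j => σ (z τ ((D.π σ)⁻¹ j))) * u)) (D.f (σ * τ) x) := fun x => by
      rw [(h.prm σ hσ).sc (h.sim σ hσ) (hz τ hτ).1, h3, sc_sc, sc_sc, mul_assoc]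
    have hm := mul_mem hσ hτ
    have h5 := sc_eq (h.sim _ hm) (h.prm _ hm) hy (w := z (σ * τ)) fun i => by
      rw [← h4, (hz τ hτ).2, (hz σ hσ).2, (hz _ hm).2, h.pmul σ hσ τ hτ, Equiv.Perm.mul_apply]
    intro x
    rw [h4, h5]
  · obtain ⟨H, hH, h3⟩ := h.smo x
    choose H' hH' h4 using fun i => h.smo (ins i (y i))
    obtain ⟨N, hN, h5⟩ := h.ker
    refine ⟨H ⊓ ((⨅ i, H' i) ⊓ N), hH.inf ((opn_iInf hH').inf hN), fun σ hσ hG => ?_⟩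
    have h6 : z σ = 1 := sc_unique hy fun i => by
      have h7 := (hz σ hG).2 i
      rw [h4 i σ (Subgroup.mem_iInf.1 hσ.2.1 i) hG, ((h5 σ).1 hσ.2.2).2,
        Equiv.Perm.one_apply] at h7
      rw [h7, sc_one]
    rw [h6, sc_one, h3 σ hσ.1 hG]

end Hurx

/-- If the algebras of the slots are split then the datum is of Hurwitz type. -/
theorem hur_main {D : FD} (h : D.OK) (ht : ∀ i, D.Triv i) :
    ∃ (ψ : J ≃ₗ[Om] J) (α : Gq → O → O), Sim 1 ψ ∧ Prm 1 ψ ∧ (D.conj ψ).Hur α := by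
  obtain ⟨z, hz, h1⟩ := Hurx.norm_ta h ht
  have hs : ∀ σ ∈ D.G, Sim σ fun x => sc (z σ) (D.f σ x) := fun σ hσ => by
    have h3 := (sc_sim (hz σ hσ)).1.comp (h.sim σ hσ)
    rwa [one_mul] at h3
  have hp : ∀ σ ∈ D.G, Prm (D.π σ) fun x => sc (z σ) (D.f σ x) := fun σ hσ => by
    have h3 := Prm.comp (sc_sim (hz σ hσ)).1.toSemi (sc_sim (hz σ hσ)).2 (h.prm σ hσ)
    rwa [one_mul] at h3
  obtain ⟨x, hx, h2, h3⟩ := sing_den h1 hs (p := fun x => ∏ i, dg x i) (n := 3)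
    (Pol.prod _ fun i _ => Pol.dg (PolM.lin LinearMap.id) i)
    (fun t x => by simp only [Prcx.dg_smul, Fin.prod_univ_three]; ring)
    ⟨ones, Hurx.adj_ones, by
      simp only [ones, dg_jm, Pi.one_apply, Finset.prod_const_one]
      exact one_ne_zero⟩
  obtain ⟨ψ, k1, k2, k3⟩ := ones_trans h2 fun i =>
    Finset.prod_ne_zero_iff.1 h3 i (Finset.mem_univ i)
  obtain ⟨α, ha, h4⟩ := hur0 h1 hs hp h.pmul k1 k2 (k3 ▸ hx)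
  refine ⟨ψ, α, k1, k2, ha, fun σ hσ => ⟨(z σ)⁻¹, fun i => inv_ne_zero (hz σ hσ i), fun y => ?_⟩⟩
  change ψ.symm (D.f σ (ψ y)) = sc (z σ)⁻¹ (hur (D.π σ) σ (α σ) y)
  rw [ψ.symm_apply_eq, k2.sc k1 (z := (z σ)⁻¹) fun i => inv_ne_zero (hz σ hσ i), ← h4 σ hσ]
  exact ((Prcx.sc_inv (hz σ hσ) _).2).symm

namespace Hurx

theorem chi_one {G : Subgroup Gq} {χ : Gq → Fin 3} (hχ : Chi G χ) : χ 1 = 0 := by
  have h := hχ.mul 1 G.one_mem 1 G.one_mem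
  rw [mul_one] at h
  exact left_eq_add.1 h

theorem sect {G : Subgroup Gq} {χ : Gq → Fin 3} (hχ : Chi G χ) {σ : Gq} (hσ : σ ∈ G)
    (h0 : χ σ ≠ 0) : ∃ s : Fin 3 → Gq, ∀ i, s i ∈ G ∧ χ (s i) = i := by
  have h1 : ∀ a : Fin 3, a ≠ 0 → ∀ i : Fin 3, 0 = i ∨ a = i ∨ a + a = i := by decide
  have h2 : ∀ i : Fin 3, ∃ s, s ∈ G ∧ χ s = i := fun i => by
    rcases h1 _ h0 i with h3 | h3 | h3
    · exact ⟨1, G.one_mem, (chi_one hχ).trans h3⟩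
    · exact ⟨σ, hσ, h3⟩
    · exact ⟨σ * σ, mul_mem hσ hσ, (hχ.mul σ hσ σ hσ).trans h3⟩
  exact ⟨fun i => (h2 i).choose, fun i => (h2 i).choose_spec⟩

/-- A stable frame. -/
theorem frame {D : ED} (h : D.OK) (hK : D.G ≤ D.K) {χ : Gq → Fin 3} (hχ : Chi D.G χ)
    {N : Subgroup Gq} (hN : ∀ σ, σ ∈ N ↔ σ ∈ D.G ∧ χ σ = 0) {b : Gq → Om}
    (hb : ∀ σ ∈ N, b σ ≠ 0) (ht : TA N fun σ y => b σ • D.f σ y) :
    ∃ x : Fin 3 → J, Frame x ∧ ∀ τ ∈ D.G, ∀ i, ∃ t : Om, D.f τ (x i) = t • x (i + χ τ) := by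
  have hs : ∀ σ ∈ N, Sim σ fun y => b σ • D.f σ y := fun σ hσ =>
    (h.sim σ ((hN σ).1 hσ).1).smul' (hb σ hσ)
  have h1 : ∀ x, Fv N (fun σ y => b σ • D.f σ y) x → ∀ σ ∈ N, D.f σ x = (b σ)⁻¹ • x :=
    fun x hx σ hσ => (eq_inv_smul_iff₀ (hb σ hσ)).2 (hx σ hσ)
  by_cases h0 : ∀ σ ∈ D.G, χ σ = 0
  · obtain ⟨x, hx, hf⟩ := frame_den ht hs
    exact ⟨x, hf, fun τ hτ i => ⟨_, by
      rw [h0 τ hτ, add_zero, h1 _ (hx i) τ ((hN τ).2 ⟨hτ, h0 τ hτ⟩)]⟩⟩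
  · push Not at h0
    obtain ⟨σ, hσ, h0⟩ := h0
    obtain ⟨s, h2⟩ := sect hχ hσ h0
    have h3 : ∀ i, ∀ τ ∈ D.G, χ τ = i + χ ((s i)⁻¹ * τ) := fun i τ hτ => by
      have h4 := hχ.mul _ (h2 i).1 _ (mul_mem (inv_mem (h2 i).1) hτ)
      rwa [mul_inv_cancel_left, (h2 i).2] at h4
    obtain ⟨x, hx, hf⟩ := frame_den2 ht hs s (fun i j hij => by
      have h4 := h3 i _ (h2 j).1
      rw [((hN _).1 hij).2, add_zero, (h2 j).2] at h4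
      exact h4.symm) (fun i => D.f (s i)) fun i => h.sim _ (h2 i).1
    refine ⟨_, hf, fun τ hτ i => ?_⟩
    have hm := mul_mem hτ (h2 i).1
    have hn : (s (i + χ τ))⁻¹ * (τ * s i) ∈ N := (hN _).2 ⟨mul_mem (inv_mem (h2 _).1) hm, by
      have h4 := h3 (i + χ τ) _ hm
      rw [hχ.mul _ hτ _ (h2 i).1, (h2 i).2, add_comm] at h4
      exact left_eq_add.1 h4⟩
    obtain ⟨c, h4⟩ := h.coc τ hτ _ (hK (h2 i).1)
    obtain ⟨e, h5⟩ := h.coc _ (h2 (i + χ τ)).1 _ (hK ((hN _).1 hn).1)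
    have he := Datx.ne_zero (h.sim _ (h2 _).1).toSemi (h.sim _ ((hN _).1 hn).1).toSemi h5
    have h6 := h5 x
    rw [mul_inv_cancel_left, h1 x hx _ hn, (h.sim _ (h2 _).1).smul, eq_comm,
      ← eq_inv_smul_iff₀ he] at h6
    exact ⟨_, by rw [h4, h6, smul_smul, smul_smul]⟩

end Hurx

theorem inn {D : ED} (h : D.OK) (hK : D.G ≤ D.K) {χ : Gq → Fin 3} (hχ : Chi D.G χ)
    (hl : ∃ x, x ≠ 0 ∧ ∀ σ ∈ D.K, χ σ = 0 → ∃ t : Om, D.f σ x = t • x) :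
    ∃ ψ : J ≃ₗ[Om] J, Sim 1 ψ ∧ (D.conj ψ).Frm χ := by
  obtain ⟨N, hN, h1⟩ := hχ.ker h.opnG
  obtain ⟨x0, h0, h2⟩ := hl
  have hNK : N ≤ D.K := fun σ hσ => hK ((h1 σ).1 hσ).1
  obtain ⟨b, hb, ht, -⟩ := (h.pa.mono hN hNK).norm (x := x0)
    ⟨h0, fun σ hσ => h2 σ (hNK hσ) ((h1 σ).1 hσ).2⟩
  obtain ⟨x, hx, h3⟩ := Hurx.frame h hK hχ h1 hb ht
  obtain ⟨ψ, hψ, h4⟩ := frame_trans hx
  have hp : ∀ σ ∈ D.G, Prm (Equiv.addRight (χ σ)) ((D.conj ψ).f σ) := fun σ hσ i => by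
    obtain ⟨t, h5⟩ := h3 σ hσ i
    refine ⟨t, ?_⟩
    rw [D.conj_K ψ (hK hσ), h4, h5, map_smul, ← h4, ψ.symm_apply_apply]
    rfl
  refine ⟨ψ, hψ, hp, fun i => ?_⟩
  let L : O →ₗ[Om] J := ψ.toLinearMap ∘ₗ IsLinearMap.mk' (ins i) (ins_lin i)
  have hL : ∀ y, L y = ψ (ins i y) := fun _ => rfl
  obtain ⟨_, ⟨y, rfl⟩, h5, h6⟩ := ht.exists_fixed (LinearMap.range L) (by
    rintro σ hσ _ ⟨y, rfl⟩
    obtain ⟨t, -, h5⟩ := (hp σ ((h1 σ).1 hσ).1).slot ((h.conj hψ).sim σ ((h1 σ).1 hσ).1)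
    have h6 := h5 i y
    rw [D.conj_K ψ (hNK hσ), ψ.symm_apply_eq, ((h1 σ).1 hσ).2, Equiv.addRight_zero] at h6
    refine Submodule.smul_mem _ _ ⟨t i y, ?_⟩
    rw [hL, hL, h6]
    rfl) (by
    rw [Ne, LinearMap.range_eq_bot]
    intro h5
    have h6 : ψ (ins i 1) = 0 := by rw [← hL, h5, LinearMap.zero_apply]
    exact Hurx.ins_ne Hurx.oct_one (ψ.map_eq_zero_iff.1 h6))
  refine ⟨y, fun h7 => h5 (by rw [h7, map_zero]), fun σ hσ h7 => ⟨(b σ)⁻¹, ?_⟩⟩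
  have hσN := (h1 σ).2 ⟨hσ, h7⟩
  rw [D.conj_K ψ (hNK hσN), ψ.symm_apply_eq, map_smul, eq_inv_smul_iff₀ (hb σ hσN)]
  exact h6 σ hσN

end Vale.Agent.P011Z.Cl

end
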