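import Vale.Agent.P011Z.Cl.Tri
import Vale.Agent.P011Z.Cl.Frm
import Vale.Agent.P011Z.Cl.Hur0.Mou

/-!
Classification of the forms: block Hur0.
-/

open Matrix Module

noncomputable section

namespace Vale.Agent.P011Z.Cl

open Vale.Agent.P011.D4 Vale.Agent.P011.D4.Oct Vale.Agent.P011.E6 Vale.Agent.P011.E6.Alb

open Prcx Hur0x

/-- Transitivity on the singular vectors with nonzero diagonal. -/
theorem ones_trans {x : J} (hx : adj x = 0) (hd : ∀ i, dg x i ≠ 0) :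
    ∃ ψ : J ≃ₗ[Om] J, Sim 1 ψ ∧ Prm 1 ψ ∧ ψ ones = x := Good.ones ⟨hx, hd⟩

theorem hur0 {G : Subgroup Gq} {π : Gq → Equiv.Perm (Fin 3)} {f : Gq → J → J} (h : TA G f)
    (hs : ∀ σ ∈ G, Sim σ (f σ)) (hp : ∀ σ ∈ G, Prm (π σ) (f σ))
    (hm : ∀ σ ∈ G, ∀ τ ∈ G, π (σ * τ) = π σ * π τ) {ψ : J ≃ₗ[Om] J} (h1 : Sim 1 ψ) (h2 : Prm 1 ψ)
    (hf : Fv G f (ψ ones)) :
    ∃ α, HA G α ∧ ∀ σ ∈ G, ∀ y, f σ (ψ y) = ψ (hur (π σ) σ (α σ) y) := by
  have gs : ∀ σ ∈ G, Sim σ fun y => ψ.symm (f σ (ψ y)) := by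
    intro σ hσ
    have h3 := h1.symm.comp ((hs σ hσ).comp h1)
    rwa [mul_one, one_mul] at h3
  have gp : ∀ σ ∈ G, Prm (π σ) fun y => ψ.symm (f σ (ψ y)) := by
    intro σ hσ
    have h3 := Prm.comp (semi_lin ψ.symm) h2.symm (Prm.comp (hs σ hσ).toSemi (hp σ hσ) h2)
    rwa [mul_one, inv_one, one_mul] at h3
  have key : ∀ σ ∈ G, ∃ a : O → O, Semi σ a ∧ (∀ x y, a (x * y) = a x * a y) ∧
      ∀ y, f σ (ψ y) = ψ (hur (π σ) σ a y) := by
    intro σ hσ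
    obtain ⟨a, a1, a2, a3⟩ := al_of_ones (gs σ hσ) (gp σ hσ) (by
      rw [hf σ hσ, ψ.symm_apply_apply])
    exact ⟨a, a1, a2, fun y => by rw [← a3, ψ.apply_symm_apply]⟩
  choose! α a1 a2 a3 using key
  refine ⟨α, ⟨⟨h.opn, a1, fun σ hσ τ hτ x => ?_, fun x => ?_⟩, a2⟩, a3⟩
  · have h3 := h.mul σ hσ τ hτ (ψ (jm 0 fun _ => x))
    rw [a3 τ hτ, a3 σ hσ, a3 _ (G.mul_mem hσ hτ),
      hur_hur (hom_props (a1 σ hσ) (a2 σ hσ)).2.1, hm σ hσ τ hτ] at h3
    have h4 := congrArg (fun y => sgs (π σ * π τ) (sl y 0)) (ψ.injective h3)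
    simpa only [sl_hur, sl_jm, sgs_self] using h4
  · obtain ⟨H, hH, h3⟩ := h.smo (ψ (jm 0 fun _ => x))
    choose K hK h4 using fun i => h.smo (ψ (ee i))
    refine ⟨H ⊓ ⨅ i, K i, hH.inf (opn_iInf hK), fun σ hσ hσG => ?_⟩
    have h5 : π σ = 1 := Prm.unique (gs σ hσG).toSemi (gp σ hσG) fun i => ⟨1, by
      rw [h4 i σ (Subgroup.mem_iInf.mp hσ.2 i) hσG, ψ.symm_apply_apply, one_smul]
      rfl⟩
    have h6 := h3 σ hσ.1 hσG
    rw [a3 σ hσG, h5] at h6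
    have h7 := congrArg (fun y => sl y 0) (ψ.injective h6)
    simpa only [sl_hur, sl_jm, sgs_one] using h7

/-- Transitivity on opposite pairs of points of the hexagon. -/
theorem hex2 {p : Fin 3 → O} (hn : ∀ i, norm (p i) = 0) (ht : cub (jm 0 p) ≠ 0) :
    ∃ ψ : J ≃ₗ[Om] J, Sim 1 ψ ∧ Prm 1 ψ ∧ ∀ i, ψ (ins i ep) = ins i (p i) := by
  have e1 : ∀ i : Fin 3, i + 1 + 1 = i + 2 := by decide
  have e2 : ∀ i : Fin 3, i + 1 + 2 = i := by decide
  have e3 : ∀ i : Fin 3, i + 2 + 1 = i := by decide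
  have e4 : ∀ i : Fin 3, i + 2 + 2 = i + 1 := by decide
  obtain ⟨τ, hτ⟩ : ∃ τ, τ = cub (jm 0 p) := ⟨_, rfl⟩
  obtain ⟨q, hq⟩ : ∃ q : Fin 3 → O, ∀ i, q i = star (p (i + 1) * p (i + 2)) := ⟨_, fun _ => rfl⟩
  have hτb : τ = bil (p 0 * p 1 * p 2) 1 := by
    rw [hτ, cub_eq]
    simp only [dg_jm, sl_jm, Pi.zero_apply, zero_mul, Finset.sum_const_zero, sub_zero, zero_add]
  have hqn : ∀ i, norm (q i) = 0 := fun i => by
    rw [hq, Oct.norm_star, Oct.norm_mul, hn, zero_mul]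
  have hpq : ∀ i, bil (p i) (q i) = τ := fun i => by rw [bil_comm, hq, tri_cyc, hτb]
  have hadj : adj (jm 0 p) = jm 0 q := by
    refine j_ext (fun i => ?_) fun i => ?_
    · simp only [dg_adj, dg_jm, sl_jm, Pi.zero_apply, hn, mul_zero, sub_zero]
    · simp only [sl_adj, dg_jm, sl_jm, Pi.zero_apply, zero_smul, sub_zero, hq]
  have hqq : ∀ i, star (q (i + 1) * q (i + 2)) = τ • p i := fun i => by
    have h1 := congrArg (fun y => sl y i) (adj_adj (jm 0 p))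
    simp only [hadj, sl_adj, sl_smul, dg_jm, sl_jm, Pi.zero_apply, zero_smul, sub_zero] at h1
    rw [h1, hτ]
  have z1 : ∀ i, p (i + 1) * q (i + 2) = 0 := fun i => by
    rw [hq, e3, e4, star_mul, mul_star_mul, hn, zero_smul]
  have z2 : ∀ i, q (i + 1) * p (i + 2) = 0 := fun i => by
    rw [hq, e1, e2, star_mul, mul_star_mul', hn, zero_smul]
  rw [← hτ] at ht
  obtain ⟨a, ha⟩ := IsAlgClosed.exists_pow_nat_eq τ⁻¹ (n := 3) (by norm_num)
  have ha3 : a ^ 3 * τ = 1 := by rw [ha, inv_mul_cancel₀ ht]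
  have ha0 : a ≠ 0 := by
    rintro rfl
    norm_num at ha3
  have hx : adj (jm (fun _ => a⁻¹) fun i => p i + a • q i) = 0 := by
    refine j_ext (fun i => ?_) fun i => ?_
    · rw [dg_adj, dg_jm, sl_jm, dg_zero, Oct.norm_add, Oct.norm_smul, hn, hqn, bil_smul_right, hpq]
      field_simp
      linear_combination -ha3
    · rw [sl_adj, dg_jm, sl_jm, sl_zero]
      simp only [add_mul, mul_add, mul_smul_oct, smul_mul_oct, z1, z2, smul_zero, add_zero,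
        zero_add, star_add, star_smul_oct, hqq, ← hq, smul_add, smul_smul]
      have h1 : a * a * τ = a⁻¹ := by
        field_simp
        linear_combination ha3
      rw [h1, inv_mul_cancel₀ ha0, one_smul, add_comm, sub_self]
  obtain ⟨ψ, s1, p1, hψ⟩ := ones_trans hx (fun i => by rw [dg_jm]; exact inv_ne_zero ha0)
  have s2 := s1.symm
  have p2 : Prm 1 ψ.symm := by
    have h1 := p1.symm
    rwa [inv_one] at h1
  obtain ⟨c, hc0, hc⟩ := exists_c s2.toSemi p2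
  obtain ⟨t, ht'⟩ := exists_t s2 hc0 hc
  obtain ⟨l, hl0, hl⟩ := s2.mult
  have ts := slot_semi s2.toSemi hc ht'
  obtain ⟨-, tn, tm⟩ := Prm.triple s2.toSemi hl0 hl hc ht'
  have t1 : ∀ i, t i (a • q i) = 1 - t i (p i) := fun i => by
    have h1 := (coord s2.toSemi hc ht' (jm (fun _ => a⁻¹) fun i => p i + a • q i) i).2
    rw [sl_jm, ← hψ, ψ.symm_apply_apply, ones, sl_jm, (ts i).add, Pi.one_apply] at h1
    rw [h1, add_sub_cancel_left]
  have wn : ∀ i, norm (t i (p i)) = 0 := fun i => by rw [tn, hn, map_zero, mul_zero]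
  have wb : bil (t 0 (p 0)) 1 = 1 := by
    have h1 := tn 0 (a • q 0)
    rw [t1, Oct.norm_smul, hqn, mul_zero, map_zero, mul_zero, Oct.norm_sub, wn, Oct.norm_one,
      bil_comm] at h1
    linear_combination -h1
  have w1 : ∀ i, t (i + 1) (p (i + 1)) = t (i + 2) (p (i + 2)) := fun i => by
    have h1 := tm i (p (i + 1)) (a • q (i + 2))
    have h2 := tm i (a • q (i + 1)) (p (i + 2))
    rw [mul_smul_oct, z1, smul_zero, star_zero, (ts i).zero, smul_zero, star_eq_zero, t1, mul_sub,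
      mul_one, sub_eq_zero] at h1
    rw [smul_mul_oct, z2, smul_zero, star_zero, (ts i).zero, smul_zero, star_eq_zero, t1, sub_mul,
      one_mul, sub_eq_zero] at h2
    exact h1.trans h2.symm
  have w2 : ∀ i, t i (p i) = t 0 (p 0) := fun i => by
    fin_cases i
    · rfl
    · exact (w1 2).symm
    · exact w1 1
  obtain ⟨φ, hφ, hφe⟩ := idem_trans (wn 0) wb
  obtain ⟨χ, s3, p3, hχ, -⟩ := hφ.al
  refine ⟨χ.trans ψ, s3.trans s1, prm_trans p3 p1, fun i => ?_⟩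
  have h1 : χ (ins i ep) = ψ.symm (ins i (p i)) := by
    rw [hχ, ht', w2, ← hφe, ← hur_one, (hur_props (π := 1) (semi_lin φ) hφ).2.2.2.2.2, sgs_one]
  rw [LinearEquiv.trans_apply, h1, ψ.apply_symm_apply]

end Vale.Agent.P011Z.Cl

end
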