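import Vale.Agent.P011Z.Cl.Lie

/-!
Classification of the forms: block JM1.
-/

open Matrix Module

noncomputable section

namespace Vale.Agent.P011Z.Cl

open Vale.Agent.P011.D4 Vale.Agent.P011.D4.Oct Vale.Agent.P011.E6 Vale.Agent.P011.E6.Alb

namespace JM1x

theorem choose_exp (k : ℕ) : ∃ (a : ℚ) (r : Polynomial ℚ), ∀ j : ℕ,
    (j.choose (k + 2) : ℚ) = j * (a + j * r.eval (j : ℚ)) := by
  obtain ⟨b, hb⟩ : ∃ b : Polynomial ℚ, ∀ j : ℕ, (j.choose (k + 2) : ℚ) = b.eval (j : ℚ) :=
    ⟨descPochhammer ℚ (k + 2) * Polynomial.C (((k + 2).factorial : ℚ)⁻¹), fun j => by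
      rw [Nat.cast_choose_eq_descPochhammer_div, Polynomial.eval_mul, Polynomial.eval_C,
        div_eq_mul_inv]⟩
  have h0 : b.coeff 0 = 0 := by
    have := hb 0
    rw [Nat.choose_zero_succ, Nat.cast_zero] at this
    rw [Polynomial.coeff_zero_eq_eval_zero, ← this]
  refine ⟨b.divX.coeff 0, b.divX.divX, fun j => ?_⟩
  have h1 := congrArg (Polynomial.eval (j : ℚ)) b.X_mul_divX_add
  have h2 := congrArg (Polynomial.eval (j : ℚ)) b.divX.X_mul_divX_add
  rw [Polynomial.eval_add, Polynomial.eval_mul, Polynomial.eval_X, Polynomial.eval_C] at h1 h2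
  rw [hb, ← h1, ← h2, h0]
  ring

theorem pow_exp {R : Type} [Ring R] {n : R} {m : ℕ} (h : n ^ m = 0) (j : ℕ) :
    (n + 1) ^ j = 1 + j * n + ∑ k ∈ Finset.range m, (j.choose (k + 2) : R) * n ^ (k + 2) := by
  have h1 : (n + 1) ^ j = ∑ k ∈ Finset.range (j + 1), (j.choose k : R) * n ^ k := by
    rw [(Commute.one_right n).add_pow]
    exact Finset.sum_congr rfl fun k _ => by rw [one_pow, mul_one, Nat.cast_comm]
  have h2 : ∑ k ∈ Finset.range (j + 1), (j.choose k : R) * n ^ k =
      ∑ k ∈ Finset.range (j + m + 2), (j.choose k : R) * n ^ k :=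
    Finset.sum_subset (Finset.range_subset_range.2 (by omega)) fun k _ hk => by
      rw [Nat.choose_eq_zero_of_lt (by simpa using hk), Nat.cast_zero, zero_mul]
  have h3 : ∑ k ∈ Finset.range (m + 2), (j.choose k : R) * n ^ k =
      ∑ k ∈ Finset.range (j + m + 2), (j.choose k : R) * n ^ k :=
    Finset.sum_subset (Finset.range_subset_range.2 (by omega)) fun k _ hk => by
      rw [pow_eq_zero_of_le (by simp at hk; omega) h, mul_zero]
  rw [h1, h2, ← h3, Finset.sum_range_succ', Finset.sum_range_succ']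
  simp [add_comm, add_left_comm, add_assoc]

theorem pol_zero {p : Om → Om} (hp : Pol p) (h : ∀ j : ℕ, (j : Om) * p j = 0) : p 0 = 0 := by
  obtain ⟨P, hP⟩ := hp.line 0 1
  simp only [zero_add, smul_eq_mul, mul_one] at hP
  have h1 : P = 0 := Polynomial.eq_zero_of_infinite_isRoot _ (by
    refine Set.infinite_of_injective_forall_mem (f := fun j : ℕ => ((j + 1 : ℕ) : Om))
      (fun a b hab => Nat.succ_injective (Nat.cast_injective hab)) fun j => ?_
    change P.eval _ = 0
    rw [← hP]
    exact (mul_eq_zero.1 (h (j + 1))).resolve_left (Nat.cast_ne_zero.2 j.succ_ne_zero))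
  rw [hP, h1, Polynomial.eval_zero]

theorem pol_id : Pol fun s : Om => s := Pol.lin LinearMap.id

theorem pol_aeval (r : Polynomial ℚ) : Pol fun s : Om => Polynomial.aeval s r := by
  induction r using Polynomial.induction_on' with
  | add p q hp hq => exact (hp.add hq).congr fun s => map_add _ _ _
  | monomial n a =>
    exact ((Pol.const (algebraMap ℚ Om a)).mul (pol_id.pow n)).congr fun s =>
      Polynomial.aeval_monomial s

theorem polM_sum (m : ℕ) (r : ℕ → Polynomial ℚ) (v : ℕ → J) :
    PolM fun s : Om => ∑ k ∈ Finset.range m, Polynomial.aeval s (r k) • v k := fun l =>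
  (Pol.sum (Finset.range m) fun k _ => (pol_aeval (r k)).mul (Pol.const (l (v k)))).congr
    fun s => by simp only [map_sum, map_smul, smul_eq_mul]

theorem aeval_nat (r : Polynomial ℚ) (j : ℕ) :
    Polynomial.aeval (j : Om) r = ((r.eval (j : ℚ) : ℚ) : Om) := by
  rw [← map_natCast (algebraMap ℚ Om), Polynomial.aeval_algebraMap_apply_eq_algebraMap_eval]
  rfl

end JM1x

open JM1x in
/-- The logarithm of a unipotent map. -/
theorem exists_log {u : J ≃ₗ[Om] J} (hu : ∃ m : ℕ, ∀ x, (fun y => u y - y)^[m] x = 0) (h1 : u ≠ 1) :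
    ∃ N : Module.End Om J, N ≠ 0 ∧ IsNilpotent N ∧ ((∀ x, cub (u x) = cub x) → Lie N) ∧
      (∀ x, u x = x → N x = 0) ∧
      (∀ σ f, Semi σ f → (∀ x, u (f x) = f (u x)) → ∀ x, N (f x) = f (N x)) ∧
      ∀ σ f, Semi σ f → (∀ x y, tf (u x) (f (u y)) = tf x (f y)) →
        ∀ x y, tf (N x) (f y) = -tf x (f (N y)) := by
  obtain ⟨m, hm⟩ := hu
  obtain ⟨n, hn⟩ : ∃ n : Module.End Om J, ∀ x, n x = u x - x := ⟨u.toLinearMap - 1, fun _ => rfl⟩
  have hn1 : ∀ x, (n + 1) x = u x := fun x => by
    rw [LinearMap.add_apply, hn, Module.End.one_apply, sub_add_cancel]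
  have hnm : n ^ m = 0 := LinearMap.ext fun x => by
    rw [Module.End.pow_apply, funext hn]
    exact hm x
  have hn0 : n ≠ 0 := fun h => h1 (LinearEquiv.ext fun x => by
    rw [← hn1, h, zero_add]
    rfl)
  choose a r har using choose_exp
  obtain ⟨N, hN⟩ : ∃ N : Module.End Om J,
      N = n + ∑ k ∈ Finset.range m, ((a k : ℚ) : Om) • n ^ (k + 2) := ⟨_, rfl⟩
  have hNx : ∀ x, N x = n x + ∑ k ∈ Finset.range m, ((a k : ℚ) : Om) • (n ^ (k + 2)) x :=
    fun x => by rw [hN]; simp only [LinearMap.add_apply, LinearMap.sum_apply, LinearMap.smul_apply]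
  have hU : ∀ (j : ℕ) x, ((n + 1) ^ j) x = x + (j : Om) • (N x + (j : Om) •
      ∑ k ∈ Finset.range m, Polynomial.aeval (j : Om) (r k) • (n ^ (k + 2)) x) := fun j x => by
    rw [pow_exp hnm, hNx, add_assoc (n x), smul_add, ← add_assoc, Finset.smul_sum,
      ← Finset.sum_add_distrib, Finset.smul_sum]
    simp only [LinearMap.add_apply, LinearMap.sum_apply, Module.End.one_apply, Module.End.mul_apply,
      Module.End.natCast_apply, ← Nat.cast_smul_eq_nsmul Om]
    refine congrArg _ (Finset.sum_congr rfl fun k _ => ?_)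
    have h2 := congrArg (fun q : ℚ => (q : Om)) (har k j)
    simp only [Rat.cast_natCast, Rat.cast_mul, Rat.cast_add] at h2
    rw [h2, aeval_nat, smul_smul, ← add_smul, smul_smul]
  obtain ⟨w, hw⟩ : ∃ w : Module.End Om J,
      w = ∑ k ∈ Finset.range m, ((a k : ℚ) : Om) • n ^ k := ⟨_, rfl⟩
  have hc : Commute n w := hw ▸ Commute.sum_right _ _ _ fun k _ =>
    ((Commute.refl n).pow_right k).smul_right _
  have hNw : N = n * (1 + n * w) := by
    rw [hN, hw, mul_add, mul_one, Finset.mul_sum, Finset.mul_sum]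
    refine congrArg _ (Finset.sum_congr rfl fun k _ => ?_)
    rw [mul_smul_comm, mul_smul_comm, pow_succ', pow_succ']
  have hnil : IsNilpotent n := ⟨m, hnm⟩
  refine ⟨N, fun h => hn0 ?_, ?_, fun h x => ?_, fun x hx => ?_, fun σ f hf h x => ?_,
    fun σ f hf h x y => ?_⟩
  · rw [hNw] at h
    exact (hc.isNilpotent_mul_right hnil).isUnit_one_add.mul_left_eq_zero.1 h
  · rw [hNw]
    exact ((Commute.one_right n).add_right ((Commute.refl n).mul_right hc)).isNilpotent_mul_right
      hnil
  · have h2 : ∀ j : ℕ, cub (((n + 1) ^ j) x) = cub x := fun j => by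
      induction j with
      | zero => rfl
      | succ j ih => rw [pow_succ', Module.End.mul_apply, hn1, h, ih]
    have h3 := (PolM.const (N x)).add (PolM.smul pol_id (polM_sum m r fun k => (n ^ (k + 2)) x))
    have h4 := pol_zero ((Pol.tf (PolM.const (adj x)) h3).add
      ((pol_id.mul (Pol.tf (PolM.const x) h3.adj)).add ((pol_id.pow 2).mul (Pol.cub h3))))
      fun j => by
        have h5 := h2 j
        rw [hU, cub_add, adj_smul, tf_smul_right, tf_smul_right, cub_smul] at h5
        linear_combination h5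
    simpa using h4
  · have h2 : n x = 0 := by rw [hn, hx, sub_self]
    rw [hNx, h2, zero_add]
    exact Finset.sum_eq_zero fun k _ => by
      rw [pow_succ, Module.End.mul_apply, h2, map_zero, smul_zero]
  · have h2 : ∀ x, n (f x) = f (n x) := fun x => by rw [hn, hn, hf.sub, h]
    have h3 : ∀ k : ℕ, (n ^ k) (f x) = f ((n ^ k) x) := fun k => by
      induction k with
      | zero => rfl
      | succ k ih => rw [pow_succ', Module.End.mul_apply, Module.End.mul_apply, ih, h2]
    rw [hNx, hNx, hf.add, hf.sum, h2]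
    exact congrArg _ (Finset.sum_congr rfl fun k _ => by rw [hf.smul, map_ratCast, h3])
  · have h2 : ∀ j : ℕ, tf (((n + 1) ^ j) x) (f (((n + 1) ^ j) y)) = tf x (f y) := fun j => by
      induction j with
      | zero => rfl
      | succ j ih => rw [pow_succ', Module.End.mul_apply, Module.End.mul_apply, hn1, hn1, h, ih]
    have h3 := (PolM.const (N x)).add (PolM.smul pol_id (polM_sum m r fun k => (n ^ (k + 2)) x))
    have h3' := (PolM.const (f (N y))).add
      (PolM.smul pol_id (polM_sum m r fun k => f ((n ^ (k + 2)) y)))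
    have h4 := pol_zero ((Pol.tf h3 (PolM.const (f y))).add
      ((Pol.tf (PolM.const x) h3').add (pol_id.mul (Pol.tf h3 h3')))) fun j => by
        have h5 := h2 j
        have h6 : f (∑ k ∈ Finset.range m, Polynomial.aeval (j : Om) (r k) • (n ^ (k + 2)) y) =
            ∑ k ∈ Finset.range m, Polynomial.aeval (j : Om) (r k) • f ((n ^ (k + 2)) y) := by
          rw [hf.sum]
          exact Finset.sum_congr rfl fun k _ => by rw [hf.smul, aeval_nat, map_ratCast]
        rw [hU, hU, hf.add, hf.smul, hf.add, hf.smul, map_natCast, h6, tf_add_left, tf_add_right x,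
          tf_add_right (_ • _), tf_smul_left, tf_smul_left, tf_smul_right, tf_smul_right] at h5
        linear_combination h5
    simp only [zero_smul, add_zero, zero_mul] at h4
    linear_combination h4

end Vale.Agent.P011Z.Cl

end
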