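import Vale.Agent.P011Z.Cl.Lie
import Vale.Agent.P011Z.Cl.Tri
import Vale.Agent.P011.D4.Maps

/-!
Classification of the forms: block JM2.
-/

open Matrix Module

noncomputable section

namespace Vale.Agent.P011Z.Cl

open Vale.Agent.P011.D4 Vale.Agent.P011.D4.Oct Vale.Agent.P011.E6 Vale.Agent.P011.E6.Alb

namespace JM2x

open Vale.Agent.P011.D4.H24

/-- The conjugation of the compact form. -/
def ca (γ : Gq) (x : O) : O :=
  ⟨⟨γ x.fst.re, -γ x.fst.imI, -γ x.fst.imJ, γ x.fst.imK⟩,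
    ⟨-γ x.snd.re, γ x.snd.imI, γ x.snd.imJ, -γ x.snd.imK⟩⟩

theorem ca_mul (γ : Gq) (x y : O) : ca γ (x * y) = ca γ x * ca γ y := by
  apply ext8 <;> simp [ca] <;> ring

theorem ca_ca {γ : Gq} (h : ∀ t, γ (γ t) = t) (x : O) : ca γ (ca γ x) = x := by
  apply ext8 <;> simp [ca, h]

theorem ca_semi {γ : Gq} (h : ∀ t, γ (γ t) = t) : Semi γ (ca γ) := by
  refine ⟨fun x y => ?_, fun t x => ?_, Function.bijective_iff_has_inverse.2
    ⟨ca γ, ca_ca h, ca_ca h⟩⟩
  · apply ext8 <;> simp [ca] <;> ring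
  · apply ext8 <;> simp [ca]

theorem bil_ca (γ : Gq) (x : O) (m : Fin 8) : bil x (ca γ (ob m)) = 2 * oc x m := by
  fin_cases m <;> simp [bil_eq, ca, ob, oc]

/-- An orthogonal basis. -/
def bb (p : Fin 3 × Option (Fin 8)) : J := p.2.elim (ee p.1) fun m => ins p.1 (ob m)

/-- The weights. -/
def ww (p : Fin 3 × Option (Fin 8)) : ℚ := p.2.elim 1 fun _ => 1 / 2

theorem ww_pos (p : Fin 3 × Option (Fin 8)) : 0 < ww p := by
  obtain ⟨i, _ | m⟩ := p <;> norm_num [ww]

theorem al_ee {γ : Gq} {a : O → O} (h : a 0 = 0) (i : Fin 3) : al γ a (ee i) = ee i :=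
  j_ext (fun j => by rw [Prcx.dg_al, Prcx.dg_ee]; split_ifs <;> simp) fun j => by
    rw [Prcx.sl_al, Prcx.sl_ee, h]

theorem frame {γ : Gq} (h : ∀ t, γ (γ t) = t) (x : J) :
    x = ∑ p, ((ww p : Om) * tf x (al γ (ca γ) (bb p))) • bb p := by
  rw [Fintype.sum_prod_type]
  refine (jm_sum x).trans (Finset.sum_congr rfl fun i _ => ?_)
  have h0 := (ca_semi h).zero
  have h1 : ∀ m, tf x (al γ (ca γ) (ins i (ob m))) = 2 * oc (sl x i) m := fun m => by
    rw [tf_eq, Finset.sum_eq_single i (fun j _ e => ?_) (by simp), Prcx.dg_al, Prcx.sl_al,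
      Prcx.dg_ins, Prcx.sl_ins_self, bil_ca, map_zero, mul_zero, zero_add]
    rw [Prcx.dg_al, Prcx.sl_al, Prcx.dg_ins, Prcx.sl_ins, if_neg e, h0, map_zero, mul_zero,
      bil_zero_right, add_zero]
  rw [Fintype.sum_option]
  simp only [bb, ww, Option.elim, al_ee h0, h1, Prcx.tf_ee, Rat.cast_one, one_mul]
  congr 1
  have h2 := map_sum ((ins_lin i).mk' _) (fun m => oc (sl x i) m • (ob m : O)) Finset.univ
  simp only [map_smul, IsLinearMap.mk'_apply, sum_oc] at h2
  rw [h2]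
  refine Finset.sum_congr rfl fun m _ => ?_
  congr 1
  push_cast
  ring

end JM2x

open JM2x in
/-- The adjoint for a definite form. -/
theorem exists_adjoint : ∃ st : Module.End Om J → Module.End Om J, (∀ X, Lie X → Lie (st X)) ∧
    (∀ X, Lie X → (∀ i, X (ee i) = 0) → ∀ i, st X (ee i) = 0) ∧
    ∀ X, LinearMap.trace Om J (X * st X) = 0 → X = 0 := by
  have := fd_J
  obtain ⟨ι, -⟩ := exists_lift (L := ℂ) (algebraMap ℚ Om) (algebraMap ℚ ℂ)
  obtain ⟨γ, hγ⟩ := exists_cj ι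
  have h : ∀ t, γ (γ t) = t := fun t => by rw [← AlgEquiv.mul_apply, hγ.sq, AlgEquiv.one_apply]
  obtain ⟨hs, -, ht⟩ := al_props (ca_semi h) (ca_mul γ)
  set A := al γ (ca γ) with hA
  have hAA : ∀ x, A (A x) = x := fun x => j_ext
    (fun j => by rw [hA, Prcx.dg_al, Prcx.dg_al, h]) fun j => by
      rw [hA, Prcx.sl_al, Prcx.sl_al, ca_ca h]
  have hH : ∀ x y, tf x (A y) = γ (tf y (A x)) := fun x y => by rw [← ht, hAA, tf_comm]
  choose Y hY using Liex.exists_conj hs.toSemi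
  choose T hT _ using exists_tr
  have hst : ∀ X x y, tf (T (Y X) x) (A y) = tf x (A (X y)) := fun X x y => by rw [hT, hY]
  refine ⟨fun X => T (Y X), fun X hX => (hX.semi hs (hY X)).tr (hT _), fun X hX h0 i => ?_,
    fun X hX => ?_⟩
  · refine eq_of_tf fun z => ?_
    obtain ⟨y, rfl⟩ := hs.bij.2 z
    have h1 := hX.tri (ee (i + 1)) (ee (i + 2)) y
    obtain ⟨C, hC⟩ := exists_crossL
    rw [h0, h0, Prcx.cross_ee, ← hC, ← hC, map_zero, map_zero, LinearMap.zero_apply] at h1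
    have h2 : ∀ u : J, tf 0 u = 0 := fun u => by
      rw [← zero_smul Om (0 : J), tf_smul_left, zero_mul]
    rw [h2, zero_add, zero_add] at h1
    rw [hst, hH, hA, al_ee (ca_semi h).zero, tf_comm, h1, map_zero, h2]
  · obtain ⟨B, hB⟩ := exists_tfL
    have h1 : ∀ Z : Module.End Om J, LinearMap.trace Om J Z =
        ∑ p, (ww p : Om) * tf (Z (bb p)) (A (bb p)) := fun Z => by
      have h2 : Z = ∑ p, ((ww p : Om) • B (A (bb p))).smulRight (Z (bb p)) := by
        refine LinearMap.ext fun x => ?_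
        conv_lhs => rw [frame h x]
        simp only [map_sum, map_smul, LinearMap.sum_apply, LinearMap.smulRight_apply,
          LinearMap.smul_apply, hB, smul_eq_mul, tf_comm x, hA]
      conv_lhs => rw [h2]
      simp only [map_sum, LinearMap.trace_smulRight, LinearMap.smul_apply, hB, smul_eq_mul,
        tf_comm (A _)]
    have h2 : ∀ y, tf y (A y) = ∑ q, (ww q : Om) * (tf y (A (bb q)) * γ (tf y (A (bb q)))) := by
      intro y
      have h3 := congrArg (fun u => B u (A y)) (frame h y)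
      simp only [map_sum, map_smul, LinearMap.sum_apply, LinearMap.smul_apply, hB,
        smul_eq_mul] at h3
      rw [h3]
      exact Finset.sum_congr rfl fun q _ => by rw [hH (bb q), mul_assoc]
    rw [LinearMap.trace_mul_comm, h1] at hX
    simp only [Module.End.mul_apply, hst, h2, Finset.mul_sum] at hX
    have h3 : ∀ (p q) (z : Om), (ι ((ww p : Om) * ((ww q : Om) * (z * γ z)))).re =
        (ww p : ℝ) * ((ww q : ℝ) * (ι (z * γ z)).re) := fun p q z => by
      rw [map_mul, map_mul, map_ratCast, map_ratCast, ← Complex.ofReal_ratCast,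
        ← Complex.ofReal_ratCast, Complex.re_ofReal_mul, Complex.re_ofReal_mul]
    have h4 : ∀ z : Om, 0 ≤ (ι (z * γ z)).re := fun z => by
      by_cases e : z = 0
      · simp [e]
      · exact (hγ.norm_pos e).le
    have h5 : ∀ p, (0 : ℝ) < ww p := fun p => by exact_mod_cast ww_pos p
    have h6 := congrArg (fun u => (ι u).re) hX
    simp only [map_sum, Complex.re_sum, h3, map_zero, Complex.zero_re] at h6
    have h7 : ∀ p q, tf (X (bb p)) (A (bb q)) = 0 := fun p q => by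
      by_contra e
      have k : ∀ p q, 0 ≤ (ww p : ℝ) * ((ww q : ℝ) * (ι (tf (X (bb p)) (A (bb q)) *
          γ (tf (X (bb p)) (A (bb q))))).re) := fun p q =>
        mul_nonneg (h5 p).le (mul_nonneg (h5 q).le (h4 _))
      have k1 := (Finset.sum_eq_zero_iff_of_nonneg fun q _ => k p q).1
        ((Finset.sum_eq_zero_iff_of_nonneg fun p _ => Finset.sum_nonneg fun q _ => k p q).1 h6 p
          (Finset.mem_univ p)) q (Finset.mem_univ q)
      exact (mul_pos (h5 p) (mul_pos (h5 q) (hγ.norm_pos e))).ne' k1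
    have h8 : ∀ p, X (bb p) = 0 := fun p => by
      rw [frame h (X (bb p))]
      exact Finset.sum_eq_zero fun q _ => by rw [← hA, h7, mul_zero, zero_smul]
    refine LinearMap.ext fun x => ?_
    rw [frame h x, map_sum]
    exact Finset.sum_eq_zero fun q _ => by rw [map_smul, h8, smul_zero]

/-- The first half of the theorem of Jacobson and Morozov. -/
theorem exists_h {G : Subgroup Gq} (S : Submodule Om (Module.End Om J)) {Θ : Gq → S → S}
    (hΘ : TA G Θ) (hbr : ∀ X Y : S, X.1 * Y.1 - Y.1 * X.1 ∈ S)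
    (hb : ∀ σ ∈ G, ∀ X Y : S, (Θ σ ⟨_, hbr X Y⟩).1 = (Θ σ X).1 * (Θ σ Y).1 - (Θ σ Y).1 * (Θ σ X).1)
    (hnd : ∀ X ∈ S, (∀ Y ∈ S, LinearMap.trace Om J (X * Y) = 0) → X = 0) {N : S} (h0 : N.1 ≠ 0)
    (hN : IsNilpotent N.1) (hf : Fv G Θ N) :
    ∃ h : S, Fv G Θ h ∧ h.1 * N.1 - N.1 * h.1 = N.1 := by
  have := fd_J
  let ad : S →ₗ[Om] S := ((LinearMap.mulRight Om N.1 - LinearMap.mulLeft Om N.1).comp
    S.subtype).codRestrict S fun X => hbr X N
  have had : ∀ X : S, ad X = ⟨_, hbr X N⟩ := fun X => rfl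
  let B : LinearMap.BilinForm Om S :=
    ((LinearMap.mul Om (Module.End Om J)).compr₂ (LinearMap.trace Om J)).compl₁₂ S.subtype S.subtype
  have hB : ∀ X Y : S, B X Y = LinearMap.trace Om J (X.1 * Y.1) := fun X Y => rfl
  have hs : B.IsRefl := fun X Y h => by rwa [hB, LinearMap.trace_mul_comm]
  have hn : ∀ X : S, (∀ Y, B X Y = 0) → X = 0 := fun X h =>
    Subtype.ext (hnd X X.2 fun Y hY => h ⟨Y, hY⟩)
  have hn' : B.Nondegenerate := ⟨hn, fun X h => hn X fun Y => hs _ _ (h Y)⟩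
  have h1 : N ∈ LinearMap.range ad := by
    rw [← B.orthogonal_orthogonal hn' hs (LinearMap.range ad)]
    intro Z hZ
    have h2 : ad Z = 0 := hn _ fun X => by
      have h3 : B (ad X) Z = 0 := hZ _ ⟨X, rfl⟩
      rw [hB, had] at h3 ⊢
      simp only [sub_mul, map_sub] at h3 ⊢
      rw [mul_assoc, LinearMap.trace_mul_comm Om Z.1, mul_assoc,
        LinearMap.trace_mul_comm Om (N.1 * Z.1), ← mul_assoc, ← mul_assoc X.1, ← neg_sub, h3, neg_zero]
    have h3 : Commute Z.1 N.1 := sub_eq_zero.1 (congrArg Subtype.val h2)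
    exact (LinearMap.isNilpotent_trace_of_isNilpotent (h3.isNilpotent_mul_left hN)).eq_zero
  obtain ⟨X0, hX0⟩ := h1
  have h2 : ∀ σ ∈ G, ∀ X, Θ σ (ad X) = ad (Θ σ X) := fun σ hσ X =>
    Subtype.ext (by rw [had, hb σ hσ, hf σ hσ, had])
  have h3 := hΘ.sub ((Submodule.span Om {N}).comap ad) fun σ hσ X hX => by
    obtain ⟨c, hc⟩ := Submodule.mem_span_singleton.1 hX
    exact Submodule.mem_span_singleton.2 ⟨σ c, by rw [← h2 σ hσ, ← hc, (hΘ.semi σ hσ).smul, hf σ hσ]⟩
  have h4 : ∃ X, X ∈ (Submodule.span Om {N}).comap ad ∧ Fv G Θ X ∧ ad X ≠ 0 := by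
    by_contra h
    push Not at h
    have h5 := (Submodule.span_le (p := LinearMap.ker ad)).2 (fun X hX => h X hX.1 hX.2)
      (h3 (show X0 ∈ _ from Submodule.mem_span_singleton.2 ⟨1, by rw [one_smul, hX0]⟩))
    exact h0 (congrArg Subtype.val (hX0.symm.trans h5))
  obtain ⟨X, hX, hX1, hX2⟩ := h4
  obtain ⟨c, hc⟩ := Submodule.mem_span_singleton.1 hX
  have hc0 : c ≠ 0 := fun e => hX2 (by rw [← hc, e, zero_smul])
  have hN0 : N ≠ 0 := fun e => h0 (congrArg Subtype.val e)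
  refine ⟨c⁻¹ • X, fun σ hσ => ?_, ?_⟩
  · have h5 := h2 σ hσ X
    rw [hX1 σ hσ, ← hc, (hΘ.semi σ hσ).smul, hf σ hσ] at h5
    rw [(hΘ.semi σ hσ).smul, hX1 σ hσ, map_inv₀, smul_left_injective Om hN0 h5]
  · have h5 : ad (c⁻¹ • X) = N := by rw [map_smul, ← hc, inv_smul_smul₀ hc0]
    exact congrArg Subtype.val h5

end Vale.Agent.P011Z.Cl

end
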