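import Vale.Agent.P011Z.Cl.Lie

/-!
Classification of the forms: block JM3.
-/

open Matrix Module

noncomputable section

namespace Vale.Agent.P011Z.Cl

open Vale.Agent.P011.D4 Vale.Agent.P011.D4.Oct Vale.Agent.P011.E6 Vale.Agent.P011.E6.Alb

namespace JM3x

/-- A form which is reproduced by nilpotent operators vanishes. -/
theorem van {A B C : Type} [Zero A] [Zero B] [Zero C] (T : A → B → C → Om) (p : A → A)
    (q : B → B) (r : C → C) {d : Om} (hd : d ≠ 0) (h1 : ∀ y z, T 0 y z = 0)
    (h2 : ∀ x z, T x 0 z = 0) (h3 : ∀ x y, T x y 0 = 0)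
    (h : ∀ x y z, d * T x y z = -(T (p x) y z + T x (q y) z + T x y (r z))) (n : ℕ) :
    ∀ i j k, i + j + k ≤ n → ∀ x y z, p^[i] x = 0 → q^[j] y = 0 → r^[k] z = 0 → T x y z = 0 := by
  induction n with
  | zero =>
    intro i j k hn x y z hx _ _
    obtain rfl : i = 0 := by omega
    rw [show x = 0 from hx, h1]
  | succ n ih =>
    intro i j k hn x y z hx hy hz
    rcases i with _ | i
    · rw [show x = 0 from hx, h1]
    rcases j with _ | j
    · rw [show y = 0 from hy, h2]
    rcases k with _ | k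
    · rw [show z = 0 from hz, h3]
    have := h x y z
    rw [ih i (j + 1) (k + 1) (by omega) _ _ _ hx hy hz, ih (i + 1) j (k + 1) (by omega) _ _ _ hx hy hz,
      ih (i + 1) (j + 1) k (by omega) _ _ _ hx hy hz, add_zero, add_zero, neg_zero] at this
    exact (mul_eq_zero.1 this).resolve_left hd

/-- the invariant rational weight -/
theorem exists_l : ∃ l : Om →+ ℚ, l 1 = 1 ∧ ∀ (σ : Gq) a, l (σ a) = l a := by
  refine ⟨(Algebra.normalizedTrace ℚ Om).toAddMonoidHom, ?_, fun σ a => ?_⟩
  · have := Algebra.normalizedTrace_algebraMap_apply_eq_self ℚ Om 1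
    rwa [map_one] at this
  · exact Algebra.normalizedTrace_map ℚ Om σ.toAlgHom a

theorem exists_den (A : Finset ℚ) : ∃ M : ℕ, 0 < M ∧ ∀ a ∈ A, ((⌊M * a⌋ : ℤ) : ℚ) = M * a := by
  refine ⟨∏ a ∈ A, a.den, Finset.prod_pos fun a _ => a.den_pos, fun a ha => ?_⟩
  obtain ⟨k, hk⟩ := Finset.dvd_prod_of_mem (fun a : ℚ => a.den) ha
  have : ((∏ a ∈ A, a.den : ℕ) : ℚ) * a = ((k * a.num : ℤ) : ℚ) := by
    rw [hk]
    push_cast
    rw [← Rat.mul_den_eq_num]
    ring
  rw [this, Int.floor_intCast]

variable (h : Module.End Om J)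

/-- the shifted operator -/
def sh (a : Om) (x : J) : J := h x - a • x

/-- generalised eigenvectors -/
def Ge (a : Om) (x : J) : Prop := ∃ k : ℕ, (sh h a)^[k] x = 0

theorem ge_iff (a : Om) (x : J) : x ∈ h.maxGenEigenspace a ↔ Ge h a x := by
  rw [Module.End.mem_maxGenEigenspace]
  refine exists_congr fun k => ?_
  rw [Module.End.pow_apply]
  rfl

theorem exists_op (φ : Om → Om) : ∃ T : Module.End Om J, ∀ a x, Ge h a x → T x = φ a • x := by
  classical
  have := fd_J
  have hi : DirectSum.IsInternal h.maxGenEigenspace :=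
    (DirectSum.isInternal_submodule_iff_iSupIndep_and_iSup_eq_top _).2
      ⟨h.independent_maxGenEigenspace, h.iSup_maxGenEigenspace_eq_top⟩
  let e := LinearEquiv.ofBijective (DirectSum.coeLinearMap h.maxGenEigenspace) hi
  refine ⟨DirectSum.toModule Om Om J (fun a => φ a • (h.maxGenEigenspace a).subtype) ∘ₗ
    e.symm.toLinearMap, fun a x hx => ?_⟩
  have h1 : e.symm x = DirectSum.lof Om Om (fun a => h.maxGenEigenspace a) a
      ⟨x, (ge_iff h a x).2 hx⟩ := by
    rw [LinearEquiv.symm_apply_eq]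
    exact (DirectSum.coeLinearMap_lof _ a ⟨x, (ge_iff h a x).2 hx⟩).symm
  rw [LinearMap.comp_apply, LinearEquiv.coe_coe, h1, DirectSum.toModule_lof]
  rfl

theorem fin_ge : {a | ∃ x, x ≠ 0 ∧ Ge h a x}.Finite := by
  have := fd_J
  refine (WellFoundedGT.finite_ne_bot_of_iSupIndep h.independent_maxGenEigenspace).subset ?_
  rintro a ⟨x, h0, hx⟩
  exact (Submodule.ne_bot_iff _).2 ⟨x, (ge_iff h a x).2 hx, h0⟩

theorem ind {P : J → Prop} (h1 : ∀ a x, x ≠ 0 → Ge h a x → P x) (h0 : P 0)
    (h2 : ∀ x y, P x → P y → P (x + y)) (x : J) : P x := by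
  have := fd_J
  have hx : x ∈ ⨆ a, h.maxGenEigenspace a := by
    rw [h.iSup_maxGenEigenspace_eq_top]
    trivial
  refine Submodule.iSup_induction (motive := P) _ hx (fun a x hx => ?_) h0 h2
  by_cases hx0 : x = 0
  · rwa [hx0]
  · exact h1 a x hx0 ((ge_iff h a x).1 hx)

theorem Ge.map {a b : Om} {f : J → J} (f0 : f 0 = 0) (hf : ∀ x, sh h b (f x) = f (sh h a x))
    {x : J} (hx : Ge h a x) : Ge h b (f x) := by
  obtain ⟨k, hk⟩ := hx
  refine ⟨k, ?_⟩
  have : Function.Semiconj f (sh h a) (sh h b) := fun x => (hf x).symm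
  rw [← this.iterate_right k x, hk, f0]

theorem tri_van (hL : Lie h) {a b c : Om} (hd : a + b + c ≠ 0) {x y z : J} (hx : Ge h a x)
    (hy : Ge h b y) (hz : Ge h c z) : tf (cross x y) z = 0 := by
  obtain ⟨i, hi⟩ := hx
  obtain ⟨j, hj⟩ := hy
  obtain ⟨k, hk⟩ := hz
  refine van (fun x y z : J => tf (cross x y) z) (sh h a) (sh h b) (sh h c) hd (by simp) (by simp)
    (by simp) (fun x y z => ?_) _ i j k le_rfl x y z hi hj hk
  have := hL.tri x y z
  simp only [sh, cross_sub_left, cross_sub_right, cross_smul_left, cross_smul_right, tf_sub_left,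
    tf_sub_right, tf_smul_left, tf_smul_right]
  linear_combination this

theorem dual_van {σ : Gq} {f : J → J} (hf : Semi σ f)
    (hh : ∀ x y, tf (h x) (f y) = -tf x (f (h y))) {a b : Om} (hd : a + σ b ≠ 0) {x y : J}
    (hx : Ge h a x) (hy : Ge h b y) : tf x (f y) = 0 := by
  obtain ⟨i, hi⟩ := hx
  obtain ⟨j, hj⟩ := hy
  have := van (fun (x y : J) (z : Om) => tf x (f y) * z) (sh h a) (sh h b) (fun _ => 0) hd
    (by simp) (by simp [hf.zero]) (by simp) (fun x y z => ?_) _ i j 1 le_rfl x y 1 hi hj rfl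
  · rwa [mul_one] at this
  have := hh x y
  simp only [sh, hf.sub, hf.smul, tf_sub_left, tf_sub_right, tf_smul_left, tf_smul_right]
  linear_combination z * this

theorem two_zpow {n : ℤ} (hn : (2 : Om) ^ n = 1) : n = 0 := by
  have h1 : ((2 ^ n : ℚ) : Om) = ((1 : ℚ) : Om) := by
    push_cast
    exact hn
  have h2 : (2 : ℚ) ^ n = 2 ^ (0 : ℤ) := by
    rw [zpow_zero]
    exact Rat.cast_injective h1
  exact zpow_right_injective₀ (by norm_num) (by norm_num) h2

end JM3x

open JM3x

/-- The cocharacter of a grading element. -/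
theorem exists_coch {h N : Module.End Om J} (h0 : N ≠ 0) (hb : h * N - N * h = N) :
    ∃ (c : Omˣ →* (J ≃ₗ[Om] J)) (s : Finset ℤ) (e : ℤ → Module.End Om J),
      (∀ t x, c t x = ∑ m ∈ s, (t ^ m).1 • e m x) ∧ (∀ t : Omˣ, t.1 = 2 → c t ≠ 1) ∧
      (Lie h → ∀ t x, cub (c t x) = cub x) ∧ (∀ x, h x = 0 → ∀ t, c t x = x) ∧
      (∀ σ f, Semi σ f → (∀ x, h (f x) = f (h x)) → ∀ t : Omˣ, σ t.1 = t.1 →
        ∀ x, c t (f x) = f (c t x)) ∧
      ∀ σ f, Semi σ f → (∀ x y, tf (h x) (f y) = -tf x (f (h y))) → ∀ t : Omˣ, σ t.1 = t.1 →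
        ∀ x y, tf (c t x) (f (c t y)) = tf x (f y) := by
  classical
  obtain ⟨l, l1, lσ⟩ := exists_l
  obtain ⟨M, hM, hden⟩ := exists_den ((fin_ge h).toFinset.image l)
  let w : Om → ℤ := fun a => ⌊M * l a⌋
  have hw : ∀ a x, x ≠ 0 → Ge h a x → (w a : ℚ) = M * l a := fun a x hx ha =>
    hden _ (Finset.mem_image_of_mem _ ((fin_ge h).mem_toFinset.2 ⟨x, hx, ha⟩))
  have wσ : ∀ (σ : Gq) a, w (σ a) = w a := fun σ a => by simp only [w, lσ]
  choose T hT using exists_op h
  have hmul : ∀ (t t' : Omˣ) x, T (fun a => (t ^ w a).1) (T (fun a => (t' ^ w a).1) x) =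
      T (fun a => ((t * t') ^ w a).1) x := fun t t' =>
    ind h (fun a x _ hx => by
      rw [hT _ a x hx, map_smul, hT _ a x hx, hT _ a x hx, smul_smul, mul_zpow, Units.val_mul,
        mul_comm]) (by simp only [map_zero]) fun x y hx hy => by simp only [map_add, hx, hy]
  have hone : ∀ x, T (fun a => ((1 : Omˣ) ^ w a).1) x = x :=
    ind h (fun a x _ hx => by rw [hT _ a x hx, _root_.one_zpow, Units.val_one, one_smul])
      (map_zero _) fun x y hx hy => by rw [map_add, hx, hy]
  let c : Omˣ →* (J ≃ₗ[Om] J) :=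
    { toFun := fun t => LinearEquiv.ofLinearMap (T fun a => (t ^ w a).1) (T fun a => (t⁻¹ ^ w a).1)
        (LinearMap.ext fun x => by
          rw [LinearMap.comp_apply, hmul, mul_inv_cancel, hone, LinearMap.id_apply])
        (LinearMap.ext fun x => by
          rw [LinearMap.comp_apply, hmul, inv_mul_cancel, hone, LinearMap.id_apply])
      map_one' := LinearEquiv.ext hone
      map_mul' := fun t t' => LinearEquiv.ext fun x => (hmul t t' x).symm }
  have hc : ∀ t a x, Ge h a x → c t x = (t ^ w a).1 • x := fun t a x hx => hT _ a x hx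
  have hσ : ∀ (σ : Gq) (t : Omˣ), σ t.1 = t.1 → ∀ n : ℤ, σ (t ^ n).1 = (t ^ n).1 := fun σ t ht n => by
    rw [Units.val_zpow_eq_zpow_val, map_zpow₀, ht]
  refine ⟨c, (fin_ge h).toFinset.image w, fun m => T fun a => if w a = m then 1 else 0,
    fun t => ?_, fun t ht h1 => ?_, fun hL t => ?_, fun x hx t => ?_, fun σ f hf hh t ht => ?_,
    fun σ f hf hh t ht => ?_⟩
  · refine ind h (fun a x h0 hx => ?_) (by simp) fun x y hx hy => ?_
    · simp only [hc t a x hx, hT _ a x hx, ite_smul, one_smul, zero_smul, smul_ite, smul_zero]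
      rw [Finset.sum_ite_eq, if_pos
        (Finset.mem_image_of_mem _ ((fin_ge h).mem_toFinset.2 ⟨x, h0, hx⟩))]
    · simp only [map_add, hx, hy, smul_add, Finset.sum_add_distrib]
  · have key : ∀ a x, x ≠ 0 → Ge h a x → w a = 0 := fun a x h0 hx => by
      have h2 := hc t a x hx
      rw [h1, Units.val_zpow_eq_zpow_val, ht] at h2
      refine two_zpow (smul_left_injective Om h0 ?_)
      exact h2.symm.trans (one_smul Om x).symm
    refine h0 (LinearMap.ext (ind h (fun a x hx0 hx => ?_) (by simp) fun x y hx hy => ?_))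
    · by_contra hN
      have h2 : Ge h (a + 1) (N x) := hx.map h (map_zero N) fun y => by
        have := LinearMap.congr_fun hb y
        simp only [LinearMap.sub_apply, Module.End.mul_apply] at this
        simp only [sh, map_sub, map_smul, add_smul, one_smul]
        rw [sub_eq_iff_eq_add] at this
        rw [this]
        abel
      have h3 := hw _ _ hx0 hx
      have h4 := hw _ _ hN h2
      rw [key _ _ hx0 hx] at h3
      rw [key _ _ hN h2, map_add, l1, mul_add, ← h3] at h4
      have h5 : (M : ℚ) = 0 := by simpa using h4.symm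
      exact hM.ne' (by exact_mod_cast h5)
    · simp only [map_add, hx, hy]
  · have key : ∀ x y z, tf (cross (c t x) (c t y)) (c t z) = tf (cross x y) z := by
      refine ind h (fun a x hx0 hx => ind h (fun b y hy0 hy => ind h (fun d z hz0 hz => ?_)
        (by simp) fun x y hx hy => ?_) (by simp) fun x y hx hy z => ?_) (by simp)
        fun x y hx hy u z => ?_
      · rw [hc t a x hx, hc t b y hy, hc t d z hz, cross_smul_left, cross_smul_right, tf_smul_left,
          tf_smul_left, tf_smul_right]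
        by_cases hd : a + b + d = 0
        · have h1 : ((w a + w b + w d : ℤ) : ℚ) = 0 := by
            push_cast
            rw [hw a x hx0 hx, hw b y hy0 hy, hw d z hz0 hz, ← mul_add, ← mul_add, ← map_add,
              ← map_add, hd, map_zero, mul_zero]
          rw [← mul_assoc, ← mul_assoc, ← Units.val_mul, ← Units.val_mul, ← _root_.zpow_add,
            ← _root_.zpow_add,
            Int.cast_eq_zero.1 h1, zpow_zero, Units.val_one, one_mul]
        · rw [tri_van h hL hd hx hy hz, mul_zero, mul_zero, mul_zero]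
      · rw [map_add, tf_add_right, tf_add_right, hx, hy]
      · rw [map_add, cross_add_right, cross_add_right, tf_add_left, tf_add_left, hx, hy]
      · rw [map_add, cross_add_left, cross_add_left, tf_add_left, tf_add_left, hx, hy]
    intro x
    have h1 := Liex.six_cub (c t x)
    rw [key, ← Liex.six_cub] at h1
    exact mul_left_cancel₀ (by norm_num) h1
  · have h1 : Ge h 0 x := ⟨1, by simp [sh, hx]⟩
    have h2 : w 0 = 0 := by simp [w]
    rw [hc t 0 x h1, h2, zpow_zero, Units.val_one, one_smul]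
  · refine ind h (fun a x _ hx => ?_) (by simp [hf.zero]) fun x y hx hy => ?_
    · have h1 : Ge h (σ a) (f x) := hx.map h hf.zero fun y => by
        simp only [sh, hf.sub, hf.smul, hh]
      rw [hc t _ _ h1, hc t a x hx, hf.smul, wσ, hσ σ t ht]
    · rw [hf.add, map_add, map_add, hf.add, hx, hy]
  · refine ind h (fun a x hx0 hx => ind h (fun b y hy0 hy => ?_) (by simp [hf.zero])
      fun x y hx hy => ?_) (by simp) fun x y hx hy z => ?_
    · rw [hc t a x hx, hc t b y hy, hf.smul, hσ σ t ht, tf_smul_left, tf_smul_right]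
      by_cases hd : a + σ b = 0
      · have h1 : ((w a + w b : ℤ) : ℚ) = 0 := by
          push_cast
          rw [hw a x hx0 hx, hw b y hy0 hy, ← mul_add, ← lσ σ b, ← map_add, hd, map_zero, mul_zero]
        rw [← mul_assoc, ← Units.val_mul, ← _root_.zpow_add, Int.cast_eq_zero.1 h1, zpow_zero,
          Units.val_one, one_mul]
      · rw [dual_van h hf hh hd hx hy, mul_zero, mul_zero]
    · rw [map_add, hf.add, hf.add, tf_add_right, tf_add_right, hx, hy]
    · rw [map_add, tf_add_left, tf_add_left, hx, hy]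

end Vale.Agent.P011Z.Cl

end
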