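import Vale.Agent.P011Z.Cl.JM1
import Vale.Agent.P011Z.Cl.JM2
import Vale.Agent.P011Z.Cl.JM3
import Vale.Agent.P011Z.Cl.Dat

/-!
Classification of the forms: block JM4.
-/

open Matrix Module

noncomputable section

namespace Vale.Agent.P011Z.Cl

open Vale.Agent.P011.D4 Vale.Agent.P011.D4.Oct Vale.Agent.P011.E6 Vale.Agent.P011.E6.Alb

/-- The group contains the rational points of a nontrivial cocharacter. -/
def Coch (G : Subgroup Gq) (S : Subgroup (J ≃ₗ[Om] J)) : Prop :=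
  ∃ (c : Omˣ →* (J ≃ₗ[Om] J)) (s : Finset ℤ) (e : ℤ → Module.End Om J),
    (∀ t x, c t x = ∑ m ∈ s, (t ^ m).1 • e m x) ∧ (∀ t : Omˣ, t.1 = 2 → c t ≠ 1) ∧
    ∀ t : Omˣ, Fx G t.1 → c t ∈ S

namespace JM4x

theorem tf_zero (u : J) : tf 0 u = 0 := by rw [← zero_smul Om (0 : J), tf_smul_left, zero_mul]

theorem cross_zero (u : J) : cross 0 u = 0 := by
  rw [← zero_smul Om (0 : J), cross_smul_left, zero_smul, zero_smul]

theorem lie_zero : Lie 0 := fun x => by rw [LinearMap.zero_apply, tf_comm, tf_zero]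

/-- The Lie algebra of type `E₆`. -/
def SE : Submodule Om (Module.End Om J) where
  carrier := {X | Lie X}
  add_mem' := Lie.add
  zero_mem' := lie_zero
  smul_mem' := fun t _ hX => hX.smul t

/-- The Lie algebra of type `D₄`. -/
def SD : Submodule Om (Module.End Om J) where
  carrier := {X | Lie X ∧ ∀ i, X (ee i) = 0}
  add_mem' := fun hX hY => ⟨hX.1.add hY.1, fun i => by
    rw [LinearMap.add_apply, hX.2, hY.2, add_zero]⟩
  zero_mem' := ⟨lie_zero, fun _ => rfl⟩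
  smul_mem' := fun t _ hX => ⟨hX.1.smul t, fun i => by rw [LinearMap.smul_apply, hX.2, smul_zero]⟩

theorem ins_slot {X : Module.End Om J} (hX : X ∈ SD) (j : Fin 3) (y : O) :
    X (ins j y) = ins j (sl (X (ins j y)) j) := by
  refine j_ext (fun i => ?_) fun i => ?_
  · have h1 := hX.1.tri (ee (i + 1)) (ee (i + 2)) (ins j y)
    rw [hX.2, hX.2, cross_zero, cross_comm, cross_zero, tf_zero, zero_add, zero_add, Prcx.cross_ee,
      tf_comm, Prcx.tf_ee] at h1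
    rw [h1, Prcx.dg_ins]
  · rw [Prcx.sl_ins]
    split_ifs with h
    · rw [h]
    · have h1 : cross (ee i) (X (ins j y)) = 0 := eq_of_tf fun z => by
        have h2 := hX.1.tri (ee i) (ins j y) z
        rw [hX.2, cross_zero, Prcx.cross_ee_ins h, tf_zero, tf_zero, zero_add, add_zero] at h2
        rw [h2, tf_zero]
      have h2 := Prcx.sl_cross_ee i (X (ins j y))
      rw [h1, Prcx.sl_zero] at h2
      exact neg_eq_zero.1 h2.symm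

theorem comm_sc {X : Module.End Om J} (hX : X ∈ SD) {z : Fin 3 → Om} (hz : ∀ i, z i ≠ 0) (x : J) :
    X (sc z x) = sc z (X x) := by
  obtain ⟨ψ, hψ, -⟩ := exists_sc hz
  rw [← hψ, ← hψ, jm_sum x]
  simp only [map_sum, map_add, map_smul]
  refine Finset.sum_congr rfl fun i _ => ?_
  obtain ⟨t, ht⟩ := (sc_sim hz).2 i
  rw [hψ, hψ, hψ, hψ, ht, map_smul, hX.2, hX.2, smul_zero, (sc_lin z).map_zero, sc_ins, map_smul,
    ins_slot hX, sc_ins]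

/-- The action on the Lie algebra of type `D₄`. -/
theorem exists_ta {D : FD} (h : D.OK) : ∃ Θ : Gq → SD → SD, TA D.G Θ ∧
    ∀ σ ∈ D.G, ∀ X Y : SD, Θ σ X = Y ↔ ∀ x, Y.1 (D.f σ x) = D.f σ (X.1 x) := by
  have hs : ∀ σ ∈ D.G, Semi σ (D.f σ) := fun σ hσ => (h.sim σ hσ).toSemi
  have k : ∀ (σ : Gq) (X : SD), ∃ Y : SD, σ ∈ D.G → ∀ x, Y.1 (D.f σ x) = D.f σ (X.1 x) := by
    intro σ X
    by_cases hσ : σ ∈ D.G
    · obtain ⟨Y, hY⟩ := Liex.exists_conj (hs σ hσ) X.1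
      refine ⟨⟨Y, X.2.1.semi (h.sim σ hσ) hY, fun i => ?_⟩, fun _ => hY⟩
      obtain ⟨j, rfl⟩ := (D.π σ).surjective i
      obtain ⟨c, c0, hc⟩ := Prcx.exists_c (hs σ hσ) (h.prm σ hσ)
      have h1 := hY (ee j)
      rw [hc, map_smul, X.2.2, (hs σ hσ).zero] at h1
      exact (smul_eq_zero.1 h1).resolve_left (c0 j)
    · exact ⟨X, fun h1 => absurd h1 hσ⟩
  choose Θ hΘ using k
  have u : ∀ σ ∈ D.G, ∀ X Y : SD, (∀ x, Y.1 (D.f σ x) = D.f σ (X.1 x)) → Θ σ X = Y :=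
    fun σ hσ X Y e => Subtype.ext (LinearMap.ext fun x => by
      obtain ⟨y, rfl⟩ := (hs σ hσ).bij.2 x
      rw [e, hΘ σ X hσ])
  have m : ∀ σ ∈ D.G, ∀ τ ∈ D.G, ∀ X, Θ σ (Θ τ X) = Θ (σ * τ) X := fun σ hσ τ hτ X => by
    obtain ⟨z, hz, h1⟩ := h.coc σ hσ τ hτ
    refine (u _ (mul_mem hσ hτ) _ _ fun x => (sc_sim hz).1.bij.1 ?_).symm
    rw [← comm_sc (Θ σ (Θ τ X)).2 hz, ← h1, ← h1, hΘ σ _ hσ, hΘ τ _ hτ]
  have o : ∀ X, Θ 1 X = X := fun X => by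
    obtain ⟨z, hz, h1⟩ := h.one.2
    exact u 1 D.G.one_mem _ _ fun x => by rw [h1, h1, comm_sc X.2 hz]
  refine ⟨Θ, ⟨h.opn, fun σ hσ => ⟨fun X Y => u σ hσ _ _ fun x => ?_, fun t X => u σ hσ _ _ fun x => ?_,
    Function.bijective_iff_has_inverse.2 ⟨Θ σ⁻¹, fun X => ?_, fun X => ?_⟩⟩, m, fun X => ?_⟩,
    fun σ hσ X Y => ⟨fun e => e ▸ hΘ σ X hσ, u σ hσ X Y⟩⟩
  · rw [Submodule.coe_add, Submodule.coe_add, LinearMap.add_apply, LinearMap.add_apply,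
      (hs σ hσ).add, hΘ σ X hσ, hΘ σ Y hσ]
  · rw [Submodule.coe_smul, Submodule.coe_smul, LinearMap.smul_apply, LinearMap.smul_apply,
      (hs σ hσ).smul, hΘ σ X hσ]
  · rw [m _ (inv_mem hσ) _ hσ, inv_mul_cancel, o]
  · rw [m _ hσ _ (inv_mem hσ), mul_inv_cancel, o]
  · have := fd_J
    let b := Module.finBasis Om J
    obtain ⟨H, hH, h1⟩ := Smo.unif hs h.smo b
    obtain ⟨H', hH', h2⟩ := Smo.unif hs h.smo fun i => X.1 (b i)
    refine ⟨H ⊓ H', hH.inf hH', fun σ hσ hG => u σ hG _ _ fun x => ?_⟩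
    rw [← b.sum_repr x]
    simp only [map_sum, map_smul, (hs σ hG).sum, (hs σ hG).smul, h1 σ hσ.1 hG, h2 σ hσ.2 hG]

end JM4x

open JM4x

theorem ED.OK.coch {D : ED} (h : D.OK) (ha : ¬ AniL D.grp) : Coch D.G D.grp := by
  simp only [AniL, not_forall] at ha
  obtain ⟨u, ⟨u1, u2, u3⟩, hu, h1⟩ := ha
  have hs : ∀ σ ∈ D.G, Semi σ (D.f σ) := fun σ hσ => (h.sim σ hσ).toSemi
  obtain ⟨N, n0, n1, n2, -, n3, n4⟩ := exists_log hu h1
  obtain ⟨st, s1, -, s2⟩ := exists_adjoint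
  obtain ⟨Θ, t1, t2⟩ := h.ta.restrict SE fun σ hσ X hX => h.th_lie hσ hX
  obtain ⟨g, g1, g2⟩ := exists_h SE t1 (fun X Y => Lie.br X.2 Y.2)
    (fun σ hσ X Y => by rw [t2 σ hσ, t2 σ hσ, t2 σ hσ]; exact h.th_br hσ _ _)
    (fun X hX e => s2 X (e _ (s1 X hX))) (N := ⟨N, n2 u1⟩) n0 n1
    fun σ hσ => Subtype.ext ((t2 σ hσ _).trans (h.th_eq hσ
      ⟨fun hK => n3 σ _ (hs σ hσ) (u2 σ hK), fun hK => n4 σ _ (hs σ hσ) (u3 σ hσ hK)⟩))
  obtain ⟨c, s, e, c1, c2, c3, -, c4, c5⟩ := exists_coch n0 g2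
  have g3 : ∀ σ ∈ D.G, D.Th σ g.1 g.1 := fun σ hσ => by
    have := h.th hσ g.1
    rwa [← t2 σ hσ, g1 σ hσ] at this
  exact ⟨c, s, e, c1, c2, fun t ht => ⟨c3 g.2 t,
    fun σ hσ => c4 σ _ (hs σ (h.le hσ)) ((g3 σ (h.le hσ)).1 hσ) t (ht σ (h.le hσ)),
    fun σ hσ hK => c5 σ _ (hs σ hσ) ((g3 σ hσ).2 hK) t (ht σ hσ)⟩⟩

theorem FD.OK.coch {D : FD} (h : D.OK) (ha : ¬ AniL D.grp) : Coch D.G D.grp := by
  simp only [AniL, not_forall] at ha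
  obtain ⟨u, ⟨u1, u2, u3⟩, hu, h1⟩ := ha
  have hs : ∀ σ ∈ D.G, Semi σ (D.f σ) := fun σ hσ => (h.sim σ hσ).toSemi
  obtain ⟨N, n0, n1, n2, n3, n4, -⟩ := exists_log hu h1
  obtain ⟨st, s1, s2, s3⟩ := exists_adjoint
  obtain ⟨Θ, t1, t2⟩ := exists_ta h
  have br : ∀ X Y : SD, X.1 * Y.1 - Y.1 * X.1 ∈ SD := fun X Y => ⟨X.2.1.br Y.2.1, fun i => by
    rw [LinearMap.sub_apply, Module.End.mul_apply, Module.End.mul_apply, X.2.2, Y.2.2, map_zero,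
      map_zero, sub_zero]⟩
  obtain ⟨g, g1, g2⟩ := exists_h SD t1 br
    (fun σ hσ X Y => congrArg Subtype.val ((t2 σ hσ _ ⟨_, br (Θ σ X) (Θ σ Y)⟩).2 fun x => by
      have a := (t2 σ hσ X _).1 rfl
      have b := (t2 σ hσ Y _).1 rfl
      simp only [LinearMap.sub_apply, Module.End.mul_apply, a, b, (hs σ hσ).sub]))
    (fun X hX e => s3 X (e _ ⟨s1 X hX.1, s2 X hX.1 hX.2⟩))
    (N := ⟨N, n2 u1, fun i => n3 _ (u2 i)⟩) n0 n1
    fun σ hσ => (t2 σ hσ _ _).2 (n4 σ _ (hs σ hσ) (u3 σ hσ))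
  obtain ⟨c, s, e, c1, c2, c3, c4, c5, -⟩ := exists_coch n0 g2
  exact ⟨c, s, e, c1, c2, fun t ht => ⟨c3 g.2.1 t, fun i => c4 _ (g.2.2 i) t,
    fun σ hσ => c5 σ _ (hs σ hσ) ((t2 σ hσ _ _).1 (g1 σ hσ)) t (ht σ hσ)⟩⟩

end Vale.Agent.P011Z.Cl

end
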