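import Vale.Agent.P011Z.Cl.Gal2
import Vale.Agent.P011.Arith.Landherr
import Vale.Agent.P011Z.Cl.Lan.Fix
import Vale.Agent.P011Z.Cl.Lan.Alg

/-!
Classification of the forms: block Lan.
-/

open Matrix Module

noncomputable section

namespace Vale.Agent.P011Z.Cl

open Vale.Agent.P011.D4 Vale.Agent.P011.D4.Oct Vale.Agent.P011.E6 Vale.Agent.P011.E6.Alb

/-- The theorem of Landherr for central simple algebras with a unitary involution. -/
theorem lan {n : Type} [Fintype n] [DecidableEq n] {G K : Subgroup Gq} {P : Gq → Matrix n n Om}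
    (h : UD G K P) {s : Gq} (hs : s ∈ G) (hsK : s ∉ K) {m t : Matrix n n Om}
    (hm : ∀ τ ∈ K, P τ * m.map τ = m * P τ) (ht : ∀ τ ∈ K, P τ * t.map τ = t * P τ)
    (hms : P s * m.map s = mᵀ * P s) (hts : P s * t.map s = tᵀ * P s) (hm0 : m.det ≠ 0)
    (hd : ∃ z : Om, z ≠ 0 ∧ Fx K z ∧ t.det = z * s z * m.det)
    (hr : ∀ ι γ, Cj ι γ → γ ∈ G → γ ∉ K → ∃ Y : Matrix n n Om, Y.det ≠ 0 ∧
      Yᵀ * (P γ * m.map γ) * Y.map γ = P γ * t.map γ) :
    ∃ y : Matrix n n Om, y.det ≠ 0 ∧ (∀ τ ∈ K, P τ * y.map τ = y * P τ) ∧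
      yᵀ * (P s * m.map s) * y.map s = P s * t.map s := by
  rcases isEmpty_or_nonempty n with hn | hn
  · exact ⟨1, by rw [det_one]; exact one_ne_zero, fun _ _ => Subsingleton.elim _ _,
      Subsingleton.elim _ _⟩
  have := h.opn.nf
  let _ := Lanx.stE h hs hsK
  let _ := Lanx.stA h hs hsK
  have hst : ∀ y : Lanx.fixA K P, ((star y : Lanx.fixA K P) : Matrix n n Om) =
      (Lanx.act P s y)ᵀ := fun _ => rfl
  have hstE : ∀ k : IntermediateField.fixedField K,
      ((star k : IntermediateField.fixedField K) : Om) = s k := fun _ => rfl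
  have : StarModule (IntermediateField.fixedField K) (Lanx.fixA K P) :=
    ⟨fun k y => Subtype.ext (Lanx.st_smul h hs (k : Om) y)⟩
  obtain ⟨b⟩ := Lanx.basis_fixA h
  have : FiniteDimensional (IntermediateField.fixedField K) (Lanx.fixA K P) :=
    Module.Finite.of_basis b
  have hkey : ∀ γ ∈ G, γ ∉ K → ∀ y : Lanx.fixA K P, P γ * (y : Matrix n n Om).map γ =
      ((star y : Lanx.fixA K P) : Matrix n n Om)ᵀ * P γ :=
    fun γ hγ hK y => Lanx.key h hs hsK hγ hK y.2
  have hsa : ∀ y : Lanx.fixA K P, P s * (y : Matrix n n Om).map s = (y : Matrix n n Om)ᵀ * P s →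
      star y = y := fun y hy =>
    Subtype.ext (transpose_injective (Lanx.Rl.uniq (h.ne s hs) (hkey s hs hsK y) hy))
  have hm' : star (⟨m, hm⟩ : Lanx.fixA K P) = ⟨m, hm⟩ := hsa _ hms
  have ht' : star (⟨t, ht⟩ : Lanx.fixA K P) = ⟨t, ht⟩ := hsa _ hts
  obtain ⟨w, hw, hwm⟩ := Lanx.lanA (E := IntermediateField.fixedField K) (Ω := Om)
    (by
      by_contra hcon
      push Not at hcon
      exact hsK (h.opn.mem fun x hx => congrArg Subtype.val (hcon ⟨x, mem_fix.mpr hx⟩)))
    ⟨fun x hx => ⟨⟨x, mem_fix.mpr fun τ hτ => hx (AlgEquiv.ofRingEquiv (f := τ.toRingEquiv)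
      fun k => mem_fix.mp k.2 τ hτ)⟩, rfl⟩, s.toRingEquiv, fun _ => rfl⟩
    (by rw [finrank_eq_card_basis b, Fintype.card_fin, Module.finrank_matrix, finrank_self,
      mul_one, pow_two])
    (Lanx.fixA K P).val (Lanx.span_fixA h) hm' ht' hm0
    (by
      obtain ⟨z, hz, hzK, hz'⟩ := hd
      exact ⟨⟨z, mem_fix.mpr hzK⟩, fun h0 => hz (congrArg Subtype.val h0), hz'⟩)
    (by
      intro s0 hs0
      obtain ⟨ι, hι⟩ := exists_lift (IntermediateField.fixedField K).subtype s0
      obtain ⟨γ, hγ⟩ := exists_cj ι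
      have h1 : s⁻¹ * γ ∈ K := h.opn.mem fun x hx => by
        have h2 : γ x = s x := by
          apply ι.injective
          have h3 : ι x = s0 ⟨x, mem_fix.mpr hx⟩ := hι ⟨x, mem_fix.mpr hx⟩
          have h4 : ι (s x) = s0 (star ⟨x, mem_fix.mpr hx⟩) := hι (star ⟨x, mem_fix.mpr hx⟩)
          rw [hγ, h3, h4, hs0]
          rfl
        rw [AlgEquiv.mul_apply, h2, ← AlgEquiv.mul_apply, inv_mul_cancel, AlgEquiv.one_apply]
      have hγG : γ ∈ G := by
        have h2 := mul_mem hs (h.le h1)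
        rwa [mul_inv_cancel_left] at h2
      have hγK : γ ∉ K := fun h2 => hsK (by
        have h3 := mul_mem h2 (inv_mem h1)
        rwa [_root_.mul_inv_rev, inv_inv, mul_inv_cancel_left] at h3)
      obtain ⟨Y, hY, hY'⟩ := hr ι γ hγ hγG hγK
      obtain ⟨c, hc⟩ := Lanx.herm_scalar h hγG hγK hγ.sq
      have hcj : ∀ X : Matrix n n Om, ((X.map γ).map ι)ᵀ = (X.map ι)ᴴ := fun X => by
        ext i j
        exact hγ (X j i)
      have hdet : ∀ X : Matrix n n Om, X.det ≠ 0 → IsUnit (X.map ι).det := fun X hX => by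
        have h2 : ι X.det = (X.map ι).det := RingHom.map_det ι X
        rw [← h2]
        exact Ne.isUnit ((map_ne_zero ι).mpr hX)
      have hW : IsUnit ((P γ).map ι)ᵀ.det := by
        rw [det_transpose]
        exact hdet _ (h.ne γ hγG)
      have hWc : ((P γ).map ι)ᵀᴴ = ι c • ((P γ).map ι)ᵀ := by
        ext i j
        have h2 : γ (P γ i j) = c * P γ j i := congrFun (congrFun hc i) j
        exact (hγ (P γ i j)).symm.trans ((congrArg ι h2).trans (map_mul ι _ _))
      have hWs : ∀ y : Lanx.fixA K P, ((y : Matrix n n Om).map ι)ᴴ * ((P γ).map ι)ᵀ =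
          ((P γ).map ι)ᵀ * ((star y : Lanx.fixA K P) : Matrix n n Om).map ι := fun y => by
        have h2 := congrArg (fun X : Matrix n n Om => (X.map ι)ᵀ) (hkey γ hγG hγK y)
        simp only [Matrix.map_mul, transpose_mul, hcj] at h2
        exact h2
      refine ⟨ι.mapMatrix.comp ((Lanx.fixA K P).val : Lanx.fixA K P →+* Matrix n n Om),
        (((P γ).map ι)ᵀ)⁻¹, (((P γ).map ι)ᵀ)⁻¹ * (Y.map ι)ᴴ * ((P γ).map ι)ᵀ, fun k => ?_,
        Lanx.span_map ι _ (Lanx.span_fixA h), isUnit_nonsing_inv_iff.mpr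
          ((isUnit_iff_isUnit_det _).mpr hW), fun y => ?_, ?_, ?_⟩
      · change (algebraMap (IntermediateField.fixedField K) (Matrix n n Om) k).map ι = _
        rw [algebraMap_eq_diagonal, diagonal_map (map_zero ι), scalar_apply]
        congr 1
        funext i
        exact hι k
      · change ((star y : Lanx.fixA K P) : Matrix n n Om).map ι * _ =
          _ * ((y : Matrix n n Om).map ι)ᴴ
        rw [← nonsing_inv_mul_cancel_left _
          (((star y : Lanx.fixA K P) : Matrix n n Om).map ι * _) hW, ← mul_assoc _ _ (_)⁻¹,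
          ← hWs, mul_nonsing_inv_cancel_right _ _ hW]
      · refine ((isUnit_nonsing_inv_iff.mpr ((isUnit_iff_isUnit_det _).mpr hW)).mul ?_).mul
          ((isUnit_iff_isUnit_det _).mpr hW)
        rw [isUnit_iff_isUnit_det, det_conjTranspose]
        exact (hdet Y hY).star
      · refine Lanx.cx_conj hW hWc ?_
        have h2 := hkey γ hγG hγK ⟨m, hm⟩
        have h3 := hkey γ hγG hγK ⟨t, ht⟩
        rw [hm'] at h2
        rw [ht'] at h3
        change P γ * m.map γ = mᵀ * P γ at h2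
        change P γ * t.map γ = tᵀ * P γ at h3
        rw [h2, h3] at hY'
        have h4 := congrArg (fun X : Matrix n n Om => (X.map ι)ᵀ) hY'
        simp only [Matrix.map_mul, transpose_mul, hcj, transpose_map, transpose_transpose] at h4
        rw [mul_assoc, mul_assoc]
        rw [mul_assoc] at h4
        exact h4)
  refine ⟨(star w : Lanx.fixA K P), ?_, (star w).2, ?_⟩
  · exact ((isUnit_iff_isUnit_det _).mp (hw.star.map (Lanx.fixA K P).val)).ne_zero
  · have h1 := hkey s hs hsK (star w)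
    rw [star_star] at h1
    have h2 : (w : Matrix n n Om) * m * ((star w : Lanx.fixA K P) : Matrix n n Om) = t :=
      congrArg Subtype.val hwm
    rw [hms, hts, mul_assoc, mul_assoc, h1, ← h2, transpose_mul, transpose_mul]
    simp only [mul_assoc]

end Vale.Agent.P011Z.Cl

end
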