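import Vale.Agent.P011Z.Cl.Lie
import Vale.Agent.P011Z.Cl.Pf
import Vale.Agent.P011Z.Cl.Lie6.E

/-!
Classification of the forms: block Lie6.
-/

open Matrix Module

noncomputable section

namespace Vale.Agent.P011Z.Cl

open Vale.Agent.P011.D4 Vale.Agent.P011.D4.Oct Vale.Agent.P011.E6 Vale.Agent.P011.E6.Alb

/-- The nilradical as a subspace. -/
theorem exists_np : ∃ S : Submodule Om (Module.End Om J), ∀ X, X ∈ S ↔ Np X :=
  ⟨Lie6x.LL ⊓ Lie6x.blk (Set.Ici 1), fun _ => Lie6x.np_iff.symm⟩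

theorem Np.cube {X : Module.End Om J} (h : Np X) : X * X * X = 0 := Lie6x.np_three h h h

theorem Np.ep {X : Module.End Om J} (h : Np X) : X * EpL = 0 ∧ EpL * X = 0 := Lie6x.np_mul_ep h

theorem trace_ep_em : LinearMap.trace Om J (EpL * EmL) = 6 := Lie6x.trace_ef

theorem rank_em : finrank Om (LinearMap.range EmL) = 6 ∧ finrank Om (LinearMap.range EpL) = 6 :=
  Lie6x.rank'

theorem lie_eq_ep {X : Module.End Om J} (hX : Lie X) (h1 : ∀ x, um x = 0 → X x = 0)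
    (h2 : ∀ x, om6 (X x) = 0 ∧ um (X x) = 0) : ∃ a : Om, X = a • EpL := Lie6x.eq_ep hX h1 h2

theorem lie_eq_em {X : Module.End Om J} (hX : Lie X) (h1 : ∀ x, up x = 0 → X x = 0)
    (h2 : ∀ x, om6 (X x) = 0 ∧ up (X x) = 0) : ∃ a : Om, X = a • EmL := Lie6x.eq_em hX h1 h2

/-- The trace form is nondegenerate. -/
theorem kill {Z : Module.End Om J} (hZ : Lie Z) (h0 : Z ≠ 0) :
    ∃ W, Lie W ∧ LinearMap.trace Om J (Z * W) ≠ 0 := Lie6x.kill' hZ h0

/-- The centralizer of the nilradical. -/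
theorem np_cen {Z : Module.End Om J} (hZ : Lie Z) (h : ∀ X, Np X → X * Z = Z * X) :
    ∃ a : Om, Z = a • EpL := Lie6x.cen hZ h

/-- The conjugates of the lowest root element span the Lie algebra. -/
theorem np_ne {E : Module.End Om J} (hE : Lie E) (h0 : E ≠ 0) :
    ∃ X, Np X ∧ LinearMap.trace Om J (ex3 X * EmL * ex3 (-X) * E) ≠ 0 := Lie6x.ne' hE h0

/-- The big cell. -/
theorem repos {E : Module.End Om J} (hE : Lie E) (hr : finrank Om (LinearMap.range E) ≤ 6)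
    (ht : LinearMap.trace Om J (EpL * E) ≠ 0) :
    ∃ (X : Module.End Om J) (a : Om), Np X ∧ a ≠ 0 ∧ E = a • (ex3 X * EmL * ex3 (-X)) :=
  Lie6x.repos' hE hr ht

/-- Elements of degree one. -/
def Dg1 (X : Module.End Om J) : Prop := Np X ∧ ∀ x, up x = 0 → om6 x = 0 → up (X x) = 0

/-- The root elements of degree one: a polynomial family which spans. -/
theorem dg1_family : ∃ F : (Fin 3 → I6 → Om) → Module.End Om J, PolM F ∧
    (∀ u, Dg1 (F u) ∧ F u * (F u * EmL - EmL * F u) = (F u * EmL - EmL * F u) * F u) ∧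
    ∀ X, Dg1 X → X ∈ Submodule.span Om (Set.range F) :=
  ⟨_, Lie6x.gg_pol, fun _ => ⟨Lie6x.dg1_iff.2 ⟨Lie6x.gg_lie _ _ _, Lie6x.gg_blk _ _ _⟩,
    Lie6x.gg_br _ _ _⟩, fun _ h => Lie6x.gg_span (Lie6x.dg1_iff.1 h).1 (Lie6x.dg1_iff.1 h).2⟩

theorem dg1_ne : ∃ X, Dg1 X ∧ X ≠ 0 :=
  ⟨_, Lie6x.dg1_iff.2 ⟨Lie6x.gg_lie _ _ _, Lie6x.gg_blk _ _ _⟩, Lie6x.gg_ne⟩

end Vale.Agent.P011Z.Cl

end
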