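import Vale.Agent.P011Z.Cl.Gal2
import Vale.Agent.P011.W.Eich
import Vale.Agent.P011Z.Cl.Nrd.Cyc

/-!
Classification of the forms: block Nrd.
-/

open Matrix Module

noncomputable section

namespace Vale.Agent.P011Z.Cl

open Vale.Agent.P011.D4 Vale.Agent.P011.D4.Oct Vale.Agent.P011.E6 Vale.Agent.P011.E6.Alb

namespace Nrdx

variable {G N : Subgroup Gq} {χ : Gq → Fin 3} {ρ : Gq}

theorem chi_one (hχ : Chi G χ) : χ 1 = 0 := by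
  have h := hχ.mul 1 G.one_mem 1 G.one_mem
  rw [mul_one] at h
  exact left_eq_add.mp h

theorem relIndex_eq (hχ : Chi G χ) (hN : ∀ σ, σ ∈ N ↔ σ ∈ G ∧ χ σ = 0) (hρ : ρ ∈ G)
    (h1 : χ ρ = 1) : N.relIndex G = 3 := by
  let f : G →* Multiplicative (Fin 3) :=
    { toFun := fun σ => Multiplicative.ofAdd (χ σ)
      map_one' := congrArg Multiplicative.ofAdd (chi_one hχ)
      map_mul' := fun σ τ => congrArg Multiplicative.ofAdd (hχ.mul σ σ.2 τ τ.2) }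
  have hk : N.subgroupOf G = f.ker := by
    ext σ
    rw [Subgroup.mem_subgroupOf, hN, MonoidHom.mem_ker]
    exact ⟨fun h => congrArg Multiplicative.ofAdd h.2, fun h => ⟨σ.2, congrArg Multiplicative.toAdd h⟩⟩
  have hs : f.range = ⊤ := by
    rw [MonoidHom.range_eq_top]
    intro j
    have h2 : χ (ρ * ρ) = 2 := by rw [hχ.mul ρ hρ ρ hρ, h1]; rfl
    have hj : ∀ k : Fin 3, k = 0 ∨ k = 1 ∨ k = 2 := by decide
    rcases hj (Multiplicative.toAdd j) with h | h | h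
    · exact ⟨1, congrArg Multiplicative.ofAdd ((chi_one hχ).trans h.symm)⟩
    · exact ⟨⟨ρ, hρ⟩, congrArg Multiplicative.ofAdd (h1.trans h.symm)⟩
    · exact ⟨⟨ρ * ρ, G.mul_mem hρ hρ⟩, congrArg Multiplicative.ofAdd (h2.trans h.symm)⟩
  rw [Subgroup.relIndex, hk, Subgroup.index_ker, hs, Subgroup.card_top]
  simp

theorem fx_rho (hχ : Chi G χ) (hN : ∀ σ, σ ∈ N ↔ σ ∈ G ∧ χ σ = 0) (hρ : ρ ∈ G) {x : Om}
    (hx : Fx N x) : Fx N (ρ x) := by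
  intro σ hσ
  obtain ⟨hσG, hσ0⟩ := (hN σ).mp hσ
  have hG : ρ⁻¹ * σ * ρ ∈ G := G.mul_mem (G.mul_mem (G.inv_mem hρ) hσG) hρ
  have h0 : χ (ρ⁻¹ * σ * ρ) = 0 := by
    have h1 := hχ.mul ρ⁻¹ (G.inv_mem hρ) ρ hρ
    rw [inv_mul_cancel, chi_one hχ] at h1
    rw [hχ.mul _ (G.mul_mem (G.inv_mem hρ) hσG) ρ hρ, hχ.mul _ (G.inv_mem hρ) σ hσG, hσ0, add_zero,
      ← h1]
  have h2 := hx _ ((hN _).mpr ⟨hG, h0⟩)
  have h3 : σ * ρ = ρ * (ρ⁻¹ * σ * ρ) := by group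
  calc σ (ρ x) = (σ * ρ) x := rfl
    _ = ρ ((ρ⁻¹ * σ * ρ) x) := by rw [h3]; rfl
    _ = ρ x := by rw [h2]

theorem rho_cube (hχ : Chi G χ) (hN : ∀ σ, σ ∈ N ↔ σ ∈ G ∧ χ σ = 0) (hρ : ρ ∈ G)
    (h1 : χ ρ = 1) {x : Om} (hx : Fx N x) : ρ (ρ (ρ x)) = x := by
  refine hx (ρ * ρ * ρ) ((hN _).mpr ⟨G.mul_mem (G.mul_mem hρ hρ) hρ, ?_⟩)
  rw [hχ.mul _ (G.mul_mem hρ hρ) ρ hρ, hχ.mul ρ hρ ρ hρ, h1]
  rfl

theorem fx_of_rho (hχ : Chi G χ) (hN : ∀ σ, σ ∈ N ↔ σ ∈ G ∧ χ σ = 0) (hρ : ρ ∈ G)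
    (h1 : χ ρ = 1) {x : Om} (hx : Fx N x) (hr : ρ x = x) : Fx G x := by
  intro σ hσ
  have hj : ∀ k : Fin 3, k = 0 ∨ k + 1 = 0 ∨ k + 1 + 1 = 0 := by decide
  rcases hj (χ σ) with h | h | h
  · exact hx σ ((hN _).mpr ⟨hσ, h⟩)
  · have h2 : σ (ρ x) = x := hx (σ * ρ) ((hN _).mpr ⟨G.mul_mem hσ hρ, by
      rw [hχ.mul σ hσ ρ hρ, h1, h]⟩)
    rwa [hr] at h2
  · have h2 : σ (ρ (ρ x)) = x := hx (σ * ρ * ρ) ((hN _).mpr ⟨G.mul_mem (G.mul_mem hσ hρ) hρ, by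
      rw [hχ.mul _ (G.mul_mem hσ hρ) ρ hρ, hχ.mul σ hσ ρ hρ, h1, h]⟩)
    rwa [hr, hr] at h2

end Nrdx

open IntermediateField in
/-- The reduced norm of a cyclic algebra of degree three is surjective. -/
theorem nrd3 {G : Subgroup Gq} (hG : Opn G) {χ : Gq → Fin 3} (hχ : Chi G χ) {ρ : Gq} (hρ : ρ ∈ G)
    (h1 : χ ρ = 1) {τ μ : Om} (hτ : Fx G τ) (hτ0 : τ ≠ 0) (hμ : Fx G μ) (hμ0 : μ ≠ 0) :
    ∃ d a b : Om, (∀ σ ∈ G, χ σ = 0 → σ d = d ∧ σ a = a ∧ σ b = b) ∧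
      d * ρ d * ρ (ρ d) - τ * (d * a * b + ρ (d * a * b) + ρ (ρ (d * a * b))) +
        τ * (a * ρ a * ρ (ρ a)) + τ ^ 2 * (b * ρ b * ρ (ρ b)) = μ := by
  obtain ⟨N, hNo, hN⟩ := Chi.ker hG hχ
  have hNG : N ≤ G := fun σ hσ => ((hN σ).mp hσ).1
  have hle : fixedField G ≤ fixedField N := fun x hx =>
    mem_fix.mpr fun σ hσ => mem_fix.mp hx σ (hNG hσ)
  have hE : NumberField (fixedField G) := hG.nf
  have hmem : ∀ x : extendScalars hle, Fx N (x : Om) := fun x => mem_fix.mp x.2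
  have hd : finrank (fixedField G) (extendScalars hle) = 3 := by
    have h2 := finrank_bot_mul_relfinrank hle
    rw [relfinrank_eq_finrank_of_le hle, hG.finrank, hNo.finrank,
      ← Subgroup.relIndex_mul_index hNG, Nrdx.relIndex_eq hχ hN hρ h1, mul_comm] at h2
    exact Nat.eq_of_mul_eq_mul_right (Nat.pos_of_ne_zero hG.finiteIndex.index_ne_zero) h2
  let r : extendScalars hle →ₐ[fixedField G] extendScalars hle :=
    { toFun := fun x => ⟨ρ x, mem_fix.mpr (Nrdx.fx_rho hχ hN hρ (hmem x))⟩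
      map_one' := Subtype.ext (map_one ρ)
      map_mul' := fun x y => Subtype.ext (map_mul ρ (x : Om) y)
      map_zero' := Subtype.ext (map_zero ρ)
      map_add' := fun x y => Subtype.ext (map_add ρ (x : Om) y)
      commutes' := fun c => Subtype.ext (mem_fix.mp c.2 ρ hρ) }
  have hne : ∃ l, r l ≠ l := by
    by_contra h
    push Not at h
    have h2 : ρ ∈ N := hNo.mem fun x hx => congrArg Subtype.val (h ⟨x, mem_fix.mpr hx⟩)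
    have h3 := ((hN ρ).mp h2).2
    rw [h1] at h3
    exact absurd h3 (by decide)
  obtain ⟨d, a, b, h⟩ := Nrdx.exists_nrd (r := r) (t := ⟨τ, hle (mem_fix.mpr hτ)⟩)
    (Subtype.ext (hτ ρ hρ)) (fun h => hτ0 (congrArg Subtype.val h))
    (fun x => Subtype.ext (Nrdx.rho_cube hχ hN hρ h1 (hmem x))) hd
    (fun x hx => ⟨⟨x, mem_fix.mpr (Nrdx.fx_of_rho hχ hN hρ h1 (hmem x)
      (congrArg Subtype.val hx))⟩, rfl⟩) hne ⟨μ, mem_fix.mpr hμ⟩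
    (fun h => hμ0 (congrArg Subtype.val h))
  refine ⟨d, a, b, fun σ hσ h0 => ?_, congrArg Subtype.val h⟩
  have hσN : σ ∈ N := (hN σ).mpr ⟨hσ, h0⟩
  exact ⟨hmem d σ hσN, hmem a σ hσN, hmem b σ hσN⟩

end Vale.Agent.P011Z.Cl

end
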