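import Vale.Agent.P011Z.Cl.Dat
import Vale.Agent.P011Z.Cl.Pf
import Vale.Agent.P011Z.Cl.Lan

/-!
Classification of the forms: block O2a.
-/

open Matrix Module

noncomputable section

namespace Vale.Agent.P011Z.Cl

open Vale.Agent.P011.D4 Vale.Agent.P011.D4.Oct Vale.Agent.P011.E6 Vale.Agent.P011.E6.Alb

open Classical in
/-- The matrices of the unitary datum. -/
def pt (K : Subgroup Gq) (P : Gq → Matrix I6 I6 Om) (σ : Gq) : Matrix I6 I6 Om :=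
  if σ ∈ K then P σ else j6 * P σ

/-- The matrix with the columns `up (z i)`, `um (z i)`. -/
def qz (z : Fin 3 → J) : Matrix I6 I6 Om := fun r q => ![up (z q.1) r, um (z q.1) r] q.2

/-- Block diagonal matrices. -/
def bk (C : Fin 3 → Matrix (Fin 2) (Fin 2) Om) : Matrix I6 I6 Om :=
  fun q r => if q.1 = r.1 then C q.1 q.2 r.2 else 0

/-- Three vectors in the two sixes which are permuted by `K`. -/
structure Z6 (D : ED) (χ : Gq → Fin 3) (z : Fin 3 → J) : Prop where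
  om : ∀ i, om6 (z i) = 0
  eqv : ∀ τ ∈ D.K, ∀ i, ∃ t : Om, D.f τ (z i) = t • z (i + χ τ)
  det : (qz z).det ≠ 0

/-- The matrix `m` turns the Gram matrix into the block diagonal matrix with blocks `e i • j2`. -/
def Gm (s : Gq) (B : Matrix (Fin 2) (Fin 2) Om) (P : Matrix I6 I6 Om) (z : Fin 3 → J)
    (e : Fin 3 → Om) (m : Matrix I6 I6 Om) : Prop :=
  (qz z)ᵀ * (j6 * P) * (m * qz z).map s * bk (fun _ => Bᵀ) = bk fun i => e i • j2

variable {D : ED} {B : Gq → Matrix (Fin 2) (Fin 2) Om} {P : Gq → Matrix I6 I6 Om} {μ : Gq → Om}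
  {χ : Gq → Fin 3}

namespace O2ax

open Pfx

theorem uniq {σ : Gq} {B C : Matrix (Fin 2) (Fin 2) Om} {P Q : Matrix I6 I6 Om} {μ ν c : Om}
    (hμ : μ ≠ 0) (h : μ ^ 2 = B.det * P.det) (hc : c ≠ 0)
    (he : ∀ x, gl6 σ C Q ν x = c • gl6 σ B P μ x) :
    ∃ t r : Om, t ≠ 0 ∧ C = t • B ∧ Q = r • P := by
  obtain ⟨t, ht, h1, h2, -⟩ := gl6_unique (σ := σ) (B := B) (P := c • P) (μ := c ^ 3 * μ)
    (C := C) (Q := Q) (ν := ν) (mul_ne_zero (pow_ne_zero 3 hc) hμ) (by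
      have h3 : (c • P).det = c ^ 6 * P.det := by
        rw [det_smul]
        rfl
      rw [h3]
      linear_combination c ^ 6 * h) fun x => by rw [he, smul_gl6 hc]
  refine ⟨t, t⁻¹ * c, ht, h1, ?_⟩
  rw [← smul_smul, h2, smul_smul, inv_mul_cancel₀ ht, one_smul]

theorem coc (h : D.OK) (h6 : D.S6 B P μ) {σ τ : Gq} (hσ : σ ∈ D.G) (hτ : τ ∈ D.K) :
    ∃ t r : Om, t ≠ 0 ∧ B σ * (B τ).map σ = t • B (σ * τ) ∧
      P σ * (P τ).map σ = r • P (σ * τ) := by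
  obtain ⟨c, hc⟩ := h.coc σ hσ τ hτ
  have hm := mul_mem hσ (h.le hτ)
  refine uniq (σ := σ * τ) (ν := μ σ * σ (μ τ)) (h6.ne _ hm) (h6.det _ hm)
    (Datx.ne_zero (h.sim σ hσ).toSemi (h.sim τ (h.le hτ)).toSemi hc) fun x => ?_
  rw [← gl6_gl6, ← h6.eq _ hσ, ← h6.eq _ (h.le hτ), ← h6.eq _ hm, hc]

theorem j6_j6 (A : Matrix I6 I6 Om) : j6 * (j6 * A) = -A := by
  rw [← Matrix.mul_assoc, j6_props.2.1, Matrix.neg_mul, Matrix.one_mul]

theorem cod (h : D.OK) (h6 : D.S6 B P μ) {σ τ : Gq} (hσ : σ ∈ D.G) (hτ : τ ∈ D.G)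
    (hK : τ ∉ D.K) : ∃ t r : Om, t ≠ 0 ∧ B σ * (B τ).map σ = t • B (σ * τ) ∧
      j6 * (P τ).map σ = r • ((P σ)ᵀ * (j6 * P (σ * τ))) := by
  obtain ⟨c, hc⟩ := h.cod σ hσ τ hτ hK
  have hm := mul_mem hσ hτ
  obtain ⟨hB, hP⟩ := dets (h6.ne σ hσ) (h6.det σ hσ)
  have he : D.f σ = gl6 σ (B σ) (P σ) (μ σ) := funext (h6.eq σ hσ)
  obtain ⟨t, r, ht, h1, h2⟩ := uniq (σ := σ * τ) (C := ((B σ).det⁻¹ • B σ) * (B τ).map σ)
    (Q := -(j6 * (P σ)ᵀ⁻¹ * j6) * (P τ).map σ) (ν := (μ σ)⁻¹ * σ (μ τ)) (h6.ne _ hm)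
    (h6.det _ hm) (Datx.ne_zero (h.sim σ hσ).toSemi.dag (h.sim τ hτ).toSemi hc) fun x => by
      rw [← gl6_gl6, ← dag_gl6 (h6.ne σ hσ) (h6.det σ hσ), ← he, ← h6.eq _ hτ, ← h6.eq _ hm, hc]
  refine ⟨(B σ).det * t, r, mul_ne_zero hB ht, ?_, ?_⟩
  · rw [← smul_smul, ← h1, Matrix.smul_mul, smul_smul, mul_inv_cancel₀ hB, one_smul]
  · have p1 : (P σ)ᵀ * (P σ)ᵀ⁻¹ = 1 :=
      mul_nonsing_inv _ (by rw [det_transpose]; exact Ne.isUnit hP)
    rw [← Matrix.mul_smul, ← Matrix.mul_smul, ← h2]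
    simp only [Matrix.neg_mul, Matrix.mul_neg, Matrix.mul_assoc, j6_j6, neg_neg]
    rw [← Matrix.mul_assoc (P σ)ᵀ, p1, Matrix.one_mul]

theorem smo (h : D.OK) : ∃ H, Opn H ∧ ∀ σ ∈ H, σ ∈ D.K → ∀ x, D.f σ x = aj σ x := by
  have := fd_J
  let b := Module.finBasis Om J
  have h0 := ta_aj h.opn
  obtain ⟨H, hH, h1⟩ := Smo.unif h.pa.semi h.smo b
  obtain ⟨H', hH', h2⟩ := Smo.unif h0.semi h0.smo b
  refine ⟨H ⊓ H', hH.inf hH', fun σ hσ hK x => ?_⟩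
  rw [← b.sum_repr x, (h.pa.semi σ hK).sum, (h0.semi σ hK).sum]
  refine Finset.sum_congr rfl fun i _ => ?_
  rw [(h.pa.semi σ hK).smul, (h0.semi σ hK).smul, h1 σ hσ.1 hK, h2 σ hσ.2 hK]

theorem pt_K {K : Subgroup Gq} {σ : Gq} (h : σ ∈ K) : pt K P σ = P σ := if_pos h

theorem pt_nK {K : Subgroup Gq} {σ : Gq} (h : σ ∉ K) : pt K P σ = j6 * P σ := if_neg h

theorem bk_d (C : Fin 3 → Matrix (Fin 2) (Fin 2) Om) (i : Fin 3) (a b : Fin 2) :
    bk C (i, a) (i, b) = C i a b := if_pos rfl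

theorem bk_mul (C E : Fin 3 → Matrix (Fin 2) (Fin 2) Om) :
    bk C * bk E = bk fun i => C i * E i := by
  ext ⟨i, a⟩ ⟨j, b⟩
  by_cases h : i = j
  · subst h
    simp [bk, mul_apply, Fintype.sum_prod_type]
  · simp [bk, mul_apply, Fintype.sum_prod_type, h]

theorem bk_det (C : Fin 3 → Matrix (Fin 2) (Fin 2) Om) : (bk C).det = ∏ i, (C i).det := by
  rw [← det_blockDiagonal, ← det_submatrix_equiv_self (Equiv.prodComm (Fin 3) (Fin 2))]
  rfl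

theorem j6_bk : j6 = bk fun _ => j2 := rfl

theorem j2_j2 : j2 * j2 = -1 := by
  ext a b
  fin_cases a <;> fin_cases b <;> simp [j2]

theorem j2_det : j2.det = 1 := by simp [j2]

/-- The octonion of the standard vectors. -/
def y0 : O := zorn 0 0 (Pi.single 0 1) (Pi.single 0 1)

theorem norm_y0 : norm y0 = -1 := by
  rw [norm_z, y0, ZDx.zp_zorn, ZDx.za_zorn, ZDx.zb_zorn]
  simp

theorem y0_ne : y0 ≠ 0 := fun h => by
  have h1 := norm_y0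
  rw [h, Oct.norm_zero] at h1
  simp at h1

theorem six_st (i : Fin 3) : up (ins i y0) = Pi.single (i, 0) 1 ∧ om6 (ins i y0) = 0 ∧
    um (ins i y0) = Pi.single (i, 1) 1 := by
  have h1 : ∀ j, yb (sl (ins i y0) j) = 0 := fun j => by
    rw [Prcx.sl_ins]
    split_ifs
    · ext a b
      fin_cases a <;> fin_cases b <;> simp [yb, y0, ZDx.zp_zorn, ZDx.zm_zorn, ZDx.za_zorn, ZDx.zb_zorn]
    · simpa using ZDx.yb_smul 0 0
  refine ⟨ZDx.i6_ext (fun j => ?_) fun j => ?_, ZDx.m6_ext (fun j a b => ?_) (fun j a b => ?_)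
    fun j a b => ?_, ZDx.i6_ext (fun j => ?_) fun j => ?_⟩
  · rw [ZDx.up_0, Prcx.sl_ins]
    split_ifs with h <;> simp [y0, ZDx.za_zorn, ZDx.za_zero, h]
  · rw [ZDx.up_1, Prcx.sl_ins]
    split_ifs with h <;> simp [y0, ZDx.zb_zorn, ZDx.zb_zero]
  · rw [ZDx.om6_d, Prcx.dg_ins, zero_mul, Matrix.zero_apply]
  · rw [ZDx.om6_u, h1, Matrix.zero_apply, Matrix.zero_apply]
  · rw [ZDx.om6_l, h1, Matrix.zero_apply, Matrix.zero_apply, neg_zero]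
  · rw [ZDx.um_0, Prcx.sl_ins]
    split_ifs with h <;> simp [y0, ZDx.za_zorn, ZDx.za_zero]
  · rw [ZDx.um_1, Prcx.sl_ins]
    split_ifs with h <;> simp [y0, ZDx.zb_zorn, ZDx.zb_zero, h]

theorem adj_st (i : Fin 3) : adj (ins i y0) = ee i := by
  have h1 : ∀ i j : Fin 3, ¬ (j + 1 = i ∧ j + 2 = i) := by decide
  refine j_ext (fun j => ?_) fun j => ?_
  · rw [dg_adj, Prcx.dg_ins, Prcx.sl_ins, Prcx.dg_ee, zero_mul]
    split_ifs
    · rw [norm_y0, zero_sub, neg_neg]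
    · rw [Oct.norm_zero, sub_zero]
  · rw [sl_adj, Prcx.dg_ins, Prcx.sl_ins, Prcx.sl_ins, Prcx.sl_ee, zero_smul, sub_zero]
    split_ifs with h2 h3
    · exact absurd ⟨h2, h3⟩ (h1 i j)
    · rw [mul_zero, star_zero]
    · rw [zero_mul, star_zero]
    · rw [zero_mul, star_zero]

/-- A similarity which permutes the standard vectors permutes the frame. -/
theorem prm_of {σ : Gq} {f : J → J} {π : Equiv.Perm (Fin 3)} (hf : Sim σ f)
    (h : ∀ i, ∃ t : Om, f (ins i y0) = t • ins (π i) y0) : Prm π f := by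
  obtain ⟨l, hl0, hl⟩ := hf.mult
  have h1 : Prm π (dag σ f) := fun i => by
    obtain ⟨t, ht⟩ := h i
    have h2 := adj_sim hf.toSemi hl (ins i y0)
    rw [ht, adj_smul, adj_st, adj_st, eq_comm, ← eq_inv_smul_iff₀ hl0, smul_smul] at h2
    exact ⟨_, h2⟩
  obtain ⟨w, hw, h2⟩ := h1.dag hf.dag
  have h3 := Prm.comp (sc_sim hw).1.toSemi (sc_sim hw).2 h1
  rw [one_mul] at h3
  intro i
  obtain ⟨t, ht⟩ := h3 i
  exact ⟨t, by rw [← dag_dag hf.toSemi, h2]; exact ht⟩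

theorem om6_gl6 {σ : Gq} {B : Matrix (Fin 2) (Fin 2) Om} {P : Matrix I6 I6 Om} {μ : Om} {x : J}
    (hx : om6 x = 0) : om6 (gl6 σ B P μ x) = 0 := by
  rw [(six_gl6 x).2.1, hx, mp_zero, Matrix.mul_zero, Matrix.zero_mul, smul_zero]

theorem om6_gl6' {σ : Gq} {B : Matrix (Fin 2) (Fin 2) Om} {P : Matrix I6 I6 Om} {μ : Om}
    (hμ : μ ≠ 0) (h : μ ^ 2 = B.det * P.det) {x : J} (hx : om6 (gl6 σ B P μ x) = 0) :
    om6 x = 0 := by
  rw [(six_gl6 x).2.1, smul_eq_zero_iff_right hμ] at hx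
  have h1 := mid_cancel (dets hμ h).2 ((om6 x).map σ)
  rw [hx, Matrix.mul_zero, Matrix.zero_mul] at h1
  have h2 := congrArg (fun A : Matrix I6 I6 Om => A.map ⇑σ⁻¹) h1
  simp only [mp_zero, mp_mp, inv_mul_cancel, mp_one] at h2
  exact h2.symm

theorem gl6_mu {σ : Gq} {B : Matrix (Fin 2) (Fin 2) Om} {P : Matrix I6 I6 Om} (μ ν : Om) {x : J}
    (hx : om6 x = 0) : gl6 σ B P μ x = gl6 σ B P ν x :=
  six_ext ((six_gl6 x).1.trans (six_gl6 x).1.symm) ((om6_gl6 hx).trans (om6_gl6 hx).symm)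
    ((six_gl6 x).2.2.trans (six_gl6 x).2.2.symm)

theorem cmp_single (σ : Gq) (q : I6) : σ ∘ (Pi.single q 1 : I6 → Om) = Pi.single q 1 := by
  funext r
  simp [Pi.single_apply]

theorem bk_single (C : Fin 3 → Matrix (Fin 2) (Fin 2) Om) (i : Fin 3) (a : Fin 2) :
    bk C *ᵥ Pi.single (i, a) 1 =
      C i 0 a • (Pi.single (i, 0) 1 : I6 → Om) + C i 1 a • (Pi.single (i, 1) 1 : I6 → Om) := by
  refine ZDx.i6_ext (fun j => ?_) fun j => ?_ <;> by_cases h : j = i <;> simp [bk, h]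

theorem gl6_st {σ : Gq} {B : Matrix (Fin 2) (Fin 2) Om} {M : Matrix I6 I6 Om} {μ : Om}
    {e : Fin 3 → Om} (h : M * bk (fun _ => Bᵀ) = bk fun i => e i • 1) (i : Fin 3) :
    gl6 σ B M μ (ins i y0) = e i • ins i y0 := by
  have h1 := fun a => congrArg (fun A : Matrix I6 I6 Om => A *ᵥ Pi.single (i, a) 1) h
  simp only [← mulVec_mulVec, bk_single, transpose_apply] at h1
  refine six_ext ?_ ?_ ?_
  · rw [(six_gl6 _).1, six_lin.1.map_smul, (six_st i).1, (six_st i).2.2, cmp_single, cmp_single,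
      h1]
    simp
  · rw [om6_gl6 (six_st i).2.1, six_lin.2.2.map_smul, (six_st i).2.1, smul_zero]
  · rw [(six_gl6 _).2.2, six_lin.2.1.map_smul, (six_st i).1, (six_st i).2.2, cmp_single,
      cmp_single, h1]
    simp

theorem qz_st {z : Fin 3 → J} (hz : ∀ i, om6 (z i) = 0) (ν : Om) (i : Fin 3) :
    gl6 1 1 (qz z) ν (ins i y0) = z i := by
  refine six_ext ?_ ?_ ?_
  · rw [(six_gl6 _).1, (six_st i).1, (six_st i).2.2, cmp_one, cmp_one]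
    funext r
    simp [qz]
  · rw [om6_gl6 (six_st i).2.1, hz]
  · rw [(six_gl6 _).2.2, (six_st i).1, (six_st i).2.2, cmp_one, cmp_one]
    funext r
    simp [qz]

/-- The function which has to be nonzero. -/
def pp (z w : Fin 3 → J) : Om := (qz z).det * ∏ i, tf (z i) (w i)

theorem pp_pol {V : Type} [AddCommGroup V] [Module Om V] {g k : V → Fin 3 → J}
    (hg : ∀ i, PolM fun x => g x i) (hk : ∀ i, PolM fun x => k x i) :
    Pol fun x => pp (g x) (k x) := by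
  refine (Pol.det fun r q => ?_).mul (Pol.prod _ fun i _ => Pol.tf (hg i) (hk i))
  obtain ⟨i, a⟩ := q
  fin_cases a
  · exact hg i (LinearMap.proj r ∘ₗ six_lin.1.mk' _)
  · exact hg i (LinearMap.proj r ∘ₗ six_lin.2.1.mk' _)

theorem pp_st : pp (fun i => ins i y0) (fun i => ins i y0) ≠ 0 := by
  have h1 : qz (fun i => ins i y0) = 1 := by
    ext r ⟨i, a⟩
    fin_cases a <;> simp [qz, six_st, Pi.single_apply, Matrix.one_apply]
  have h2 : ∀ i, tf (ins i y0) (ins i y0) = -2 := fun i => by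
    rw [tf_six, (six_st i).1, (six_st i).2.1, (six_st i).2.2, single_dotProduct,
      single_dotProduct, (ZDx.j6_mulVec _ i).1, (ZDx.j6_mulVec _ i).2]
    simp
    norm_num
  rw [pp, h1, det_one, one_mul, Finset.prod_ne_zero_iff]
  intro i _
  rw [h2]
  norm_num

/-- The two sixes. -/
def W6 : Submodule Om J := LinearMap.ker (six_lin.2.2.mk' _)

theorem mem_W6 {x : J} : x ∈ W6 ↔ om6 x = 0 := Iff.rfl

theorem res (h : D.OK) (h6 : D.S6 B P μ) {σ : Gq} (hσ : σ ∈ D.G) :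
    ∃ φ : W6 → W6, Semi σ φ ∧ ∀ x : W6, (φ x : J) = D.f σ x := by
  have h1 := (h.sim σ hσ).toSemi
  refine ⟨fun x => ⟨D.f σ x, mem_W6.2 (by rw [h6.eq σ hσ, om6_gl6 (mem_W6.1 x.2)])⟩,
    ⟨fun x y => Subtype.ext (h1.add _ _), fun t x => Subtype.ext (h1.smul _ _),
      fun x y hxy => Subtype.ext (h1.bij.1 (congrArg Subtype.val hxy)), fun y => ?_⟩,
    fun _ => rfl⟩
  obtain ⟨x, hx⟩ := h1.bij.2 y
  refine ⟨⟨x, mem_W6.2 (om6_gl6' (σ := σ) (h6.ne σ hσ) (h6.det σ hσ) ?_)⟩, Subtype.ext hx⟩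
  rw [← h6.eq σ hσ, hx]
  exact mem_W6.1 y.2

section den

variable {V W : Type} [AddCommGroup V] [Module Om V] [AddCommGroup W] [Module Om W]

theorem semi_pi {σ : Gq} {φ : V → W} (h : Semi σ φ) :
    Semi σ fun (x : Fin 3 → V) i => φ (x i) :=
  ⟨fun _ _ => funext fun _ => h.add _ _, fun _ _ => funext fun _ => h.smul _ _, h.bij.comp_left⟩

theorem ta_pi3 {G : Subgroup Gq} {f : Gq → V → V} (h : TA G f) :
    TA G fun σ (x : Fin 3 → V) i => f σ (x i) := by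
  refine ⟨h.opn, fun σ hσ => semi_pi (h.semi σ hσ),
    fun σ hσ τ hτ x => funext fun i => h.mul σ hσ τ hτ _, fun x => ?_⟩
  choose H hH h1 using fun i => h.smo (x i)
  exact ⟨⨅ i, H i, opn_iInf hH, fun σ h2 h3 =>
    funext fun i => h1 i σ (Subgroup.mem_iInf.1 h2 i) h3⟩

theorem den_fin [FiniteDimensional Om V] {G : Subgroup Gq} {f : Gq → V → V} (h : TA G f)
    {ι : Type} [Finite ι] (σ : ι → Gq) (hσ : ∀ i j, (σ i)⁻¹ * σ j ∈ G → i = j) (φ : ι → V → W)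
    (hφ : ∀ i, Semi (σ i) (φ i)) {p : (ι → W) → Om} (hp : Pol p) (h0 : ∃ y, p y ≠ 0) :
    ∃ x, Fv G f x ∧ p (fun i => φ i x) ≠ 0 := by
  obtain ⟨m, ⟨e⟩⟩ := Finite.exists_equiv_fin ι
  obtain ⟨y, hy⟩ := h0
  obtain ⟨x, hx, h1⟩ := den2 h (fun k => σ (e.symm k))
    (fun i j hij => e.symm.injective (hσ _ _ hij)) (fun k => φ (e.symm k)) (fun k => hφ _)
    (p := fun y => p fun i => y (e i)) (hp.comp (PolM.lin (LinearMap.funLeft Om W e)))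
    ⟨fun k => y (e.symm k), by simpa using hy⟩
  exact ⟨x, hx, by simpa using h1⟩

theorem pol_pr {ι : Type} (i : ι) (l : V →ₗ[Om] ι → W6) : PolM fun x => ((l x i : W6) : J) :=
  PolM.lin (W6.subtype ∘ₗ LinearMap.proj (R := Om) (φ := fun _ : ι => W6) i ∘ₗ l)

end den

theorem chi_one {G : Subgroup Gq} (hχ : Chi G χ) : χ 1 = 0 := by
  have h := hχ.mul 1 G.one_mem 1 G.one_mem
  rw [mul_one] at h
  exact left_eq_add.1 h

theorem sect {G : Subgroup Gq} (hχ : Chi G χ) {σ : Gq} (hσ : σ ∈ G) (h0 : χ σ ≠ 0) :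
    ∃ s : Fin 3 → Gq, ∀ i, s i ∈ G ∧ χ (s i) = i := by
  have h1 : ∀ a : Fin 3, a ≠ 0 → ∀ i : Fin 3, 0 = i ∨ a = i ∨ a + a = i := by decide
  have h2 : ∀ i : Fin 3, ∃ s, s ∈ G ∧ χ s = i := fun i => by
    rcases h1 _ h0 i with h3 | h3 | h3
    · exact ⟨1, G.one_mem, (chi_one hχ).trans h3⟩
    · exact ⟨σ, hσ, h3⟩
    · exact ⟨σ * σ, mul_mem hσ hσ, (hχ.mul σ hσ σ hσ).trans h3⟩
  exact ⟨fun i => (h2 i).choose, fun i => (h2 i).choose_spec⟩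

theorem chi_div {G : Subgroup Gq} (hχ : Chi G χ) {σ τ : Gq} (hσ : σ ∈ G) (hτ : τ ∈ G) :
    χ τ = χ σ + χ (σ⁻¹ * τ) := by
  have h := hχ.mul _ hσ _ (mul_mem (inv_mem hσ) hτ)
  rwa [mul_inv_cancel_left] at h

theorem of_pp {s : Gq} {z : Fin 3 → J} (h1 : ∀ i, om6 (z i) = 0)
    (h2 : ∀ τ ∈ D.K, ∀ i, ∃ t : Om, D.f τ (z i) = t • z (i + χ τ))
    (h3 : pp z (fun i => D.f s (z i)) ≠ 0) :
    ∃ z, Z6 D χ z ∧ ∀ i, tf (z i) (D.f s (z i)) ≠ 0 :=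
  ⟨z, ⟨h1, h2, left_ne_zero_of_mul h3⟩, fun i =>
    Finset.prod_ne_zero_iff.1 (right_ne_zero_of_mul h3) i (Finset.mem_univ i)⟩

end O2ax

open O2ax Pfx

theorem s6_ud (h : D.OK) (h6 : D.S6 B P μ) : UD D.G D.K (pt D.K P) := by
  refine ⟨h.opn, h.le, h.ix, fun σ hσ => ?_, fun σ hσ τ hτ => ?_, fun σ hσ τ hτ hK => ?_, ?_⟩
  · have h1 := (dets (h6.ne σ hσ) (h6.det σ hσ)).2
    by_cases h2 : σ ∈ D.K
    · rwa [pt_K h2]
    · rwa [pt_nK h2, det_mul, j6_props.2.2.1, one_mul]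
  · obtain ⟨-, r, -, -, h1⟩ := coc h h6 hσ hτ
    have h2 := h.ix σ hσ τ (h.le hτ)
    refine ⟨r, ?_⟩
    rw [pt_K hτ]
    by_cases h3 : σ ∈ D.K
    · rw [pt_K h3, pt_K (mul_mem h3 hτ), h1]
    · rw [pt_nK h3, pt_nK fun h4 => h3 ((h2.1 h4).2 hτ), Matrix.mul_assoc, h1, Matrix.mul_smul]
  · obtain ⟨-, r, -, -, h1⟩ := cod h h6 hσ hτ hK
    have h2 := h.ix σ hσ τ hτ
    rw [pt_nK hK, mp_mul, j6_props.2.2.2, h1]
    by_cases h3 : σ ∈ D.K
    · exact ⟨r, by rw [pt_K h3, pt_nK fun h4 => hK ((h2.1 h4).1 h3)]⟩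
    · refine ⟨-r, ?_⟩
      rw [pt_nK h3, pt_K (h2.2 (iff_of_false h3 hK)), transpose_mul, j6_props.1, Matrix.mul_neg,
        Matrix.neg_mul, neg_smul, smul_neg, neg_neg, Matrix.mul_assoc]
  · obtain ⟨H, hH, h1⟩ := smo h
    refine ⟨H, hH, fun σ h2 h3 => ?_⟩
    obtain ⟨t, -, -, h4, -⟩ := gl6_unique (σ := σ) (C := 1) (Q := 1) (ν := 1)
      (h6.ne σ (h.le h3)) (h6.det σ (h.le h3)) fun x => by
        rw [← h6.eq σ (h.le h3), h1 σ h2 h3, gl6_one]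
    exact ⟨t, by rw [pt_K h3, h4]⟩

theorem s6_B (h : D.OK) (h6 : D.S6 B P μ) {σ τ : Gq} (hσ : σ ∈ D.G) (hτ : τ ∈ D.G) :
    ∃ c : Om, c ≠ 0 ∧ B σ * (B τ).map σ = c • B (σ * τ) := by
  by_cases hK : τ ∈ D.K
  · obtain ⟨t, -, ht, h1, -⟩ := coc h h6 hσ hK
    exact ⟨t, ht, h1⟩
  · obtain ⟨t, -, ht, h1, -⟩ := cod h h6 hσ hτ hK
    exact ⟨t, ht, h1⟩

theorem exists_z6 (h : D.OK) (h6 : D.S6 B P μ) (hχ : Chi D.G χ) {s : Gq} (hs : s ∈ D.G)
    (hsK : s ∉ D.K) (h0 : χ s = 0)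
    (hl : ∃ x, x ≠ 0 ∧ ∀ σ ∈ D.K, χ σ = 0 → ∃ t : Om, D.f σ x = t • x) :
    ∃ z, Z6 D χ z ∧ ∀ i, tf (z i) (D.f s (z i)) ≠ 0 := by
  have _ := h0
  have := fd_J
  have hc := hχ.mono h.le
  obtain ⟨N, hN, h1⟩ := hc.ker h.opn
  obtain ⟨x0, hx0, h2⟩ := hl
  have hNK : N ≤ D.K := fun σ hσ => ((h1 σ).1 hσ).1
  obtain ⟨b, hb, ht, -⟩ := (h.pa.mono hN hNK).norm (x := x0)
    ⟨hx0, fun σ hσ => h2 σ (hNK hσ) ((h1 σ).1 hσ).2⟩
  obtain ⟨g, hg, h3⟩ := ht.restrict W6 fun σ hσ x hx => W6.smul_mem _ (mem_W6.2 (by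
    rw [h6.eq σ (h.le (hNK hσ)), om6_gl6 (mem_W6.1 hx)]))
  have h4 : ∀ x, Fv N g x → ∀ σ ∈ N, D.f σ x = (b σ)⁻¹ • (x : J) := fun x hx σ hσ =>
    (eq_inv_smul_iff₀ (hb σ hσ)).2 ((h3 σ hσ x).symm.trans (congrArg Subtype.val (hx σ hσ)))
  obtain ⟨φ, hφ, h5⟩ := res h h6 hs
  let u : Fin 3 → W6 := fun i => ⟨ins i y0, mem_W6.2 (six_st i).2.1⟩
  by_cases h7 : ∀ σ ∈ D.K, χ σ = 0
  · obtain ⟨x, hx, h8⟩ := den2' (ta_pi3 hg) (fun h8 => hsK (hNK h8)) (semi_pi hφ)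
      (p := fun y => pp (fun i => y.1 i) fun i => y.2 i)
      (pp_pol (fun i => pol_pr i (LinearMap.fst Om (Fin 3 → W6) (Fin 3 → W6)))
        fun i => pol_pr i (LinearMap.snd Om (Fin 3 → W6) (Fin 3 → W6)))
      ⟨(u, u), pp_st⟩
    refine of_pp (z := fun i => x i) (fun i => mem_W6.1 (x i).2) (fun τ hτ i => ⟨(b τ)⁻¹, ?_⟩)
      (by simpa only [h5] using h8)
    rw [h7 τ hτ, add_zero]
    exact h4 _ (fun σ hσ => congrFun (hx σ hσ) i) τ ((h1 τ).2 ⟨hτ, h7 τ hτ⟩)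
  · push Not at h7
    obtain ⟨σ, hσ, h7⟩ := h7
    obtain ⟨r, hr⟩ := sect hc hσ h7
    choose ρ hρ h8 using fun i => res h h6 (h.le (hr i).1)
    have h9 : ∀ i j, (r i)⁻¹ * r j ∈ N → i = j := fun i j hij => by
      have h9 := chi_div hc (hr i).1 (hr j).1
      rw [((h1 _).1 hij).2, add_zero, (hr i).2, (hr j).2] at h9
      exact h9.symm
    have h10 : ∀ i j, (r i)⁻¹ * (s * r j) ∉ N := fun i j hij => by
      have h10 := mul_mem (mul_mem (hr i).1 (hNK hij)) (inv_mem (hr j).1)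
      rw [mul_inv_cancel_left, mul_inv_cancel_right] at h10
      exact hsK h10
    obtain ⟨x, hx, h11⟩ := den_fin hg (Sum.elim r fun i => s * r i) (by
        rintro (i | i) (j | j) hij
        · rw [h9 i j hij]
        · exact absurd hij (h10 i j)
        · have h11 := inv_mem hij
          rw [_root_.mul_inv_rev, inv_inv] at h11
          exact absurd h11 (h10 j i)
        · have h11 : (s * r i)⁻¹ * (s * r j) ∈ N := hij
          rw [_root_.mul_inv_rev, mul_assoc, inv_mul_cancel_left] at h11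
          rw [h9 i j h11])
      (Sum.elim ρ fun i x => φ (ρ i x)) (by
        rintro (i | i)
        · exact hρ i
        · exact hφ.comp (hρ i))
      (p := fun y => pp (fun i => y (Sum.inl i)) fun i => y (Sum.inr i))
      (pp_pol (fun i => pol_pr (Sum.inl i) LinearMap.id) fun i => pol_pr (Sum.inr i) LinearMap.id)
      ⟨Sum.elim u u, pp_st⟩
    refine of_pp (z := fun i => D.f (r i) x) (fun i => by rw [← h8]; exact mem_W6.1 (ρ i x).2)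
      (fun τ hτ i => ?_) (by simpa only [Sum.elim_inl, Sum.elim_inr, h5, h8] using h11)
    have hm := mul_mem hτ (hr i).1
    have hn : (r (i + χ τ))⁻¹ * (τ * r i) ∈ N := (h1 _).2 ⟨mul_mem (inv_mem (hr _).1) hm, by
      have h12 := chi_div hc (hr (i + χ τ)).1 hm
      rw [hc.mul _ hτ _ (hr i).1, (hr i).2, (hr _).2, add_comm] at h12
      exact left_eq_add.1 h12⟩
    obtain ⟨c, h12⟩ := h.coc τ (h.le hτ) _ (hr i).1
    obtain ⟨e, h13⟩ := h.coc _ (h.le (hr (i + χ τ)).1) _ (hNK hn)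
    have hs1 := h.sim _ (h.le (hr (i + χ τ)).1)
    have he := Datx.ne_zero hs1.toSemi (h.sim _ (h.le (hNK hn))).toSemi h13
    have h14 := h13 x
    rw [mul_inv_cancel_left, h4 x hx _ hn, hs1.smul, eq_comm, ← eq_inv_smul_iff₀ he] at h14
    exact ⟨_, by rw [h12, h14, smul_smul, smul_smul]⟩

theorem exists_gm (h6 : D.S6 B P μ) {s : Gq} (hs : s ∈ D.G) {z : Fin 3 → J}
    (hz : (qz z).det ≠ 0) {e : Fin 3 → Om} (he : ∀ i, e i ≠ 0) :
    ∃ m, m.det ≠ 0 ∧ Gm s (B s) (P s) z e m := by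
  obtain ⟨hB, hP⟩ := dets (h6.ne s hs) (h6.det s hs)
  have h1 : IsUnit ((qz z)ᵀ * (j6 * P s)).det := by
    rw [det_mul, det_mul, det_transpose, j6_props.2.2.1, one_mul]
    exact (mul_ne_zero hz hP).isUnit
  have h2 : IsUnit (bk fun _ => (B s)ᵀ).det := by
    rw [bk_det]
    exact (Finset.prod_ne_zero_iff.2 fun _ _ => by rwa [det_transpose]).isUnit
  have h3 : (bk fun i => e i • j2).det ≠ 0 := by
    rw [bk_det]
    refine Finset.prod_ne_zero_iff.2 fun i _ => ?_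
    rw [det_smul, j2_det, mul_one]
    exact pow_ne_zero _ (he i)
  refine ⟨(((qz z)ᵀ * (j6 * P s))⁻¹ * (bk fun i => e i • j2) * (bk fun _ => (B s)ᵀ)⁻¹).map ⇑s⁻¹ *
    (qz z)⁻¹, ?_, ?_⟩
  · rw [det_mul, mp_det, det_mul, det_mul]
    exact mul_ne_zero ((map_ne_zero_iff _ (s⁻¹).injective).2 (mul_ne_zero (mul_ne_zero
      (isUnit_nonsing_inv_det _ h1).ne_zero h3) (isUnit_nonsing_inv_det _ h2).ne_zero))
      (isUnit_nonsing_inv_det _ hz.isUnit).ne_zero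
  · rw [Gm, nonsing_inv_mul_cancel_right _ _ hz.isUnit, mp_mp, mul_inv_cancel, mp_one,
      Matrix.mul_assoc, nonsing_inv_mul_cancel_right _ _ h2, mul_nonsing_inv_cancel_left _ _ h1]

/-- An orthogonal family gives a frame. -/
theorem frm_of_z6 (h : D.OK) (h6 : D.S6 B P μ) (hχ : Chi D.G χ) {s : Gq} (hs : s ∈ D.G)
    (hsK : s ∉ D.K) (h0 : χ s = 0) {z : Fin 3 → J} (hz : Z6 D χ z) {e : Fin 3 → Om}
    {m y : Matrix I6 I6 Om} (hm : Gm s (B s) (P s) z e m) (hy0 : y.det ≠ 0)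
    (hy : ∀ τ ∈ D.K, P τ * y.map τ = y * P τ)
    (hys : yᵀ * (j6 * P s) * y.map s = j6 * P s * m.map s) :
    ∃ ψ : J ≃ₗ[Om] J, Sim 1 ψ ∧ (D.conj ψ).Frm χ := by
  have hQ : (y * qz z).det ≠ 0 := by
    rw [det_mul]
    exact mul_ne_zero hy0 hz.det
  obtain ⟨ν, hν⟩ := IsAlgClosed.exists_pow_nat_eq (y * qz z).det two_pos
  have hν0 : ν ≠ 0 := fun h1 => hQ (by rw [← hν, h1, zero_pow two_ne_zero])
  obtain ⟨ψ, hψ, h1, h2⟩ := exists_gl6 (B := 1) (P := y * qz z) hν0 (by rw [det_one, one_mul, hν])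
  have hc := h.conj hψ
  have h3 : ∀ i, ψ (ins i y0) = gl6 1 1 y 1 (z i) := fun i => by
    rw [h1, ← qz_st hz.om ν i, gl6_gl6, mp_one, mp_one, mul_one, mul_one, one_mul,
      AlgEquiv.one_apply]
  have h4 : ∀ τ ∈ D.K, ∀ i, ∃ t : Om,
      (D.conj ψ).f τ (ins i y0) = t • ins (i + χ τ) y0 := fun τ hτ i => by
    obtain ⟨t, ht⟩ := hz.eqv τ hτ i
    refine ⟨t, ?_⟩
    have h4 := gl6_smul (σ := 1) (B := 1) (P := y) (μ := 1) t (z (i + χ τ))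
    rw [← ht, h6.eq τ (h.le hτ), gl6_gl6, AlgEquiv.one_apply, AlgEquiv.one_apply, mp_one, mp_one,
      one_mul, one_mul, one_mul, ← hy τ hτ] at h4
    rw [D.conj_K ψ hτ, ψ.symm_apply_eq, map_smul, h3, h3, h6.eq τ (h.le hτ), gl6_gl6, mp_id,
      map_one, mul_one, mul_one, mul_one, h4]
  have h5 : ∀ i, (D.conj ψ).f s (ins i y0) = e i • ins i y0 := fun i => by
    have h5 : ⇑ψ.symm = gl6 1 1 (y * qz z)⁻¹ ν⁻¹ := funext fun x => by rw [h2, inv_one]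
    have h7 : (y * qz z)ᵀ * (j6 * P s) * (y * qz z).map s * bk (fun _ => (B s)ᵀ) =
        bk fun i => e i • j2 := by
      rw [← hm, transpose_mul, mp_mul, mp_mul, Matrix.mul_assoc (qz z)ᵀ,
        Matrix.mul_assoc (qz z)ᵀ, ← Matrix.mul_assoc _ (y.map s), hys]
      simp only [Matrix.mul_assoc]
    rw [Datx.f_nK D ψ hsK, h5]
    change dag 1 _ (D.f s (ψ (ins i y0))) = _
    rw [dag_gl6 (inv_ne_zero hν0) (by
      rw [det_one, one_mul, det_nonsing_inv, Ring.inverse_eq_inv', ← hν, inv_pow]), h1,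
      h6.eq s hs, gl6_gl6, gl6_gl6]
    refine gl6_st ?_ i
    rw [det_one, inv_one, one_smul, mp_id, mul_one, mp_one, transpose_nonsing_inv,
      nonsing_inv_nonsing_inv _ (by rw [det_transpose]; exact hQ.isUnit)]
    have h8 : -(j6 * bk fun i => e i • j2) = bk fun i => e i • 1 := by
      rw [j6_bk, bk_mul]
      ext ⟨i, a⟩ ⟨j, b⟩
      simp only [Matrix.mul_smul, j2_j2, Matrix.neg_apply, bk, Matrix.smul_apply, smul_neg]
      split_ifs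
      · rw [neg_neg]
      · rw [neg_zero]
    rw [← h8, ← h7]
    simp only [Matrix.mul_assoc, Matrix.neg_mul, one_mul, mp_one]
  have h7 : ∀ σ ∈ D.G, ∀ i, ∃ t : Om,
      (D.conj ψ).f σ (ins i y0) = t • ins (i + χ σ) y0 := fun σ hσ i => by
    by_cases hK : σ ∈ D.K
    · exact h4 σ hK i
    · obtain ⟨h7, c, -, h8⟩ := hc.split hs hsK hσ hK
      obtain ⟨t, ht⟩ := h4 _ h7 i
      have h9 := chi_div hχ hs hσ
      rw [h0, zero_add] at h9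
      exact ⟨_, by rw [h8, ht, (hc.sim s hs).smul, h5, ← h9, smul_smul, smul_smul]⟩
  refine ⟨ψ, hψ, fun σ hσ => prm_of (hc.sim σ hσ) (h7 σ hσ), fun i => ⟨y0, y0_ne, ?_⟩⟩
  intro σ hσ h8
  have h9 := h7 σ hσ i
  rwa [h8, add_zero] at h9

end Vale.Agent.P011Z.Cl

end
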