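import Vale.Agent.P011Z.Cl.O2b.C

/-!
Classification of the forms: block O2b.
-/

open Matrix Module

noncomputable section

namespace Vale.Agent.P011Z.Cl

open Vale.Agent.P011.D4 Vale.Agent.P011.D4.Oct Vale.Agent.P011.E6 Vale.Agent.P011.E6.Alb

variable {D : ED} {B : Gq → Matrix (Fin 2) (Fin 2) Om} {P : Gq → Matrix I6 I6 Om} {μ : Gq → Om}
  {χ : Gq → Fin 3}

/-- The matrix `m` is a symmetric element of the algebra and its determinant is a norm. -/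
theorem gm_props (h : D.OK) (h6 : D.S6 B P μ) (hχ : Chi D.G χ) {s : Gq} (hs : s ∈ D.G)
    (hsK : s ∉ D.K) (h0 : χ s = 0) {z : Fin 3 → J} (hz : Z6 D χ z)
    (he : ∀ i, tf (z i) (D.f s (z i)) ≠ 0) {l : Fin 3 → Om} (hl0 : ∀ i, l i ≠ 0)
    (hl : ∀ σ ∈ D.G, ∀ i, σ (l i) = l (i + χ σ)) {m : Matrix I6 I6 Om}
    (hm : Gm s (B s) (P s) z (fun i => l i * tf (z i) (D.f s (z i))) m) :
    (∀ τ ∈ D.K, P τ * m.map τ = m * P τ) ∧ j6 * P s * m.map s = mᵀ * (j6 * P s) ∧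
      ∃ w : Om, w ≠ 0 ∧ Fx D.K w ∧ m.det = w * s w :=
  ⟨fun _ hτ => O2bx.part_a h h6 hχ hs hsK h0 hz he hl hm hτ,
    O2bx.part_b h h6 hχ hs hsK h0 hz he hl hm, O2bx.part_c h h6 hχ hs hsK h0 hz he hl0 hl hm⟩

end Vale.Agent.P011Z.Cl

end
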