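import Vale.Agent.P011Z.Cl.Gal2

/-!
Classification of the forms: block Pol.
-/

open Matrix Module

noncomputable section

namespace Vale.Agent.P011Z.Cl

open Vale.Agent.P011.D4 Vale.Agent.P011.D4.Oct Vale.Agent.P011.E6 Vale.Agent.P011.E6.Alb

variable {V W X Y : Type} [AddCommGroup V] [Module Om V] [AddCommGroup W] [Module Om W]
  [AddCommGroup X] [Module Om X] [AddCommGroup Y] [Module Om Y]

theorem Pol.const (c : Om) : Pol fun _ : V => c :=
  Subalgebra.algebraMap_mem _ c

theorem Pol.lin (l : V →ₗ[Om] Om) : Pol fun x => l x :=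
  Algebra.subset_adjoin ⟨l, rfl⟩

theorem Pol.add {p q : V → Om} (hp : Pol p) (hq : Pol q) : Pol fun x => p x + q x :=
  Subalgebra.add_mem _ hp hq

theorem Pol.sub {p q : V → Om} (hp : Pol p) (hq : Pol q) : Pol fun x => p x - q x :=
  Subalgebra.sub_mem _ hp hq

theorem Pol.mul {p q : V → Om} (hp : Pol p) (hq : Pol q) : Pol fun x => p x * q x :=
  Subalgebra.mul_mem _ hp hq

theorem Pol.pow {p : V → Om} (hp : Pol p) (n : ℕ) : Pol fun x => p x ^ n :=
  Subalgebra.pow_mem _ hp n

theorem Pol.neg {p : V → Om} (hp : Pol p) : Pol fun x => -p x :=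
  Subalgebra.neg_mem _ hp

/-- Change of the expression of a polynomial function. -/
theorem Pol.congr {p q : V → Om} (hp : Pol p) (h : ∀ x, q x = p x) : Pol q := by
  have h1 : q = p := funext h
  rw [h1]
  exact hp

/-- Induction over polynomial functions. -/
theorem Pol.ind {C : (V → Om) → Prop} (hc : ∀ c : Om, C fun _ => c)
    (hl : ∀ l : V →ₗ[Om] Om, C fun x => l x)
    (ha : ∀ p q, C p → C q → C fun x => p x + q x)
    (hm : ∀ p q, C p → C q → C fun x => p x * q x) {p : V → Om} (hp : Pol p) : C p := by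
  unfold Pol at hp
  induction hp using Algebra.adjoin_induction with
  | mem x hx =>
    obtain ⟨l, rfl⟩ := hx
    exact hl l
  | algebraMap r => exact hc r
  | add x y _ _ hx hy => exact ha x y hx hy
  | mul x y _ _ hx hy => exact hm x y hx hy

theorem Pol.sum {ι : Type} (s : Finset ι) {p : ι → V → Om} (h : ∀ i ∈ s, Pol (p i)) :
    Pol fun x => ∑ i ∈ s, p i x :=
  Pol.congr (Subalgebra.sum_mem _ h) fun x => (Finset.sum_apply x s p).symm

theorem Pol.prod {ι : Type} (s : Finset ι) {p : ι → V → Om} (h : ∀ i ∈ s, Pol (p i)) :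
    Pol fun x => ∏ i ∈ s, p i x :=
  Pol.congr (Subalgebra.prod_mem _ h) fun x => (Finset.prod_apply x s p).symm

theorem Pol.comp {p : W → Om} {g : V → W} (hp : Pol p) (hg : PolM g) : Pol fun x => p (g x) :=
  Pol.ind (C := fun p => Pol fun x => p (g x)) (fun c => Pol.const c) (fun l => hg l)
    (fun _ _ h1 h2 => h1.add h2) (fun _ _ h1 h2 => h1.mul h2) hp

theorem polM_iff {p : V → Om} : PolM p ↔ Pol p := by
  refine ⟨fun h => h LinearMap.id, fun h l => (h.mul (Pol.const (l 1))).congr fun x => ?_⟩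
  rw [← smul_eq_mul, ← map_smul, smul_eq_mul, mul_one]

theorem PolM.lin (l : V →ₗ[Om] W) : PolM fun x => l x := fun l' => Pol.lin (l' ∘ₗ l)

theorem PolM.const (c : W) : PolM fun _ : V => c := fun l => Pol.const (l c)

theorem PolM.add {g h : V → W} (hg : PolM g) (hh : PolM h) : PolM fun x => g x + h x :=
  fun l => ((hg l).add (hh l)).congr fun _ => map_add l _ _

theorem PolM.sub {g h : V → W} (hg : PolM g) (hh : PolM h) : PolM fun x => g x - h x :=
  fun l => ((hg l).sub (hh l)).congr fun _ => map_sub l _ _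

theorem PolM.smul {p : V → Om} {g : V → W} (hp : Pol p) (hg : PolM g) :
    PolM fun x => p x • g x :=
  fun l => (hp.mul (hg l)).congr fun _ => map_smul l _ _

theorem PolM.comp {g : W → X} {h : V → W} (hg : PolM g) (hh : PolM h) : PolM fun x => g (h x) :=
  fun l => (hg l).comp hh

theorem PolM.prod {g : V → W} {h : V → X} (hg : PolM g) (hh : PolM h) :
    PolM fun x => (g x, h x) := fun l =>
  ((hg (l ∘ₗ LinearMap.inl Om W X)).add (hh (l ∘ₗ LinearMap.inr Om W X))).congr fun x => by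
    change l (g x, h x) = l (g x, 0) + l (0, h x)
    rw [← map_add, Prod.mk_add_mk, add_zero, zero_add]

theorem PolM.pi {ι : Type} [Finite ι] {g : V → ι → W} (h : ∀ i, PolM fun x => g x i) :
    PolM g := by
  classical
  have := Fintype.ofFinite ι
  intro l
  refine (Pol.sum Finset.univ fun i _ => h i (l ∘ₗ LinearMap.single Om (fun _ => W) i)).congr
    fun x => ?_
  conv_lhs => rw [← Finset.univ_sum_single (g x), map_sum]
  rfl

theorem PolM.bil [FiniteDimensional Om W] (B : W →ₗ[Om] X →ₗ[Om] Y) {g : V → W} {h : V → X}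
    (hg : PolM g) (hh : PolM h) : PolM fun x => B (g x) (h x) := by
  intro l
  let b := Module.finBasis Om W
  refine (Pol.sum Finset.univ fun i _ => (hg (b.coord i)).mul (hh (l ∘ₗ B (b i)))).congr
    fun x => ?_
  change l (B (g x) (h x)) = _
  conv_lhs => rw [← b.sum_repr (g x), map_sum, LinearMap.sum_apply, map_sum]
  refine Finset.sum_congr rfl fun i _ => ?_
  rw [map_smul, LinearMap.smul_apply, map_smul, smul_eq_mul]
  rfl

theorem Pol.det {n : Type} [Fintype n] [DecidableEq n] {M : V → Matrix n n Om}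
    (h : ∀ i j, Pol fun x => M x i j) : Pol fun x => (M x).det :=
  (Pol.sum Finset.univ fun (σ : Equiv.Perm n) _ =>
    (Pol.const (((Equiv.Perm.sign σ : ℤˣ) : ℤ) : Om)).mul
      (Pol.prod Finset.univ fun i _ => h (σ i) i)).congr fun x => Matrix.det_apply' (M x)

/-- The restriction to a line is a polynomial. -/
theorem Pol.line {p : V → Om} (hp : Pol p) (x y : V) :
    ∃ P : Polynomial Om, ∀ t : Om, p (x + t • y) = P.eval t := by
  refine Pol.ind (C := fun p => ∃ P : Polynomial Om, ∀ t : Om, p (x + t • y) = P.eval t)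
    (fun c => ⟨Polynomial.C c, fun t => Polynomial.eval_C.symm⟩)
    (fun l => ⟨Polynomial.C (l x) + Polynomial.X * Polynomial.C (l y), fun t => ?_⟩) ?_ ?_ hp
  · change l (x + t • y) = _
    rw [Polynomial.eval_add, Polynomial.eval_mul, Polynomial.eval_C, Polynomial.eval_C,
      Polynomial.eval_X, map_add, map_smul, smul_eq_mul]
  · rintro p q ⟨P, hP⟩ ⟨Q, hQ⟩
    exact ⟨P + Q, fun t => by rw [Polynomial.eval_add, ← hP, ← hQ]⟩
  · rintro p q ⟨P, hP⟩ ⟨Q, hQ⟩
    exact ⟨P * Q, fun t => by rw [Polynomial.eval_mul, ← hP, ← hQ]⟩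

theorem Pol.mul_ne {p q : V → Om} (hp : Pol p) (hq : Pol q) (h1 : ∃ x, p x ≠ 0)
    (h2 : ∃ x, q x ≠ 0) : ∃ x, p x * q x ≠ 0 := by
  obtain ⟨x, hx⟩ := h1
  obtain ⟨y, hy⟩ := h2
  obtain ⟨P, hP⟩ := hp.line x (y - x)
  obtain ⟨Q, hQ⟩ := hq.line x (y - x)
  have hP0 : P ≠ 0 := by
    rintro rfl
    have h3 := hP 0
    rw [zero_smul, add_zero, Polynomial.eval_zero] at h3
    exact hx h3
  have hQ0 : Q ≠ 0 := by
    rintro rfl
    have h3 := hQ 1
    rw [one_smul, add_sub_cancel, Polynomial.eval_zero] at h3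
    exact hy h3
  by_contra h
  refine mul_ne_zero hP0 hQ0 (Polynomial.zero_of_eval_zero _ fun t => ?_)
  rw [Polynomial.eval_mul, ← hP, ← hQ]
  by_contra h4
  exact h ⟨_, h4⟩

theorem Pol.prod_ne {ι : Type} (s : Finset ι) {p : ι → V → Om} (h : ∀ i ∈ s, Pol (p i))
    (h1 : ∀ i ∈ s, ∃ x, p i x ≠ 0) : ∃ x, ∀ i ∈ s, p i x ≠ 0 := by
  classical
  induction s using Finset.induction_on with
  | empty => exact ⟨0, fun i hi => absurd hi (Finset.notMem_empty i)⟩
  | insert a s ha ih =>
    have h2 : ∀ i ∈ s, Pol (p i) := fun i hi => h i (Finset.mem_insert_of_mem hi)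
    obtain ⟨x, hx⟩ := ih h2 fun i hi => h1 i (Finset.mem_insert_of_mem hi)
    obtain ⟨y, hy⟩ := (h a (Finset.mem_insert_self a s)).mul_ne (Pol.prod s h2)
      (h1 a (Finset.mem_insert_self a s)) ⟨x, Finset.prod_ne_zero_iff.2 hx⟩
    refine ⟨y, fun i hi => ?_⟩
    rcases Finset.mem_insert.1 hi with rfl | hi
    · exact left_ne_zero_of_mul hy
    · exact Finset.prod_ne_zero_iff.1 (right_ne_zero_of_mul hy) i hi

/-- A linear form transported along a semilinear map. -/
def Semi.form {σ : Gq} {g : V → W} (hg : Semi σ g) (l : W →ₗ[Om] Om) : V →ₗ[Om] Om where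
  toFun x := σ⁻¹ (l (g x))
  map_add' x y := by rw [hg.add, map_add, map_add]
  map_smul' t x := by
    rw [hg.smul, map_smul, smul_eq_mul, map_mul, RingHom.id_apply, smul_eq_mul]
    congr 1
    exact σ.symm_apply_apply t

theorem Semi.form_apply {σ : Gq} {g : V → W} (hg : Semi σ g) (l : W →ₗ[Om] Om) (x : V) :
    hg.form l x = σ⁻¹ (l (g x)) := rfl

/-- Transport of a polynomial function along semilinear bijections. -/
theorem Pol.semi {p : W → Om} (hp : Pol p) {σ : Gq} {g : V → W} (hg : Semi σ g) :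
    Pol fun x => σ⁻¹ (p (g x)) :=
  Pol.ind (C := fun p => Pol fun x => σ⁻¹ (p (g x))) (fun c => Pol.const (σ⁻¹ c))
    (fun l => Pol.lin (hg.form l))
    (fun _ _ h1 h2 => (h1.add h2).congr fun _ => map_add _ _ _)
    (fun _ _ h1 h2 => (h1.mul h2).congr fun _ => map_mul _ _ _) hp

theorem PolM.semi [FiniteDimensional Om W] {F : V → W} (hF : PolM F) {σ : Gq} {g : V → X}
    {h : W → Y} (hg : Semi σ g) (hh : Semi σ h) :
    ∃ F' : X → Y, PolM F' ∧ ∀ x, F' (g x) = h (F x) := by
  obtain ⟨g', h1, h2, -⟩ := hg.inv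
  refine ⟨fun y => h (F (g' y)), fun l => ((hF (hh.form l)).semi h1).congr fun y => ?_,
    fun x => congrArg (fun z => h (F z)) (h2 x)⟩
  rw [inv_inv, Semi.form_apply]
  exact (σ.apply_symm_apply _).symm

/-- A polynomial function which vanishes on an additive monoid vanishes on its span. -/
theorem Pol.of_span {p : V → Om} (hp : Pol p) {S : Set V} (hz : (0 : V) ∈ S)
    (ha : ∀ x ∈ S, ∀ y ∈ S, x + y ∈ S) (h0 : ∀ x ∈ S, p x = 0) {x : V}
    (hx : x ∈ Submodule.span Om S) : p x = 0 := by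
  have hn : ∀ y ∈ S, ∀ n : ℕ, (n : Om) • y ∈ S := by
    intro y hy n
    induction n with
    | zero => rwa [Nat.cast_zero, zero_smul]
    | succ n ih =>
      rw [Nat.cast_succ, add_smul, one_smul]
      exact ha _ ih _ hy
  have key : ∀ (t : Om) (z : V), (∀ s ∈ S, p (s + z) = 0) → ∀ s ∈ S, p (s + (z + t • x)) = 0 := by
    induction hx using Submodule.span_induction with
    | mem y hy =>
      intro t z hz' s hs
      obtain ⟨P, hP⟩ := hp.line (s + z) y
      have h1 : P = 0 := by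
        refine Polynomial.eq_zero_of_infinite_isRoot P
          ((Set.infinite_range_of_injective (Nat.cast_injective (R := Om))).mono ?_)
        rintro _ ⟨n, rfl⟩
        change P.eval (n : Om) = 0
        rw [← hP, add_right_comm]
        exact hz' _ (ha _ hs _ (hn y hy n))
      rw [← add_assoc, hP, h1, Polynomial.eval_zero]
    | zero =>
      intro t z hz' s hs
      rw [smul_zero, add_zero]
      exact hz' s hs
    | add a b _ _ h1 h2 =>
      intro t z hz' s hs
      rw [smul_add, ← add_assoc z]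
      exact h2 t _ (h1 t z hz') s hs
    | smul c a _ h1 =>
      intro t z hz' s hs
      rw [smul_smul]
      exact h1 _ z hz' s hs
  have h1 := key 1 0 (fun s hs => by rw [add_zero]; exact h0 s hs) 0 hz
  rwa [zero_add, zero_add, one_smul] at h1

/-- An additive monoid on which no nonzero linear form vanishes is Zariski dense. -/
theorem Pol.dense {p : V → Om} (hp : Pol p) {S : Set V} (hz : (0 : V) ∈ S)
    (ha : ∀ x ∈ S, ∀ y ∈ S, x + y ∈ S)
    (hl : ∀ l : V →ₗ[Om] Om, (∀ x ∈ S, l x = 0) → l = 0) (h0 : ∃ x, p x ≠ 0) :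
    ∃ x ∈ S, p x ≠ 0 := by
  by_contra h
  obtain ⟨x, hx⟩ := h0
  refine hx (hp.of_span hz ha (fun y hy => ?_) ?_)
  · by_contra h1
    exact h ⟨y, hy, h1⟩
  · by_contra h1
    have h2 : Submodule.span Om S < ⊤ := lt_top_iff_ne_top.2 fun h3 => h1 (by
      rw [h3]
      exact Submodule.mem_top)
    obtain ⟨l, h3, h4⟩ := Submodule.exists_le_ker_of_lt_top _ h2
    exact h3 (hl l fun y hy => h4 (Submodule.subset_span hy))

theorem TA.fv_zero {G : Subgroup Gq} {f : Gq → V → V} (h : TA G f) : Fv G f 0 :=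
  fun σ hσ => (h.semi σ hσ).zero

theorem TA.fv_add {G : Subgroup Gq} {f : Gq → V → V} (h : TA G f) {x y : V} (hx : Fv G f x)
    (hy : Fv G f y) : Fv G f (x + y) :=
  fun σ hσ => by rw [(h.semi σ hσ).add, hx σ hσ, hy σ hσ]

theorem TA.fv_smul {G : Subgroup Gq} {f : Gq → V → V} (h : TA G f) {t : Om} (ht : Fx G t) {x : V}
    (hx : Fv G f x) : Fv G f (t • x) :=
  fun σ hσ => by rw [(h.semi σ hσ).smul, hx σ hσ, ht σ hσ]

/-- The rational points are Zariski dense. -/
theorem den [FiniteDimensional Om V] {G : Subgroup Gq} {f : Gq → V → V} (h : TA G f)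
    {p : V → Om} (hp : Pol p) (h0 : ∃ x, p x ≠ 0) : ∃ x, Fv G f x ∧ p x ≠ 0 := by
  by_contra h1
  obtain ⟨x, hx⟩ := h0
  refine hx (hp.of_span (S := {x | Fv G f x}) h.fv_zero (fun _ h2 _ h3 => h.fv_add h2 h3)
    (fun y hy => ?_) ?_)
  · by_contra h2
    exact h1 ⟨y, hy, h2⟩
  · rw [h.span]
    exact Submodule.mem_top

/-- Independence of the embeddings of a number field. -/
theorem dedekind {G : Subgroup Gq} (hG : Opn G) {m : ℕ} (σ : Fin m → Gq)
    (hσ : ∀ i j, (σ i)⁻¹ * σ j ∈ G → i = j) (c : Fin m → Om)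
    (hc : ∀ t, Fx G t → ∑ i, σ i t * c i = 0) (i : Fin m) : c i = 0 := by
  let χ : Fin m → (IntermediateField.fixedField G →* Om) := fun i =>
    { toFun := fun t => σ i t
      map_one' := map_one (σ i)
      map_mul' := fun s t => map_mul (σ i) (s : Om) (t : Om) }
  have hχ : Function.Injective χ := by
    intro i j hij
    refine hσ i j (hG.mem fun x hx => ?_)
    have h1 : σ i x = σ j x := DFunLike.congr_fun hij ⟨x, mem_fix.2 hx⟩
    change (σ i).symm (σ j x) = x
    rw [← h1, AlgEquiv.symm_apply_apply]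
  have h1 := (linearIndependent_monoidHom (IntermediateField.fixedField G) Om).comp χ hχ
  refine Fintype.linearIndependent_iff.1 h1 c ?_ i
  funext t
  rw [Finset.sum_apply]
  refine Eq.trans (Finset.sum_congr rfl fun j _ => ?_) (hc t (mem_fix.1 t.2))
  exact mul_comm _ _

/-- A linear form which vanishes on the image of the fixed vectors is zero. -/
theorem TA.form_eq_zero {G : Subgroup Gq} {f : Gq → V → V} (h : TA G f) {s : Gq} {φ : V → W}
    (hφ : Semi s φ) (l : W →ₗ[Om] Om) (hl : ∀ x, Fv G f x → l (φ x) = 0) : l = 0 := by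
  have h1 : hφ.form l = 0 := by
    refine LinearMap.ext_on h.span fun x hx => ?_
    rw [Semi.form_apply, hl x hx, map_zero]
    rfl
  refine LinearMap.ext fun y => ?_
  obtain ⟨x, rfl⟩ := hφ.bij.2 y
  have h2 : s⁻¹ (l (φ x)) = 0 := DFunLike.congr_fun h1 x
  exact (map_eq_zero_iff _ (s⁻¹).injective).1 h2

/-- The conjugates of a rational point are independent. -/
theorem den2 [FiniteDimensional Om V] {G : Subgroup Gq} {f : Gq → V → V} (h : TA G f) {m : ℕ}
    (σ : Fin m → Gq) (hσ : ∀ i j, (σ i)⁻¹ * σ j ∈ G → i = j) (φ : Fin m → V → W)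
    (hφ : ∀ i, Semi (σ i) (φ i)) {p : (Fin m → W) → Om} (hp : Pol p) (h0 : ∃ y, p y ≠ 0) :
    ∃ x, Fv G f x ∧ p (fun i => φ i x) ≠ 0 := by
  have key := hp.dense (S := {y | ∃ x, Fv G f x ∧ y = fun i => φ i x})
    ⟨0, h.fv_zero, funext fun i => (hφ i).zero.symm⟩ ?_ ?_ h0
  · obtain ⟨_, ⟨x, hx, rfl⟩, hy⟩ := key
    exact ⟨x, hx, hy⟩
  · rintro _ ⟨x, hx, rfl⟩ _ ⟨y, hy, rfl⟩
    exact ⟨x + y, h.fv_add hx hy, funext fun i => ((hφ i).add x y).symm⟩
  · intro l hl
    have h1 : ∀ y : Fin m → W, l y = ∑ i, l (Pi.single i (y i)) := fun y => by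
      conv_lhs => rw [← Finset.univ_sum_single y, map_sum]
    have h2 : ∀ i, l ∘ₗ LinearMap.single Om (fun _ => W) i = 0 := by
      intro i
      refine h.form_eq_zero (hφ i) _ fun x hx => ?_
      refine dedekind h.opn σ hσ (fun i => l (Pi.single i (φ i x))) (fun t ht => ?_) i
      rw [← hl _ ⟨t • x, h.fv_smul ht hx, rfl⟩, h1]
      refine Finset.sum_congr rfl fun j _ => ?_
      rw [(hφ j).smul, Pi.single_smul, map_smul, smul_eq_mul]
    refine LinearMap.ext fun y => ?_
    rw [h1]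
    exact Finset.sum_eq_zero fun i _ => DFunLike.congr_fun (h2 i) (y i)

theorem den2' [FiniteDimensional Om V] {G : Subgroup Gq} {f : Gq → V → V} (h : TA G f) {s : Gq}
    (hs : s ∉ G) {φ : V → W} (hφ : Semi s φ) {p : V × W → Om} (hp : Pol p) (h0 : ∃ y, p y ≠ 0) :
    ∃ x, Fv G f x ∧ p (x, φ x) ≠ 0 := by
  have key := hp.dense (S := {y | ∃ x, Fv G f x ∧ y = (x, φ x)})
    ⟨0, h.fv_zero, by rw [hφ.zero]; rfl⟩ ?_ ?_ h0
  · obtain ⟨_, ⟨x, hx, rfl⟩, hy⟩ := key
    exact ⟨x, hx, hy⟩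
  · rintro _ ⟨x, hx, rfl⟩ _ ⟨y, hy, rfl⟩
    exact ⟨x + y, h.fv_add hx hy, by rw [hφ.add]; rfl⟩
  · intro l hl
    have h1 : ∀ (a : V) (b : W), l (a, b) = l (a, 0) + l (0, b) := fun a b => by
      rw [← map_add, Prod.mk_add_mk, add_zero, zero_add]
    have hσ : ∀ i j : Fin 2, ((![1, s] : Fin 2 → Gq) i)⁻¹ * (![1, s] : Fin 2 → Gq) j ∈ G →
        i = j := by
      intro i j hij
      fin_cases i <;> fin_cases j
      · rfl
      · exact absurd (by simpa using hij) hs
      · exact absurd (by simpa using hij) hs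
      · rfl
    have h2 : ∀ x, Fv G f x → ∀ i : Fin 2, (![l (x, 0), l (0, φ x)] : Fin 2 → Om) i = 0 := by
      intro x hx
      refine dedekind h.opn ![1, s] hσ _ fun t ht => ?_
      rw [← hl _ ⟨t • x, h.fv_smul ht hx, rfl⟩, h1 (t • x), Fin.sum_univ_two, hφ.smul]
      have h3 : ((t • x, 0) : V × W) = t • (x, 0) := by rw [Prod.smul_mk, smul_zero]
      have h4 : ((0, s t • φ x) : V × W) = s t • (0, φ x) := by rw [Prod.smul_mk, smul_zero]
      rw [h3, h4, map_smul, map_smul]
      rfl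
    have h5 : l ∘ₗ LinearMap.inl Om V W = 0 :=
      h.form_eq_zero (semi_lin (LinearEquiv.refl Om V)) _ fun x hx => h2 x hx 0
    have h6 : l ∘ₗ LinearMap.inr Om V W = 0 := h.form_eq_zero hφ _ fun x hx => h2 x hx 1
    refine LinearMap.ext fun y => ?_
    have h7 : l (y.1, 0) = 0 := DFunLike.congr_fun h5 y.1
    have h8 : l (0, y.2) = 0 := DFunLike.congr_fun h6 y.2
    change l (y.1, y.2) = 0
    rw [h1, h7, h8, add_zero]

end Vale.Agent.P011Z.Cl

end
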