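import Vale.Agent.P011Z.Cl.Cub

/-!
Classification of the forms: block Prc.
-/

open Matrix Module

noncomputable section

namespace Vale.Agent.P011Z.Cl

open Vale.Agent.P011.D4 Vale.Agent.P011.D4.Oct Vale.Agent.P011.E6 Vale.Agent.P011.E6.Alb

variable {σ τ : Gq} {f g : J → J} {π ρ : Equiv.Perm (Fin 3)}

namespace Prcx

theorem app_inv (i : Fin 3) : π (π⁻¹ i) = i := π.apply_symm_apply i

theorem inv_app (i : Fin 3) : π⁻¹ (π i) = i := π.symm_apply_apply i

theorem dg_add (x y : J) (i : Fin 3) : dg (x + y) i = dg x i + dg y i := by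
  fin_cases i <;> rfl

theorem sl_add (x y : J) (i : Fin 3) : sl (x + y) i = sl x i + sl y i := by
  fin_cases i <;> rfl

theorem dg_smul (t : Om) (x : J) (i : Fin 3) : dg (t • x) i = t * dg x i := by
  fin_cases i <;> rfl

theorem sl_smul (t : Om) (x : J) (i : Fin 3) : sl (t • x) i = t • sl x i := by
  fin_cases i <;> rfl

theorem dg_zero (i : Fin 3) : dg 0 i = 0 := by
  fin_cases i <;> rfl

theorem sl_zero (i : Fin 3) : sl 0 i = 0 := by
  fin_cases i <;> rfl

theorem dg_ee (i j : Fin 3) : dg (ee i) j = if j = i then 1 else 0 := by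
  rw [ee, dg_jm, Pi.single_apply]

theorem sl_ee (i j : Fin 3) : sl (ee i) j = 0 := by
  rw [ee, sl_jm]
  rfl

theorem dg_ins (i j : Fin 3) (y : O) : dg (ins i y) j = 0 := by
  rw [ins, dg_jm]
  rfl

theorem sl_ins (i j : Fin 3) (y : O) : sl (ins i y) j = if j = i then y else 0 := by
  rw [ins, sl_jm, Pi.single_apply]

theorem sl_ins_self (i : Fin 3) (y : O) : sl (ins i y) i = y := by
  rw [sl_ins, if_pos rfl]

theorem dg_ee_self (i : Fin 3) : dg (ee i) i = 1 := by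
  rw [dg_ee, if_pos rfl]

theorem ee_ne (i : Fin 3) : ee i ≠ 0 := fun h => by
  have h1 := dg_ee_self i
  rw [h, dg_zero] at h1
  exact zero_ne_one h1

theorem ins_inj {i : Fin 3} {y y' : O} (h : ins i y = ins i y') : y = y' := by
  rw [← sl_ins_self i y, h, sl_ins_self]

theorem ins_zero (i : Fin 3) : ins i 0 = 0 := (ins_lin i).map_zero

theorem dg_sc (z : Fin 3 → Om) (x : J) (i : Fin 3) :
    dg (sc z x) i = z (i + 1) * z (i + 2) / z i * dg x i := by
  rw [sc, dg_jm]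

theorem sl_sc (z : Fin 3 → Om) (x : J) (i : Fin 3) : sl (sc z x) i = z i • sl x i := by
  rw [sc, sl_jm]

theorem dg_hur (a : O → O) (x : J) (j : Fin 3) : dg (hur π σ a x) j = σ (dg x (π⁻¹ j)) := by
  rw [hur, dg_jm]

theorem sl_hur (a : O → O) (x : J) (j : Fin 3) :
    sl (hur π σ a x) j = sgs π (a (sl x (π⁻¹ j))) := by
  rw [hur, sl_jm]

theorem dg_al (a : O → O) (x : J) (j : Fin 3) : dg (al σ a x) j = σ (dg x j) := by
  rw [al, dg_jm]

theorem sl_al (a : O → O) (x : J) (j : Fin 3) : sl (al σ a x) j = a (sl x j) := by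
  rw [al, sl_jm]

theorem dg_cross (x y : J) (i : Fin 3) : dg (cross x y) i =
    dg x (i + 1) * dg y (i + 2) + dg y (i + 1) * dg x (i + 2) - bil (sl x i) (sl y i) := by
  fin_cases i <;> rfl

theorem sl_cross (x y : J) (i : Fin 3) : sl (cross x y) i =
    star (sl x (i + 1) * sl y (i + 2) + sl y (i + 1) * sl x (i + 2)) -
      (dg x i • sl y i + dg y i • sl x i) := by
  fin_cases i <;> rfl

theorem sl_cross_ee (j : Fin 3) (x : J) : sl (cross (ee j) x) j = -sl x j := by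
  rw [sl_cross, sl_ee, sl_ee, sl_ee, dg_ee_self, zero_mul, mul_zero, add_zero, star_zero, smul_zero,
    add_zero, one_smul, zero_sub]

theorem cross_ee_ins {i j : Fin 3} (h : j ≠ i) (y : O) : cross (ee j) (ins i y) = 0 := by
  refine j_ext (fun k => ?_) fun k => ?_
  · rw [dg_cross, dg_ins, dg_ins, sl_ee, dg_zero, bil_zero_left]
    ring
  · rw [sl_cross, sl_ee, sl_ee, sl_ee, dg_ins, sl_zero, zero_mul, mul_zero, add_zero, star_zero,
      smul_zero, add_zero, dg_ee, sl_ins]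
    by_cases h1 : k = j
    · rw [if_neg (fun h2 : k = i => h (h1.symm.trans h2)), smul_zero, sub_zero]
    · rw [if_neg h1, zero_smul, sub_zero]

theorem cross_ee (i : Fin 3) : cross (ee (i + 1)) (ee (i + 2)) = ee i := by
  refine j_ext (fun k => ?_) fun k => ?_
  · rw [dg_cross, sl_ee, bil_zero_left]
    simp only [dg_ee]
    fin_cases i <;> fin_cases k <;> simp
  · simp only [sl_cross, sl_ee, mul_zero, add_zero, star_zero, smul_zero, sub_zero]

theorem tf_ee (x : J) (i : Fin 3) : tf x (ee i) = dg x i := by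
  rw [tf_eq]
  simp only [dg_ee, sl_ee, bil_zero_right, add_zero, mul_ite, mul_one, mul_zero,
    Finset.sum_ite_eq', Finset.mem_univ, if_true]

theorem perm_succ : ∀ (π : Equiv.Perm (Fin 3)) (i : Fin 3),
    (π (i + 1) = π i + 1 ∧ π (i + 2) = π i + 2) ∨ (π (i + 1) = π i + 2 ∧ π (i + 2) = π i + 1) := by
  decide

theorem perm_cases : ∀ π : Equiv.Perm (Fin 3),
    (Equiv.Perm.sign π = 1 ∧ π⁻¹ 1 = π⁻¹ 0 + 1 ∧ π⁻¹ 2 = π⁻¹ 0 + 2) ∨
      (Equiv.Perm.sign π ≠ 1 ∧ π⁻¹ 1 = π⁻¹ 0 + 2 ∧ π⁻¹ 2 = π⁻¹ 0 + 1) := by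
  decide

theorem sign_add : Equiv.Perm.sign (Equiv.addRight (1 : Fin 3)) = 1 := by
  decide

theorem prod_succ (w : Fin 3 → Om) (i : Fin 3) :
    w (π i + 1) * w (π i + 2) = w (π (i + 1)) * w (π (i + 2)) := by
  rcases perm_succ π i with ⟨h1, h2⟩ | ⟨h1, h2⟩
  · rw [h1, h2]
  · rw [h1, h2, mul_comm]

theorem prod_three (w : Fin 3 → Om) (i : Fin 3) :
    w i * w (i + 1) * w (i + 2) = w 0 * w 1 * w 2 := by
  fin_cases i
  · rfl
  · change w 1 * w 2 * w 0 = _
    ring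
  · change w 2 * w 0 * w 1 = _
    ring

theorem cross_ee_perm (i : Fin 3) : cross (ee (π (i + 1))) (ee (π (i + 2))) = ee (π i) := by
  rcases perm_succ π i with ⟨h1, h2⟩ | ⟨h1, h2⟩
  · rw [h1, h2, cross_ee]
  · rw [h1, h2, cross_comm, cross_ee]

theorem tri_cyc (y : Fin 3 → O) (i : Fin 3) :
    bil (star (y (i + 1) * y (i + 2))) (y i) = bil (y 0 * y 1 * y 2) 1 := by
  fin_cases i
  · exact tri1 _ _ _
  · exact tri2 _ _ _
  · exact tri3 _ _ _

theorem sgs_add (x y : O) : sgs π (x + y) = sgs π x + sgs π y := by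
  unfold sgs
  split_ifs
  · rfl
  · exact star_add _ _

theorem sgs_smul (t : Om) (x : O) : sgs π (t • x) = t • sgs π x := by
  unfold sgs
  split_ifs
  · rfl
  · exact star_smul_oct _ _

theorem sgs_zero : sgs π 0 = 0 := by
  unfold sgs
  split_ifs
  · rfl
  · exact star_zero _

theorem sgs_unit : sgs π 1 = 1 := by
  unfold sgs
  split_ifs
  · rfl
  · exact star_one _

theorem sgs_self (x : O) : sgs π (sgs π x) = x := by
  unfold sgs
  split_ifs
  · rfl
  · exact star_star _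

theorem norm_sgs (x : O) : norm (sgs π x) = norm x := by
  unfold sgs
  split_ifs
  · rfl
  · exact Oct.norm_star _

theorem bil_sgs (x y : O) : bil (sgs π x) (sgs π y) = bil x y := by
  unfold sgs
  split_ifs
  · rfl
  · exact bil_star_star _ _

theorem sgs_one (x : O) : sgs 1 x = x := by
  rw [sgs, if_pos Equiv.Perm.sign_one]

theorem sgs_sgs (x : O) : sgs π (sgs ρ x) = sgs (π * ρ) x := by
  unfold sgs
  rw [Equiv.Perm.sign_mul]
  rcases Int.units_eq_one_or (Equiv.Perm.sign π) with h | h <;>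
    rcases Int.units_eq_one_or (Equiv.Perm.sign ρ) with h' | h' <;> rw [h, h'] <;> simp

theorem tri_sgs (y : Fin 3 → O) :
    bil (sgs π (y (π⁻¹ 0)) * sgs π (y (π⁻¹ 1)) * sgs π (y (π⁻¹ 2))) 1 =
      bil (y 0 * y 1 * y 2) 1 := by
  rw [← tri_cyc y (π⁻¹ 0), ← tri1]
  unfold sgs
  rcases perm_cases π with ⟨h0, h1, h2⟩ | ⟨h0, h1, h2⟩
  · simp only [if_pos h0]
    rw [h1, h2]
  · simp only [if_neg h0]
    rw [h1, h2, ← star_mul, bil_star_star, ← bil_star_star, bil_comm, ← bil_star_star, star_star,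
      star_star, bil_comm]

/-- the coordinates of a map which permutes the Peirce spaces -/
theorem coord (hf : Semi σ f) {c : Fin 3 → Om} (hc : ∀ i, f (ee i) = c i • ee (π i))
    {t : Fin 3 → O → O} (ht : ∀ i y, f (ins i y) = ins (π i) (t i y)) (x : J) (i : Fin 3) :
    dg (f x) (π i) = c i * σ (dg x i) ∧ sl (f x) (π i) = t i (sl x i) := by
  have h1 : f x = ∑ j, (σ (dg x j) • c j • ee (π j) + ins (π j) (t j (sl x j))) := by
    conv_lhs => rw [jm_sum x]
    rw [hf.sum]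
    refine Finset.sum_congr rfl fun j _ => ?_
    rw [hf.add, hf.smul, hc, ht]
  rw [h1, Fin.sum_univ_three]
  simp only [dg_add, sl_add, dg_smul, sl_smul, dg_ee, sl_ee, dg_ins, sl_ins, smul_zero, add_zero,
    zero_add, EmbeddingLike.apply_eq_iff_eq]
  fin_cases i <;> simp [mul_comm]

theorem cub_ee_ins (s : Om) (i : Fin 3) (y : O) : cub (s • ee i + ins i y) = -(s * norm y) := by
  rw [cub_eq, Fin.sum_univ_three]
  simp only [dg_add, sl_add, dg_smul, sl_smul, dg_ee, sl_ee, dg_ins, sl_ins, smul_zero, add_zero,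
    zero_add]
  fin_cases i <;> simp

theorem slot_zero (hf : Semi σ f) {t : Fin 3 → O → O}
    (ht : ∀ i y, f (ins i y) = ins (π i) (t i y)) (i : Fin 3) : t i 0 = 0 := by
  refine ins_inj (i := π i) ?_
  rw [← ht, ins_zero, ins_zero, hf.zero]

theorem slot_semi (hf : Semi σ f) {c : Fin 3 → Om} (hc : ∀ i, f (ee i) = c i • ee (π i))
    {t : Fin 3 → O → O} (ht : ∀ i y, f (ins i y) = ins (π i) (t i y)) (i : Fin 3) :
    Semi σ (t i) := by
  refine ⟨fun x y => ins_inj (i := π i) ?_, fun s x => ins_inj (i := π i) ?_, fun x y h => ?_,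
    fun w => ?_⟩
  · rw [← ht, (ins_lin i).map_add, hf.add, ht, ht, (ins_lin (π i)).map_add]
  · rw [← ht, (ins_lin i).map_smul, hf.smul, ht, (ins_lin (π i)).map_smul]
  · refine ins_inj (i := i) (hf.bij.1 ?_)
    rw [ht, ht, h]
  · obtain ⟨x, hx⟩ := hf.bij.2 (ins (π i) w)
    refine ⟨sl x i, ?_⟩
    rw [← (coord hf hc ht x i).2, hx, sl_ins_self]

theorem mult_eq (hf : Semi σ f) {l : Om} (hl : ∀ x, cub (f x) = l * σ (cub x))
    {c : Fin 3 → Om} (hc : ∀ i, f (ee i) = c i • ee (π i))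
    {t : Fin 3 → O → O} (ht : ∀ i y, f (ins i y) = ins (π i) (t i y)) : c 0 * c 1 * c 2 = l := by
  have h0 : ∀ i, dg j1 i = 1 := fun i => by rw [j1, dg_jm]; rfl
  have h0' : ∀ i, sl j1 i = 0 := fun i => by rw [j1, sl_jm]; rfl
  have h1 : ∀ j, dg (f j1) j = c (π⁻¹ j) := fun j => by
    have h2 := (coord hf hc ht j1 (π⁻¹ j)).1
    rwa [app_inv, h0, map_one, mul_one] at h2
  have h2 : ∀ j, sl (f j1) j = 0 := fun j => by
    have h2 := (coord hf hc ht j1 (π⁻¹ j)).2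
    rwa [app_inv, h0', slot_zero hf ht] at h2
  have h3 := hl j1
  rw [cub_eq, cub_eq] at h3
  simp only [h0, h0', h1, h2, Oct.norm_zero, mul_zero, Finset.sum_const_zero, sub_zero,
    bil_zero_left, add_zero, mul_one, map_one] at h3
  rw [← h3, ← Fin.prod_univ_three c, ← Fin.prod_univ_three fun j => c (π⁻¹ j)]
  exact (Equiv.prod_comp π⁻¹ c).symm

theorem norm_slot (hf : Semi σ f) {l : Om} (hl0 : l ≠ 0) (hl : ∀ x, cub (f x) = l * σ (cub x))
    {c : Fin 3 → Om} (hc : ∀ i, f (ee i) = c i • ee (π i))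
    {t : Fin 3 → O → O} (ht : ∀ i y, f (ins i y) = ins (π i) (t i y)) (i : Fin 3) (y : O) :
    norm (t i y) = c (i + 1) * c (i + 2) * σ (norm y) := by
  have h1 := hl ((1 : Om) • ee i + ins i y)
  rw [cub_ee_ins, one_smul, hf.add, hc, ht, cub_ee_ins, one_mul, map_neg,
    ← mult_eq hf hl hc ht, ← prod_three c i] at h1
  have h2 : c i ≠ 0 := by
    intro h
    rw [← mult_eq hf hl hc ht, ← prod_three c i, h, zero_mul, zero_mul] at hl0
    exact hl0 rfl
  refine mul_left_cancel₀ h2 ?_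
  linear_combination -h1

theorem bil_of_norm {t : O → O} (ht : ∀ x y, t (x + y) = t x + t y) {s : Om}
    (h : ∀ y, norm (t y) = s * σ (norm y)) (x y : O) : bil (t x) (t y) = s * σ (bil x y) := by
  rw [bil, bil, ← ht, h, h, h, map_sub, map_sub]
  ring

theorem exists_c (hf : Semi σ f) (hp : Prm π f) :
    ∃ c : Fin 3 → Om, (∀ i, c i ≠ 0) ∧ ∀ i, f (ee i) = c i • ee (π i) := by
  choose c hc using hp
  refine ⟨c, fun i h => hf.ne (ee_ne i) ?_, hc⟩
  rw [hc, h, zero_smul]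

theorem exists_t (hf : Sim σ f) {c : Fin 3 → Om} (hc0 : ∀ i, c i ≠ 0)
    (hc : ∀ i, f (ee i) = c i • ee (π i)) :
    ∃ t : Fin 3 → O → O, ∀ i y, f (ins i y) = ins (π i) (t i y) := by
  obtain ⟨l, hl0, hl⟩ := hf.mult
  refine ⟨fun i y => sl (f (ins i y)) (π i), fun i y => j_ext (fun k => ?_) fun k => ?_⟩
  · obtain ⟨j, rfl⟩ := π.surjective k
    have h1 := cross_sim hf.toSemi hl (ee (j + 1)) (ee (j + 2))
    rw [hc, hc, cross_smul_left, cross_smul_right, cross_ee, cross_ee_perm] at h1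
    have h2 := congrArg (tf (f (ins i y))) h1
    rw [tf_smul_right, tf_smul_right, tf_smul_right, dag_tf hf.toSemi, tf_ee, tf_ee, dg_ins,
      map_zero, mul_zero] at h2
    rw [dg_ins]
    exact (mul_eq_zero.1 ((mul_eq_zero.1 h2).resolve_left (hc0 _))).resolve_left (hc0 _)
  · obtain ⟨j, rfl⟩ := π.surjective k
    by_cases h : j = i
    · rw [h, sl_ins_self]
    · have h1 := cross_sim hf.toSemi hl (ee j) (ins i y)
      rw [cross_ee_ins h, hf.toSemi.dag.zero, smul_zero, hc, cross_smul_left] at h1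
      have h2 := congrArg (fun x => sl x (π j)) ((smul_eq_zero.1 h1).resolve_left (hc0 j))
      simp only [sl_cross_ee, sl_zero, neg_eq_zero] at h2
      rw [h2, sl_ins, if_neg fun h3 => h (π.injective h3)]

end Prcx

open Prcx

theorem sc_lin (z : Fin 3 → Om) : IsLinearMap Om (sc z) := by
  refine ⟨fun x y => j_ext (fun i => ?_) fun i => ?_, fun t x => j_ext (fun i => ?_) fun i => ?_⟩
  · rw [dg_add, dg_sc, dg_sc, dg_sc, dg_add, mul_add]
  · rw [sl_add, sl_sc, sl_sc, sl_sc, sl_add, smul_add]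
  · rw [dg_smul, dg_sc, dg_sc, dg_smul]
    ring
  · rw [sl_smul, sl_sc, sl_sc, sl_smul, smul_comm]

theorem cub_sc {z : Fin 3 → Om} (hz : ∀ i, z i ≠ 0) (x : J) :
    cub (sc z x) = z 0 * z 1 * z 2 * cub x := by
  have h0 := hz 0
  have h1 := hz 1
  have h2 := hz 2
  rw [cub_eq, cub_eq, Fin.sum_univ_three, Fin.sum_univ_three]
  simp only [dg_sc, sl_sc, Oct.norm_smul, smul_mul_oct, mul_smul_oct, bil_smul_left]
  change z 1 * z 2 / z 0 * dg x 0 * (z 2 * z 0 / z 1 * dg x 1) * (z 0 * z 1 / z 2 * dg x 2) -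
    (z 1 * z 2 / z 0 * dg x 0 * _ + z 2 * z 0 / z 1 * dg x 1 * _ + z 0 * z 1 / z 2 * dg x 2 * _) +
      _ = _
  field_simp

theorem sc_sc {z w : Fin 3 → Om} (x : J) : sc z (sc w x) = sc (z * w) x := by
  refine j_ext (fun i => ?_) fun i => ?_
  · simp only [dg_sc, Pi.mul_apply]
    ring
  · simp only [sl_sc, Pi.mul_apply, smul_smul]

theorem sc_const {t : Om} (ht : t ≠ 0) (x : J) : sc (fun _ => t) x = t • x := by
  refine j_ext (fun i => ?_) fun i => ?_
  · rw [dg_sc, dg_smul, mul_div_cancel_right₀ _ ht]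
  · rw [sl_sc, sl_smul]

theorem Prcx.sc_inv {z : Fin 3 → Om} (hz : ∀ i, z i ≠ 0) (x : J) :
    sc z (sc z⁻¹ x) = x ∧ sc z⁻¹ (sc z x) = x := by
  have h1 : z * z⁻¹ = fun _ => 1 := funext fun i => mul_inv_cancel₀ (hz i)
  constructor
  · rw [sc_sc, h1, sc_const one_ne_zero, one_smul]
  · rw [sc_sc, mul_comm, h1, sc_const one_ne_zero, one_smul]

theorem sc_sim {z : Fin 3 → Om} (hz : ∀ i, z i ≠ 0) : Sim 1 (sc z) ∧ Prm 1 (sc z) := by
  refine ⟨⟨⟨(sc_lin z).map_add, (sc_lin z).map_smul, Function.bijective_iff_has_inverse.2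
    ⟨sc z⁻¹, fun x => (sc_inv hz x).2, fun x => (sc_inv hz x).1⟩⟩,
    z 0 * z 1 * z 2, mul_ne_zero (mul_ne_zero (hz 0) (hz 1)) (hz 2), cub_sc hz⟩, fun i =>
    ⟨z (i + 1) * z (i + 2) / z i, j_ext (fun j => ?_) fun j => ?_⟩⟩
  · rw [dg_sc, dg_smul, Equiv.Perm.one_apply, dg_ee]
    split_ifs with h
    · rw [h]
    · rw [mul_zero, mul_zero]
  · rw [sl_sc, sl_smul, sl_ee, sl_ee, smul_zero, smul_zero]

theorem exists_sc {z : Fin 3 → Om} (hz : ∀ i, z i ≠ 0) :
    ∃ ψ : J ≃ₗ[Om] J, (∀ x, ψ x = sc z x) ∧ ∀ x, ψ.symm x = sc z⁻¹ x := by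
  obtain ⟨ψ, hψ⟩ := (sc_sim hz).1.toSemi.lin
  refine ⟨ψ, hψ, fun x => ?_⟩
  rw [ψ.symm_apply_eq, hψ, (sc_inv hz x).1]

theorem dag_sc {z : Fin 3 → Om} (hz : ∀ i, z i ≠ 0) (x : J) : dag 1 (sc z) x = sc z⁻¹ x := by
  refine dag_eq (sc_sim hz).1.toSemi fun y => ?_
  rw [tf_eq, AlgEquiv.one_apply, tf_eq]
  refine Finset.sum_congr rfl fun i _ => ?_
  have h0 := hz i
  have h1 := hz (i + 1)
  have h2 := hz (i + 2)
  simp only [dg_sc, sl_sc, Pi.inv_apply, bil_smul_left, bil_smul_right]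
  field_simp

theorem sc_ins (z : Fin 3 → Om) (i : Fin 3) (y : O) : sc z (ins i y) = z i • ins i y := by
  refine j_ext (fun j => ?_) fun j => ?_
  · rw [dg_sc, dg_smul, dg_ins, mul_zero, mul_zero]
  · rw [sl_sc, sl_smul, sl_ins]
    split_ifs with h
    · rw [h]
    · rw [smul_zero, smul_zero]

theorem wtJ_sc {g : Fin 3 → Om} (hg : ∀ i, g i ≠ 0) (x : J) :
    wtJ g x = sc (fun i => g (i + 1) * g (i + 2)) x := by
  refine j_ext (fun i => ?_) fun i => ?_
  · rw [wtJ, dg_jm, dg_sc]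
    have h1 : i + 1 + 1 = i + 2 := by revert i; decide
    have h2 : i + 1 + 2 = i := by revert i; decide
    have h3 : i + 2 + 1 = i := by revert i; decide
    have h4 : i + 2 + 2 = i + 1 := by revert i; decide
    have k1 := hg (i + 1)
    have k2 := hg (i + 2)
    simp only [h1, h2, h3, h4]
    field_simp
  · rw [wtJ, sl_jm, sl_sc]

theorem phJ_sc {c : Om} (hc : c ≠ 0) (a : O → O) (x : J) :
    phJ c (al σ a x) = sc ![c, 1, 1] (hur (Equiv.addRight 1) σ a x) := by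
  refine j_ext (fun i => ?_) fun i => ?_
  · rw [phJ, dg_jm, dg_sc, dg_hur]
    simp only [dg_al]
    fin_cases i
    · change c⁻¹ * σ (dg x 2) = 1 * 1 / c * σ (dg x 2)
      rw [mul_one, one_div]
    · change c * σ (dg x 0) = 1 * c / 1 * σ (dg x 0)
      rw [one_mul, div_one]
    · change c * σ (dg x 1) = c * 1 / 1 * σ (dg x 1)
      rw [mul_one, div_one]
  · rw [phJ, sl_jm, sl_sc, sl_hur, sgs, if_pos sign_add]
    simp only [sl_al]
    fin_cases i
    · rfl
    · exact (one_smul _ _).symm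
    · exact (one_smul _ _).symm

theorem hur_one (a : O → O) (x : J) : hur 1 σ a x = al σ a x := by
  refine j_ext (fun i => ?_) fun i => ?_
  · rw [dg_hur, dg_al, inv_one, Equiv.Perm.one_apply]
  · rw [sl_hur, sl_al, inv_one, Equiv.Perm.one_apply, sgs_one]

theorem hur_props {a : O → O} (h : Semi σ a) (hm : ∀ x y, a (x * y) = a x * a y) :
    Sim σ (hur π σ a) ∧ (∀ x, cub (hur π σ a x) = σ (cub x)) ∧
      (∀ x y, tf (hur π σ a x) (hur π σ a y) = σ (tf x y)) ∧
      (∀ i, hur π σ a (ee i) = ee (π i)) ∧ hur π σ a ones = ones ∧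
      ∀ i y, hur π σ a (ins i y) = ins (π i) (sgs π (a y)) := by
  obtain ⟨a1, -, an, ab⟩ := hom_props h hm
  have hc : ∀ x, cub (hur π σ a x) = σ (cub x) := by
    intro x
    rw [cub_eq, cub_eq]
    simp only [dg_hur, sl_hur, norm_sgs, an]
    rw [tri_sgs (π := π) fun j => a (sl x j), ← hm, ← hm]
    nth_rewrite 1 [← a1]
    rw [ab, ← Fin.prod_univ_three fun j => σ (dg x (π⁻¹ j)),
      Equiv.prod_comp π⁻¹ fun j => σ (dg x j),
      Equiv.sum_comp π⁻¹ fun j => σ (dg x j) * σ (norm (sl x j)), Fin.prod_univ_three]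
    simp only [map_add, map_sub, map_mul, map_sum]
  have hiff : ∀ i j : Fin 3, π⁻¹ j = i ↔ j = π i := fun i j => Equiv.Perm.inv_eq_iff_eq
  refine ⟨⟨⟨fun x y => j_ext (fun i => ?_) fun i => ?_, fun t x => j_ext (fun i => ?_) fun i => ?_,
    fun x y hxy => j_ext (fun i => ?_) fun i => ?_, fun y => ?_⟩, 1, one_ne_zero, fun x => by
      rw [hc, one_mul]⟩, hc, fun x y => ?_, fun i => j_ext (fun j => ?_) fun j => ?_,
    j_ext (fun j => ?_) fun j => ?_, fun i y => j_ext (fun j => ?_) fun j => ?_⟩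
  · simp only [dg_hur, dg_add, map_add]
  · simp only [sl_hur, sl_add, h.add, sgs_add]
  · simp only [dg_hur, dg_smul, map_mul]
  · simp only [sl_hur, sl_smul, h.smul, sgs_smul]
  · have h1 := congrArg (fun w => dg w (π i)) hxy
    simp only [dg_hur, inv_app] at h1
    exact σ.injective h1
  · have h1 := congrArg (fun w => sgs π (sl w (π i))) hxy
    simp only [sl_hur, inv_app, sgs_self] at h1
    exact h.bij.1 h1
  · choose b hb using h.bij.2
    refine ⟨jm (fun i => σ.symm (dg y (π i))) fun i => b (sgs π (sl y (π i))),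
      j_ext (fun j => ?_) fun j => ?_⟩
    · simp only [dg_hur, dg_jm, app_inv, AlgEquiv.apply_symm_apply]
    · simp only [sl_hur, sl_jm, app_inv, hb, sgs_self]
  · rw [tf_eq, tf_eq]
    simp only [dg_hur, sl_hur, bil_sgs, ab]
    rw [Equiv.sum_comp π⁻¹ fun j => σ (dg x j) * σ (dg y j) + σ (bil (sl x j) (sl y j))]
    simp only [map_add, map_mul, map_sum]
  · simp only [dg_hur, dg_ee, hiff]
    split_ifs
    · exact map_one σ
    · exact map_zero σ
  · rw [sl_hur, sl_ee, sl_ee, h.zero, sgs_zero]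
  · rw [dg_hur, ones, dg_jm]
    exact map_one σ
  · rw [sl_hur, ones, sl_jm]
    change sgs π (a 1) = 1
    rw [a1, sgs_unit]
  · rw [dg_hur, dg_ins, dg_ins, map_zero]
  · simp only [sl_hur, sl_ins, hiff]
    split_ifs
    · rfl
    · rw [h.zero, sgs_zero]

theorem hur_hur {a b : O → O} (ha : ∀ x, a (star x) = star (a x)) (x : J) :
    hur π σ a (hur ρ τ b x) = hur (π * ρ) (σ * τ) (fun y => a (b y)) x := by
  refine j_ext (fun i => ?_) fun i => ?_
  · rw [dg_hur, dg_hur, dg_hur, _root_.mul_inv_rev, Equiv.Perm.mul_apply, AlgEquiv.mul_apply]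
  · have h1 : ∀ y, a (sgs ρ y) = sgs ρ (a y) := fun y => by
      unfold sgs
      split_ifs
      · rfl
      · exact ha y
    rw [sl_hur, sl_hur, sl_hur, _root_.mul_inv_rev, Equiv.Perm.mul_apply, h1, sgs_sgs]

theorem Prm.comp (hs : Semi σ f) (hf : Prm π f) (hg : Prm ρ g) :
    Prm (π * ρ) fun x => f (g x) := by
  intro i
  obtain ⟨s, h1⟩ := hg i
  obtain ⟨t, h2⟩ := hf (ρ i)
  refine ⟨σ s * t, ?_⟩
  change f (g (ee i)) = _
  rw [h1, hs.smul, h2, smul_smul, Equiv.Perm.mul_apply]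

theorem Prm.symm {ψ : J ≃ₗ[Om] J} (h : Prm π ψ) : Prm π⁻¹ ψ.symm := by
  obtain ⟨c, hc0, hc⟩ := exists_c (semi_lin ψ) h
  intro i
  refine ⟨(c (π⁻¹ i))⁻¹, ?_⟩
  rw [ψ.symm_apply_eq, map_smul, hc, app_inv, smul_smul,
    inv_mul_cancel₀ (hc0 _), one_smul]

theorem Prm.unique (hs : Semi σ f) (h : Prm π f) (h' : Prm ρ f) : π = ρ := by
  obtain ⟨c, hc0, hc⟩ := exists_c hs h
  refine Equiv.ext fun i => ?_
  obtain ⟨t, ht⟩ := h' i
  have h1 := congrArg (fun w => dg w (π i)) ((hc i).symm.trans ht)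
  simp only [dg_smul, dg_ee_self, mul_one] at h1
  by_contra h2
  rw [dg_ee, if_neg h2, mul_zero] at h1
  exact hc0 i h1

/-- The Peirce spaces are permuted. -/
theorem Prm.slot (hf : Sim σ f) (hp : Prm π f) : ∃ t : Fin 3 → O → O,
    (∀ i, Semi σ (t i)) ∧ ∀ i y, f (ins i y) = ins (π i) (t i y) := by
  obtain ⟨c, hc0, hc⟩ := exists_c hf.toSemi hp
  obtain ⟨t, ht⟩ := exists_t hf hc0 hc
  exact ⟨t, slot_semi hf.toSemi hc ht, ht⟩

/-- Related triples. -/
theorem Prm.triple (hf : Semi σ f) {l : Om} (hl0 : l ≠ 0) (hl : ∀ x, cub (f x) = l * σ (cub x))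
    {c : Fin 3 → Om} (hc : ∀ i, f (ee i) = c i • ee i) {t : Fin 3 → O → O}
    (ht : ∀ i y, f (ins i y) = ins i (t i y)) : c 0 * c 1 * c 2 = l ∧
      (∀ i y, norm (t i y) = c (i + 1) * c (i + 2) * σ (norm y)) ∧
      ∀ i x y, star (t (i + 1) x * t (i + 2) y) = c i • t i (star (x * y)) := by
  have h1 := mult_eq (π := 1) hf hl hc ht
  have h2 := norm_slot (π := 1) hf hl0 hl hc ht
  have hs := slot_semi (π := 1) hf hc ht
  refine ⟨h1, h2, fun i x y => eq_of_bil fun w' => ?_⟩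
  obtain ⟨w, rfl⟩ := (hs i).bij.2 w'
  obtain ⟨Y, y0, y1, y2⟩ : ∃ Y : Fin 3 → O, Y i = w ∧ Y (i + 1) = x ∧ Y (i + 2) = y := by
    fin_cases i
    exacts [⟨![w, x, y], rfl, rfl, rfl⟩, ⟨![y, w, x], rfl, rfl, rfl⟩, ⟨![x, y, w], rfl, rfl, rfl⟩]
  have h3 : ∀ j, dg (f (jm 0 Y)) j = 0 := fun j => by
    have h4 := (coord (π := 1) hf hc ht (jm 0 Y) j).1
    rwa [dg_jm, Pi.zero_apply, map_zero, mul_zero] at h4
  have h4 : ∀ j, sl (f (jm 0 Y)) j = t j (Y j) := fun j => by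
    have h4 := (coord (π := 1) hf hc ht (jm 0 Y) j).2
    rwa [sl_jm] at h4
  have h5 := hl (jm 0 Y)
  rw [cub_eq, cub_eq] at h5
  simp only [h3, h4, dg_jm, sl_jm, Pi.zero_apply, zero_mul, Finset.sum_const_zero, sub_zero,
    zero_add] at h5
  rw [← tri_cyc (fun j => t j (Y j)) i, ← tri_cyc Y i, y0, y1, y2] at h5
  rw [h5, bil_smul_left, bil_of_norm (hs i).add (h2 i), ← h1, ← prod_three c i]
  ring

theorem sim_of_triple {c : Fin 3 → Om} (hc : ∀ i, c i ≠ 0) (t : Fin 3 → O ≃ₗ[Om] O)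
    (hn : ∀ i y, norm (t i y) = c (i + 1) * c (i + 2) * norm y)
    (h : ∀ x y, star (t 1 x * t 2 y) = c 0 • t 0 (star (x * y))) :
    ∃ ψ : J ≃ₗ[Om] J, (∀ x, cub (ψ x) = c 0 * c 1 * c 2 * cub x) ∧
      (∀ i, ψ (ee i) = c i • ee i) ∧ ∀ i y, ψ (ins i y) = ins i (t i y) := by
  have hs : Semi 1 fun x : J => jm (fun i => c i * dg x i) fun i => t i (sl x i) := by
    refine ⟨fun x y => j_ext (fun i => ?_) fun i => ?_, fun s x => j_ext (fun i => ?_) fun i => ?_,
      fun x y hxy => j_ext (fun i => ?_) fun i => ?_, fun y => ?_⟩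
    · simp only [dg_jm, dg_add, mul_add]
    · simp only [sl_jm, sl_add, map_add]
    · simp only [dg_jm, dg_smul, AlgEquiv.one_apply]
      ring
    · simp only [sl_jm, sl_smul, map_smul, AlgEquiv.one_apply]
    · have h1 := congrArg (fun w => dg w i) hxy
      simp only [dg_jm] at h1
      exact mul_left_cancel₀ (hc i) h1
    · have h1 := congrArg (fun w => sl w i) hxy
      simp only [sl_jm] at h1
      exact (t i).injective h1
    · refine ⟨jm (fun i => (c i)⁻¹ * dg y i) fun i => (t i).symm (sl y i),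
        j_ext (fun j => ?_) fun j => ?_⟩
      · simp only [dg_jm, mul_inv_cancel_left₀ (hc j)]
      · simp only [sl_jm, LinearEquiv.apply_symm_apply]
  obtain ⟨ψ, hψ⟩ := hs.lin
  refine ⟨ψ, fun x => ?_, fun i => j_ext (fun j => ?_) fun j => ?_,
    fun i y => j_ext (fun j => ?_) fun j => ?_⟩
  · have hb := bil_of_norm (σ := 1) (t 0).map_add (hn 0)
    rw [hψ, cub_eq, cub_eq, Fin.sum_univ_three, Fin.sum_univ_three]
    simp only [dg_jm, sl_jm, hn]
    rw [← tri1, ← tri1, h, bil_smul_left, hb, AlgEquiv.one_apply]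
    change c 0 * dg x 0 * (c 1 * dg x 1) * (c 2 * dg x 2) - (c 0 * dg x 0 * (c 1 * c 2 * _) +
      c 1 * dg x 1 * (c 2 * c 0 * _) + c 2 * dg x 2 * (c 0 * c 1 * _)) + c 0 * (c 1 * c 2 * _) = _
    ring
  · rw [hψ, dg_jm, dg_smul, dg_ee]
    split_ifs with h1
    · rw [h1]
    · rw [mul_zero, mul_zero]
  · rw [hψ, sl_jm, sl_smul, sl_ee, map_zero, smul_zero]
  · rw [hψ, dg_jm, dg_ins, dg_ins, mul_zero]
  · rw [hψ, sl_jm, sl_ins, sl_ins]
    split_ifs with h1
    · rw [h1]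
    · exact map_zero _

theorem Prm.sc (hf : Sim σ f) (hp : Prm π f) {z : Fin 3 → Om} (hz : ∀ i, z i ≠ 0) (x : J) :
    f (sc z x) = sc (fun j => σ (z (π⁻¹ j))) (f x) := by
  obtain ⟨c, hc0, hc⟩ := exists_c hf.toSemi hp
  obtain ⟨t, ht⟩ := exists_t hf hc0 hc
  refine j_ext (fun k => ?_) fun k => ?_
  · obtain ⟨i, rfl⟩ := π.surjective k
    rw [dg_sc, prod_succ (π := π) fun j => σ (z (π⁻¹ j)), (coord hf.toSemi hc ht _ i).1,
      (coord hf.toSemi hc ht _ i).1, dg_sc]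
    simp only [inv_app, map_mul, map_div₀]
    ring
  · obtain ⟨i, rfl⟩ := π.surjective k
    rw [sl_sc, (coord hf.toSemi hc ht _ i).2, (coord hf.toSemi hc ht _ i).2, sl_sc,
      (slot_semi hf.toSemi hc ht i).smul, inv_app]

theorem Prm.dag (hf : Sim σ f) (hp : Prm π f) :
    ∃ z : Fin 3 → Om, (∀ i, z i ≠ 0) ∧ ∀ x, dag σ f x = Cl.sc z (f x) := by
  obtain ⟨c, hc0, hc⟩ := exists_c hf.toSemi hp
  obtain ⟨t, ht⟩ := exists_t hf hc0 hc
  obtain ⟨l, hl0, hl⟩ := hf.mult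
  refine ⟨fun j => (c (π⁻¹ j + 1) * c (π⁻¹ j + 2))⁻¹,
    fun j => inv_ne_zero (mul_ne_zero (hc0 _) (hc0 _)), fun y => dag_eq hf.toSemi fun x => ?_⟩
  rw [tf_eq, tf_eq, map_sum, ← Equiv.sum_comp π]
  refine Finset.sum_congr rfl fun i _ => ?_
  rw [dg_sc, sl_sc, prod_succ (π := π) fun j => (c (π⁻¹ j + 1) * c (π⁻¹ j + 2))⁻¹,
    (coord hf.toSemi hc ht _ i).1, (coord hf.toSemi hc ht _ i).1, (coord hf.toSemi hc ht _ i).2,
    (coord hf.toSemi hc ht _ i).2, bil_smul_right, bil_of_norm (slot_semi hf.toSemi hc ht i).add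
      (norm_slot hf.toSemi hl0 hl hc ht i)]
  have h1 : i + 1 + 1 = i + 2 := by revert i; decide
  have h2 : i + 1 + 2 = i := by revert i; decide
  have h3 : i + 2 + 1 = i := by revert i; decide
  have h4 : i + 2 + 2 = i + 1 := by revert i; decide
  have k0 := hc0 i
  have k1 := hc0 (i + 1)
  have k2 := hc0 (i + 2)
  simp only [inv_app, h1, h2, h3, h4, map_add, map_mul]
  field_simp

/-- A similarity which acts on one vector of each slot like `sc z`, and is of the form `sc w`. -/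
theorem sc_unique {z w : Fin 3 → Om} {y : Fin 3 → O} (hy : ∀ i, y i ≠ 0)
    (h : ∀ i, sc z (ins i (y i)) = sc w (ins i (y i))) : z = w := by
  funext i
  have h1 := congrArg (fun x => sl x i) (h i)
  simp only [sl_sc, sl_ins_self] at h1
  exact smul_left_injective Om (hy i) h1

theorem Prcx.al_of_ones (hf : Sim σ f) (hp : Prm 1 f) (h1 : f ones = ones) : ∃ a : O → O,
    Semi σ a ∧ (∀ x y, a (x * y) = a x * a y) ∧ ∀ x, f x = al σ a x := by
  obtain ⟨c, hc0, hc⟩ := exists_c hf.toSemi hp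
  obtain ⟨t, ht⟩ := exists_t hf hc0 hc
  obtain ⟨l, hl0, hl⟩ := hf.mult
  have k := coord hf.toSemi hc ht
  simp only [Equiv.Perm.one_apply] at k
  have c1 : ∀ i, c i = 1 := fun i => by
    have h2 := (k ones i).1
    rw [h1, ones, dg_jm, Pi.one_apply, map_one, mul_one] at h2
    exact h2.symm
  have t1 : ∀ i, t i 1 = 1 := fun i => by
    have h2 := (k ones i).2
    rw [h1, ones, sl_jm, Pi.one_apply] at h2
    exact h2.symm
  obtain ⟨-, -, h3⟩ := Prm.triple hf.toSemi hl0 hl hc ht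
  simp only [c1, one_smul] at h3
  have h4 : ∀ i x, star (t (i + 1) x) = t i (star x) := fun i x => by
    have h5 := h3 i x 1
    rwa [t1, mul_one, mul_one] at h5
  have h5 : ∀ i x, star (t (i + 2) x) = t i (star x) := fun i x => by
    have h5 := h3 i 1 x
    rwa [t1, one_mul, one_mul] at h5
  have h6 : ∀ i x, t (i + 1) x = t (i + 2) x := fun i x =>
    star_injective ((h4 i x).trans (h5 i x).symm)
  have h7 : ∀ i x, t i x = t 0 x := fun i x => by
    fin_cases i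
    · rfl
    · exact (h6 2 x).symm
    · exact h6 1 x
  refine ⟨t 0, slot_semi hf.toSemi hc ht 0, fun x y => star_injective ?_,
    fun x => j_ext (fun i => ?_) fun i => ?_⟩
  · rw [← h7 (0 + 1) x, ← h7 (0 + 2) y, h3, ← h7 (0 + 1) (x * y), h4]
  · rw [(k x i).1, c1, one_mul, dg_al]
  · rw [(k x i).2, h7, sl_al]

/-- An automorphism which fixes the frame and the element `ones`. -/
theorem al_of_ones (hf : Sim σ f) (hp : Prm π f) (h1 : f ones = ones) : ∃ a : O → O, Semi σ a ∧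
    (∀ x y, a (x * y) = a x * a y) ∧ ∀ x, f x = hur π σ a x := by
  have hid : Semi 1 fun y : O => y := semi_lin (LinearEquiv.refl Om O)
  obtain ⟨s1, -, -, s2, s3, -⟩ := hur_props (π := π⁻¹) hid fun _ _ => rfl
  have g1 := s1.comp hf
  have g2 := Prm.comp s1.toSemi (fun i => ⟨1, by rw [s2, one_smul]⟩) hp
  rw [one_mul] at g1
  rw [inv_mul_cancel] at g2
  obtain ⟨a, a1, a2, a3⟩ := Prcx.al_of_ones g1 g2 (by rw [h1, s3])
  refine ⟨a, a1, a2, fun x => ?_⟩
  have h2 := congrArg (hur π 1 fun y => y) (a3 x)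
  rw [hur_hur (a := fun y => y) (fun _ => rfl), ← hur_one, hur_hur (a := fun y => y) (fun _ => rfl),
    mul_inv_cancel, mul_one, mul_one, one_mul, hur_one] at h2
  rw [← h2]
  refine j_ext (fun i => ?_) fun i => ?_
  · rw [dg_al, AlgEquiv.one_apply]
  · rw [sl_al]

end Vale.Agent.P011Z.Cl

end
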