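import Vale.Agent.P011Z.Cl.Red2
import Vale.Agent.P011Z.Cl.Red1.Iso

/-!
Classification of the forms: block Red1.
-/

open Matrix Module

noncomputable section

namespace Vale.Agent.P011Z.Cl

open Vale.Agent.P011.D4 Vale.Agent.P011.D4.Oct Vale.Agent.P011.E6 Vale.Agent.P011.E6.Alb

variable {G : Subgroup Gq} {f : Gq → J → J}

theorem red_sing (h : TA G f) (hs : ∀ σ ∈ G, Sim σ (f σ)) {x : J} (h0 : x ≠ 0) (hx : Fv G f x)
    (hc : cub x = 0) : ∃ y, y ≠ 0 ∧ Fv G f y ∧ adj y = 0 := Red1x.red_sing h hs h0 hx hc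

/-- Zeros of a cubic form descend along quadratic extensions. -/
theorem springer3 (h : TA G f) (hs : ∀ σ ∈ G, Sim σ (f σ)) {H : Subgroup Gq} (hx : Ix2 G H)
    {x : J} (h0 : x ≠ 0) (hf : Fv (G ⊓ H) f x) (hc : cub x = 0) :
    ∃ y, y ≠ 0 ∧ Fv G f y ∧ cub y = 0 := Red1x.springer3 h hs hx h0 hf hc

/-- Albert algebras over number fields are reduced. -/
theorem red (h : TA G f) (hs : ∀ σ ∈ G, Sim σ (f σ)) : ∃ y, y ≠ 0 ∧ Fv G f y ∧ adj y = 0 :=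
  Red1x.red (fun _ _ h1 h2 _ h3 _ h4 h5 h6 h7 => red_core h1 h2 h3 h4 h5 h6 h7) h hs

theorem sing_den (h : TA G f) (hs : ∀ σ ∈ G, Sim σ (f σ)) {p : J → Om} (hp : Pol p) {n : ℕ}
    (hh : ∀ (t : Om) x, p (t • x) = t ^ n * p x) (h0 : ∃ x, adj x = 0 ∧ p x ≠ 0) :
    ∃ x, Fv G f x ∧ adj x = 0 ∧ p x ≠ 0 := Red1x.sing_den h hs (red h hs) hp hh h0

theorem frame_den (h : TA G f) (hs : ∀ σ ∈ G, Sim σ (f σ)) :
    ∃ x : Fin 3 → J, (∀ i, Fv G f (x i)) ∧ Frame x := Red1x.frame_den h hs (red h hs)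

theorem frame_den2 (h : TA G f) (hs : ∀ σ ∈ G, Sim σ (f σ)) (σ : Fin 3 → Gq)
    (hσ : ∀ i j, (σ i)⁻¹ * σ j ∈ G → i = j) (φ : Fin 3 → J → J) (hφ : ∀ i, Sim (σ i) (φ i)) :
    ∃ x, Fv G f x ∧ Frame fun i => φ i x := Red1x.frame_den2 h hs (red h hs) σ hσ φ hφ

end Vale.Agent.P011Z.Cl

end
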