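import Vale.Agent.P011Z.Cl.Hur0
import Vale.Agent.P011Z.Cl.Nrd

/-!
Classification of the forms: block Red2.
-/

open Matrix Module

noncomputable section

namespace Vale.Agent.P011Z.Cl

open Vale.Agent.P011.D4 Vale.Agent.P011.D4.Oct Vale.Agent.P011.E6 Vale.Agent.P011.E6.Alb

open Prcx

namespace Red2x

theorem cross_ins (i : Fin 3) (x y : O) :
    cross (ins (i + 1) x) (ins (i + 2) y) = ins i (star (x * y)) := by
  refine j_ext (fun j => ?_) fun j => ?_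
  · rw [dg_cross, dg_ins, dg_ins, dg_ins, dg_ins, dg_ins, sl_ins, sl_ins]
    fin_cases i <;> fin_cases j <;> simp [bil_zero_left, bil_zero_right]
  · rw [sl_cross, dg_ins, dg_ins, sl_ins, sl_ins, sl_ins, sl_ins, sl_ins]
    fin_cases i <;> fin_cases j <;> simp [sl_ins]

theorem j1_eq : j1 = ∑ i, ee i := by
  have h := jm_sum j1
  simpa only [j1, dg_jm, sl_jm, Pi.one_apply, Pi.zero_apply, one_smul, ins_zero, add_zero] using h

theorem jm_eq (y : Fin 3 → O) : jm 0 y = ∑ i, ins i (y i) := by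
  have h := jm_sum (jm 0 y)
  simpa only [dg_jm, sl_jm, Pi.zero_apply, zero_smul, zero_add] using h

theorem star_ep : star (ep * ep) = em := by
  refine z_ext ?_ ?_ ?_ ?_ <;>
    simp [(z_star _).1, (z_star _).2.1, (z_star _).2.2.1, (z_star _).2.2.2, (z_mul _ _).1,
      (z_mul _ _).2.1, (z_mul _ _).2.2.1, (z_mul _ _).2.2.2, ep, em, ZDx.zp_zorn, ZDx.zm_zorn,
      ZDx.za_zorn, ZDx.zb_zorn]

theorem mul_ep {y : O} : y * ep = 0 ↔ zp y = 0 ∧ zb y = 0 := by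
  have h := z_mul y ep
  simp only [ep, ZDx.zp_zorn, ZDx.zm_zorn, ZDx.za_zorn, ZDx.zb_zorn, mul_one, dotProduct_zero,
    add_zero, mul_zero, smul_zero, zero_smul, map_zero, sub_zero, one_smul] at h
  constructor
  · intro h0
    rw [ep] at h0
    rw [h0, ZDx.zp_zero, ZDx.zb_zero] at h
    exact ⟨h.1.symm, h.2.2.2.symm⟩
  · rintro ⟨h1, h2⟩
    rw [ep]
    refine z_ext ?_ ?_ ?_ ?_
    · rw [h.1, h1, ZDx.zp_zero]
    · rw [h.2.1, ZDx.zm_zero]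
    · rw [h.2.2.1, ZDx.za_zero]
    · rw [h.2.2.2, h2, ZDx.zb_zero]

theorem em_mul {y : O} : em * y = 0 ↔ zm y = 0 ∧ zb y = 0 := by
  have h := z_mul em y
  simp only [em, ZDx.zp_zorn, ZDx.zm_zorn, ZDx.za_zorn, ZDx.zb_zorn, one_mul, zero_dotProduct,
    add_zero, zero_mul, smul_zero, zero_smul, map_zero, sub_zero, one_smul, LinearMap.zero_apply,
    zero_add] at h
  constructor
  · intro h0
    rw [em] at h0
    rw [h0, ZDx.zm_zero, ZDx.zb_zero] at h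
    exact ⟨h.2.1.symm, h.2.2.2.symm⟩
  · rintro ⟨h1, h2⟩
    rw [em]
    refine z_ext ?_ ?_ ?_ ?_
    · rw [h.1, ZDx.zp_zero]
    · rw [h.2.1, h1, ZDx.zm_zero]
    · rw [h.2.2.1, ZDx.za_zero]
    · rw [h.2.2.2, h2, ZDx.zb_zero]

theorem cub_ep : cub (jm 0 fun _ => ep) = 1 := by
  rw [ZDx.cub_z]
  simp [dg_jm, sl_jm, ep, ZDx.zp_zorn, ZDx.zm_zorn, ZDx.za_zorn, ZDx.zb_zorn]

/-- the norm in the model -/
theorem cub_split (d a b : Fin 3 → Om) {w : J} (h0 : ∀ i, dg w i = 0)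
    (h1 : ∀ i, zp (sl w i) = 0) (h2 : ∀ i, zm (sl w i) = 0) (h3 : ∀ i, zb (sl w i) = 0) :
    cub (jm d (fun i => a i • ep + b i • em) + w) =
      d 0 * d 1 * d 2 - (d 0 * a 0 * b 0 + d 1 * a 1 * b 1 + d 2 * a 2 * b 2) + a 0 * a 1 * a 2 +
        b 0 * b 1 * b 2 + cub w := by
  rw [ZDx.cub_z, ZDx.cub_z w]
  simp only [dg_add, sl_add, dg_jm, sl_jm, h0, h1, h2, h3, ZDx.zp_add, ZDx.zm_add, ZDx.za_add,
    ZDx.zb_add, ZDx.zp_smul, ZDx.zm_smul, ZDx.za_smul, ZDx.zb_smul, ep, em, ZDx.zp_zorn,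
    ZDx.zm_zorn, ZDx.za_zorn, ZDx.zb_zorn, smul_zero, add_zero, zero_add, mul_zero, mul_one,
    dotProduct_zero, map_zero, sub_zero]
  ring

theorem ne_split (d a b : Fin 3 → Om) {w : J} (h0 : ∀ i, dg w i = 0)
    (h1 : ∀ i, zp (sl w i) = 0) (h2 : ∀ i, zm (sl w i) = 0) (h3 : ∀ i, zb (sl w i) = 0)
    (h : jm d (fun i => a i • ep + b i • em) + w = 0) : w = 0 := by
  refine j_ext (fun i => by rw [h0, dg_zero]) fun i => ?_
  have h4 := congrArg (fun x => za (sl x i)) h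
  simp only [sl_add, sl_jm, ZDx.za_add, ZDx.za_smul, ep, em, ZDx.za_zorn, smul_zero, zero_add,
    sl_zero, ZDx.za_zero] at h4
  rw [sl_zero]
  exact z_ext (by rw [h1, ZDx.zp_zero]) (by rw [h2, ZDx.zm_zero]) (by rw [h4, ZDx.za_zero])
    (by rw [h3, ZDx.zb_zero])

/-- the elements annihilated by two families -/
def Ann (v v' : Fin 3 → O) : Submodule Om J where
  carrier := {x | ∀ i, dg x i = 0 ∧ sl x i * v (i + 1) = 0 ∧ v' (i + 2) * sl x i = 0}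
  zero_mem' := fun i => by rw [dg_zero, sl_zero, zero_mul, mul_zero]; exact ⟨rfl, rfl, rfl⟩
  add_mem' := fun {x y} hx hy i => by
    rw [dg_add, sl_add, add_mul, mul_add, (hx i).1, (hx i).2.1, (hx i).2.2, (hy i).1, (hy i).2.1,
      (hy i).2.2, add_zero, add_zero]
    exact ⟨rfl, rfl, rfl⟩
  smul_mem' := fun t x hx i => by
    rw [dg_smul, sl_smul, smul_mul_oct, mul_smul_oct, (hx i).1, (hx i).2.1, (hx i).2.2, mul_zero,
      smul_zero]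
    exact ⟨rfl, rfl, rfl⟩

theorem mem_Ann {v v' : Fin 3 → O} {x : J} : x ∈ Ann v v' ↔
    ∀ i, dg x i = 0 ∧ sl x i * v (i + 1) = 0 ∧ v' (i + 2) * sl x i = 0 := Iff.rfl

/-- the hypotheses -/
structure Hyp (G : Subgroup Gq) (f : Gq → J → J) (χ : Gq → Fin 3) (ρ : Gq) : Prop where
  ta : TA G f
  cb : ∀ σ ∈ G, ∀ x, cub (f σ x) = σ (cub x)
  chi : Chi G χ
  mem : ρ ∈ G
  one : χ ρ = 1
  fe : ∀ σ ∈ G, ∀ i, f σ (ee i) = ee (i + χ σ)

/-- the maps of the slots -/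
def sm (f : Gq → J → J) (χ : Gq → Fin 3) (σ : Gq) (i : Fin 3) (y : O) : O :=
  sl (f σ (ins i y)) (i + χ σ)

/-- representatives of the cosets -/
def rp (ρ : Gq) : Fin 3 → Gq := ![1, ρ, ρ * ρ]

variable {G : Subgroup Gq} {f : Gq → J → J} {χ : Gq → Fin 3} {ρ σ : Gq}

theorem Hyp.cb' (H : Hyp G f χ ρ) (hσ : σ ∈ G) (x : J) : cub (f σ x) = 1 * σ (cub x) := by
  rw [one_mul, H.cb σ hσ]

theorem Hyp.sim (H : Hyp G f χ ρ) (hσ : σ ∈ G) : Sim σ (f σ) :=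
  ⟨H.ta.semi σ hσ, 1, one_ne_zero, H.cb' hσ⟩

theorem Hyp.fe' (H : Hyp G f χ ρ) (hσ : σ ∈ G) (i : Fin 3) :
    f σ (ee i) = (fun _ => (1 : Om)) i • ee (Equiv.addRight (χ σ) i) := by
  rw [one_smul, H.fe σ hσ]
  rfl

theorem Hyp.cross (H : Hyp G f χ ρ) (hσ : σ ∈ G) (x y : J) :
    f σ (cross x y) = cross (f σ x) (f σ y) := by
  have h1 : f σ j1 = j1 := by
    rw [j1_eq, (H.ta.semi σ hσ).sum]
    simp only [H.fe σ hσ]
    exact Equiv.sum_comp (Equiv.addRight (χ σ)) ee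
  rw [cross_sim (H.ta.semi σ hσ) (H.cb' hσ), one_smul, dag_of_one (H.ta.semi σ hσ) (H.cb σ hσ) h1]

theorem Hyp.ins (H : Hyp G f χ ρ) (hσ : σ ∈ G) (i : Fin 3) (y : O) :
    f σ (ins i y) = ins (Equiv.addRight (χ σ) i) (sm f χ σ i y) := by
  obtain ⟨t, ht⟩ := exists_t (H.sim hσ) (fun _ => one_ne_zero) (H.fe' hσ)
  rw [sm, ht]
  exact congrArg _ (sl_ins_self _ _).symm

theorem Hyp.ins' (H : Hyp G f χ ρ) (hσ : σ ∈ G) (i : Fin 3) (y : O) :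
    f σ (Cl.ins i y) = Cl.ins (i + χ σ) (sm f χ σ i y) := H.ins hσ i y

theorem Hyp.semi (H : Hyp G f χ ρ) (hσ : σ ∈ G) (i : Fin 3) : Semi σ (sm f χ σ i) :=
  slot_semi (H.ta.semi σ hσ) (H.fe' hσ) (H.ins hσ) i

theorem Hyp.norm (H : Hyp G f χ ρ) (hσ : σ ∈ G) (i : Fin 3) (y : O) :
    norm (sm f χ σ i y) = 1 * σ (norm y) := by
  rw [norm_slot (H.ta.semi σ hσ) one_ne_zero (H.cb' hσ) (H.fe' hσ) (H.ins hσ), one_mul]

theorem Hyp.coord (H : Hyp G f χ ρ) (hσ : σ ∈ G) (x : J) (i : Fin 3) :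
    dg (f σ x) (i + χ σ) = σ (dg x i) ∧ sl (f σ x) (i + χ σ) = sm f χ σ i (sl x i) := by
  have h := Prcx.coord (H.ta.semi σ hσ) (H.fe' hσ) (H.ins hσ) x i
  rw [one_mul] at h
  exact h

theorem Hyp.mul_zero (H : Hyp G f χ ρ) (hσ : σ ∈ G) (i : Fin 3) {x y : O} (h : x * y = 0) :
    sm f χ σ (i + 1) x * sm f χ σ (i + 2) y = 0 := by
  have h1 := H.cross hσ (Cl.ins (i + 1) x) (Cl.ins (i + 2) y)
  rw [cross_ins, h, star_zero, ins_zero, (H.ta.semi σ hσ).zero, H.ins' hσ, H.ins' hσ,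
    add_right_comm i 1, add_right_comm i 2, cross_ins, ← ins_zero (i + χ σ)] at h1
  exact star_eq_zero.1 (ins_inj h1).symm

theorem Hyp.chi_inv (H : Hyp G f χ ρ) {α β : Gq} (hα : α ∈ G) (hβ : β ∈ G) (h : χ α = χ β) :
    χ (β⁻¹ * α) = 0 := by
  have h1 := H.chi.mul β hβ _ (G.mul_mem (G.inv_mem hβ) hα)
  rw [mul_inv_cancel_left, h] at h1
  exact left_eq_add.1 h1

theorem Hyp.rp_mem (H : Hyp G f χ ρ) (i : Fin 3) : rp ρ i ∈ G := by
  fin_cases i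
  exacts [G.one_mem, H.mem, G.mul_mem H.mem H.mem]

theorem Hyp.chi_rp (H : Hyp G f χ ρ) (i : Fin 3) : χ (rp ρ i) = i := by
  fin_cases i
  · exact Nrdx.chi_one H.chi
  · exact H.one
  · change χ (ρ * ρ) = 2
    rw [H.chi.mul ρ H.mem ρ H.mem, H.one]
    rfl

theorem Hyp.chi_mul (H : Hyp G f χ ρ) (hσ : σ ∈ G) (i : Fin 3) :
    χ (σ * rp ρ i) = χ (rp ρ (i + χ σ)) := by
  rw [H.chi.mul σ hσ _ (H.rp_mem i), H.chi_rp, H.chi_rp, add_comm]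

theorem Hyp.move (H : Hyp G f χ ρ) (hσ : σ ∈ G) {X : J} (hX : ∀ τ ∈ G, χ τ = 0 → f τ X = X)
    (i : Fin 3) : f σ (f (rp ρ i) X) = f (rp ρ (i + χ σ)) X := by
  have h1 := G.mul_mem hσ (H.rp_mem i)
  have h2 := H.rp_mem (i + χ σ)
  have h3 := G.mul_mem (G.inv_mem h2) h1
  rw [H.ta.mul σ hσ _ (H.rp_mem i), ← mul_inv_cancel_left (rp ρ (i + χ σ)) (σ * rp ρ i),
    ← H.ta.mul _ h2 _ h3, hX _ h3 (H.chi_inv h1 h2 (H.chi_mul hσ i))]

theorem Hyp.move' (H : Hyp G f χ ρ) (hσ : σ ∈ G) {d : Om} (hd : ∀ τ ∈ G, χ τ = 0 → τ d = d)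
    (i : Fin 3) : σ (rp ρ i d) = rp ρ (i + χ σ) d := by
  have h1 := G.mul_mem hσ (H.rp_mem i)
  have h2 := H.rp_mem (i + χ σ)
  have h3 := G.mul_mem (G.inv_mem h2) h1
  rw [← AlgEquiv.mul_apply, ← mul_inv_cancel_left (rp ρ (i + χ σ)) (σ * rp ρ i),
    AlgEquiv.mul_apply, hd _ h3 (H.chi_inv h1 h2 (H.chi_mul hσ i))]

/-- a stable family of isotropic vectors in the slots -/
theorem Hyp.exists_v (H : Hyp G f χ ρ) (hc : ∀ ι γ, Cj ι γ → γ ∉ G) : ∃ v : Fin 3 → O,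
    v 0 ≠ 0 ∧ (∀ i, Oct.norm (v i) = 0) ∧
      ∀ σ ∈ G, ∀ i, f σ (Cl.ins i (v i)) = Cl.ins (i + χ σ) (v (i + χ σ)) := by
  obtain ⟨N, hN, hm'⟩ := Chi.ker H.ta.opn H.chi
  have h0 : ∀ σ ∈ N, ∀ y, f σ (Cl.ins 0 y) = Cl.ins 0 (sm f χ σ 0 y) := fun σ hσ y => by
    rw [H.ins' ((hm' σ).1 hσ).1, ((hm' σ).1 hσ).2, add_zero]
  have ht : TA N fun σ => sm f χ σ 0 := by
    refine ⟨hN, fun σ hσ => H.semi ((hm' σ).1 hσ).1 0, fun σ hσ τ hτ y => ins_inj (i := 0) ?_,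
      fun y => ?_⟩
    · rw [← h0 σ hσ, ← h0 τ hτ, ← h0 _ (N.mul_mem hσ hτ),
        H.ta.mul σ ((hm' σ).1 hσ).1 τ ((hm' τ).1 hτ).1]
    · obtain ⟨K, hK, h1⟩ := H.ta.smo (Cl.ins 0 y)
      exact ⟨K, hK, fun σ hσ hσN => ins_inj (i := 0) (by
        rw [← h0 σ hσN, h1 σ hσ ((hm' σ).1 hσN).1])⟩
  obtain ⟨B, hB⟩ := exists_bilL
  obtain ⟨v0, h1, h2, h3⟩ := hm ht B (fun x y => by rw [hB, hB, bil_comm]) (fun σ hσ x y => by
      rw [hB, hB, bil_of_norm (H.semi ((hm' σ).1 hσ).1 0).add (H.norm ((hm' σ).1 hσ).1 0),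
        one_mul])
    (by rw [finrank_O]; norm_num) fun ι γ hγ hN' => absurd ((hm' γ).1 hN').1 (hc ι γ hγ)
  rw [hB, bil_self] at h3
  have h4 : Oct.norm v0 = 0 := (mul_eq_zero.1 h3).resolve_left two_ne_zero
  have h5 : ∀ τ ∈ G, χ τ = 0 → f τ (Cl.ins 0 v0) = Cl.ins 0 v0 := fun τ hτ h => by
    rw [h0 τ ((hm' τ).2 ⟨hτ, h⟩)]
    exact congrArg _ (h2 τ ((hm' τ).2 ⟨hτ, h⟩))
  have h6 : ∀ i, f (rp ρ i) (Cl.ins 0 v0) = Cl.ins i (sm f χ (rp ρ i) 0 v0) := fun i => by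
    rw [H.ins' (H.rp_mem i), H.chi_rp, zero_add]
  refine ⟨fun i => sm f χ (rp ρ i) 0 v0, (H.semi (H.rp_mem 0) 0).ne h1, fun i => ?_,
    fun σ hσ i => ?_⟩
  · rw [H.norm (H.rp_mem i), h4, map_zero, MulZeroClass.mul_zero]
  · rw [← h6, ← h6, H.move hσ h5]

theorem Hyp.ann (H : Hyp G f χ ρ) {v v' : Fin 3 → O}
    (hv : ∀ σ ∈ G, ∀ i, f σ (Cl.ins i (v i)) = Cl.ins (i + χ σ) (v (i + χ σ)))
    (hv' : ∀ σ ∈ G, ∀ i, f σ (Cl.ins i (v' i)) = Cl.ins (i + χ σ) (v' (i + χ σ))) :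
    ∀ σ ∈ G, ∀ x ∈ Ann v v', f σ x ∈ Ann v v' := by
  intro σ hσ x hx j
  obtain ⟨i, rfl⟩ := (Equiv.addRight (χ σ)).surjective j
  have k1 : ∀ i, v (i + χ σ) = sm f χ σ i (v i) := fun i =>
    ins_inj ((hv σ hσ i).symm.trans (H.ins' hσ i _))
  have k2 : ∀ i, v' (i + χ σ) = sm f χ σ i (v' i) := fun i =>
    ins_inj ((hv' σ hσ i).symm.trans (H.ins' hσ i _))
  have e1 : ∀ i : Fin 3, i + 2 + 1 = i := by decide
  have e2 : ∀ i : Fin 3, i + 2 + 2 = i + 1 := by decide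
  have e3 : ∀ i : Fin 3, i + 1 + 1 = i + 2 := by decide
  have e4 : ∀ i : Fin 3, i + 1 + 2 = i := by decide
  rw [Equiv.coe_addRight]
  simp only
  rw [(H.coord hσ x i).1, (H.coord hσ x i).2, (hx i).1, map_zero, add_right_comm i _ 1,
    add_right_comm i _ 2, k1, k2]
  refine ⟨rfl, ?_, ?_⟩
  · have h1 := H.mul_zero hσ (i + 2) (hx i).2.1
    rwa [e1, e2] at h1
  · have h1 := H.mul_zero hσ (i + 1) (hx i).2.2
    rwa [e3, e4] at h1

end Red2x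

open Red2x in
/-- The norm form is isotropic: the case of a cyclic frame over a totally imaginary field. -/
theorem red_core {G : Subgroup Gq} {f : Gq → J → J} (h : TA G f)
    (hs : ∀ σ ∈ G, ∀ x, cub (f σ x) = σ (cub x)) {χ : Gq → Fin 3} (hχ : Chi G χ) {ρ : Gq}
    (hρ : ρ ∈ G) (h1 : χ ρ = 1) (he : ∀ σ ∈ G, ∀ i, f σ (ee i) = ee (i + χ σ))
    (hc : ∀ ι γ, Cj ι γ → γ ∉ G) : ∃ x, x ≠ 0 ∧ Fv G f x ∧ cub x = 0 := by
  have H : Hyp G f χ ρ := ⟨h, hs, hχ, hρ, h1, he⟩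
  obtain ⟨v, hv0, hvn, hv⟩ := H.exists_v hc
  have hV : Fv G f (jm 0 v) := fun σ hσ => by
    rw [jm_eq, (h.semi σ hσ).sum]
    simp only [hv σ hσ]
    exact Equiv.sum_comp (Equiv.addRight (χ σ)) fun i => ins i (v i)
  by_cases hτ : cub (jm 0 v) = 0
  · refine ⟨_, fun h0 => hv0 ?_, hV, hτ⟩
    have h2 := congrArg (fun x => sl x 0) h0
    simpa only [sl_jm, sl_zero] using h2
  have hτG : Fx G (cub (jm 0 v)) := fun σ hσ => by rw [← hs σ hσ, hV σ hσ]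
  set v' : Fin 3 → O := fun i => star (v (i + 1) * v (i + 2)) with hv'd
  have hv' : ∀ σ ∈ G, ∀ i, f σ (ins i (v' i)) = ins (i + χ σ) (v' (i + χ σ)) := fun σ hσ i => by
    rw [hv'd, ← cross_ins, ← cross_ins, H.cross hσ, hv σ hσ, hv σ hσ, add_right_comm i 1,
      add_right_comm i 2]
  obtain ⟨ψ, hψ, hψp, hψv⟩ := hex2 hvn hτ
  obtain ⟨l, hl0, hl⟩ := hψ.mult
  obtain ⟨c, hc0, hce⟩ := exists_c hψ.toSemi hψp
  obtain ⟨t, ht⟩ := exists_t hψ hc0 hce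
  obtain ⟨hcl, -, hm3⟩ := Prm.triple hψ.toSemi hl0 hl hce ht
  have hts := slot_semi hψ.toSemi hce ht
  have hco : ∀ x i, dg (ψ x) i = c i * dg x i ∧ sl (ψ x) i = t i (sl x i) := fun x i =>
    Prcx.coord hψ.toSemi hce ht x i
  have htv : ∀ i, t i ep = v i := fun i => ins_inj ((ht i ep).symm.trans (hψv i))
  have htv' : ∀ i, v' i = c i • t i em := fun i => by
    rw [← star_ep, ← hm3, htv, htv]
  have hl1 : ∀ x, cub (ψ x) = l * cub x := hl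
  have hlτ : cub (jm 0 v) = l := by
    have h2 : jm 0 v = ψ (jm 0 fun _ => ep) := by
      rw [jm_eq, jm_eq, map_sum]
      simp only [hψv]
    rw [h2, hl1, cub_ep, mul_one]
  have hz : ∀ i x y, t (i + 1) x * t (i + 2) y = 0 ↔ x * y = 0 := fun i x y => by
    rw [← star_eq_zero, hm3, smul_eq_zero, or_iff_right (hc0 i), ← star_eq_zero (x := x * y)]
    exact ⟨fun h0 => by_contra fun h2 => (hts i).ne h2 h0, fun h0 => by rw [h0, (hts i).zero]⟩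
  have e1 : ∀ i : Fin 3, i + 2 + 1 = i := by decide
  have e2 : ∀ i : Fin 3, i + 2 + 2 = i + 1 := by decide
  have e3 : ∀ i : Fin 3, i + 1 + 1 = i + 2 := by decide
  have e4 : ∀ i : Fin 3, i + 1 + 2 = i := by decide
  have hA : ∀ x, ψ x ∈ Ann v v' ↔
      ∀ i, dg x i = 0 ∧ zp (sl x i) = 0 ∧ zm (sl x i) = 0 ∧ zb (sl x i) = 0 := by
    intro x
    refine forall_congr' fun i => ?_
    have k1 := hz (i + 2) (sl x i) ep
    have k2 := hz (i + 1) em (sl x i)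
    rw [e1, e2, htv, mul_ep] at k1
    rw [e3, e4, em_mul] at k2
    rw [(hco x i).1, (hco x i).2, k1, htv', smul_mul_oct, smul_eq_zero, or_iff_right (hc0 _), k2,
      mul_eq_zero, or_iff_right (hc0 _)]
    tauto
  obtain ⟨w, hwA, hw0, hw⟩ := h.exists_fixed (Ann v v') (H.ann hv hv') (by
    intro h0
    have h2 : ψ (jm 0 fun _ => zorn 0 0 1 0) ∈ Ann v v' := (hA _).2 fun i => by
      rw [dg_jm, sl_jm, ZDx.zp_zorn, ZDx.zm_zorn, ZDx.zb_zorn]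
      exact ⟨rfl, rfl, rfl, rfl⟩
    rw [h0, Submodule.mem_bot, ψ.map_eq_zero_iff] at h2
    have h3 := congrArg (fun x => za (sl x 0) 0) h2
    simp only [sl_jm, ZDx.za_zorn, sl_zero, ZDx.za_zero, Pi.one_apply, Pi.zero_apply] at h3
    exact one_ne_zero h3)
  by_cases hμ : cub w = 0
  · exact ⟨w, hw0, hw, hμ⟩
  obtain ⟨d, a, b, hN, hE⟩ := nrd3 h.opn hχ hρ h1 hτG hτ (μ := -cub w)
    (fun σ hσ => by rw [map_neg, ← hs σ hσ, hw σ hσ]) (neg_ne_zero.2 hμ)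
  obtain ⟨w, rfl⟩ := ψ.surjective w
  have hw' := (hA w).1 hwA
  set u : J := jm (fun i => rp ρ i d / c i) fun i => rp ρ i a • ep + (c i * rp ρ i b) • em with hu
  have hψu : ψ u = ∑ i, (rp ρ i d • ee i + (rp ρ i a • ins i (v i) + rp ρ i b • ins i (v' i))) := by
    rw [jm_sum (ψ u)]
    refine Finset.sum_congr rfl fun i _ => ?_
    rw [(hco u i).1, (hco u i).2, hu, dg_jm, sl_jm, mul_div_cancel₀ _ (hc0 i), (hts i).add,
      (hts i).smul, (hts i).smul, htv, htv', (ins_lin i).map_add, (ins_lin i).map_smul,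
      (ins_lin i).map_smul, (ins_lin i).map_smul, smul_smul, mul_comm (c i)]
    rfl
  refine ⟨ψ (u + w), fun h0 => hw0 ?_, fun σ hσ => ?_, ?_⟩
  · rw [ψ.map_eq_zero_iff] at h0 ⊢
    exact ne_split _ _ _ (fun i => (hw' i).1) (fun i => (hw' i).2.1) (fun i => (hw' i).2.2.1)
      (fun i => (hw' i).2.2.2) h0
  · rw [map_add, (h.semi σ hσ).add, hw σ hσ, hψu, (h.semi σ hσ).sum]
    simp only [(h.semi σ hσ).add, (h.semi σ hσ).smul, he σ hσ, hv σ hσ, hv' σ hσ,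
      H.move' hσ fun τ hτ h0 => (hN τ hτ h0).1, H.move' hσ fun τ hτ h0 => (hN τ hτ h0).2.1,
      H.move' hσ fun τ hτ h0 => (hN τ hτ h0).2.2]
    congr 1
    exact Equiv.sum_comp (Equiv.addRight (χ σ))
      fun i => rp ρ i d • ee i + (rp ρ i a • ins i (v i) + rp ρ i b • ins i (v' i))
  · rw [hl1, hu, cub_split _ _ _ (fun i => (hw' i).1) (fun i => (hw' i).2.1)
      (fun i => (hw' i).2.2.1) fun i => (hw' i).2.2.2]
    rw [hlτ, hl1, ← hcl] at hE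
    simp only [map_mul] at hE
    have r0 : ∀ x, rp ρ 0 x = x := fun _ => rfl
    have r1 : ∀ x, rp ρ 1 x = ρ x := fun _ => rfl
    have r2 : ∀ x, rp ρ 2 x = ρ (ρ x) := fun _ => rfl
    simp only [r0, r1, r2]
    rw [← hcl]
    have := hc0 0
    have := hc0 1
    have := hc0 2
    field_simp
    linear_combination hE

end Vale.Agent.P011Z.Cl

end
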