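import Vale.Agent.P011Z.Cl.Lie6
import Vale.Agent.P011Z.Cl.Dat

/-!
Classification of the forms: block Sgn.
-/

open Matrix Module

noncomputable section

namespace Vale.Agent.P011Z.Cl

open Vale.Agent.P011.D4 Vale.Agent.P011.D4.Oct Vale.Agent.P011.E6 Vale.Agent.P011.E6.Alb

/-- The conjugates of the lowest root element. -/
def adE (X E : Module.End Om J) : Module.End Om J := ex3 X * E * ex3 (-X)

namespace Sgnx

open Lie6x

theorem conj_mul (ψ : J ≃ₗ[Om] J) (A B : EJ) : ψ.conj (A * B) = ψ.conj A * ψ.conj B :=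
  ψ.conj_comp B A

theorem conj_comm (ψ : J ≃ₗ[Om] J) (A : EJ) (x : J) : ψ.conj A (ψ x) = ψ (A x) := by
  rw [LinearEquiv.conj_apply_apply, ψ.symm_apply_apply]

theorem conj_trans (ψ φ : J ≃ₗ[Om] J) (A : EJ) : (ψ.trans φ).conj A = φ.conj (ψ.conj A) := rfl

theorem tr_conj (ψ : J ≃ₗ[Om] J) (A B : EJ) :
    LinearMap.trace Om J (ψ.conj A * ψ.conj B) = LinearMap.trace Om J (A * B) := by
  rw [← conj_mul]
  exact LinearMap.trace_conj' _ ψ

theorem sim_of {ψ : J ≃ₗ[Om] J} (h : ∀ x, cub (ψ x) = cub x) : Sim 1 ψ :=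
  sim_of_cub (l := 1) fun x => by rw [h, one_mul]

theorem cub_symm {ψ : J ≃ₗ[Om] J} (h : ∀ x, cub (ψ x) = cub x) (x : J) :
    cub (ψ.symm x) = cub x := by rw [← h, ψ.apply_symm_apply]

theorem lie_conj {ψ : J ≃ₗ[Om] J} (h : ∀ x, cub (ψ x) = cub x) {A : EJ} (hA : Lie A) :
    Lie (ψ.conj A) := hA.semi (sim_of h) (conj_comm ψ A)

theorem rank_conj (ψ : J ≃ₗ[Om] J) (A : EJ) :
    finrank Om (LinearMap.range (ψ.conj A)) = finrank Om (LinearMap.range A) := by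
  have := fd_J
  exact (trace_semi (semi_lin ψ) (conj_comm ψ A)).2

theorem exists_ad {X : EJ} (hX : Np X) : ∃ ψ : J ≃ₗ[Om] J, (∀ x, cub (ψ x) = cub x) ∧
    ∀ E, ψ.conj E = adE X E := by
  obtain ⟨ψ, h1, h2, h3⟩ := exists_ex3 hX.lie hX.cube
  refine ⟨ψ, h1, fun E => LinearMap.ext fun x => ?_⟩
  rw [LinearEquiv.conj_apply_apply, h2, h3]
  rfl

theorem ad_ep {X : EJ} (hX : Np X) : adE X EpL = EpL := by
  obtain ⟨h1, h2⟩ := hX.ep
  simp only [adE, ex3, add_mul, mul_add, one_mul, mul_one, smul_mul_assoc, mul_smul_comm,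
    mul_assoc, h1, mul_zero, smul_zero, add_zero, mul_neg, neg_mul, neg_neg]
  rw [← mul_assoc, h2, zero_mul, smul_zero, neg_zero, add_zero, add_zero]

theorem exists_w : ∃ w : J ≃ₗ[Om] J, (∀ x, cub (w x) = cub x) ∧ w.conj EmL = -EpL ∧
    w.conj EpL = -EmL := by
  have hj : (1 : Om) ^ 2 = j2.det * (1 : Matrix I6 I6 Om).det := by simp [j2]
  obtain ⟨w, -, h1, -⟩ := exists_gl6 one_ne_zero hj
  have u1 : ∀ x, up (w x) = um x := fun x => by
    rw [h1, (six_gl6 x).1]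
    funext i
    simp [j2]
  have u2 : ∀ x, um (w x) = -up x := fun x => by
    rw [h1, (six_gl6 x).2.2]
    funext i
    simp [j2]
  have u3 : ∀ x, om6 (w x) = om6 x := fun x => by
    rw [h1, (six_gl6 x).2.1]
    ext i j
    simp
  refine ⟨w, fun x => ?_, LinearMap.ext fun y => ?_, LinearMap.ext fun y => ?_⟩
  · rw [h1, (gl6_props one_ne_zero hj).2]
    simp [j2]
  · obtain ⟨x, rfl⟩ := w.surjective y
    rw [conj_comm, LinearMap.neg_apply, ep_apply, em_apply, u2, map_neg, neg_neg]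
    exact six_ext (by rw [u1, um_iv, up_iu]) (by rw [u3, om_iv, om_iu])
      (by rw [u2, up_iv, um_iu, neg_zero])
  · obtain ⟨x, rfl⟩ := w.surjective y
    rw [conj_comm, LinearMap.neg_apply, ep_apply, em_apply, u1, ← map_neg]
    exact six_ext (by rw [u1, um_iu, up_iv]) (by rw [u3, om_iv, om_iu])
      (by rw [u2, up_iu, um_iv])

end Sgnx

open Sgnx in
/-- Two opposite root elements are conjugate to the standard pair. -/
theorem sl2_pos {X F : Module.End Om J} (hX : Np X) (hF : Lie F)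
    (hr : finrank Om (LinearMap.range F) ≤ 6) (ht : LinearMap.trace Om J (adE X EmL * F) ≠ 0) :
    ∃ (ψ : J ≃ₗ[Om] J) (a : Om), (∀ x, cub (ψ x) = cub x) ∧ a ≠ 0 ∧ ψ.conj EmL = adE X EmL ∧
      F = a • ψ.conj EpL := by
  obtain ⟨ψ, p1, p2⟩ := exists_ad hX
  obtain ⟨w, w1, w2, w3⟩ := exists_w
  have w4 : w.symm.conj EpL = -EmL := by
    rw [← w.conj_symm_conj EmL, w2, map_neg, neg_neg]
  obtain ⟨Y, a, hY, a0, h1⟩ := repos (E := w.conj (ψ.symm.conj F))
    (lie_conj w1 (lie_conj (cub_symm p1) hF)) (by rwa [rank_conj, rank_conj]) (by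
      rw [← neg_neg EpL, ← w2, neg_mul, map_neg, tr_conj, ← tr_conj ψ, p2, ψ.conj_conj_symm]
      exact neg_ne_zero.2 ht)
  obtain ⟨η, e1, e2⟩ := exists_ad hY
  refine ⟨((w.trans η).trans w.symm).trans ψ, -a, fun x => ?_, neg_ne_zero.2 a0, ?_, ?_⟩
  · simp only [LinearEquiv.trans_apply, p1, cub_symm w1, e1, w1]
  · rw [conj_trans, conj_trans, conj_trans, w2, map_neg, e2, ad_ep hY, map_neg, w4, neg_neg, p2]
  · have h2 : F = ψ.conj (w.symm.conj (w.conj (ψ.symm.conj F))) := by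
      rw [w.conj_symm_conj, ψ.conj_conj_symm]
    rw [conj_trans, conj_trans, conj_trans, w3, map_neg, map_neg, map_neg, smul_neg, neg_smul,
      neg_neg, e2, h2, h1, map_smul, map_smul]
    rfl

namespace Sgnx

open Lie6x

theorem pol_mul {V : Type} [AddCommGroup V] [Module Om V] {g h : V → EJ} (hg : PolM g)
    (hh : PolM h) : PolM fun x => g x * h x := by
  have := fd_J
  exact PolM.bil (LinearMap.mul Om EJ) hg hh

theorem pol_ex3 {V : Type} [AddCommGroup V] [Module Om V] {g : V → EJ} (hg : PolM g) :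
    PolM fun x => ex3 (g x) :=
  ((PolM.const 1).add hg).add (PolM.smul (Pol.const _) (pol_mul hg hg))

theorem herm {V : Type} [AddCommGroup V] [Module Om V] [FiniteDimensional Om V] {F : V → EJ}
    (hF : PolM F) {K : Subgroup Gq} (hK : Opn K) {γ : Gq} (hγ : γ ∉ K) {θ : EJ → EJ}
    (hθ : Semi γ θ) (h0 : ∃ u v, LinearMap.trace Om J (F u * θ (F v)) ≠ 0) :
    ∃ u, LinearMap.trace Om J (F u * θ (F u)) ≠ 0 := by
  have := fd_J
  obtain ⟨e⟩ : Nonempty (V ≃ₗ[Om] (Fin (finrank Om V) → Om)) := ⟨(Module.finBasis Om V).equivFun⟩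
  have h1 : PolM fun u => F (e.symm u) := hF.comp (PolM.lin e.symm.toLinearMap)
  have hg := (ta_pi opn_top (Fin (finrank Om V))).semi γ (Subgroup.mem_top _)
  obtain ⟨F', h2, h3⟩ := h1.semi hg hθ
  obtain ⟨x, -, hx⟩ := den2' (ta_pi hK _) hγ hg
    (p := fun y => LinearMap.trace Om J (F (e.symm y.1) * F' y.2))
    ((pol_mul (h1.comp (PolM.lin (LinearMap.fst Om _ (Fin (finrank Om V) → Om))))
      (h2.comp (PolM.lin (LinearMap.snd Om (Fin (finrank Om V) → Om) _))))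
        (LinearMap.trace Om J)) (by
      obtain ⟨u, v, h⟩ := h0
      refine ⟨(e u, γ ∘ e v), ?_⟩
      simp only [h3, e.symm_apply_apply]
      exact h)
  exact ⟨e.symm x, by rwa [h3] at hx⟩

theorem em_ne : EmL ≠ 0 := fun h => by
  have h1 := trace_ef
  rw [h, mul_zero, map_zero] at h1
  norm_num at h1

theorem step1 {K : Subgroup Gq} (hK : Opn K) {γ : Gq} (hγ : γ ∉ K) {θ : EJ → EJ}
    (hθ : Semi γ θ) (hl : Lie (θ EmL)) :
    ∃ X, Np X ∧ LinearMap.trace Om J (adE X EmL * θ (adE X EmL)) ≠ 0 := by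
  have := fd_J
  obtain ⟨S, hS⟩ := exists_np
  obtain ⟨X, hX, h1⟩ := np_ne hl (hθ.ne em_ne)
  obtain ⟨u, hu⟩ := herm (V := S) (F := fun u => adE u EmL)
    (pol_mul (pol_mul (pol_ex3 (PolM.lin S.subtype)) (PolM.const _))
      (pol_ex3 (PolM.lin (-S.subtype)))) hK hγ hθ ⟨⟨X, (hS X).2 hX⟩, 0, by
      have h2 : adE (0 : S) EmL = EmL := by simp [adE, ex3]
      rw [h2]
      exact h1⟩
  exact ⟨u, (hS u).1 u.2, hu⟩

/-- Semilinear involutions of the Lie algebra. -/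
structure Iv (γ : Gq) (θ : EJ → EJ) : Prop where
  semi : Semi γ θ
  inv : ∀ X, θ (θ X) = X
  br : ∀ X Y, θ (X * Y - Y * X) = θ X * θ Y - θ Y * θ X
  tr : ∀ X Y, LinearMap.trace Om J (θ X * θ Y) = γ (LinearMap.trace Om J (X * Y))
  lie : ∀ X, Lie X → Lie (θ X)

theorem iv_of {D : ED} (h : D.OK) {ι : Om →+* ℂ} {γ : Gq} (hγ : Cj ι γ) (hG : γ ∈ D.G) :
    Iv γ (D.th γ) :=
  ⟨h.ta.semi γ hG, fun X => by rw [h.ta.mul γ hG γ hG, hγ.sq, h.ta.one], h.th_br hG,
    h.th_trace hG, fun _ hX => h.th_lie hG hX⟩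

theorem tr_comm (A B : EJ) : LinearMap.trace Om J (A * B) = LinearMap.trace Om J (B * A) := by
  have := fd_J
  exact LinearMap.trace_mul_comm _ _ _

theorem tr_br (A B C : EJ) : LinearMap.trace Om J ((A * B - B * A) * C) =
    LinearMap.trace Om J (A * (B * C - C * B)) := by
  rw [sub_mul, mul_sub, map_sub, map_sub, mul_assoc, mul_assoc, tr_comm B, mul_assoc]

variable {γ : Gq} {θ : EJ → EJ} {a : Om}

theorem Iv.real (h : Iv γ θ) (E : EJ) :
    γ (LinearMap.trace Om J (E * θ E)) = LinearMap.trace Om J (E * θ E) := by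
  rw [← h.tr, h.inv, tr_comm]

theorem Iv.ep (h : Iv γ θ) (ha : θ EmL = a • EpL) (a0 : a ≠ 0) (ga : γ a = a) :
    θ EpL = a⁻¹ • EmL := by
  rw [← h.inv EmL, ha, h.semi.smul, ga, smul_smul, inv_mul_cancel₀ a0, one_smul]

theorem Iv.blk (h : Iv γ θ) (ha : θ EmL = a • EpL) (a0 : a ≠ 0) (ga : γ a = a) {X : EJ}
    (hX : X ∈ blk {1}) : θ X ∈ blk {-1} := by
  have h1 : θ hh = -hh := by
    rw [hh, h.br, h.ep ha a0 ga, ha, smul_mul_smul_comm, smul_mul_smul_comm, inv_mul_cancel₀ a0,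
      mul_inv_cancel₀ a0, one_smul, one_smul, neg_sub]
  have h2 := congrArg θ (blk_ad hX)
  rw [h.br, h1, Int.cast_one, one_smul] at h2
  refine blk_of_ad ?_
  rw [Int.cast_neg, Int.cast_one, neg_one_smul]
  nth_rewrite 3 [← h2]
  noncomm_ring

/-- The root elements of degree one. -/
structure Rt (X : EJ) : Prop where
  lie : Lie X
  blk : X ∈ blk {1}
  br : X * (X * EmL - EmL * X) = (X * EmL - EmL * X) * X

theorem Iv.ex (h : Iv γ θ) (ha : θ EmL = a • EpL) (a0 : a ≠ 0) (ga : γ a = a)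
    {K : Subgroup Gq} (hK : Opn K) (hγ : γ ∉ K) :
    ∃ X, Rt X ∧ LinearMap.trace Om J (X * θ X) ≠ 0 := by
  obtain ⟨F, h1, h2, h3⟩ := dg1_family
  have h4 : ∀ u, Rt (F u) := fun u =>
    ⟨(dg1_iff.1 (h2 u).1).1, (dg1_iff.1 (h2 u).1).2, (h2 u).2⟩
  obtain ⟨u, hu⟩ := herm h1 hK hγ h.semi (by
    by_contra hc
    push Not at hc
    have h5 : ∀ v, F v = 0 := fun v => by
      by_contra h6
      obtain ⟨W, hW, ht⟩ := kill (h.lie _ (h4 v).lie) (h.semi.ne h6)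
      have h7 : LinearMap.trace Om J (θ (F v) * (W - cmp 1 W)) = 0 :=
        blk_trace (blk_mul (r := {0}ᶜ) (h.blk ha a0 ga (h4 v).blk) (sub_cmp 1 W)
          fun i hi j hj => by
            simp only [Set.mem_compl_iff, Set.mem_singleton_iff] at *
            omega) (by simp)
      have h8 : Submodule.span Om (Set.range F) ≤
          LinearMap.ker (LinearMap.trace Om J ∘ₗ LinearMap.mulRight Om (θ (F v))) :=
        Submodule.span_le.2 (by
          rintro _ ⟨u, rfl⟩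
          exact hc u v)
      have h9 : LinearMap.trace Om J (cmp 1 W * θ (F v)) = 0 :=
        h8 (h3 _ (dg1_iff.2 ⟨(lie_cmp hW).2.1, cmp_mem 1 W⟩))
      rw [mul_sub, map_sub, tr_comm _ (cmp 1 W), h9, sub_zero] at h7
      exact ht h7
    obtain ⟨X, hX, h6⟩ := dg1_ne
    refine h6 ((Submodule.mem_bot Om).1 (Submodule.span_le.2 ?_ (h3 X hX)))
    rintro _ ⟨u, rfl⟩
    exact h5 u)
  exact ⟨F u, h4 u, hu⟩

theorem Iv.flip (h : Iv γ θ) (ha : θ EmL = a • EpL) (a0 : a ≠ 0) (ga : γ a = a) {X : EJ}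
    (hX : Rt X) : ∃ Y, Rt Y ∧
      a * LinearMap.trace Om J (Y * θ Y) = -LinearMap.trace Om J (X * θ X) := by
  have h1 := h.blk ha a0 ga hX.blk
  have h2 := br_neg h1
  refine ⟨EpL * θ X - θ X * EpL, ⟨lie_ep.br (h.lie _ hX.lie), blk_br ep_blk h1, ?_⟩, ?_⟩
  · have h3 := congrArg θ (sub_eq_zero.2 hX.br)
    rw [h.br, h.br, h.semi.zero, ha] at h3
    have h4 : a • (θ X * (EpL * θ X - θ X * EpL) - (EpL * θ X - θ X * EpL) * θ X) = 0 := by
      rw [← neg_zero, ← h3]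
      simp only [mul_sub, sub_mul, mul_smul_comm, smul_mul_assoc]
      module
    rw [← neg_sub (EmL * _), h2, mul_neg, neg_mul,
      sub_eq_zero.1 ((smul_eq_zero.1 h4).resolve_left a0)]
  · rw [h.br, h.inv, h.ep ha a0 ga, smul_mul_assoc, mul_smul_comm, ← smul_sub, mul_smul_comm,
      map_smul, smul_eq_mul, mul_inv_cancel_left₀ a0, ← tr_br, ← neg_sub (EmL * _), h2, neg_mul,
      map_neg, tr_comm]

theorem Iv.kap (h : Iv γ θ) (ha : θ EmL = a • EpL) (a0 : a ≠ 0) (ga : γ a = a) {X : EJ}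
    (hX : Rt X) (n : ℕ) :
    LinearMap.trace Om J ((EmL + (n : Om) • (X * EmL - EmL * X)) *
      θ (EmL + (n : Om) • (X * EmL - EmL * X))) =
      a * (6 - (n : Om) ^ 2 * LinearMap.trace Om J (X * θ X)) := by
  have h1 := h.blk ha a0 ga hX.blk
  have h2 := br_neg h1
  have h3 : LinearMap.trace Om J (EmL * (EpL * θ X - θ X * EpL)) = 0 :=
    blk_trace (blk_add em_blk (blk_br ep_blk h1)) (by simp)
  have h4 : LinearMap.trace Om J ((X * EmL - EmL * X) * EpL) = 0 :=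
    blk_trace (blk_add (blk_br hX.blk em_blk) ep_blk) (by simp)
  have h5 : LinearMap.trace Om J ((X * EmL - EmL * X) * (EpL * θ X - θ X * EpL)) =
      LinearMap.trace Om J (X * θ X) := by rw [tr_br, h2]
  have h6 : θ (EmL + (n : Om) • (X * EmL - EmL * X)) =
      a • (EpL - (n : Om) • (EpL * θ X - θ X * EpL)) := by
    rw [h.semi.add, h.semi.smul, h.br, ha, map_natCast, mul_smul_comm, smul_mul_assoc]
    module
  rw [h6]
  generalize EpL * θ X - θ X * EpL = A at h3 h5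
  generalize X * EmL - EmL * X = B at h4 h5
  simp only [add_mul, mul_sub, mul_smul_comm, smul_mul_assoc, map_add, map_sub, map_smul, h3, h4,
    h5, tr_comm EmL EpL, trace_ef, smul_eq_mul]
  ring

theorem Rt.ad {X : EJ} (hX : Rt X) (t : Om) :
    adE (t • X) EmL = EmL + t • (X * EmL - EmL * X) := by
  have h3 := (np_of_blk le_rfl hX.lie hX.blk).cube
  have h1 := hX.br
  obtain ⟨B, hB⟩ : ∃ B, B = X * EmL - EmL * X := ⟨_, rfl⟩
  rw [← hB] at h1 ⊢
  have h2 : X * EmL = EmL * X + B := by rw [hB, add_sub_cancel]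
  have h4 : X * X * EmL = EmL * X * X + (2 : Om) • (B * X) := by
    rw [mul_assoc, h2, mul_add, ← mul_assoc, h2, h1, add_mul]
    module
  have h5 : B * X * X = 0 := by
    have h6 : X * X * X * EmL = EmL * (X * X * X) + (3 : Om) • (B * X * X) := by
      rw [mul_assoc X X X, mul_assoc X, h4, mul_add, mul_smul_comm, ← mul_assoc, ← mul_assoc, h2,
        ← mul_assoc, h1, add_mul, add_mul]
      simp only [mul_assoc]
      module
    rw [h3, zero_mul, mul_zero, zero_add] at h6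
    exact (smul_eq_zero.1 h6.symm).resolve_left (by norm_num)
  have h6 : ex3 (t • X) * EmL = (EmL + t • B) * ex3 (t • X) := by
    simp only [ex3, add_mul, mul_add, one_mul, mul_one, smul_mul_assoc, mul_smul_comm, h4, h2,
      ← mul_assoc, h5, smul_zero]
    module
  rw [adE, h6, mul_assoc, (ex3_neg (np_smul (np_of_blk le_rfl hX.lie hX.blk) t).cube).1, mul_one]

theorem re_mul {ι : Om →+* ℂ} (hγ : Cj ι γ) {x : Om} (hx : γ x = x) (y : Om) :
    (ι (x * y)).re = (ι x).re * (ι y).re := by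
  rw [map_mul, Complex.mul_re, hγ.real.1 hx, zero_mul, sub_zero]

theorem re_ne {ι : Om →+* ℂ} (hγ : Cj ι γ) {x : Om} (hx : γ x = x) (h0 : x ≠ 0) :
    (ι x).re ≠ 0 := fun h =>
  (map_ne_zero ι).2 h0 (Complex.ext h (hγ.real.1 hx))

theorem Iv.core (h : Iv γ θ) (ha : θ EmL = a • EpL) (ga : γ a = a) {ι : Om →+* ℂ}
    (hγ : Cj ι γ) (hp : 0 < (ι a).re) {K : Subgroup Gq} (hK : Opn K) (hγK : γ ∉ K) (l : EJ →ₗ[Om] Om)
    (hl : l EmL ≠ 0) : ∃ X, Np X ∧ l (adE X EmL) ≠ 0 ∧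
      (ι (LinearMap.trace Om J (adE X EmL * θ (adE X EmL)))).re < 0 := by
  have a0 : a ≠ 0 := by
    rintro rfl
    simp at hp
  obtain ⟨X, hX, h1⟩ : ∃ X, Rt X ∧ 0 < (ι (LinearMap.trace Om J (X * θ X))).re := by
    obtain ⟨X, hX, h1⟩ := h.ex ha a0 ga hK hγK
    rcases lt_or_gt_of_ne (re_ne hγ (h.real X) h1) with h2 | h2
    · obtain ⟨Y, hY, h3⟩ := h.flip ha a0 ga hX
      have h4 := re_mul hγ ga (LinearMap.trace Om J (Y * θ Y))
      rw [h3, map_neg, Complex.neg_re] at h4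
      exact ⟨Y, hY, (pos_iff_pos_of_mul_pos (h4 ▸ neg_pos.2 h2)).1 hp⟩
    · exact ⟨X, hX, h2⟩
  obtain ⟨m, hm⟩ := exists_nat_gt (6 / (ι (LinearMap.trace Om J (X * θ X))).re)
  obtain ⟨n, h2, h3⟩ : ∃ n : ℕ, m ≤ n ∧ l EmL + n * l (X * EmL - EmL * X) ≠ 0 := by
    by_cases h2 : l EmL + m * l (X * EmL - EmL * X) = 0
    · refine ⟨m + 1, m.le_succ, fun h3 => hl ?_⟩
      push_cast at h3
      linear_combination (m + 1 : Om) * h2 - (m : Om) * h3
    · exact ⟨m, le_rfl, h2⟩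
  refine ⟨(n : Om) • X, np_smul (np_of_blk le_rfl hX.lie hX.blk) _, ?_, ?_⟩
  · rwa [hX.ad, map_add, map_smul]
  · rw [hX.ad, h.kap ha a0 ga hX, re_mul hγ ga]
    refine mul_neg_of_pos_of_neg hp ?_
    rw [map_sub, Complex.sub_re, re_mul hγ (by rw [map_pow, map_natCast])]
    rw [div_lt_iff₀ h1] at hm
    have h4 : (ι 6).re = 6 := by rw [map_ofNat]; rfl
    have h5 : (ι ((n : Om) ^ 2)).re = (n : ℝ) ^ 2 := by
      rw [map_pow, map_natCast, ← Complex.ofReal_natCast, ← Complex.ofReal_pow, Complex.ofReal_re]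
    have h6 : (m : ℝ) ≤ (n : ℝ) ^ 2 := by exact_mod_cast h2.trans (Nat.le_self_pow two_ne_zero n)
    rw [h4, h5]
    nlinarith

end Sgnx

open Sgnx in
/-- Compact root elements in the big cell. -/
theorem sgn_loc {D : ED} (h : D.OK) {ι : Om →+* ℂ} {γ : Gq} (hγ : Cj ι γ) (hG : γ ∈ D.G)
    (hK : γ ∉ D.K) :
    ∃ X, Np X ∧ (ι (LinearMap.trace Om J (adE X EmL * D.th γ (adE X EmL)))).re < 0 := by
  have i1 := iv_of h hγ hG
  obtain ⟨X, hX, h1⟩ := step1 h.opn hK i1.semi (i1.lie _ lie_em)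
  rcases lt_or_gt_of_ne (re_ne hγ (i1.real _) h1) with h2 | h2
  · exact ⟨X, hX, h2⟩
  obtain ⟨η, e1, e2⟩ := exists_ad hX
  obtain ⟨ψ, a, p1, a0, p2, p3⟩ := sl2_pos hX (i1.lie _ (e2 EmL ▸ lie_conj e1 lie_em))
    (by rw [h.th_rank hG, ← e2, rank_conj, rank_em.1]) h1
  have i2 := iv_of (h.conj (sim_of p1)) hγ hG
  have t1 : ∀ E, (D.conj ψ).th γ E = ψ.symm.conj (D.th γ (ψ.conj E)) := fun E => by
    rw [← h.th_conj hG, ψ.conj_symm_conj]
  have t2 : LinearMap.trace Om J (adE X EmL * D.th γ (adE X EmL)) = 6 * a := by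
    rw [p3, ← p2, mul_smul_comm, map_smul, tr_conj, tr_comm, trace_ep_em, smul_eq_mul, mul_comm]
  have ga : γ a = a := by
    have h3 := i1.real (adE X EmL)
    rw [t2, map_mul, map_ofNat] at h3
    exact mul_left_cancel₀ (by norm_num) h3
  have hp : 0 < (ι a).re := by
    rw [t2, re_mul hγ (map_ofNat γ 6)] at h2
    refine (pos_iff_pos_of_mul_pos h2).1 ?_
    rw [map_ofNat]
    norm_num
  obtain ⟨Y, hY, h3, h4⟩ := i2.core (a := a)
    (by rw [t1, p2, p3, map_smul, ψ.conj_symm_conj]) ga hγ hp h.opn hK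
    (LinearMap.trace Om J ∘ₗ LinearMap.mulLeft Om EpL ∘ₗ ψ.conj.toLinearMap) (by
      change LinearMap.trace Om J (EpL * ψ.conj EmL) ≠ 0
      rw [p2, ← ad_ep hX, ← e2, ← e2, tr_conj, trace_ep_em]
      norm_num)
  obtain ⟨ζ, z1, z2⟩ := exists_ad hY
  obtain ⟨Z, b, hZ, b0, h5⟩ := repos (E := ψ.conj (adE Y EmL))
    (lie_conj p1 (z2 EmL ▸ lie_conj z1 lie_em))
    (by rw [rank_conj, ← z2, rank_conj, rank_em.1]) h3
  refine ⟨Z, hZ, ?_⟩
  rw [t1, ← tr_conj ψ, ψ.conj_conj_symm, h5, i1.semi.smul, smul_mul_smul_comm, map_smul,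
    smul_eq_mul, re_mul hγ (by rw [map_mul, ← AlgEquiv.mul_apply, hγ.sq, mul_comm]; rfl)] at h4
  exact neg_of_mul_neg_right h4 (hγ.norm_pos b0).le

end Vale.Agent.P011Z.Cl

end
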