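import Vale.Agent.P011Z.Cl.SpecG

/-!
The forms given by Galois descent: the definitions used in the statement.
-/

open TensorProduct Matrix

namespace Vale.Agent.P011Z.Fm

open Vale.Agent.P011.H900 Vale.Agent.P011Z.Cl

open Vale.Agent.P011.H925.Full (Kv)

/-- The group of the bijections with the property `P`. -/
def Gp {V : Type} (P : (V → V) → Prop) : Type := grp P

instance {V : Type} (P : (V → V) → Prop) : Group (Gp P) := Subgroup.toGroup _

/-- The underlying map. -/
def Gp.fn {V : Type} {P : (V → V) → Prop} (g : Gp P) : V → V := g.1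

section

variable {Γ G H : Type} [Group Γ] [Group G] [Group H]

variable (Γ G) in
/-- The actions of `Γ` on the group `G` by automorphisms. -/
def Act : Type := Γ →* MulAut G

/-- The automorphism given by `σ`. -/
def Act.ap (θ : Act Γ G) (σ : Γ) (g : G) : G := DFunLike.coe (F := Γ →* MulAut G) θ σ g

/-- The group of the fixed points of an action. -/
def Pts (θ : Act Γ G) : Type := Fix θ

instance (θ : Act Γ G) : Group (Pts θ) := Subgroup.toGroup _

/-- The underlying element. -/
def Pts.el {θ : Act Γ G} (g : Pts θ) : G := g.1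

/-- The relation `R` is the graph of a homomorphism, and every noncentral normal subgroup is the
preimage of an open normal subgroup. -/
def Cl1 [TopologicalSpace H] (R : G → H → Prop) : Prop :=
  ∃ δ : G →* H, (∀ g, R g (δ g)) ∧ MP δ

end

/-- If the group of the fixed points has rank zero, every noncentral normal subgroup is the whole
group. -/
def Cl0 (k : Type) {Γ V : Type} [Field k] [Group Γ] [AddCommGroup V] [Module k V]
    {P : (V → V) → Prop} (θ : Act Γ (Gp P)) : Prop :=
  (Rk0 k fun g : Pts θ => g.el.fn) → Prj (Pts θ)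

section

variable {V F : Type} {P : (V → V) → Prop}

/-- The automorphism `α` is `g ↦ f g f⁻¹`. -/
def In (f : V → V) (α : Gp P → Gp P) : Prop := ∀ g x, (α g).fn (f x) = f (g.fn x)

/-- The automorphism `α` maps `g` to the inverse of the adjoint of `f g f⁻¹` for the form `T`. -/
def Du (T : V → V → F) (f : V → V) (α : Gp P → Gp P) : Prop :=
  ∀ g x y, T ((α g).fn x) (f (g.fn y)) = T x (f y)

end

variable {k F : Type} [Field k] [Field F] [Algebra k F]

/-- The map `f` sends the line of the idempotent `i` to the line of the idempotent `j`. -/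
def Mv (f : Js F → Js F) (i j : Fin 3) : Prop := ∃ t : F, f (ei i) = t • ei j

/-- The maps `f ψ` and `ψ r` are proportional. -/
def Pro (f ψ : Js F → Js F) (r : F → F) : Prop := ∃ t : F, ∀ x, f (ψ x) = t • ψ (ajs r x)

variable {P : (Js F → Js F) → Prop} (α : (F ≃ₐ[k] F) → Gp P → Gp P)

/-- A trialitarian form of `Spin(8)`: every `σ` acts by a semilinear norm similarity which permutes
the lines of the idempotents, and some `σ` permutes them cyclically. -/
def FmD : Prop :=
  (∀ σ : F ≃ₐ[k] F, ∃ f, Sml σ f ∧ In f (α σ) ∧ ∀ i, ∃ j, Mv f i j) ∧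
    ∃ (σ : F ≃ₐ[k] F) (f : Js F → Js F), Sml σ f ∧ In f (α σ) ∧ Mv f 0 1 ∧ Mv f 1 2

/-- A form of the simply connected group of type `E₆` which does not split over the field of
degree at most two over which it becomes an inner form. -/
def FmE : Prop :=
  (∀ σ : F ≃ₐ[k] F, ∃ f, Sml σ f ∧ (In f (α σ) ∨ Du trf f (α σ))) ∧
    ¬ ∃ ψ, Sml id ψ ∧ ∀ (σ : F ≃ₐ[k] F) f, Sml σ f → In f (α σ) → Pro f ψ σ

variable {n : ℕ} (a : (F ≃ₐ[k] F) → Matrix (Fin n) (Fin n) F) (o : (F ≃ₐ[k] F) → Prop)

/-- The form has rank zero over `L`. -/
def Rz (L : Type) [CommRing L] [Algebra k L] : Prop := Rk0 L fun g : GA a o L => g.1.1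

/-- The point `x` over `L` is the image of the matrix `g`. -/
def Im {L : Type} [CommRing L] [Algebra k L] (g : Matrix (Fin n) (Fin n) F) (x : GA a o L) : Prop :=
  x.1.1 = g.map (1 ⊗ₜ ·)

/-- The set `A(G)` of the nonarchimedean places where the rank is zero. -/
def AG : Type := {v : Pl k // Rz a o (Kv v.abv)}

/-- The group `H_A`: the product of the groups of points over the completions at the places in
`A(G)`. -/
def HA : Type := ∀ v : AG a o, GA a o (Kv v.1.abv)

noncomputable instance : Group (HA a o) := Pi.group

noncomputable instance : TopologicalSpace (HA a o) := Pi.topologicalSpace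

/-- The element `x` of `H_A` is the image of the matrix `g` under the diagonal map. -/
def Dg (g : Matrix (Fin n) (Fin n) F) (x : HA a o) : Prop := ∀ v, Im a o g (x v)

end Vale.Agent.P011Z.Fm
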